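import Mathlib

/-!
# Row 290: agreement graphs and the Duplicator theorem (blueprint section 1).

`Template C X`: classes `C` with finite variable sets, some of them parity constrained, and a symmetric
relation on classes.  The agreement graph `G_b`: vertices are pairs (class, assignment of elements of
`ZMod 2` to the variables of the class, of parity `b c` if `c` is constrained); two vertices are adjacent
when their classes are related and the assignments agree on the common variables.

A *shift system* over objects `O` (every class `c` is dominated by the object `dom c`) gives a family of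
positions in which Duplicator wins the bijective pebble game.
-/

set_option autoImplicit false

namespace Crest.Agent.R290

open Finset

/-- Classes, their variables, constrained classes, and the relation between classes. -/
structure Template (C X : Type) where
  vars : C → Finset X
  con : C → Prop
  adj : C → C → Bool
  adj_symm : ∀ c c', adj c c' = adj c' c

namespace Template

variable {C X : Type} (T : Template C X)

/-- Condition for a pair (class, assignment) to be a vertex of `G_b`. -/
def IsVert (b : C → ZMod 2) (p : C × (X → ZMod 2)) : Prop :=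
  (∀ x, x ∉ T.vars p.1 → p.2 x = 0) ∧ (T.con p.1 → ∑ x ∈ T.vars p.1, p.2 x = b p.1)

/-- Vertices of the agreement graph `G_b`. -/
def Vert (b : C → ZMod 2) : Type := {p : C × (X → ZMod 2) // T.IsVert b p}

variable {T}

/-- class of a vertex -/
def Vert.cl {b : C → ZMod 2} (v : T.Vert b) : C := v.1.1

/-- assignment of a vertex -/
def Vert.as {b : C → ZMod 2} (v : T.Vert b) : X → ZMod 2 := v.1.2

theorem Vert.ext {b : C → ZMod 2} {v w : T.Vert b} (h : v.cl = w.cl)
    (h' : ∀ x ∈ T.vars v.cl, v.as x = w.as x) : v = w := by
  apply Subtype.ext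
  apply Prod.ext h
  funext x
  by_cases hx : x ∈ T.vars v.cl
  · exact h' x hx
  · have h1 : v.as x = 0 := v.2.1 x hx
    have h2 : w.as x = 0 := w.2.1 x (by rw [← show v.cl = w.1.1 from h]; exact hx)
    exact h1.trans h2.symm

variable (T)

open Classical in
/-- Adjacency of the agreement graph. -/
noncomputable def agAdj (b : C → ZMod 2) (v w : T.Vert b) : Bool :=
  T.adj v.cl w.cl && decide (∀ x ∈ T.vars v.cl, x ∈ T.vars w.cl → v.as x = w.as x)

variable {T}

theorem agAdj_iff {b : C → ZMod 2} {v w : T.Vert b} :
    T.agAdj b v w = true ↔ T.adj v.cl w.cl = true ∧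
      ∀ x ∈ T.vars v.cl, x ∈ T.vars w.cl → v.as x = w.as x := by
  simp [agAdj]

theorem agAdj_symm {b : C → ZMod 2} (v w : T.Vert b) : T.agAdj b v w = T.agAdj b w v := by
  rw [Bool.eq_iff_iff, agAdj_iff, agAdj_iff, T.adj_symm]
  exact and_congr_right fun _ =>
    ⟨fun h x h1 h2 => (h x h2 h1).symm, fun h x h1 h2 => (h x h2 h1).symm⟩

theorem agAdj_irrefl {b : C → ZMod 2} (h : ∀ c, T.adj c c = false) (v : T.Vert b) :
    T.agAdj b v v = false := by
  rw [← Bool.not_eq_true, agAdj_iff, h]
  simp

/-- The vertex of `G_{b'}` obtained from a vertex of `G_b` by the shift `s`. -/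
noncomputable def shift {b b' : C → ZMod 2} (s : X → ZMod 2) (v : T.Vert b)
    (h : T.con v.cl → ∑ x ∈ T.vars v.cl, s x = b' v.cl + b v.cl) : T.Vert b' := by
  classical
  refine ⟨(v.cl, fun x => if x ∈ T.vars v.cl then v.as x + s x else 0), ?_, ?_⟩
  · intro x hx
    exact if_neg hx
  · intro hc
    have h1 : ∑ x ∈ T.vars v.cl, (if x ∈ T.vars v.cl then v.as x + s x else 0) =
        ∑ x ∈ T.vars v.cl, (v.as x + s x) := Finset.sum_congr rfl fun x hx => if_pos hx
    have h2 : ∑ x ∈ T.vars v.cl, v.as x = b v.cl := v.2.2 hc
    change ∑ x ∈ T.vars v.cl, (if x ∈ T.vars v.cl then v.as x + s x else 0) = b' v.cl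
    rw [h1, Finset.sum_add_distrib, h2, h hc]
    have h3 : b v.cl + b v.cl = 0 := CharTwo.add_self_eq_zero _
    calc b v.cl + (b' v.cl + b v.cl) = b' v.cl + (b v.cl + b v.cl) := by ring
      _ = b' v.cl := by rw [h3, add_zero]

theorem shift_cl {b b' : C → ZMod 2} (s : X → ZMod 2) (v : T.Vert b)
    (h : T.con v.cl → ∑ x ∈ T.vars v.cl, s x = b' v.cl + b v.cl) : (shift s v h).cl = v.cl := rfl

theorem shift_as {b b' : C → ZMod 2} (s : X → ZMod 2) (v : T.Vert b)
    (h : T.con v.cl → ∑ x ∈ T.vars v.cl, s x = b' v.cl + b v.cl) {x : X} (hx : x ∈ T.vars v.cl) :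
    (shift s v h).as x = v.as x + s x := by
  classical
  exact if_pos hx

variable (T)

/-- Every class is dominated by an object; constrained classes carry the ports and the parity of
their object. -/
structure Dominated {O : Type} (ports : O → Finset X) (dom : C → O) (b : C → ZMod 2)
    (par : O → ZMod 2) : Prop where
  sub : ∀ c, T.vars c ⊆ ports (dom c)
  con : ∀ c, T.con c → T.vars c = ports (dom c) ∧ b c = par (dom c)

end Template

/-- A `K`-shift system over objects with ports, for the parity difference `par`. -/
structure ShiftSys {O X : Type} [DecidableEq O] (ports : O → Finset X) (par : O → ZMod 2) (K : ℕ)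
    (S : Finset O → (X → ZMod 2) → Prop) : Prop where
  valid : ∀ {P s}, S P s → ∀ u ∈ P, ∑ x ∈ ports u, s x = par u
  mono : ∀ {P Q s}, S P s → Q ⊆ P → S Q s
  empty : ∃ s, S ∅ s
  ext : ∀ {P s}, S P s → P.card < K → ∀ u, ∃ s', S (insert u P) s' ∧
    ∀ v ∈ P, ∀ x ∈ ports v, s' x = s x

/-- A family of positions in which Duplicator wins the bijective `K`-pebble game (any number of
pebbles up to `K`). -/
structure PSys' {V W : Type} [DecidableEq V] [DecidableEq W] (A : V → V → Bool) (B : W → W → Bool)
    (K : ℕ) (R : Finset (V × W) → Prop) : Prop where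
  empty : R ∅
  mono : ∀ {P Q : Finset (V × W)}, R P → Q ⊆ P → R Q
  eq : ∀ {P : Finset (V × W)}, R P → ∀ p ∈ P, ∀ q ∈ P, (p.1 = q.1 ↔ p.2 = q.2)
  adj : ∀ {P : Finset (V × W)}, R P → ∀ p ∈ P, ∀ q ∈ P, A p.1 q.1 = B p.2 q.2
  ext : ∀ {P : Finset (V × W)}, R P → P.card < K → ∃ f : V ≃ W, ∀ z, R (insert (z, f z) P)

namespace Template

variable {C X O : Type} (T : Template C X)

/-- The positions given by a shift system. -/
def posOf [DecidableEq O] (b b' : C → ZMod 2) (dom : C → O) (S : Finset O → (X → ZMod 2) → Prop)
    (P : Finset (T.Vert b × T.Vert b')) : Prop :=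
  ∃ s, S (P.image fun p => dom p.1.cl) s ∧
    ∀ p ∈ P, p.2.cl = p.1.cl ∧ ∀ x ∈ T.vars p.1.cl, p.2.as x = p.1.as x + s x

open Classical in
/-- **Duplicator theorem**: a `K`-shift system for `par' + par` gives a pebble system. -/
theorem dup_psys [DecidableEq O] {ports : O → Finset X} {dom : C → O} {b b' : C → ZMod 2}
    {par par' : O → ZMod 2} (hd : T.Dominated ports dom b par) (hd' : T.Dominated ports dom b' par')
    {K : ℕ} {S : Finset O → (X → ZMod 2) → Prop}
    (hS : ShiftSys ports (fun u => par' u + par u) K S) :
    PSys' (T.agAdj b) (T.agAdj b') K (T.posOf b b' dom S) where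
  empty := by
    obtain ⟨s, hs⟩ := hS.empty
    exact ⟨s, by simpa using hs, by simp⟩
  mono := by
    rintro P Q ⟨s, hs, h⟩ hQ
    exact ⟨s, hS.mono hs (Finset.image_subset_image hQ), fun p hp => h p (hQ hp)⟩
  eq := by
    rintro P ⟨s, hs, h⟩ p hp q hq
    obtain ⟨hpc, hpa⟩ := h p hp
    obtain ⟨hqc, hqa⟩ := h q hq
    constructor
    · intro e
      apply Vert.ext
      · rw [hpc, hqc, e]
      · intro x hx
        rw [hpc] at hx
        rw [hpa x hx, hqa x (by rw [← e]; exact hx), e]
    · intro e
      have ec : p.1.cl = q.1.cl := by rw [← hpc, ← hqc, e]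
      apply Vert.ext ec
      intro x hx
      have h1 := hpa x hx
      have h2 := hqa x (by rw [← ec]; exact hx)
      rw [e, h2] at h1
      exact (add_right_cancel h1).symm
  adj := by
    rintro P ⟨s, hs, h⟩ p hp q hq
    obtain ⟨hpc, hpa⟩ := h p hp
    obtain ⟨hqc, hqa⟩ := h q hq
    rw [Bool.eq_iff_iff, agAdj_iff, agAdj_iff, hpc, hqc]
    refine and_congr_right fun _ => forall_congr' fun x => ?_
    refine forall_congr' fun h1 => forall_congr' fun h2 => ?_
    rw [hpa x h1, hqa x h2]
    exact ⟨fun e => by rw [e], fun e => add_right_cancel e⟩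
  ext := by
    rintro P ⟨s, hs, h⟩ hP
    have hcard : (P.image fun p => dom p.1.cl).card < K := lt_of_le_of_lt Finset.card_image_le hP
    choose s' hs' hss' using fun u => hS.ext hs hcard u
    -- the shift of class `c`
    have hpar : ∀ c, T.con c → ∑ x ∈ T.vars c, s' (dom c) x = b' c + b c := by
      intro c hc
      have h1 := hS.valid (hs' (dom c)) (dom c) (Finset.mem_insert_self _ _)
      rw [(hd.con c hc).1, h1, (hd.con c hc).2, (hd'.con c hc).2]
    have hpar' : ∀ c, T.con c → ∑ x ∈ T.vars c, s' (dom c) x = b c + b' c := by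
      intro c hc
      rw [hpar c hc, add_comm]
    let f : T.Vert b ≃ T.Vert b' :=
      { toFun := fun v => shift (s' (dom v.cl)) v (hpar v.cl)
        invFun := fun w => shift (s' (dom w.cl)) w (hpar' w.cl)
        left_inv := by
          intro v
          apply Vert.ext
          · rfl
          · intro x hx
            change x ∈ T.vars v.cl at hx
            have h1 : (shift (b' := b) (s' (dom v.cl)) (shift (b' := b') (s' (dom v.cl)) v (hpar v.cl))
                (hpar' v.cl)).as x = (shift (b' := b') (s' (dom v.cl)) v (hpar v.cl)).as x +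
                  s' (dom v.cl) x := shift_as _ _ _ hx
            refine h1.trans ?_
            rw [shift_as _ _ _ hx, add_assoc, CharTwo.add_self_eq_zero, add_zero]
        right_inv := by
          intro v
          apply Vert.ext
          · rfl
          · intro x hx
            change x ∈ T.vars v.cl at hx
            have h1 : (shift (b' := b') (s' (dom v.cl)) (shift (b' := b) (s' (dom v.cl)) v (hpar' v.cl))
                (hpar v.cl)).as x = (shift (b' := b) (s' (dom v.cl)) v (hpar' v.cl)).as x +
                  s' (dom v.cl) x := shift_as _ _ _ hx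
            refine h1.trans ?_
            rw [shift_as _ _ _ hx, add_assoc, CharTwo.add_self_eq_zero, add_zero] }
    refine ⟨f, fun z => ⟨s' (dom z.cl), ?_, ?_⟩⟩
    · have e : (insert (z, f z) P).image (fun p => dom p.1.cl) =
          insert (dom z.cl) (P.image fun p => dom p.1.cl) := by
        rw [Finset.image_insert]
      rw [e]
      exact hs' _
    · intro p hp
      rcases Finset.mem_insert.1 hp with rfl | hp
      · exact ⟨rfl, fun x hx => shift_as (s' (dom z.cl)) z (hpar z.cl) hx⟩
      · obtain ⟨hpc, hpa⟩ := h p hp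
        refine ⟨hpc, fun x hx => ?_⟩
        rw [hpa x hx, hss' (dom z.cl) (dom p.1.cl) (Finset.mem_image_of_mem _ hp) x (hd.sub _ hx)]

end Template

end Crest.Agent.R290
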