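import Crest.Agent.R290.Defs

/-!
# Row 290: a working interface for the concrete agreement graphs (helper351)

`Model G b A cl as`: the graph `A : V → V → Bool` is (isomorphic to) the agreement graph of `G` for the
class parities `b`; `cl` is the class of a vertex and `as` its assignment.
`AG.model_mat`: the concrete matrix `G.mat b` is a model.
-/

set_option autoImplicit false

namespace Crest.Agent.R290

open Finset

namespace AGM

/-! ### Booleans and `ZMod 2` -/

theorem bz_add (a b : Bool) : bz (a + b) = bz a + bz b := by
  revert a b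
  decide

theorem bz_zero : bz (0 : Bool) = 0 := by decide

theorem bz_false' : bz false = 0 := by decide

theorem bz_true' : bz true = 1 := by decide

theorem bz_injective : Function.Injective bz := by
  intro a b
  revert a b
  decide

theorem bz_sum (l : List Bool) : bz l.sum = (l.map bz).sum := by
  induction l with
  | nil => rfl
  | cons a l ih => rw [List.sum_cons, bz_add, ih, List.map_cons, List.sum_cons]

/-- `ZMod 2` to `Bool` -/
def zb (z : ZMod 2) : Bool := decide (z = 1)

theorem bz_zb (z : ZMod 2) : bz (zb z) = z := by
  revert z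
  decide

theorem zb_bz (a : Bool) : zb (bz a) = a := by
  revert a
  decide

/-! ### lookup -/

section look
variable {X : Type} [DecidableEq X]

/-- value of `x` in the assignment `α` of the list `l` of variables -/
def look (l : List X) (α : List Bool) (x : X) : Bool := α.getD (l.idxOf x) false

theorem map_look {l : List X} (hl : l.Nodup) {α : List Bool} (h : α.length = l.length) :
    l.map (look l α) = α := by
  apply List.ext_getElem
  · rw [List.length_map, h]
  · intro i h1 h2
    rw [List.getElem_map]
    unfold look
    rw [List.Nodup.idxOf_getElem hl, List.getD_eq_getElem _ _ h2]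

theorem look_map {l : List X} (f : X → Bool) {x : X} (hx : x ∈ l) :
    look l (l.map f) x = f x := by
  unfold look
  have h1 : l.idxOf x < l.length := List.idxOf_lt_length_iff.mpr hx
  rw [List.getD_eq_getElem _ _ (by rw [List.length_map]; exact h1), List.getElem_map,
    List.getElem_idxOf h1]

omit [DecidableEq X] in
theorem zip_map_self (l : List X) (f : X → Bool) : l.zip (l.map f) = l.map fun x => (x, f x) := by
  induction l with
  | nil => rfl
  | cons a l ih => rw [List.map_cons, List.zip_cons_cons, ih, List.map_cons]

theorem mem_zip_iff {l : List X} (hl : l.Nodup) {α : List Bool} (h : α.length = l.length)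
    (p : X × Bool) : p ∈ l.zip α ↔ p.1 ∈ l ∧ p.2 = look l α p.1 := by
  have e : l.zip α = l.map fun x => (x, look l α x) := by
    conv_lhs => rw [← map_look hl h]
    rw [zip_map_self]
  rw [e, List.mem_map]
  constructor
  · rintro ⟨x, hx, rfl⟩
    exact ⟨hx, rfl⟩
  · rintro ⟨h1, h2⟩
    exact ⟨p.1, h1, by rw [← h2]⟩

theorem agree_iff {l : List X} (hl : l.Nodup) {α : List Bool} (h : α.length = l.length)
    {l' : List X} (hl' : l'.Nodup) {α' : List Bool} (h' : α'.length = l'.length) :
    agree l α l' α' = true ↔ ∀ x ∈ l, x ∈ l' → look l α x = look l' α' x := by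
  unfold agree
  simp only [List.all_eq_true, Bool.or_eq_true, Bool.not_eq_true', decide_eq_false_iff_not,
    beq_iff_eq]
  constructor
  · intro H x hx hx'
    have := H (x, look l α x) ((mem_zip_iff hl h _).mpr ⟨hx, rfl⟩) (x, look l' α' x)
      ((mem_zip_iff hl' h' _).mpr ⟨hx', rfl⟩)
    rcases this with h1 | h1
    · exact absurd rfl h1
    · exact h1
  · intro H p hp q hq
    rw [mem_zip_iff hl h] at hp
    rw [mem_zip_iff hl' h'] at hq
    by_cases hpq : p.1 = q.1
    · right
      rw [hp.2, hq.2, H p.1 hp.1 (by rw [hpq]; exact hq.1), hpq]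
    · exact Or.inl hpq

theorem mem_bools (n : ℕ) (α : List Bool) : α ∈ bools n ↔ α.length = n := by
  induction n generalizing α with
  | zero => simp [bools]
  | succ n ih =>
    simp only [bools, List.mem_flatMap, ih, List.mem_cons, List.not_mem_nil, or_false]
    constructor
    · rintro ⟨β, hβ, rfl | rfl⟩ <;> simp [hβ]
    · intro h
      cases α with
      | nil => simp at h
      | cons a α =>
        refine ⟨α, by simpa using h, ?_⟩
        cases a
        · exact Or.inl rfl
        · exact Or.inr rfl

theorem nodup_bools (n : ℕ) : (bools n).Nodup := by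
  induction n with
  | zero => simp [bools]
  | succ n ih =>
    simp only [bools]
    rw [List.nodup_flatMap]
    refine ⟨fun α _ => by simp, ?_⟩
    refine ih.imp ?_
    intro α β hαβ
    simp only [Function.onFun]
    intro γ h1 h2
    simp only [List.mem_cons, List.not_mem_nil, or_false] at h1 h2
    rcases h1 with rfl | rfl <;> rcases h2 with h2 | h2 <;> simp at h2 <;> exact hαβ h2

end look

end AGM

open AGM

/-! ### Models -/

/-- `A` is the agreement graph of `G` with class parities `b`; `cl` = class, `as` = assignment. -/
structure Model {C X V : Type} [DecidableEq X] (G : AG C X) (b : C → Bool) (A : V → V → Bool)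
    (cl : V → C) (as : V → X → ZMod 2) : Prop where
  cl_mem : ∀ v, cl v ∈ G.cls
  parity : ∀ v, G.con (cl v) = true → ∑ x ∈ (G.vars (cl v)).toFinset, as v x = bz (b (cl v))
  ext : ∀ v w, cl v = cl w → (∀ x ∈ G.vars (cl v), as v x = as w x) → v = w
  exists_v : ∀ c ∈ G.cls, ∀ α : X → ZMod 2,
    (G.con c = true → ∑ x ∈ (G.vars c).toFinset, α x = bz (b c)) →
      ∃ v, cl v = c ∧ ∀ x ∈ G.vars c, as v x = α x
  adj_iff : ∀ v w, A v w = true ↔ G.E (cl v) (cl w) = true ∧
    ∀ x ∈ G.vars (cl v), x ∈ G.vars (cl w) → as v x = as w x

namespace AG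

variable {C X : Type} [DecidableEq X] (G : AG C X) (b : C → Bool)

/-- class of a vertex of the matrix -/
def mcl (i : Fin (G.order b)) : C := ((G.items b).get i).1

/-- assignment of a vertex of the matrix -/
def mas (i : Fin (G.order b)) (x : X) : ZMod 2 :=
  bz (look (G.vars ((G.items b).get i).1) ((G.items b).get i).2 x)

variable {G b}

omit [DecidableEq X] in
theorem mem_items_iff {p : C × List Bool} : p ∈ G.items b ↔ p.1 ∈ G.cls ∧
    p.2.length = (G.vars p.1).length ∧ (G.con p.1 = true → p.2.sum = b p.1) := by
  unfold items fibre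
  simp only [List.mem_flatMap, List.mem_map, List.mem_filter, mem_bools]
  constructor
  · rintro ⟨c, hc, α, ⟨h1, h2⟩, rfl⟩
    refine ⟨hc, h1, fun h3 => ?_⟩
    dsimp only at h3
    simpa [h3] using h2
  · rintro ⟨h1, h2, h3⟩
    refine ⟨p.1, h1, p.2, ⟨h2, ?_⟩, rfl⟩
    by_cases h4 : G.con p.1 = true
    · simp [h3 h4]
    · simp [h4]

omit [DecidableEq X] in
theorem items_nodup' (hcls : G.cls.Nodup) : (G.items b).Nodup := by
  unfold items
  rw [List.nodup_flatMap]
  constructor
  · intro c _
    refine List.Nodup.map ?_ ((nodup_bools _).filter _)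
    intro α β h
    exact (Prod.mk.inj h).2
  · refine hcls.imp ?_
    intro c c' hcc'
    simp only [Function.onFun]
    intro p h1 h2
    obtain ⟨α, _, rfl⟩ := List.mem_map.mp h1
    obtain ⟨β, _, h⟩ := List.mem_map.mp h2
    exact hcc' (Prod.mk.inj h).1.symm

theorem sum_look {l : List X} (hl : l.Nodup) {α : List Bool} (h : α.length = l.length) :
    ∑ x ∈ l.toFinset, bz (look l α x) = bz α.sum := by
  rw [List.sum_toFinset _ hl, bz_sum]
  conv_rhs => rw [← map_look hl h]
  rw [List.map_map]
  rfl

/-- The concrete matrix is a model. -/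
theorem model_mat (hcls : G.cls.Nodup) (hvars : ∀ c ∈ G.cls, (G.vars c).Nodup) :
    Model G b (G.mat b) (G.mcl b) (G.mas b) where
  cl_mem v := (mem_items_iff.mp (List.get_mem (G.items b) v)).1
  parity v hv := by
    have h := mem_items_iff.mp (List.get_mem (G.items b) v)
    have h1 := sum_look (hvars _ h.1) h.2.1
    unfold mas mcl
    rw [h1]
    congr 1
    exact h.2.2 hv
  ext v w h1 h2 := by
    have hv := mem_items_iff.mp (List.get_mem (G.items b) v)
    have hw := mem_items_iff.mp (List.get_mem (G.items b) w)
    have key : (G.items b).get v = (G.items b).get w := by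
      apply Prod.ext h1
      have h3 := map_look (hvars _ hv.1) hv.2.1
      have h4 := map_look (hvars _ hw.1) hw.2.1
      rw [← h3, ← h4]
      have h5 : G.vars ((G.items b).get v).1 = G.vars ((G.items b).get w).1 := congrArg G.vars h1
      rw [← h5]
      apply List.map_congr_left
      intro x hx
      have h6 := h2 x hx
      unfold mas at h6
      rw [← h5] at h6
      exact bz_injective h6
    exact (List.Nodup.get_inj_iff (items_nodup' hcls)).mp key
  exists_v c hc α hα := by
    have hmem : ((c, (G.vars c).map fun x => zb (α x)) : C × List Bool) ∈ G.items b := by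
      rw [mem_items_iff]
      refine ⟨hc, List.length_map _, fun h => ?_⟩
      have h1 := hα h
      rw [List.sum_toFinset _ (hvars c hc)] at h1
      apply bz_injective
      rw [bz_sum, List.map_map]
      have h2 : (bz ∘ fun x => zb (α x)) = α := by
        funext x
        exact bz_zb _
      rw [h2]
      exact h1
    obtain ⟨i, hi⟩ := List.mem_iff_get.mp hmem
    refine ⟨i, congrArg Prod.fst hi, fun x hx => ?_⟩
    unfold mas
    rw [hi]
    dsimp only
    rw [look_map _ hx, bz_zb]
  adj_iff v w := by
    have hv := mem_items_iff.mp (List.get_mem (G.items b) v)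
    have hw := mem_items_iff.mp (List.get_mem (G.items b) w)
    unfold mat adj
    rw [Bool.and_eq_true, agree_iff (hvars _ hv.1) hv.2.1 (hvars _ hw.1) hw.2.1]
    refine and_congr Iff.rfl ?_
    refine forall_congr' fun x => forall_congr' fun _ => forall_congr' fun _ => ?_
    unfold mas
    exact ⟨fun h => congrArg bz h, fun h => bz_injective h⟩

end AG

end Crest.Agent.R290
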