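import Crest.Agent.R290.Subdiv
import Crest.Agent.R290.AGModel

/-!
# Row 290, module ENCS-1b: the base graph `baseS I` of the subcubic encoding (helper217)

`BE I c c'`: inductive description of the oriented edges; `mem_es_iff`.
`baseS_good'`: `BG.Good (baseS I)` from nodup of the edge list and the two-edges property.
`baseS_meet`: two objects sharing the variable `x` have a common lower class with variables `[x]`.
-/

set_option autoImplicit false
set_option linter.unusedSectionVars false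

namespace Crest.Agent.R290

namespace BaseGood

section baseS

variable {O X : Type} [DecidableEq O] [DecidableEq X] (I : XI O X)

/-- edges of the base graph -/
inductive BE : CB O X → CB O X → Prop
  | spine (u : O) (i : ℕ) : u ∈ I.objs → i + 1 < (I.ports u).length →
      BE (Sum.inl (u, i, 0)) (Sum.inl (u, i + 1, 0))
  | down (u : O) (i l : ℕ) : u ∈ I.objs → i < (I.ports u).length → l + 1 < (I.ports u).length →
      BE (Sum.inl (u, i, l)) (Sum.inl (u, i, l + 1))
  | last (u : O) (i : ℕ) : u ∈ I.objs → i < (I.ports u).length →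
      BE (Sum.inl (u, i, (I.ports u).length - 1)) (Sum.inr (Sum.inl (u, i)))
  | chain (x : X) (j : ℕ) (o o' : O × ℕ) : x ∈ I.vl → (I.occ x)[j]? = some o →
      (I.occ x)[j + 1]? = some o' → BE (Sum.inr (Sum.inl o)) (Sum.inr (Sum.inl o'))
  | join (x : X) (o : O × ℕ) : x ∈ I.vl → (I.occ x)[0]? = some o →
      BE (Sum.inr (Sum.inl o)) (Sum.inr (Sum.inr (Sum.inl x)))
  | bus (x : X) : x ∈ I.vl → BE (Sum.inr (Sum.inr (Sum.inl x))) (Sum.inr (Sum.inr (Sum.inr x)))
  | line (j : ℕ) (x x' : X) : I.vl[j]? = some x → I.vl[j + 1]? = some x' →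
      BE (Sum.inr (Sum.inr (Sum.inr x))) (Sum.inr (Sum.inr (Sum.inr x')))

theorem mem_zip_tail {α : Type} {l : List α} {p : α × α} :
    p ∈ l.zip l.tail ↔ ∃ j : ℕ, l[j]? = some p.1 ∧ l[j + 1]? = some p.2 := by
  rw [List.mem_iff_getElem?]
  constructor
  · rintro ⟨j, hj⟩
    rw [List.getElem?_zip_eq_some, List.getElem?_tail] at hj
    exact ⟨j, hj⟩
  · rintro ⟨j, hj⟩
    refine ⟨j, ?_⟩
    rw [List.getElem?_zip_eq_some, List.getElem?_tail]
    exact hj

theorem mem_take_one {α : Type} {l : List α} {a : α} : a ∈ l.take 1 ↔ l[0]? = some a := by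
  cases l with
  | nil => simp
  | cons b l => simp [eq_comm]

theorem mem_es_iff (c c' : CB O X) : (c, c') ∈ (baseS I).es ↔ BE I c c' := by
  unfold baseS
  simp only [List.mem_append, List.mem_flatMap, List.mem_map, List.mem_range, Prod.mk.injEq,
    mem_zip_tail, mem_take_one]
  constructor
  · rintro ((((((⟨u, hu, i, hi, rfl, rfl⟩ | ⟨u, hu, i, hi, l, hl, rfl, rfl⟩) |
      ⟨u, hu, i, hi, rfl, rfl⟩) | ⟨x, hx, o, ⟨j, h1, h2⟩, rfl, rfl⟩) | ⟨x, hx, o, h1, rfl, rfl⟩) |
      ⟨x, hx, rfl, rfl⟩) | ⟨p, ⟨j, h1, h2⟩, rfl, rfl⟩)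
    · exact BE.spine u i hu (by omega)
    · exact BE.down u i l hu hi (by omega)
    · exact BE.last u i hu hi
    · exact BE.chain x j _ _ hx h1 h2
    · exact BE.join x _ hx h1
    · exact BE.bus x hx
    · exact BE.line j _ _ h1 h2
  · intro h
    cases h with
    | spine u i hu hi =>
      exact Or.inl (Or.inl (Or.inl (Or.inl (Or.inl (Or.inl ⟨u, hu, i, by omega, rfl, rfl⟩)))))
    | down u i l hu hi hl =>
      exact Or.inl (Or.inl (Or.inl (Or.inl (Or.inl (Or.inr ⟨u, hu, i, hi, l, by omega, rfl, rfl⟩)))))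
    | last u i hu hi =>
      exact Or.inl (Or.inl (Or.inl (Or.inl (Or.inr ⟨u, hu, i, hi, rfl, rfl⟩))))
    | chain x j o o' hx h1 h2 =>
      exact Or.inl (Or.inl (Or.inl (Or.inr ⟨x, hx, (o, o'), ⟨j, h1, h2⟩, rfl, rfl⟩)))
    | join x o hx h1 =>
      exact Or.inl (Or.inl (Or.inr ⟨x, hx, o, h1, rfl, rfl⟩))
    | bus x hx =>
      exact Or.inl (Or.inr ⟨x, hx, rfl, rfl⟩)
    | line j x x' h1 h2 =>
      exact Or.inr ⟨(x, x'), ⟨j, h1, h2⟩, rfl, rfl⟩

theorem mem_baseS_cls (c : CB O X) : c ∈ (baseS I).cls ↔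
    (∃ u ∈ I.objs, ∃ i l, i < (I.ports u).length ∧ l < (I.ports u).length ∧
      c = Sum.inl (u, i, l)) ∨
    (∃ u ∈ I.objs, ∃ i, i < (I.ports u).length ∧ c = Sum.inr (Sum.inl (u, i))) ∨
    (∃ x ∈ I.vl, c = Sum.inr (Sum.inr (Sum.inl x))) ∨
    (∃ x ∈ I.vl, c = Sum.inr (Sum.inr (Sum.inr x))) := by
  unfold baseS
  simp only [List.mem_append, List.mem_flatMap, List.mem_map, List.mem_range]
  constructor
  · rintro (((⟨u, hu, i, hi, l, hl, rfl⟩ | ⟨u, hu, i, hi, rfl⟩) | ⟨x, hx, rfl⟩) | ⟨x, hx, rfl⟩)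
    · exact Or.inl ⟨u, hu, i, l, hi, hl, rfl⟩
    · exact Or.inr (Or.inl ⟨u, hu, i, hi, rfl⟩)
    · exact Or.inr (Or.inr (Or.inl ⟨x, hx, rfl⟩))
    · exact Or.inr (Or.inr (Or.inr ⟨x, hx, rfl⟩))
  · rintro (⟨u, hu, i, l, hi, hl, rfl⟩ | ⟨u, hu, i, hi, rfl⟩ | ⟨x, hx, rfl⟩ | ⟨x, hx, rfl⟩)
    · exact Or.inl (Or.inl (Or.inl ⟨u, hu, i, hi, l, hl, rfl⟩))
    · exact Or.inl (Or.inl (Or.inr ⟨u, hu, i, hi, rfl⟩))
    · exact Or.inl (Or.inr ⟨x, hx, rfl⟩)
    · exact Or.inr ⟨x, hx, rfl⟩

theorem mem_cls_inl {u : O} {i l : ℕ} : Sum.inl (u, i, l) ∈ (baseS I).cls ↔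
    u ∈ I.objs ∧ i < (I.ports u).length ∧ l < (I.ports u).length := by
  rw [mem_baseS_cls]
  constructor
  · rintro (⟨u', hu, i', l', hi, hl, h⟩ | ⟨u', hu, i', hi, h⟩ | ⟨x, hx, h⟩ | ⟨x, hx, h⟩)
    · cases h; exact ⟨hu, hi, hl⟩
    all_goals cases h
  · rintro ⟨hu, hi, hl⟩
    exact Or.inl ⟨u, hu, i, l, hi, hl, rfl⟩

theorem mem_cls_chain {u : O} {i : ℕ} : Sum.inr (Sum.inl (u, i)) ∈ (baseS I).cls ↔
    u ∈ I.objs ∧ i < (I.ports u).length := by
  rw [mem_baseS_cls]
  constructor
  · rintro (⟨u', hu, i', l', hi, hl, h⟩ | ⟨u', hu, i', hi, h⟩ | ⟨x, hx, h⟩ | ⟨x, hx, h⟩)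
    · cases h
    · cases h; exact ⟨hu, hi⟩
    all_goals cases h
  · rintro ⟨hu, hi⟩
    exact Or.inr (Or.inl ⟨u, hu, i, hi, rfl⟩)

theorem mem_cls_join {x : X} : Sum.inr (Sum.inr (Sum.inl x)) ∈ (baseS I).cls ↔ x ∈ I.vl := by
  rw [mem_baseS_cls]
  constructor
  · rintro (⟨u', hu, i', l', hi, hl, h⟩ | ⟨u', hu, i', hi, h⟩ | ⟨x, hx, h⟩ | ⟨x, hx, h⟩)
    · cases h
    · cases h
    · cases h; exact hx
    · cases h
  · intro hx
    exact Or.inr (Or.inr (Or.inl ⟨x, hx, rfl⟩))

theorem mem_cls_bus {x : X} : Sum.inr (Sum.inr (Sum.inr x)) ∈ (baseS I).cls ↔ x ∈ I.vl := by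
  rw [mem_baseS_cls]
  constructor
  · rintro (⟨u', hu, i', l', hi, hl, h⟩ | ⟨u', hu, i', hi, h⟩ | ⟨x, hx, h⟩ | ⟨x, hx, h⟩)
    · cases h
    · cases h
    · cases h
    · cases h; exact hx
  · intro hx
    exact Or.inr (Or.inr (Or.inr ⟨x, hx, rfl⟩))

theorem mem_occ {x : X} {o : O × ℕ} : o ∈ I.occ x ↔
    o.1 ∈ I.objs ∧ (I.ports o.1)[o.2]? = some x := by
  unfold XI.occ
  simp only [List.mem_flatMap, List.mem_map, List.mem_filter, List.mem_range, decide_eq_true_eq]
  constructor
  · rintro ⟨u, hu, i, ⟨hi, h⟩, rfl⟩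
    exact ⟨hu, h⟩
  · rintro ⟨h1, h2⟩
    exact ⟨o.1, h1, o.2, ⟨(List.getElem?_eq_some_iff.1 h2).1, h2⟩, rfl⟩

variable {I}

theorem occ_nodup (hI : I.OK) (x : X) : (I.occ x).Nodup := by
  unfold XI.occ
  rw [List.nodup_flatMap]
  constructor
  · intro u _
    refine List.Nodup.map ?_ (List.nodup_range.filter _)
    intro i j h
    exact (Prod.mk.inj h).2
  · refine hI.objs_nodup.imp ?_
    intro u u' hne
    simp only [Function.onFun]
    intro o h1 h2
    simp only [List.mem_map] at h1 h2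
    obtain ⟨i, -, rfl⟩ := h1
    obtain ⟨j, -, h⟩ := h2
    exact hne (Prod.mk.inj h).1.symm

theorem mem_vl_of_occ (hI : I.OK) {x : X} {o : O × ℕ} (h : o ∈ I.occ x) : x ∈ I.vl := by
  rw [mem_occ] at h
  exact (hI.mem_vl x).2 ⟨o.1, h.1, List.mem_of_getElem? h.2⟩

/-! ### variables of the classes -/

theorem vars_top (u : O) (i : ℕ) : (baseS I).vars (Sum.inl (u, i, 0)) = I.ports u := rfl

theorem vars_low {u : O} {i l : ℕ} (hl : 1 ≤ l) {x : X} (hx : (I.ports u)[i]? = some x) :
    (baseS I).vars (Sum.inl (u, i, l)) = x :: ((I.ports u).eraseIdx i).drop l := by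
  have h : (baseS I).vars (Sum.inl (u, i, l)) = if l = 0 then I.ports u else I.mvars u i l := rfl
  rw [h, if_neg (by omega)]
  unfold XI.mvars
  rw [hx]

theorem vars_chain {u : O} {i : ℕ} {x : X} (hx : (I.ports u)[i]? = some x) :
    (baseS I).vars (Sum.inr (Sum.inl (u, i))) = [x] := by
  have h : (baseS I).vars (Sum.inr (Sum.inl (u, i))) = match (I.ports u)[i]? with
    | some x => [x]
    | none => [] := rfl
  rw [h, hx]

theorem vars_join (x : X) : (baseS I).vars (Sum.inr (Sum.inr (Sum.inl x))) = [] := rfl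
theorem vars_bus (x : X) : (baseS I).vars (Sum.inr (Sum.inr (Sum.inr x))) = [] := rfl

theorem con_inl (u : O) (i l : ℕ) : (baseS I).con (Sum.inl (u, i, l)) = decide (l = 0) := rfl
theorem con_inr (c : (O × ℕ) ⊕ (X ⊕ X)) : (baseS I).con (Sum.inr c) = false := rfl

theorem getElem?_of_lt {u : O} {i : ℕ} (hi : i < (I.ports u).length) :
    ∃ x, (I.ports u)[i]? = some x := ⟨(I.ports u)[i], by simp [hi]⟩

theorem eraseIdx_subset' {l : List X} {i : ℕ} : l.eraseIdx i ⊆ l := fun _ h =>
  List.mem_of_mem_eraseIdx h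

theorem notMem_eraseIdx {l : List X} (hl : l.Nodup) {i : ℕ} {x : X} (hx : l[i]? = some x) :
    x ∉ l.eraseIdx i := by
  intro h
  rw [List.mem_eraseIdx_iff_getElem?] at h
  obtain ⟨j, hj, hjx⟩ := h
  obtain ⟨h1, h1'⟩ := List.getElem?_eq_some_iff.1 hx
  obtain ⟨h2, h2'⟩ := List.getElem?_eq_some_iff.1 hjx
  exact hj ((List.Nodup.getElem_inj_iff hl).1 (h2'.trans h1'.symm))

theorem vars_low_subset {u : O} {i l : ℕ} (hi : i < (I.ports u).length) :
    (baseS I).vars (Sum.inl (u, i, l)) ⊆ I.ports u := by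
  rcases Nat.eq_zero_or_pos l with rfl | hl
  · rw [vars_top]; exact fun _ h => h
  · obtain ⟨x, hx⟩ := getElem?_of_lt hi
    rw [vars_low hl hx]
    intro y hy
    rcases List.mem_cons.1 hy with rfl | hy
    · exact List.mem_of_getElem? hx
    · exact eraseIdx_subset' (List.mem_of_mem_drop hy)

theorem port_mem_vars {u : O} {i l : ℕ} {x : X} (hx : (I.ports u)[i]? = some x) :
    x ∈ (baseS I).vars (Sum.inl (u, i, l)) := by
  rcases Nat.eq_zero_or_pos l with rfl | hl
  · rw [vars_top]; exact List.mem_of_getElem? hx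
  · rw [vars_low hl hx]; exact List.mem_cons_self

theorem BE.sub {c c' : CB O X} (h : BE I c c') : (baseS I).vars c' ⊆ (baseS I).vars c := by
  cases h with
  | spine u i hu hi => rw [vars_top, vars_top]; exact fun _ h => h
  | down u i l hu hi hl =>
    obtain ⟨x, hx⟩ := getElem?_of_lt hi
    rcases Nat.eq_zero_or_pos l with rfl | hl'
    · rw [vars_top]; exact vars_low_subset hi
    · rw [vars_low (by omega) hx, vars_low hl' hx]
      refine List.cons_subset_cons x ?_
      exact List.drop_subset_drop_left _ (by omega)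
  | last u i hu hi =>
    obtain ⟨x, hx⟩ := getElem?_of_lt hi
    rw [vars_chain hx]
    intro y hy
    rw [List.mem_singleton.1 hy]
    exact port_mem_vars hx
  | chain x j o o' hx h1 h2 =>
    have h1' := ((mem_occ I).1 (List.mem_of_getElem? h1)).2
    have h2' := ((mem_occ I).1 (List.mem_of_getElem? h2)).2
    rw [show o = (o.1, o.2) from rfl, show o' = (o'.1, o'.2) from rfl, vars_chain h1',
      vars_chain h2']
    exact fun _ h => h
  | join x o hx h1 => rw [vars_join]; exact List.nil_subset _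
  | bus x hx => rw [vars_bus]; exact List.nil_subset _
  | line j x x' h1 h2 => rw [vars_bus]; exact List.nil_subset _

/-! ### orientation -/

variable (I) in
/-- kind of a base class -/
def kind : CB O X → ℕ
  | .inl _ => 0
  | .inr (.inl _) => 1
  | .inr (.inr (.inl _)) => 2
  | .inr (.inr (.inr _)) => 3

variable (I) in
/-- rank inside a kind -/
def rk : CB O X → ℕ
  | .inl (_, i, l) => i + l
  | .inr (.inl o) => match (I.ports o.1)[o.2]? with
    | some x => (I.occ x).idxOf o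
    | none => 0
  | .inr (.inr (.inl _)) => 0
  | .inr (.inr (.inr x)) => I.vl.idxOf x

theorem idxOf_of_getElem? {α : Type} [BEq α] [LawfulBEq α] {l : List α} (hl : l.Nodup) {j : ℕ} {a : α}
    (h : l[j]? = some a) : l.idxOf a = j := by
  obtain ⟨h1, h2⟩ := List.getElem?_eq_some_iff.1 h
  rw [← h2]
  exact List.Nodup.idxOf_getElem hl j h1

theorem BE.lt (hI : I.OK) {c c' : CB O X} (h : BE I c c') :
    kind c < kind c' ∨ (kind c = kind c' ∧ rk I c < rk I c') := by
  cases h with
  | spine u i hu hi => right; exact ⟨rfl, by simp [rk]⟩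
  | down u i l hu hi hl => right; exact ⟨rfl, by simp only [rk]; omega⟩
  | last u i hu hi => left; simp [kind]
  | chain x j o o' hx h1 h2 =>
    right
    refine ⟨rfl, ?_⟩
    have h1' := ((mem_occ I).1 (List.mem_of_getElem? h1)).2
    have h2' := ((mem_occ I).1 (List.mem_of_getElem? h2)).2
    simp only [rk, h1', h2']
    rw [idxOf_of_getElem? (occ_nodup hI x) h1, idxOf_of_getElem? (occ_nodup hI x) h2]
    omega
  | join x o hx h1 => left; simp [kind]
  | bus x hx => left; simp [kind]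
  | line j x x' h1 h2 =>
    right
    refine ⟨rfl, ?_⟩
    simp only [rk]
    rw [idxOf_of_getElem? hI.vl_nodup h1, idxOf_of_getElem? hI.vl_nodup h2]
    omega

theorem BE.mem1 (hI : I.OK) {c c' : CB O X} (h : BE I c c') : c ∈ (baseS I).cls := by
  cases h with
  | spine u i hu hi => rw [mem_cls_inl]; exact ⟨hu, by omega, by omega⟩
  | down u i l hu hi hl => rw [mem_cls_inl]; exact ⟨hu, by omega, by omega⟩
  | last u i hu hi => rw [mem_cls_inl]; exact ⟨hu, by omega, by omega⟩
  | chain x j o o' hx h1 h2 =>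
    have h1' := (mem_occ I).1 (List.mem_of_getElem? h1)
    rw [show o = (o.1, o.2) from rfl, mem_cls_chain]
    exact ⟨h1'.1, (List.getElem?_eq_some_iff.1 h1'.2).1⟩
  | join x o hx h1 =>
    have h1' := (mem_occ I).1 (List.mem_of_getElem? h1)
    rw [show o = (o.1, o.2) from rfl, mem_cls_chain]
    exact ⟨h1'.1, (List.getElem?_eq_some_iff.1 h1'.2).1⟩
  | bus x hx => rw [mem_cls_join]; exact hx
  | line j x x' h1 h2 => rw [mem_cls_bus]; exact List.mem_of_getElem? h1

theorem BE.mem2 (hI : I.OK) {c c' : CB O X} (h : BE I c c') : c' ∈ (baseS I).cls := by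
  cases h with
  | spine u i hu hi => rw [mem_cls_inl]; exact ⟨hu, by omega, by omega⟩
  | down u i l hu hi hl => rw [mem_cls_inl]; exact ⟨hu, by omega, by omega⟩
  | last u i hu hi => rw [mem_cls_chain]; exact ⟨hu, hi⟩
  | chain x j o o' hx h1 h2 =>
    have h1' := (mem_occ I).1 (List.mem_of_getElem? h2)
    rw [show o' = (o'.1, o'.2) from rfl, mem_cls_chain]
    exact ⟨h1'.1, (List.getElem?_eq_some_iff.1 h1'.2).1⟩
  | join x o hx h1 => rw [mem_cls_join]; exact hx
  | bus x hx => rw [mem_cls_bus]; exact hx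
  | line j x x' h1 h2 => rw [mem_cls_bus]; exact List.mem_of_getElem? h2

/-- `BG.Good` from the two remaining facts. -/
theorem baseS_good' (hI : I.OK) (hes : (baseS I).es.Nodup)
    (htwo : ∀ c ∈ (baseS I).cls, ∃ (e e' : CB O X × CB O X), e ≠ e' ∧ e ∈ (baseS I).es ∧
      e' ∈ (baseS I).es ∧ (e.1 = c ∨ e.2 = c) ∧ (e'.1 = c ∨ e'.2 = c)) : (baseS I).Good where
  mem1 e he := ((mem_es_iff I _ _).1 he).mem1 hI
  mem2 e he := ((mem_es_iff I _ _).1 he).mem2 hI
  ne e he h := by
    have := ((mem_es_iff I _ _).1 he).lt hI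
    rw [h] at this
    omega
  sub e he := ((mem_es_iff I _ _).1 he).sub
  con e he hc := by
    have h := (mem_es_iff I _ _).1 he
    obtain ⟨c, c'⟩ := e
    dsimp only at h hc ⊢
    cases h with
    | spine u i hu hi => exact ⟨rfl, rfl⟩
    | down u i l hu hi hl => simp [con_inl] at hc
    | last u i hu hi => simp [con_inr] at hc
    | chain x j o o' hx h1 h2 => simp [con_inr] at hc
    | join x o hx h1 => simp [con_inr] at hc
    | bus x hx => simp [con_inr] at hc
    | line j x x' h1 h2 => simp [con_inr] at hc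
  more e he hc hc' := by
    have h := (mem_es_iff I _ _).1 he
    obtain ⟨c, c'⟩ := e
    dsimp only at h hc hc' ⊢
    cases h with
    | spine u i hu hi => simp [con_inl] at hc'
    | down u i l hu hi hl =>
      obtain rfl : l = 0 := by simpa [con_inl] using hc
      obtain ⟨x, hx⟩ := getElem?_of_lt hi
      have hnd := hI.ports_nodup u hu
      have hlen : ((I.ports u).eraseIdx i).length = (I.ports u).length - 1 :=
        List.length_eraseIdx_of_lt hi
      have hnd' : ((I.ports u).eraseIdx i).Nodup := hnd.eraseIdx i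
      have hx' := notMem_eraseIdx hnd hx
      rw [vars_top, vars_low (by omega) hx]
      rcases hcase : (I.ports u).eraseIdx i with _ | ⟨y, l'⟩
      · rw [hcase] at hlen
        simp at hlen
        omega
      · have hy : y ∈ (I.ports u).eraseIdx i := by rw [hcase]; exact List.mem_cons_self
        refine ⟨y, eraseIdx_subset' hy, ?_⟩
        rw [hcase] at hnd'
        simp only [zero_add, List.drop_succ_cons, List.drop_zero, List.mem_cons, not_or]
        refine ⟨?_, (List.nodup_cons.1 hnd').1⟩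
        rintro rfl
        exact hx' hy
    | last u i hu hi =>
      have := hI.two_le u hu
      have h0 : (I.ports u).length - 1 = 0 := by simpa [con_inl] using hc
      omega
    | chain x j o o' hx h1 h2 => simp [con_inr] at hc
    | join x o hx h1 => simp [con_inr] at hc
    | bus x hx => simp [con_inr] at hc
    | line j x x' h1 h2 => simp [con_inr] at hc
  nodup c hc := by
    rcases (mem_baseS_cls I c).1 hc with ⟨u, hu, i, l, hi, hl, rfl⟩ | ⟨u, hu, i, hi, rfl⟩ |
      ⟨x, hx, rfl⟩ | ⟨x, hx, rfl⟩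
    · have hnd := hI.ports_nodup u hu
      rcases Nat.eq_zero_or_pos l with rfl | hl'
      · rw [vars_top]; exact hnd
      · obtain ⟨x, hx⟩ := getElem?_of_lt hi
        rw [vars_low hl' hx, List.nodup_cons]
        exact ⟨fun h => notMem_eraseIdx hnd hx (List.mem_of_mem_drop h),
          (hnd.eraseIdx i).sublist (List.drop_sublist _ _)⟩
    · obtain ⟨x, hx⟩ := getElem?_of_lt hi
      rw [vars_chain hx]
      exact List.nodup_singleton x
    · rw [vars_join]; exact List.nodup_nil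
    · rw [vars_bus]; exact List.nodup_nil
  simple k k' e e' he he' c c' hne h1 h2 h3 h4 := by
    have hm := List.mem_of_getElem? he
    have hm' := List.mem_of_getElem? he'
    have hlt := ((mem_es_iff I _ _).1 hm).lt hI
    have hlt' := ((mem_es_iff I _ _).1 hm').lt hI
    have key : e = e' := by
      rcases h1 with h1 | h1 <;> rcases h2 with h2 | h2 <;> rcases h3 with h3 | h3 <;>
        rcases h4 with h4 | h4
      all_goals first
        | exact absurd (h1.symm.trans h2) hne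
        | exact absurd (h3.symm.trans h4) hne
        | exact Prod.ext (h1.trans h3.symm) (h2.trans h4.symm)
        | exact Prod.ext (h2.trans h4.symm) (h1.trans h3.symm)
        | (exfalso
           rw [h1, h2] at hlt
           rw [h3, h4] at hlt'
           omega)
    subst key
    obtain ⟨a1, a2⟩ := List.getElem?_eq_some_iff.1 he
    obtain ⟨b1, b2⟩ := List.getElem?_eq_some_iff.1 he'
    exact (List.Nodup.getElem_inj_iff hes).1 (a2.trans b2.symm)
  two c hc := by
    obtain ⟨e, e', hne, he, he', h1, h2⟩ := htwo c hc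
    obtain ⟨k, hk⟩ := List.mem_iff_getElem?.1 he
    obtain ⟨k', hk'⟩ := List.mem_iff_getElem?.1 he'
    refine ⟨k, k', e, e', ?_, hk, hk', h1, h2⟩
    rintro rfl
    rw [hk] at hk'
    exact hne (Option.some.inj hk')

theorem baseS_parOK (b : O → Bool) : (baseS I).ParOK (bB b) := by
  intro e he hc
  have h := (mem_es_iff I _ _).1 he
  obtain ⟨c, c'⟩ := e
  dsimp only at h hc ⊢
  cases h with
  | spine u i hu hi => rfl
  | down u i l hu hi hl => simp [con_inl] at hc
  | last u i hu hi => simp [con_inr] at hc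
  | chain x j o o' hx h1 h2 => simp [con_inr] at hc
  | join x o hx h1 => simp [con_inr] at hc
  | bus x hx => simp [con_inr] at hc
  | line j x x' h1 h2 => simp [con_inr] at hc

/-! ### common lower classes -/

theorem reach_spine (hI : I.OK) {u : O} (hu : u ∈ I.objs) (i : ℕ)
    (hi : i < (I.ports u).length) :
    (baseS I).Reach (Sum.inl (u, 0, 0)) (Sum.inl (u, i, 0)) := by
  induction i with
  | zero => exact BG.Reach.refl ((mem_cls_inl I).2 ⟨hu, hi, hi⟩)
  | succ i ih => exact BG.Reach.step (ih (by omega)) ((mem_es_iff I _ _).2 (BE.spine u i hu hi))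

theorem reach_low (hI : I.OK) {u : O} (hu : u ∈ I.objs) {i : ℕ} (hi : i < (I.ports u).length)
    (l : ℕ) (hl : l < (I.ports u).length) :
    (baseS I).Reach (Sum.inl (u, 0, 0)) (Sum.inl (u, i, l)) := by
  induction l with
  | zero => exact reach_spine hI hu i hi
  | succ l ih => exact BG.Reach.step (ih (by omega)) ((mem_es_iff I _ _).2 (BE.down u i l hu hi hl))

theorem reach_chain (hI : I.OK) {u : O} (hu : u ∈ I.objs) {i : ℕ}
    (hi : i < (I.ports u).length) :
    (baseS I).Reach (Sum.inl (u, 0, 0)) (Sum.inr (Sum.inl (u, i))) :=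
  BG.Reach.step (reach_low hI hu hi _ (by omega)) ((mem_es_iff I _ _).2 (BE.last u i hu hi))

theorem reach_occ {c₀ : CB O X} {x : X} (hx : x ∈ I.vl) {j : ℕ} {o : O × ℕ}
    (ho : (I.occ x)[j]? = some o) (h : (baseS I).Reach c₀ (Sum.inr (Sum.inl o))) (d : ℕ) :
    ∀ o', (I.occ x)[j + d]? = some o' → (baseS I).Reach c₀ (Sum.inr (Sum.inl o')) := by
  induction d with
  | zero =>
    intro o' ho'
    rw [Nat.add_zero, ho] at ho'
    cases ho'
    exact h
  | succ d ih =>
    intro o' ho'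
    have h1 : j + d < (I.occ x).length := by
      have := (List.getElem?_eq_some_iff.1 ho').1
      omega
    refine BG.Reach.step (ih (I.occ x)[j + d] (by simp [h1])) ?_
    rw [mem_es_iff]
    exact BE.chain x (j + d) _ _ hx (by simp [h1]) ho'

theorem baseS_meet (hI : I.OK) {u v : O} (hu : u ∈ I.objs) (hv : v ∈ I.objs) {x : X}
    (hxu : x ∈ I.ports u) (hxv : x ∈ I.ports v) :
    ∃ c, (baseS I).Reach (Sum.inl (u, 0, 0)) c ∧ (baseS I).Reach (Sum.inl (v, 0, 0)) c ∧
      (baseS I).vars c = [x] := by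
  have hx : x ∈ I.vl := (hI.mem_vl x).2 ⟨u, hu, hxu⟩
  obtain ⟨i, hi⟩ := List.mem_iff_getElem?.1 hxu
  obtain ⟨i', hi'⟩ := List.mem_iff_getElem?.1 hxv
  have h1 := reach_chain hI hu (List.getElem?_eq_some_iff.1 hi).1
  have h2 := reach_chain hI hv (List.getElem?_eq_some_iff.1 hi').1
  obtain ⟨j, hj⟩ := List.mem_iff_getElem?.1 ((mem_occ I (o := (u, i))).2 ⟨hu, hi⟩)
  obtain ⟨j', hj'⟩ := List.mem_iff_getElem?.1 ((mem_occ I (o := (v, i'))).2 ⟨hv, hi'⟩)
  rcases Nat.le_total j j' with h | h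
  · obtain ⟨d, rfl⟩ := Nat.exists_eq_add_of_le h
    exact ⟨_, reach_occ hx hj h1 d _ hj', h2, vars_chain hi'⟩
  · obtain ⟨d, rfl⟩ := Nat.exists_eq_add_of_le h
    exact ⟨_, h1, reach_occ hx hj' h2 d _ hj, vars_chain hi⟩

end baseS

end BaseGood

end Crest.Agent.R290
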