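import Crest.Agent.R290.EncS2

/-!
# Row 290: the edges of the base graph of `encS` are listed without repetition
-/

set_option autoImplicit false
set_option linter.unusedSectionVars false

namespace Crest.Agent.R290

namespace BaseNodup

theorem nodup_flatMap_rel {α β : Type*} {l : List α} {f : α → List β} (R : β → α → Prop)
    (hR : ∀ b x y, R b x → R b y → x = y) (hl : l.Nodup) (h1 : ∀ x ∈ l, (f x).Nodup)
    (h2 : ∀ x ∈ l, ∀ y ∈ f x, R y x) : (l.flatMap f).Nodup := by
  induction l with
  | nil => simp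
  | cons a l ih =>
    rw [List.flatMap_cons, List.nodup_append']
    rw [List.nodup_cons] at hl
    refine ⟨h1 a (by simp), ih hl.2 (fun x hx => h1 x (by simp [hx]))
      (fun x hx => h2 x (by simp [hx])), ?_⟩
    intro y hy hy'
    rw [List.mem_flatMap] at hy'
    obtain ⟨x, hx, hyx⟩ := hy'
    have e1 := h2 a (by simp) y hy
    have e2 := h2 x (by simp [hx]) y hyx
    exact hl.1 (by rw [hR _ _ _ e1 e2]; exact hx)

theorem nodup_zip {α β : Type*} {l : List α} (l' : List β) (h : l.Nodup) : (l.zip l').Nodup := by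
  induction l generalizing l' with
  | nil => simp
  | cons a l ih =>
    cases l' with
    | nil => simp
    | cons b l' =>
      rw [List.nodup_cons] at h
      rw [List.zip_cons_cons, List.nodup_cons]
      exact ⟨fun hm => h.1 (List.of_mem_zip hm).1, ih l' h.2⟩

theorem nodup_app {α : Type*} {l l' : List α} (f : α → ℕ) (k : ℕ) (h : l.Nodup) (h' : l'.Nodup)
    (hl : ∀ a ∈ l, f a ≤ k) (hl' : ∀ a ∈ l', k < f a) : (l ++ l').Nodup := by
  rw [List.nodup_append']
  refine ⟨h, h', fun a ha ha' => ?_⟩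
  have := hl a ha
  have := hl' a ha'
  omega

end BaseNodup

open BaseNodup EncS2

section

variable {O X : Type} [DecidableEq O] [DecidableEq X] (I : XI O X)

theorem occ_nodup (hI : I.OK) (x : X) : (I.occ x).Nodup := by
  refine nodup_flatMap_key Prod.fst hI.objs_nodup ?_ ?_
  · intro u _
    refine (List.nodup_range.filter _).map ?_
    intro a b hab
    simpa using hab
  · intro u _ c hc
    obtain ⟨i, _, rfl⟩ := List.mem_map.1 hc
    rfl

/-- number of the list in which an edge occurs -/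
def esTag : CB O X × CB O X → ℕ
  | (.inl _, .inl (_, _, 0)) => 1
  | (.inl _, .inl (_, _, _ + 1)) => 2
  | (.inl _, .inr _) => 3
  | (.inr (.inl _), .inr (.inl _)) => 4
  | (.inr (.inl _), _) => 5
  | (.inr (.inr (.inl _)), _) => 6
  | (.inr (.inr (.inr _)), _) => 7

theorem baseS_es_nodup (hI : I.OK) : (baseS I).es.Nodup := by
  change (((((((I.objs.flatMap fun u => (List.range ((I.ports u).length - 1)).map fun i =>
      ((Sum.inl (u, i, 0), Sum.inl (u, i + 1, 0)) : CB O X × CB O X)) ++
    (I.objs.flatMap fun u => (List.range (I.ports u).length).flatMap fun i =>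
      (List.range ((I.ports u).length - 1)).map fun l => (Sum.inl (u, i, l), Sum.inl (u, i, l + 1)))) ++
    (I.objs.flatMap fun u => (List.range (I.ports u).length).map fun i =>
      (Sum.inl (u, i, (I.ports u).length - 1), Sum.inr (Sum.inl (u, i))))) ++
    (I.vl.flatMap fun x => ((I.occ x).zip (I.occ x).tail).map fun (o : (O × ℕ) × (O × ℕ)) =>
      (Sum.inr (Sum.inl o.1), Sum.inr (Sum.inl o.2)))) ++
    (I.vl.flatMap fun x => ((I.occ x).take 1).map fun (o : O × ℕ) =>
      (Sum.inr (Sum.inl o), Sum.inr (Sum.inr (Sum.inl x))))) ++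
    (I.vl.map fun x => (Sum.inr (Sum.inr (Sum.inl x)), Sum.inr (Sum.inr (Sum.inr x))))) ++
    ((I.vl.zip I.vl.tail).map fun (p : X × X) =>
      (Sum.inr (Sum.inr (Sum.inr p.1)), Sum.inr (Sum.inr (Sum.inr p.2))))).Nodup
  have t1 : ∀ e ∈ (I.objs.flatMap fun u => (List.range ((I.ports u).length - 1)).map fun i =>
      ((Sum.inl (u, i, 0), Sum.inl (u, i + 1, 0)) : CB O X × CB O X)), esTag e = 1 := by
    intro e he
    obtain ⟨u, _, he⟩ := List.mem_flatMap.1 he
    obtain ⟨i, _, rfl⟩ := List.mem_map.1 he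
    rfl
  have t2 : ∀ e ∈ (I.objs.flatMap fun u => (List.range (I.ports u).length).flatMap fun i =>
      (List.range ((I.ports u).length - 1)).map fun l =>
        ((Sum.inl (u, i, l), Sum.inl (u, i, l + 1)) : CB O X × CB O X)), esTag e = 2 := by
    intro e he
    obtain ⟨u, _, he⟩ := List.mem_flatMap.1 he
    obtain ⟨i, _, he⟩ := List.mem_flatMap.1 he
    obtain ⟨l, _, rfl⟩ := List.mem_map.1 he
    rfl
  have t3 : ∀ e ∈ (I.objs.flatMap fun u => (List.range (I.ports u).length).map fun i =>
      ((Sum.inl (u, i, (I.ports u).length - 1), Sum.inr (Sum.inl (u, i))) : CB O X × CB O X)),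
      esTag e = 3 := by
    intro e he
    obtain ⟨u, _, he⟩ := List.mem_flatMap.1 he
    obtain ⟨i, _, rfl⟩ := List.mem_map.1 he
    rfl
  have t4 : ∀ e ∈ (I.vl.flatMap fun x => ((I.occ x).zip (I.occ x).tail).map fun o =>
      ((Sum.inr (Sum.inl o.1), Sum.inr (Sum.inl o.2)) : CB O X × CB O X)), esTag e = 4 := by
    intro e he
    obtain ⟨x, _, he⟩ := List.mem_flatMap.1 he
    obtain ⟨o, _, rfl⟩ := List.mem_map.1 he
    rfl
  have t5 : ∀ e ∈ (I.vl.flatMap fun x => ((I.occ x).take 1).map fun o =>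
      ((Sum.inr (Sum.inl o), Sum.inr (Sum.inr (Sum.inl x))) : CB O X × CB O X)), esTag e = 5 := by
    intro e he
    obtain ⟨x, _, he⟩ := List.mem_flatMap.1 he
    obtain ⟨o, _, rfl⟩ := List.mem_map.1 he
    rfl
  have t6 : ∀ e ∈ (I.vl.map fun x => ((Sum.inr (Sum.inr (Sum.inl x)),
      Sum.inr (Sum.inr (Sum.inr x))) : CB O X × CB O X)), esTag e = 6 := by
    intro e he
    obtain ⟨x, _, rfl⟩ := List.mem_map.1 he
    rfl
  have t7 : ∀ e ∈ ((I.vl.zip I.vl.tail).map fun p =>
      ((Sum.inr (Sum.inr (Sum.inr p.1)), Sum.inr (Sum.inr (Sum.inr p.2))) : CB O X × CB O X)),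
      esTag e = 7 := by
    intro e he
    obtain ⟨x, _, rfl⟩ := List.mem_map.1 he
    rfl
  obtain ⟨u0, _⟩ : ∃ u0, u0 ∈ I.objs := List.exists_mem_of_ne_nil _ hI.objs_ne
  have n1 : (I.objs.flatMap fun u => (List.range ((I.ports u).length - 1)).map fun i =>
      ((Sum.inl (u, i, 0), Sum.inl (u, i + 1, 0)) : CB O X × CB O X)).Nodup := by
    refine nodup_flatMap_key (fun c => Sum.elim (fun p => p.1) (fun _ => u0) c.1)
      hI.objs_nodup ?_ ?_
    · intro u _
      refine List.nodup_range.map ?_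
      intro a b hab
      simpa using hab
    · intro u _ c hc
      obtain ⟨i, _, rfl⟩ := List.mem_map.1 hc
      rfl
  have n2 : (I.objs.flatMap fun u => (List.range (I.ports u).length).flatMap fun i =>
      (List.range ((I.ports u).length - 1)).map fun l =>
        ((Sum.inl (u, i, l), Sum.inl (u, i, l + 1)) : CB O X × CB O X)).Nodup := by
    refine nodup_flatMap_key (fun c => Sum.elim (fun p => p.1) (fun _ => u0) c.1)
      hI.objs_nodup ?_ ?_
    · intro u _
      refine nodup_flatMap_key (fun c => Sum.elim (fun p => p.2.1) (fun _ => 0) c.1)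
        List.nodup_range ?_ ?_
      · intro i _
        refine List.nodup_range.map ?_
        intro a b hab
        simpa using hab
      · intro i _ c hc
        obtain ⟨l, _, rfl⟩ := List.mem_map.1 hc
        rfl
    · intro u _ c hc
      obtain ⟨i, _, hc⟩ := List.mem_flatMap.1 hc
      obtain ⟨l, _, rfl⟩ := List.mem_map.1 hc
      rfl
  have n3 : (I.objs.flatMap fun u => (List.range (I.ports u).length).map fun i =>
      ((Sum.inl (u, i, (I.ports u).length - 1), Sum.inr (Sum.inl (u, i))) :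
        CB O X × CB O X)).Nodup := by
    refine nodup_flatMap_key (fun c => Sum.elim (fun p => p.1) (fun _ => u0) c.1)
      hI.objs_nodup ?_ ?_
    · intro u _
      refine List.nodup_range.map ?_
      intro a b hab
      simpa using hab
    · intro u _ c hc
      obtain ⟨i, _, rfl⟩ := List.mem_map.1 hc
      rfl
  have n4 : (I.vl.flatMap fun x => ((I.occ x).zip (I.occ x).tail).map fun o =>
      ((Sum.inr (Sum.inl o.1), Sum.inr (Sum.inl o.2)) : CB O X × CB O X)).Nodup := by
    refine nodup_flatMap_rel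
      (fun c x => ∃ o : O × ℕ, c.1 = Sum.inr (Sum.inl o) ∧ (I.ports o.1)[o.2]? = some x) ?_
      hI.vl_nodup ?_ ?_
    · rintro c x y ⟨o, h1, h2⟩ ⟨o', h3, h4⟩
      rw [h1] at h3
      simp only [Sum.inr.injEq, Sum.inl.injEq] at h3
      subst h3
      rw [h2] at h4
      simpa using h4
    · intro x _
      refine (nodup_zip _ (occ_nodup I hI x)).map ?_
      intro a b hab
      simp only [Prod.mk.injEq, Sum.inr.injEq, Sum.inl.injEq] at hab
      exact Prod.ext hab.1 hab.2
    · intro x _ c hc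
      obtain ⟨o, ho, rfl⟩ := List.mem_map.1 hc
      exact ⟨o.1, rfl, ((mem_occ I).1 (List.of_mem_zip ho).1).2⟩
  have n5 : (I.vl.flatMap fun x => ((I.occ x).take 1).map fun o =>
      ((Sum.inr (Sum.inl o), Sum.inr (Sum.inr (Sum.inl x))) : CB O X × CB O X)).Nodup := by
    refine nodup_flatMap_rel
      (fun c x => ∃ o : O × ℕ, c.1 = Sum.inr (Sum.inl o) ∧ (I.ports o.1)[o.2]? = some x) ?_
      hI.vl_nodup ?_ ?_
    · rintro c x y ⟨o, h1, h2⟩ ⟨o', h3, h4⟩
      rw [h1] at h3
      simp only [Sum.inr.injEq, Sum.inl.injEq] at h3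
      subst h3
      rw [h2] at h4
      simpa using h4
    · intro x _
      refine ((occ_nodup I hI x).sublist (List.take_sublist _ _)).map ?_
      intro a b hab
      simpa using hab
    · intro x _ c hc
      obtain ⟨o, ho, rfl⟩ := List.mem_map.1 hc
      exact ⟨o, rfl, ((mem_occ I).1 (List.mem_of_mem_take ho)).2⟩
  have n6 : (I.vl.map fun x => ((Sum.inr (Sum.inr (Sum.inl x)),
      Sum.inr (Sum.inr (Sum.inr x))) : CB O X × CB O X)).Nodup := by
    refine hI.vl_nodup.map ?_
    intro a b hab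
    simpa using hab
  have n7 : ((I.vl.zip I.vl.tail).map fun p =>
      ((Sum.inr (Sum.inr (Sum.inr p.1)), Sum.inr (Sum.inr (Sum.inr p.2))) :
        CB O X × CB O X)).Nodup := by
    refine (nodup_zip _ hI.vl_nodup).map ?_
    intro a b hab
    simp only [Prod.mk.injEq, Sum.inr.injEq] at hab
    exact Prod.ext hab.1 hab.2
  have s2 := nodup_app esTag 1 n1 n2 (fun a ha => (t1 a ha).le) (fun a ha => by rw [t2 a ha]; omega)
  have b2 : ∀ a ∈ _, esTag a ≤ 2 := fun a ha =>
    (List.mem_append.1 ha).elim (fun h => by rw [t1 a h]; omega) (fun h => (t2 a h).le)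
  have s3 := nodup_app esTag 2 s2 n3 b2 (fun a ha => by rw [t3 a ha]; omega)
  have b3 : ∀ a ∈ _, esTag a ≤ 3 := fun a ha =>
    (List.mem_append.1 ha).elim (fun h => (b2 a h).trans (by omega)) (fun h => (t3 a h).le)
  have s4 := nodup_app esTag 3 s3 n4 b3 (fun a ha => by rw [t4 a ha]; omega)
  have b4 : ∀ a ∈ _, esTag a ≤ 4 := fun a ha =>
    (List.mem_append.1 ha).elim (fun h => (b3 a h).trans (by omega)) (fun h => (t4 a h).le)
  have s5 := nodup_app esTag 4 s4 n5 b4 (fun a ha => by rw [t5 a ha]; omega)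
  have b5 : ∀ a ∈ _, esTag a ≤ 5 := fun a ha =>
    (List.mem_append.1 ha).elim (fun h => (b4 a h).trans (by omega)) (fun h => (t5 a h).le)
  have s6 := nodup_app esTag 5 s5 n6 b5 (fun a ha => by rw [t6 a ha]; omega)
  have b6 : ∀ a ∈ _, esTag a ≤ 6 := fun a ha =>
    (List.mem_append.1 ha).elim (fun h => (b5 a h).trans (by omega)) (fun h => (t6 a h).le)
  exact nodup_app esTag 6 s6 n7 b6 (fun a ha => by rw [t7 a ha]; omega)

end

end Crest.Agent.R290
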