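import Crest.Agent.R290.Defs

/-!
# Row 290: every class of `baseS I` lies on two edges
-/

set_option autoImplicit false
set_option linter.unusedSectionVars false

namespace Crest.Agent.R290

namespace BaseTwo

variable {α : Type}

theorem first_or_prev {l : List α} {a : α} (h : a ∈ l) :
    a ∈ l.take 1 ∨ ∃ a', (a', a) ∈ l.zip l.tail := by
  induction l with
  | nil => simp at h
  | cons b l ih =>
    rcases List.mem_cons.mp h with rfl | h
    · left; simp
    · right
      rcases ih h with h1 | ⟨a', h1⟩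
      · cases l with
        | nil => simp at h
        | cons c l =>
          simp at h1
          subst h1
          exact ⟨b, by simp⟩
      · cases l with
        | nil => simp at h
        | cons c l =>
          refine ⟨a', ?_⟩
          simp only [List.tail_cons] at h1 ⊢
          rw [List.zip_cons_cons]
          exact List.mem_cons_of_mem _ h1

theorem next_or_prev {l : List α} {a : α} (h : a ∈ l) (h2 : 2 ≤ l.length) :
    (∃ b, (a, b) ∈ l.zip l.tail) ∨ ∃ b, (b, a) ∈ l.zip l.tail := by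
  rcases first_or_prev h with h1 | h1
  · left
    match l, h1, h2 with
    | b :: c :: l, h1, _ =>
      simp at h1
      subst h1
      exact ⟨c, by simp⟩
  · exact Or.inr h1

variable {O X : Type} [DecidableEq O] [DecidableEq X] (I : XI O X)

theorem mE1 {u : O} (hu : u ∈ I.objs) {i : ℕ} (hi : i + 1 < (I.ports u).length) :
    ((Sum.inl (u, i, 0), Sum.inl (u, i + 1, 0)) : CB O X × CB O X) ∈ (baseS I).es := by
  simp only [baseS, List.mem_append]
  left; left; left; left; left; left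
  exact List.mem_flatMap.mpr ⟨u, hu, List.mem_map.mpr ⟨i, List.mem_range.mpr (by omega), rfl⟩⟩

theorem mE2 {u : O} (hu : u ∈ I.objs) {i l : ℕ} (hi : i < (I.ports u).length)
    (hl : l + 1 < (I.ports u).length) :
    ((Sum.inl (u, i, l), Sum.inl (u, i, l + 1)) : CB O X × CB O X) ∈ (baseS I).es := by
  simp only [baseS, List.mem_append]
  left; left; left; left; left; right
  exact List.mem_flatMap.mpr ⟨u, hu, List.mem_flatMap.mpr ⟨i, List.mem_range.mpr hi,
    List.mem_map.mpr ⟨l, List.mem_range.mpr (by omega), rfl⟩⟩⟩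

theorem mE3 {u : O} (hu : u ∈ I.objs) {i : ℕ} (hi : i < (I.ports u).length) :
    ((Sum.inl (u, i, (I.ports u).length - 1), Sum.inr (Sum.inl (u, i))) : CB O X × CB O X) ∈
      (baseS I).es := by
  simp only [baseS, List.mem_append]
  left; left; left; left; right
  exact List.mem_flatMap.mpr ⟨u, hu, List.mem_map.mpr ⟨i, List.mem_range.mpr hi, rfl⟩⟩

theorem mE4 {x : X} (hx : x ∈ I.vl) {o o' : O × ℕ} (h : (o, o') ∈ (I.occ x).zip (I.occ x).tail) :
    ((Sum.inr (Sum.inl o), Sum.inr (Sum.inl o')) : CB O X × CB O X) ∈ (baseS I).es := by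
  simp only [baseS, List.mem_append]
  left; left; left; right
  exact List.mem_flatMap.mpr ⟨x, hx, List.mem_map.mpr ⟨(o, o'), h, rfl⟩⟩

theorem mE5 {x : X} (hx : x ∈ I.vl) {o : O × ℕ} (h : o ∈ (I.occ x).take 1) :
    ((Sum.inr (Sum.inl o), Sum.inr (Sum.inr (Sum.inl x))) : CB O X × CB O X) ∈ (baseS I).es := by
  simp only [baseS, List.mem_append]
  left; left; right
  exact List.mem_flatMap.mpr ⟨x, hx, List.mem_map.mpr ⟨o, h, rfl⟩⟩

theorem mE6 {x : X} (hx : x ∈ I.vl) :
    ((Sum.inr (Sum.inr (Sum.inl x)), Sum.inr (Sum.inr (Sum.inr x))) : CB O X × CB O X) ∈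
      (baseS I).es := by
  simp only [baseS, List.mem_append]
  left; right
  exact List.mem_map.mpr ⟨x, hx, rfl⟩

theorem mE7 {x y : X} (h : (x, y) ∈ I.vl.zip I.vl.tail) :
    ((Sum.inr (Sum.inr (Sum.inr x)), Sum.inr (Sum.inr (Sum.inr y))) : CB O X × CB O X) ∈
      (baseS I).es := by
  simp only [baseS, List.mem_append]
  right
  exact List.mem_map.mpr ⟨(x, y), h, rfl⟩

theorem mem_occ {x : X} {u : O} {i : ℕ} :
    (u, i) ∈ I.occ x ↔ u ∈ I.objs ∧ (I.ports u)[i]? = some x := by
  simp only [XI.occ, List.mem_flatMap, List.mem_map, List.mem_filter, List.mem_range,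
    decide_eq_true_eq, Prod.mk.injEq]
  constructor
  · rintro ⟨v, hv, j, ⟨_, h⟩, rfl, rfl⟩
    exact ⟨hv, h⟩
  · rintro ⟨hu, h⟩
    refine ⟨u, hu, i, ⟨?_, h⟩, rfl, rfl⟩
    by_contra hcon
    rw [List.getElem?_eq_none (by omega)] at h
    cases h

end BaseTwo

open BaseTwo in
theorem baseS_two {O X : Type} [DecidableEq O] [DecidableEq X] (I : XI O X) (hI : I.OK) :
    ∀ c ∈ (baseS I).cls, ∃ (e e' : CB O X × CB O X), e ≠ e' ∧ e ∈ (baseS I).es ∧
      e' ∈ (baseS I).es ∧ (e.1 = c ∨ e.2 = c) ∧ (e'.1 = c ∨ e'.2 = c) := by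
  intro c hc
  simp only [baseS, List.mem_append] at hc
  rcases hc with ((hc | hc) | hc) | hc
  · -- object classes
    simp only [List.mem_flatMap, List.mem_map, List.mem_range] at hc
    obtain ⟨u, hu, i, hi, l, hl, rfl⟩ := hc
    have h2 := hI.two_le u hu
    rcases Nat.eq_zero_or_pos l with rfl | hl0
    · by_cases h : i + 1 < (I.ports u).length
      · refine ⟨_, _, ?_, mE2 I hu hi (l := 0) (by omega), mE1 I hu h, Or.inl rfl, Or.inl rfl⟩
        simp
      · obtain ⟨j, rfl⟩ : ∃ j, i = j + 1 := ⟨i - 1, by omega⟩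
        refine ⟨_, _, ?_, mE2 I hu hi (l := 0) (by omega), mE1 I hu (i := j) hi, Or.inl rfl,
          Or.inr rfl⟩
        simp
    · obtain ⟨k, rfl⟩ : ∃ k, l = k + 1 := ⟨l - 1, by omega⟩
      by_cases h : k + 1 + 1 < (I.ports u).length
      · refine ⟨_, _, ?_, mE2 I hu hi (l := k) hl, mE2 I hu hi (l := k + 1) h, Or.inr rfl,
          Or.inl rfl⟩
        simp
      · have e : (I.ports u).length - 1 = k + 1 := by omega
        refine ⟨_, _, ?_, mE2 I hu hi (l := k) hl, mE3 I hu hi, Or.inr rfl, Or.inl ?_⟩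
        · simp
        · simp [e]
  · -- chain classes
    simp only [List.mem_flatMap, List.mem_map, List.mem_range] at hc
    obtain ⟨u, hu, i, hi, rfl⟩ := hc
    have hx : (I.ports u)[i]? = some (I.ports u)[i] := List.getElem?_eq_getElem hi
    have hocc : (u, i) ∈ I.occ (I.ports u)[i] := (mem_occ I).mpr ⟨hu, hx⟩
    have hvl : (I.ports u)[i] ∈ I.vl := (hI.mem_vl _).mpr ⟨u, hu, List.getElem_mem hi⟩
    rcases first_or_prev hocc with h | ⟨o, h⟩
    · refine ⟨_, _, ?_, mE3 I hu hi, mE5 I hvl h, Or.inr rfl, Or.inl rfl⟩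
      simp
    · refine ⟨_, _, ?_, mE3 I hu hi, mE4 I hvl h, Or.inr rfl, Or.inr rfl⟩
      simp
  · -- joins
    simp only [List.mem_map] at hc
    obtain ⟨x, hx, rfl⟩ := hc
    obtain ⟨u, hu, hxu⟩ := (hI.mem_vl x).mp hx
    obtain ⟨i, hi, hix⟩ := List.getElem_of_mem hxu
    have hocc : (u, i) ∈ I.occ x := (mem_occ I).mpr ⟨hu, by rw [List.getElem?_eq_getElem hi, hix]⟩
    obtain ⟨o, ho⟩ : ∃ o, o ∈ (I.occ x).take 1 := by
      cases hl : I.occ x with
      | nil => rw [hl] at hocc; simp at hocc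
      | cons a l => exact ⟨a, by simp⟩
    refine ⟨_, _, ?_, mE5 I hx ho, mE6 I hx, Or.inr rfl, Or.inl rfl⟩
    simp
  · -- bus
    simp only [List.mem_map] at hc
    obtain ⟨x, hx, rfl⟩ := hc
    obtain ⟨u, hu, hxu⟩ := (hI.mem_vl x).mp hx
    have h2 := hI.two_le u hu
    have hlen : 2 ≤ I.vl.length := by
      have hnd := hI.ports_nodup u hu
      have hsub : I.ports u ⊆ I.vl := fun y hy => (hI.mem_vl y).mpr ⟨u, hu, hy⟩
      have := (hnd.subperm hsub).length_le
      omega
    rcases next_or_prev hx hlen with ⟨y, h⟩ | ⟨y, h⟩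
    · refine ⟨_, _, ?_, mE6 I hx, mE7 I h, Or.inr rfl, Or.inl rfl⟩
      simp
    · refine ⟨_, _, ?_, mE6 I hx, mE7 I h, Or.inr rfl, Or.inr rfl⟩
      simp

end Crest.Agent.R290
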