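/-!
# Row 290 (S0435, S0436, S0437, S0438, S0439): BLUEPRINT (helper432, captain)

All five statements follow from the modules below.  S0438 is independent of everything else
(paper proof by helper290 / helper640, see `triage` of rid 290) and is module Z.

Everything (S0435, S0436, S0437, S0439) uses ONE family of instances
  N(p,B,m)     p = flat Bool-stack program started on empty stacks, B ≥ 2 = number base,
               m ≥ 2 = number of rows = number of pebbles - 1.
with two agreement-graph encodings  encA (anchors; diameter ≤ 2)  and  encS (subcubic), and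
  (ACC) p halts after ≤ B^(m-1)-1 steps  ⟹  G_0 ≢ G_1 for JEquiv m and for SEquiv (m+1) (both encodings),
                                         and encA G_0 is identified by JEquiv m;
  (REJ) p never halts ⟹ G_0 ≡ G_1 for JEquiv m and SEquiv (m+1) (both encodings), G_0 ≇ G_1.

## 0. Pebble systems  (module WL)
`PSys A B K R` for adjacency functions A : V → V → Bool, B : W → W → Bool and R : Finset (V × W) → Prop:
 R ∅; R monotone (downward closed); if R P, pairs (v,w),(v',w') ∈ P satisfy v=v' ↔ w=w', A v v' = B w w';
 R P, |P| < K ⟹ ∃ f : V ≃ W, ∀ z, R (insert (z, f z) P).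
`PEquiv K A B := ∃ R, PSys A B K R`.
 * JEquiv k ↔ PEquiv (k+1) (k ≥ 2);  SEquiv k ↔ PEquiv k (k ≥ 2);  PEquiv antitone in K;
   PEquiv 3 → CREquiv; AdjIso → PEquiv K; transport along equivalences; PEquiv K trans.
 * preserved relations: `Pres P Q` (P : V→V→Prop, Q : W→W→Prop) : R S → (v,w),(v',w') ∈ S → (P v v' ↔ Q w w').
   Closed under =, adjacency, ¬, ∧, swap and counting composition #{z | P v z ∧ P' z v'} = t (K ≥ 3).

## 1. Agreement graphs (module AG)
classes c, `vars c : List X` (nodup), constrained or not (parity b c), symmetric relation E on classes.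
Vertices (c,α), α : assignment of Bool to vars c (parity b c if constrained); (c,α) ~ (c',α') iff E c c' and
α, α' agree on common variables.  G_b.  The *objects* O are constrained classes with ports u = vars u, and
every class c has a dominating object dom c with vars c ⊆ ports (dom c).
Duplicator theorem: a K-shift system 𝒮 (𝒮 P s, P : Finset O, |P| ≤ K, s : X → Bool) with
 (valid) u ∈ P → Σ_{ports u} s = b u; (mono); (empty) ∃ s, 𝒮 ∅ s;
 (ext) 𝒮 P s, |P| < K, u object → ∃ s', 𝒮 (insert u P) s' ∧ s' = s on all ports of all objects of P
gives PEquiv K G_0 G_b  (R S :⟺ ∃ s, 𝒮 (objects dominating the pebbled classes) s and w = v shifted by s).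

## 2. The network  (module Net)
Hubs h, gadgets g; letters in a type Λ, base letter o.  Gadget g: finite letter sets A g j (0 ≤ j ≤ m), A g 0 = A g m = {o};
an ODD number n_g of arms; arm a has a hub hub(g,a) and a projection π_{g,a} : Λ → Λ (π o = o).
Columns of g: centre (position 0) and (a,p), 1 ≤ p ≤ L, L = m+2.  Edges: int(g,a,p) joins positions p-1 and p of arm a;
the hub edge hub(h) is attached to column (a,L) of every arm with hub(g,a)=h.
E(κ) = edges of column κ: centre: int(g,a,1) for all a; (a,p): int(g,a,p) and (int(g,a,p+1) or, p=L, hub(hub(g,a))).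
Objects (κ,i,x,y), i < m, x ∈ A g i, y ∈ A g (i+1).  Ports: Y(e,i,ψx,ψy) for e ∈ E(κ) (ψ = id, at a hub edge ψ = π_{g,a}),
U(κ,i,x) if i ≥ 1, U(κ,i+1,y) if i+1 ≤ m-1.
Parities: G_0: all 0.  G_β: parity β_g at the objects (centre of g, bottom row i = m-1), 0 elsewhere.
Only one gadget g_t (one arm, hub tgt) has β = 1.

### 2.1 (D) Duplicator: closed facts ⟹ shift system with K = m+1.
Facts (h,z), z : register ↦ letter.  𝒦 = set of known facts, val : 𝒦 → Bool.  CLOSED: for every gadget g and every content
x ∈ Π_j A g j: the number of arms a with (hub(g,a), π_a x) ∉ 𝒦 is ≠ 1, and if all arms are known Σ_a val = β_g.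
Potentials: V e j λ (edge e, register 0..m, letter), V e 0 = 0, V e m = ε e (independent of the letter).
 s_V(Y(e,i,x,y)) = V e i x + V e (i+1) y;   s_V(U(κ,j,x)) = Σ_{e∈E(κ)} V e j (ψ_e x).
 Parity of s_V at (κ,i,x,y): 0 if i < m-1, Σ_{e∈E(κ)} ε e if i = m-1.
Section: σ = (p_0,…,p_{m-1}), p_i an object of row i, such that p_{j-1}, p_j share a node: ∃ e ∈ E(κ_{j-1}) ∩ E(κ_j),
 ψ_e(y_{j-1}) = ψ_e(x_j).
 If no p_i is at a centre: all columns are arm columns of arms attached to the same hub h and the projected letters give one
 content z of h (type H, sees (h,z)).  If some p_i is at the centre of g: all p_i are in g at positions ≤ m-1 and the letters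
 give one x ∈ Π A g j (type C, sees (hub(g,a), π_a x) at the edges of arm a, for every arm a).
𝒮 P s :⟺ ∃ V, s = s_V on the ports of P [and everywhere, i.e. s = s_V], and
 (G1) Σ_{e∈E(κ)} ε e = β_κ for every pebbled column κ ∈ Cols(P);
 (G2) for every section σ ⊆ P and every edge e of a column of σ: if the fact seen by σ at e is known, ε e = val.
Extension |P| ≤ m, u new; P' = P ∪ {u}.
 (B) If P contains no section, any ε' with (G1) on Cols(P) can be reached from ε keeping all ports of P: η = ε'-ε;
   some row r empty in P: w e j = 0 for j ≤ r, η e for j > r;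
   otherwise exactly one pebble per row and a break between rows j-1, j: w e i = 0 (i<j), η e (i>j), and at register j: η e at
   the nodes (e,j,λ) touched by p_j, 0 elsewhere.
   If P is a section: any ε' with ε' = ε on all edges of all columns of P (take w e j = 0 for j < m).
 (X) so it remains to find ε' satisfying (G1),(G2) for P', with ε' = ε on edges touched by P when P is a section:
   (i) P' has no section: ε' = 0, except if the centre of g_t is pebbled: 1 on int(g_t,0,p), p ≤ t, t = first unpebbled column.
   (ii) P' has sections, all of type H; they all see the same (h,z). v := value of ε on touched edges if P is a section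
     (constant along the section by (G1)), else val(h,z) if known, else 0.  ε' = v on hub(h) and all int(g,a,p) with hub(g,a)=h,
     0 elsewhere; if a centre of g' is pebbled and (G1) fails there: flip int(g',a*,1) for an arm a* whose column 1 is not pebbled.
     (a* exists if n_{g'} ≥ 3: a section without centre cannot touch column 1 of two arms, L > m.  If n_{g'} = 1 and column 1 is
      pebbled by the section: content x ∈ Π A g' j, fact known with value β_{g'} by closure, so (G1) holds.)
   (iii) P' has a section of type C at g with content x: choose v_a (a arm of g): Σ v_a = β_g, v_a = val if known, and v_a = ε on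
     touched edges of arm a if P is a section (closure gives existence: if an unknown arm exists there are ≥ 2 of them).
     ε' = v_a on int(g,a,p) for p ≤ t_a, 0 elsewhere, t_a = m if column (a,m) is not pebbled else m+1 (then (a,m+1) is not
     pebbled); if the centre of g_t ≠ g is pebbled (it is the extra pebble) put 1 on int(g_t,0,1).

### 2.2 (Sp) Spoiler.  Inc(K): pebble system between incidence structures (objects (u,α), variables (x,ε)), classes preserved.
Derived(e,x,f) (e edge, x content, f : Bool): for every S with R S containing m pairs ((Y(e,i,x_i,x_{i+1}),ε_i),(same,ε'_i)),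
 Σ_i (ε_i+ε'_i) = f.   K = m+1.
 Step: column κ, content x: Derived at all e' ≠ e of E(κ) ⟹ Derived(e,x, Σ f_{e'} + Σ_i b(κ,i,x_i,x_{i+1})).
 (replace the variable pebbles one by one by object pebbles (κ,i,x_i,x_{i+1}) [m+1-st pebble], parity sum, U's cancel; then
  replace the object pebbles one by one by the Y(e',i,..) variable pebbles.)
 Existence: for every e,x there is such an S; so f is unique.
 Horn rule B_1,…,B_r → H = gadget with 2r+1 arms: every premise twice, head once:  premises derived ⟹ head derived.
 Twisted gadget (1 arm): tgt derived with value 1.  acc → tgt (3 arms): tgt derived with value 0.  Contradiction.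

### 2.3 Identification (accept case) with unlocking rules acc → h(z) for all hubs h, all z:
 H' ≡ encA G_0 ⟹ H' ≅ encA G_b for some parities b ⟹ b is a coboundary ⟹ H' ≅ encA G_0:
 Y(hub h,i,z,z') := Σ_{κ column of the unlocking gadget of h} b(κ,i,(t*_i,z),(t*_{i+1},z')); Y on int edges: propagate from the hub
 inward with U = 0; at centres the defect d_i(x,y) has Σ_i d_i(x_i,x_{i+1}) = 0 for all x (by (Sp)), hence d = coboundary of U.
 Not isomorphic: a global solution s for β would give F_tgt = 1 (twisted gadget) and F_tgt = 2 F_acc = 0.

## 3. Program level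
Rule schema: premises List (hub × sel × sel), head, sel ∈ {T,T',S,S',Z}; content (t,t',s,s') with t' = t+1; numbers < B^(m-1) in
 base B, register j carries digit j-1.  Schema with T' : one gadget for each position f of the increment
 (digits below f: (B-1,0); at f: (d,d+1); above: (d,d)); so all letter sets are finite explicit lists and contents are FULL products.
Flat program instructions: push k b j | pop k e t f (branch on empty/true/false, popping) ; pc ≥ length = halted.
Facts: St_i(t), Top_k(t,s) (s = creation time of the top cell, 0 = empty), Sym_b(s), Nxt(s,s'), tgt.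
 init: St_0(0), Top_k(0,0).
 push k b j at i: St_j(t+1) ← St_i(t);  Top_k(t+1,t+1) ← St_i(t);  Nxt(t+1,s) ← St_i(t),Top_k(t,s);  Sym_b(t+1) ← St_i(t);
   Top_k'(t+1,s) ← St_i(t),Top_k'(t,s) (k' ≠ k).
 pop k e j1 j0 at i: St_e(t+1) ← St_i(t),Top_k(t,0); Top_k(t+1,0) ← St_i(t),Top_k(t,0);
   St_{j_b}(t+1) ← St_i(t),Top_k(t,s),Sym_b(s);  Top_k(t+1,s') ← St_i(t),Top_k(t,s),Nxt(s,s');  other stacks as above.
 halted pc h: St_h(t) → tgt, St_h(t) → every hub (s,s').

## 4. Machines: PT library (`PTF`, `fun_prop`) for the generator; Cmd → flat program; TM2 → table machine, interpreter in PTF;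
RAM interpreter in PTF; loop of a PT function = halting flat program.
S0436: A ∈ EXP, x ↦ p_x = pushes(table,x) ++ U where U loops the interpreter and halts iff the machine outputs false; B = 2, m = poly.
S0437: same with "outputs true", one graph encA G_0.
S0435/S0439: w0 = ⟨code of U, e_M, n, 1^ν, …⟩, U: compute R(w0) = pair with exactly n vertices for p = pushes(w0) ++ U, B = ν,
 run M, halt iff output true: contradiction with correctness of M at n if M.time < n^(ck).
EXP membership: brute force in PTF on input padded to length 2^(|x|^c).
-/
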