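import Crest.Agent.R290.AGBridge

/-!
# Row 290: the anchor encoding, part 1 (simple, connected, diameter two, order, Duplicator side,
isomorphism from a solution).
-/

set_option autoImplicit false

namespace Crest.Agent.R290

open Crest.WLRefine
open Crest.Agent.R290.WL (PEquiv PSys Pres)

section enca
variable {O X : Type} [DecidableEq O] [DecidableEq X]

omit [DecidableEq O] [DecidableEq X] in
theorem XI.mem_base {I : XI O X} {c : O ⊕ X} :
    c ∈ I.base ↔ (∃ u ∈ I.objs, Sum.inl u = c) ∨ (∃ x ∈ I.vl, Sum.inr x = c) := by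
  simp [XI.base]

omit [DecidableEq O] [DecidableEq X] in
theorem XI.base_nodup {I : XI O X} (hI : I.OK) : I.base.Nodup := by
  unfold XI.base
  refine List.Nodup.append (hI.objs_nodup.map Sum.inl_injective) (hI.vl_nodup.map Sum.inr_injective) ?_
  intro c h1 h2
  simp only [List.mem_map] at h1 h2
  obtain ⟨u, _, rfl⟩ := h1
  obtain ⟨x, _, h⟩ := h2
  cases h

theorem encA_mem_cls {I : XI O X} {D : ℕ} {c : CA O X} :
    c ∈ (encA I D).cls ↔ (∃ a ∈ I.base, Sum.inl a = c) ∨
      (∃ i < I.base.length + 1, Sum.inr (Sum.inl i) = c) ∨ (∃ i < D, Sum.inr (Sum.inr i) = c) := by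
  simp only [encA, List.mem_append, List.mem_map, List.mem_range, or_assoc]

theorem encA_cls_nodup {I : XI O X} (hI : I.OK) (D : ℕ) : (encA I D).cls.Nodup := by
  unfold encA
  refine List.Nodup.append (List.Nodup.append ((XI.base_nodup hI).map Sum.inl_injective)
    (List.nodup_range.map ?_) ?_) (List.nodup_range.map ?_) ?_
  · intro i j h
    simpa using h
  · intro c h1 h2
    simp only [List.mem_map] at h1 h2
    obtain ⟨u, _, rfl⟩ := h1
    obtain ⟨x, _, h⟩ := h2
    cases h
  · intro i j h
    simpa using h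
  · intro c h1 h2
    simp only [List.mem_map, List.mem_append] at h1 h2
    obtain ⟨x, _, h⟩ := h2
    rcases h1 with ⟨u, _, rfl⟩ | ⟨u, _, rfl⟩ <;> cases h

theorem XI.vars_nodup {I : XI O X} (hI : I.OK) {D : ℕ} {c : CA O X} (hc : c ∈ (encA I D).cls) :
    ((encA I D).vars c).Nodup := by
  rcases encA_mem_cls.1 hc with ⟨a, ha, rfl⟩ | ⟨i, _, rfl⟩ | ⟨i, _, rfl⟩
  · rcases XI.mem_base.1 ha with ⟨u, hu, rfl⟩ | ⟨x, hx, rfl⟩
    · exact hI.ports_nodup u hu
    · exact List.nodup_singleton x
  · exact List.nodup_nil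
  · exact List.nodup_nil

theorem encA_con {I : XI O X} {D : ℕ} {c : CA O X} (hc : c ∈ (encA I D).cls)
    (h : (encA I D).con c = true) : ∃ u ∈ I.objs, c = Sum.inl (Sum.inl u) := by
  rcases encA_mem_cls.1 hc with ⟨a, ha, rfl⟩ | ⟨i, _, rfl⟩ | ⟨i, _, rfl⟩
  · rcases XI.mem_base.1 ha with ⟨u, hu, rfl⟩ | ⟨x, hx, rfl⟩
    · exact ⟨u, hu, rfl⟩
    · cases h
  · cases h
  · cases h

theorem encA_order (I : XI O X) (hI : I.OK) (D : ℕ) (b : O → Bool) :
    (encA I D).order (bA b) = (encA I 0).order (fun _ => false) + D := by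
  rw [AG.order_eq (encA I D) (bA b) (fun _ => false)]
  · simp only [AG.order, AG.items]
    have e : (encA I D).cls = (encA I 0).cls ++ (List.range D).map (fun i => Sum.inr (Sum.inr i)) := by
      simp [encA]
    rw [e, List.flatMap_append, List.length_append]
    congr 1
    rw [List.flatMap_map]
    have h : ∀ i : ℕ, (((encA I D).fibre (fun _ => false) (Sum.inr (Sum.inr i))).map
        fun α => ((Sum.inr (Sum.inr i) : CA O X), α)) = [(Sum.inr (Sum.inr i), [])] := by
      intro i
      simp [AG.fibre, encA, bools]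
    simp only [h]
    simp
  · intro c hc h
    obtain ⟨u, hu, rfl⟩ := encA_con hc h
    intro h0
    have := hI.two_le u hu
    have h1 : I.ports u = [] := h0
    rw [h1] at this
    simp at this

theorem XI.EA_symm (I : XI O X) (c c' : CA O X) : I.EA c c' = I.EA c' c := by
  rcases c with (u | x) | (i | i) <;> rcases c' with (u' | x') | (i' | i') <;>
    simp [XI.EA, eq_comm]

theorem XI.EA_irrefl (I : XI O X) (c : CA O X) : I.EA c c = false := by
  rcases c with (u | x) | (i | i) <;> simp [XI.EA]

theorem agree_nil_left (l' : List X) (α α' : List Bool) : agree [] α l' α' = true := by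
  simp [agree]

theorem AG.mem_itemsA {C X : Type} [DecidableEq X] {G : AG C X} {b : C → Bool} {c : C} {α : List Bool} :
    (c, α) ∈ G.items b ↔ c ∈ G.cls ∧ α ∈ G.fibre b c := by
  simp only [AG.items, List.mem_flatMap, List.mem_map, Prod.mk.injEq]
  constructor
  · rintro ⟨c', hc', α', hα', rfl, rfl⟩
    exact ⟨hc', hα'⟩
  · rintro ⟨h1, h2⟩
    exact ⟨c, h1, α, h2, rfl, rfl⟩

theorem bools_nodup (n : ℕ) : (bools n).Nodup := by
  induction n with
  | zero => simp [bools]
  | succ n ih =>
    rw [bools, List.nodup_flatMap]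
    refine ⟨fun α _ => by simp, ?_⟩
    refine ih.imp ?_
    intro α β h
    rw [Function.onFun, List.disjoint_left]
    intro γ h1 h2
    simp only [List.mem_cons, List.not_mem_nil, or_false] at h1 h2
    rcases h1 with rfl | rfl <;> simp at h2 <;> exact h h2

theorem encA_items_nodup {I : XI O X} (hI : I.OK) (D : ℕ) (b : CA O X → Bool) :
    ((encA I D).items b).Nodup := by
  unfold AG.items
  rw [List.nodup_flatMap]
  refine ⟨fun c _ => ((bools_nodup _).filter _).map (fun α β h => by simpa using h), ?_⟩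
  refine (encA_cls_nodup hI D).imp ?_
  intro c c' h
  rw [Function.onFun, List.disjoint_left]
  intro p h1 h2
  simp only [List.mem_map] at h1 h2
  obtain ⟨α, _, rfl⟩ := h1
  obtain ⟨β, _, h3⟩ := h2
  exact h (Prod.mk.inj h3).1.symm

theorem encA_simple (I : XI O X) (hI : I.OK) (D : ℕ) (b : O → Bool) :
    SimpleConnDiamTwo ((encA I D).mat (bA b)) := by
  have hs : IsSimple ((encA I D).mat (bA b)) :=
    AG.isSimple_mat _ _ (fun c c' => I.EA_symm c c') (fun c => I.EA_irrefl c)
  -- the universal vertex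
  have hz : ((Sum.inr (Sum.inl 0) : CA O X), ([] : List Bool)) ∈ (encA I D).items (bA b) := by
    refine AG.mem_itemsA.2 ⟨encA_mem_cls.2 (Or.inr (Or.inl ⟨0, by omega, rfl⟩)), ?_⟩
    simp [AG.fibre, encA, bools]
  obtain ⟨z, hz⟩ : ∃ z : Fin ((encA I D).order (bA b)), ((encA I D).items (bA b)).get z =
      ((Sum.inr (Sum.inl 0) : CA O X), ([] : List Bool)) := List.get_of_mem hz
  -- `z` is universal
  have hu : ∀ v : Fin ((encA I D).order (bA b)), v ≠ z → (encA I D).mat (bA b) z v = true := by
    intro v hv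
    have hmem : ((encA I D).items (bA b)).get v ∈ (encA I D).items (bA b) := List.get_mem _ _
    have key : (encA I D).adj ((Sum.inr (Sum.inl 0) : CA O X), ([] : List Bool))
        (((encA I D).items (bA b)).get v) = true := by
      rcases e : ((encA I D).items (bA b)).get v with ⟨c, α⟩
      rw [e] at hmem
      obtain ⟨hc, hα⟩ := AG.mem_itemsA.1 hmem
      have hE : I.EA (Sum.inr (Sum.inl 0)) c = true := by
        rcases encA_mem_cls.1 hc with ⟨a, ha, rfl⟩ | ⟨i, _, rfl⟩ | ⟨i, _, rfl⟩
        · simp [XI.EA]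
        · rcases Nat.eq_zero_or_pos i with rfl | hi
          · exfalso
            apply hv
            have hα' : α = [] := by simpa [AG.fibre, encA, bools] using hα
            have hnd := encA_items_nodup hI D (bA b)
            apply hnd.injective_get
            rw [hz, e, hα']
          · simp [XI.EA]
            omega
        · simp [XI.EA]
      change (I.EA (Sum.inr (Sum.inl 0)) c && agree [] [] _ α) = true
      rw [hE, agree_nil_left]
      rfl
    unfold AG.mat
    rw [hz]
    exact key
  have hadj : ∀ v : Fin ((encA I D).order (bA b)), v ≠ z → (adjGraph ((encA I D).mat (bA b))).Adj z v := by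
    intro v hv
    exact (SimpleGraph.fromRel_adj _ _ _).2 ⟨hv.symm, Or.inl (hu v hv)⟩
  refine ⟨hs, ?_, ?_⟩
  · have hz' : ∀ v, (adjGraph ((encA I D).mat (bA b))).Reachable z v := by
      intro v
      by_cases hv : v = z
      · rw [hv]
      · exact (hadj v hv).reachable
    have : Nonempty (Fin ((encA I D).order (bA b))) := ⟨z⟩
    exact SimpleGraph.Connected.mk fun v w => (hz' v).symm.trans (hz' w)
  · intro v w hvw
    by_cases hv : v = z
    · left
      rw [hv]
      exact hu w (fun h => hvw (hv.trans h.symm))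
    · by_cases hw : w = z
      · left
        rw [hs.1, hw]
        exact hu v hv
      · right
        exact ⟨z, by rw [hs.1]; exact hu v hv, hu w hw⟩

theorem encA_pequiv_of_shift (I : XI O X) (hI : I.OK) (D : ℕ) (b : O → Bool) (K : ℕ)
    (h : ShiftEquiv I.objs I.ports b K) :
    PEquiv K ((encA I D).mat fun _ => false) ((encA I D).mat (bA b)) := by
  classical
  obtain ⟨u0, hu0⟩ := List.exists_mem_of_ne_nil _ hI.objs_ne
  let dom : CA O X → O
    | .inl (.inl u) => u
    | .inl (.inr x) => if h : ∃ u ∈ I.objs, x ∈ I.ports u then h.choose else u0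
    | _ => u0
  refine AG.pequiv_of_shiftEquiv (encA I D) (bA b) I.objs I.ports b dom K (encA_cls_nodup hI D)
    hI.ports_nodup (fun c hc => XI.vars_nodup hI hc) ?_ ?_ h
  · intro c hc
    rcases encA_mem_cls.1 hc with ⟨a, ha, rfl⟩ | ⟨i, _, rfl⟩ | ⟨i, _, rfl⟩
    · rcases XI.mem_base.1 ha with ⟨u, hu, rfl⟩ | ⟨x, hx, rfl⟩
      · exact ⟨hu, fun x hx => hx⟩
      · have h : ∃ u ∈ I.objs, x ∈ I.ports u := (hI.mem_vl x).1 hx
        have e : dom (Sum.inl (Sum.inr x)) = h.choose := dif_pos h
        refine ⟨by rw [e]; exact h.choose_spec.1, ?_⟩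
        rw [e]
        intro y hy
        have : y = x := by simpa [encA] using hy
        rw [this]
        exact h.choose_spec.2
    · exact ⟨hu0, fun x hx => by simp [encA] at hx⟩
    · exact ⟨hu0, fun x hx => by simp [encA] at hx⟩
  · intro c hc h
    obtain ⟨u, hu, rfl⟩ := encA_con hc h
    exact ⟨rfl, rfl⟩

theorem encA_iso_of_solution (I : XI O X) (hI : I.OK) (D : ℕ) (b : O → Bool)
    (h : ∃ s : X → Bool, IsSol I.objs I.ports b s) :
    AdjIso ((encA I D).mat fun _ => false) ((encA I D).mat (bA b)) := by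
  obtain ⟨s, hs⟩ := h
  refine AG.adjIso_of_solution (encA I D) (bA b) (encA_cls_nodup hI D)
    (fun c hc => XI.vars_nodup hI hc) s ?_
  intro c hc h
  obtain ⟨u, hu, rfl⟩ := encA_con hc h
  exact hs u hu

end enca

end Crest.Agent.R290
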