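import Crest.Agent.R290.EncA1

/-!
# Row 290: shift systems with many pebbles give global solutions; isomorphic lifts are solvable.
-/

set_option autoImplicit false

namespace Crest.Agent.R290

open Crest.WLRefine
open Crest.Agent.R290.WL (PEquiv PSys Pres)

section
variable {O X : Type} [DecidableEq O] [DecidableEq X]

/-- A shift system with at least as many pebbles as objects contains a global shift. -/
theorem ShiftSys.exists_global {O X : Type} [DecidableEq O] [Fintype O] {ports : O → Finset X}
    {par : O → ZMod 2} {K : ℕ} {S : Finset O → (X → ZMod 2) → Prop} (h : ShiftSys ports par K S)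
    (hK : Fintype.card O ≤ K) : ∃ s, S Finset.univ s := by
  have key : ∀ P : Finset O, ∃ s, S P s := by
    intro P
    induction P using Finset.induction_on with
    | empty => exact h.empty
    | insert u P hu ih =>
      obtain ⟨s, hs⟩ := ih
      have hc : P.card < K := by
        refine lt_of_lt_of_le ?_ hK
        rw [← Finset.card_univ]
        exact Finset.card_lt_card (Finset.ssubset_univ_iff.2 fun e => hu (e ▸ Finset.mem_univ u))
      obtain ⟨s', hs', _⟩ := h.ext hs hc u
      exact ⟨s', hs'⟩
  exact key _

/-- A shift system with at least as many pebbles as objects gives a global solution. -/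
theorem sol_of_shiftEquiv {objs : List O} {ports : O → List X} {b : O → Bool} {K : ℕ}
    (hports : ∀ u ∈ objs, (ports u).Nodup) (hK : objs.length ≤ K)
    (h : ShiftEquiv objs ports b K) : ∃ s : X → Bool, IsSol objs ports b s := by
  obtain ⟨S, hS⟩ := h
  have hfin : ∀ u, u ∈ objs.toFinset ↔ u ∈ objs := fun u => List.mem_toFinset
  let _ : Fintype {u // u ∈ objs} := Fintype.subtype objs.toFinset hfin
  have hcard : Fintype.card {u // u ∈ objs} ≤ K := by
    rw [Fintype.card_of_subtype objs.toFinset hfin]
    exact (List.toFinset_card_le objs).trans hK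
  obtain ⟨s, hs⟩ := hS.exists_global hcard
  choose t ht using AGB.bz_surj
  refine ⟨fun x => t (s x), fun u hu => ?_⟩
  have h1 := hS.valid hs ⟨u, hu⟩ (Finset.mem_univ _)
  have h2 := AGB.sum_bz_toFinset (hports u hu) (fun x => t (s x))
  apply AGB.bz_inj
  rw [← h2, ← h1]
  exact Finset.sum_congr rfl fun x _ => ht (s x)

/-- isomorphic lifts have a global solution -/
theorem sol_of_adjIso_of_shift {objs : List O} {ports : O → List X} {b : O → Bool} {n m : ℕ}
    {G : Fin n → Fin n → Bool} {H : Fin m → Fin m → Bool}
    (hports : ∀ u ∈ objs, (ports u).Nodup)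
    (hshift : ∀ K, 3 ≤ K → PEquiv K G H → ShiftEquiv objs ports b K)
    (h : AdjIso G H) : ∃ s : X → Bool, IsSol objs ports b s :=
  sol_of_shiftEquiv hports (Nat.le_add_right _ 3)
    (hshift (objs.length + 3) (Nat.le_add_left _ _) (WL.AdjIso.pequiv _ h))

end

end Crest.Agent.R290
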