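import Mathlib

/-!
# Row 290, module (D): the Duplicator extension lemma of the compressed tube network

Self-contained.  `m` = number of rows, `L` = arm length (`m + 2 ≤ L`), pebbles `K = m + 1`.
-/

set_option autoImplicit false
set_option linter.unusedSectionVars false

namespace Crest.Agent.R290.Dup

open Finset

/-- A network: hubs, gadgets, letters; every gadget has arms, an arm is attached to a hub through a
projection of letters; letter sets of the registers of a gadget; right-hand side of a gadget. -/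
structure Net where
  Hub : Type
  Gad : Type
  Ltr : Type
  Arm : Gad → Type
  o : Ltr
  hub : (g : Gad) → Arm g → Hub
  pr : (g : Gad) → Arm g → Ltr → Ltr
  pr_o : ∀ g a, pr g a o = o
  A : Gad → ℕ → Set Ltr
  beta : Gad → ZMod 2

variable (N : Net)

/-- Columns: the centre of a gadget, and the columns `1 ≤ p ≤ L` of its arms. -/
inductive Col
  | ctr (g : N.Gad)
  | arm (g : N.Gad) (a : N.Arm g) (p : ℕ)

/-- Edges: `int g a p` joins positions `p - 1` and `p` of arm `a`, `hub h` joins the ends of all arms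
attached to `h`. -/
inductive Edge
  | int (g : N.Gad) (a : N.Arm g) (p : ℕ)
  | hub (h : N.Hub)

/-- An object of the network: column, row, left letter, right letter. -/
structure Obj where
  col : Col N
  row : ℕ
  x : N.Ltr
  y : N.Ltr

variable {N}

/-- The outer edge of the column `(a, p)`. -/
def nxt (L : ℕ) (g : N.Gad) (a : N.Arm g) (p : ℕ) : Edge N :=
  if p < L then Edge.int g a (p + 1) else Edge.hub (N.hub g a)

/-- `Inc L κ e` : the edge `e` is an edge of the column `κ`. -/
def Inc (L : ℕ) : Col N → Edge N → Prop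
  | Col.ctr g, e => ∃ a : N.Arm g, e = Edge.int g a 1
  | Col.arm g a p, e => e = Edge.int g a p ∨ e = nxt L g a p

/-- Sum of a function over the edges of a column. -/
def esum [∀ g, Fintype (N.Arm g)] (L : ℕ) : Col N → (Edge N → ZMod 2) → ZMod 2
  | Col.ctr g, f => ∑ a : N.Arm g, f (Edge.int g a 1)
  | Col.arm g a p, f => f (Edge.int g a p) + f (nxt L g a p)

/-- How an edge reads the letters of a column. -/
def psi : Col N → Edge N → N.Ltr → N.Ltr
  | Col.arm g a _, Edge.hub _ => N.pr g a
  | _, _ => id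

/-- gadget of a column -/
def gad : Col N → N.Gad
  | Col.ctr g => g
  | Col.arm g _ _ => g

/-- position of a column in its arm -/
def pos : Col N → ℕ
  | Col.ctr _ => 0
  | Col.arm _ _ p => p

/-- right-hand side of a column -/
def bcol : Col N → ZMod 2
  | Col.ctr g => N.beta g
  | Col.arm _ _ _ => 0

/-- A column is valid: positions are in `[1, L]`. -/
def VCol (L : ℕ) : Col N → Prop
  | Col.ctr _ => True
  | Col.arm _ _ p => 1 ≤ p ∧ p ≤ L

/-- Valid objects. -/
structure VObj (m L : ℕ) (p : Obj N) : Prop where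
  row : p.row < m
  col : VCol L p.col
  hx : p.x ∈ N.A (gad p.col) p.row
  hy : p.y ∈ N.A (gad p.col) (p.row + 1)

/-- Two objects in consecutive rows share a node. -/
def Link (L : ℕ) (p q : Obj N) : Prop :=
  ∃ e, Inc L p.col e ∧ Inc L q.col e ∧ psi p.col e p.y = psi q.col e q.x

/-- A section in `P`. -/
structure Sec (m L : ℕ) (P : Finset (Obj N)) (σ : ℕ → Obj N) : Prop where
  mem : ∀ i < m, σ i ∈ P
  row : ∀ i < m, (σ i).row = i
  link : ∀ i, i + 1 < m → Link L (σ i) (σ (i + 1))

/-! ### Links -/

theorem inc_int {L : ℕ} {κ : Col N} {g : N.Gad} {a : N.Arm g} {n : ℕ}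
    (h : Inc L κ (Edge.int g a n)) :
    (κ = Col.ctr g ∧ n = 1) ∨ κ = Col.arm g a n ∨ (∃ p, p < L ∧ n = p + 1 ∧ κ = Col.arm g a p) := by
  cases κ with
  | ctr g' =>
    obtain ⟨a', h'⟩ := h
    injection h' with h1 h2 h3
    subst h1
    left
    exact ⟨rfl, h3⟩
  | arm g' a' p =>
    rcases h with h | h
    · injection h with h1 h2 h3
      subst h1
      obtain rfl := eq_of_heq h2
      subst h3
      right; left; rfl
    · unfold nxt at h
      split_ifs at h with hp
      injection h with h1 h2 h3
      subst h1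
      obtain rfl := eq_of_heq h2
      right; right
      exact ⟨p, hp, h3, rfl⟩

theorem inc_hub {L : ℕ} {κ : Col N} {h : N.Hub} (hi : Inc L κ (Edge.hub h)) :
    ∃ g a p, κ = Col.arm g a p ∧ L ≤ p ∧ N.hub g a = h := by
  cases κ with
  | ctr g' =>
    obtain ⟨a', h'⟩ := hi
    cases h'
  | arm g' a' p =>
    rcases hi with h | h
    · cases h
    · unfold nxt at h
      split_ifs at h with hp
      injection h with h1
      exact ⟨g', a', p, rfl, by omega, h1.symm⟩

/-- Structure of a link. -/
inductive LinkT (L : ℕ) (p q : Obj N) : Prop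
  | int (g : N.Gad) (a : N.Arm g) (n : ℕ) (hp : Inc L p.col (Edge.int g a n))
      (hq : Inc L q.col (Edge.int g a n)) (hl : p.y = q.x)
  | hub (g : N.Gad) (a : N.Arm g) (n : ℕ) (g' : N.Gad) (a' : N.Arm g') (n' : ℕ)
      (hp : p.col = Col.arm g a n) (hq : q.col = Col.arm g' a' n')
      (hn : L ≤ n) (hn' : L ≤ n') (hh : N.hub g a = N.hub g' a')
      (hl : N.pr g a p.y = N.pr g' a' q.x)

theorem Link.type {L : ℕ} {p q : Obj N} (h : Link L p q) : LinkT L p q := by
  obtain ⟨e, h1, h2, h3⟩ := h
  cases e with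
  | int g a n =>
    refine LinkT.int g a n h1 h2 ?_
    have e1 : psi p.col (Edge.int g a n) p.y = p.y := by
      cases p.col <;> rfl
    have e2 : psi q.col (Edge.int g a n) q.x = q.x := by
      cases q.col <;> rfl
    rw [e1, e2] at h3
    exact h3
  | hub h =>
    obtain ⟨g, a, n, hp, hn, hh⟩ := inc_hub h1
    obtain ⟨g', a', n', hq, hn', hh'⟩ := inc_hub h2
    refine LinkT.hub g a n g' a' n' hp hq hn hn' (hh.trans hh'.symm) ?_
    rw [hp, hq] at h3
    exact h3


/-! ### Near columns -/

/-- Columns sharing an internal edge. -/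
inductive Near : Col N → Col N → Prop
  | same (κ : Col N) : Near κ κ
  | ca (g : N.Gad) (a : N.Arm g) : Near (Col.ctr g) (Col.arm g a 1)
  | ac (g : N.Gad) (a : N.Arm g) : Near (Col.arm g a 1) (Col.ctr g)
  | up (g : N.Gad) (a : N.Arm g) (n : ℕ) : Near (Col.arm g a n) (Col.arm g a (n + 1))
  | dn (g : N.Gad) (a : N.Arm g) (n : ℕ) : Near (Col.arm g a (n + 1)) (Col.arm g a n)

theorem Near.symm {κ κ' : Col N} (h : Near κ κ') : Near κ' κ := by
  cases h with
  | same => exact Near.same _
  | ca g a => exact Near.ac g a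
  | ac g a => exact Near.ca g a
  | up g a n => exact Near.dn g a n
  | dn g a n => exact Near.up g a n

theorem Near.gad {κ κ' : Col N} (h : Near κ κ') : gad κ = gad κ' := by
  cases h <;> rfl

theorem Near.pos {κ κ' : Col N} (h : Near κ κ') : pos κ' ≤ pos κ + 1 := by
  cases h <;> (simp [Dup.pos]; try omega)

theorem near_of_int {L : ℕ} {κ κ' : Col N} {g : N.Gad} {a : N.Arm g} {n : ℕ}
    (hv : VCol L κ) (hv' : VCol L κ') (h : Inc L κ (Edge.int g a n))
    (h' : Inc L κ' (Edge.int g a n)) : Near κ κ' := by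
  rcases inc_int h with ⟨rfl, rfl⟩ | rfl | ⟨p, hp, rfl, rfl⟩
  · rcases inc_int h' with ⟨rfl, _⟩ | rfl | ⟨p, hp, h1, rfl⟩
    · exact Near.same _
    · exact Near.ca g a
    · exfalso; simp [VCol] at hv'; omega
  · rcases inc_int h' with ⟨rfl, rfl⟩ | rfl | ⟨p, hp, rfl, rfl⟩
    · exact Near.ac g a
    · exact Near.same _
    · exact Near.dn g a p
  · rcases inc_int h' with ⟨rfl, h1⟩ | rfl | ⟨p', hp', h1, rfl⟩
    · exfalso; simp [VCol] at hv; omega
    · exact Near.up g a p
    · obtain rfl : p = p' := by omega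
      exact Near.same _

theorem Link.near {L : ℕ} {p q : Obj N} (h : Link L p q) (hp : VCol L p.col) (hq : VCol L q.col)
    (hlt : pos p.col < L ∨ pos q.col < L) : Near p.col q.col ∧ p.y = q.x := by
  rcases h.type with ⟨g, a, n, h1, h2, h3⟩ | ⟨g, a, n, g', a', n', h1, h2, hn, hn', hh, hl⟩
  · exact ⟨near_of_int hp hq h1 h2, h3⟩
  · exfalso
    rw [h1, h2] at hlt
    simp [pos] at hlt
    omega

/-! ### Induction along a section -/

theorem sec_up {m c : ℕ} {Φ : ℕ → Prop} (h0 : Φ c) (hs : ∀ k, c ≤ k → k + 1 < m → Φ k → Φ (k + 1)) :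
    ∀ k, c ≤ k → k < m → Φ k := by
  intro k hk
  induction k, hk using Nat.le_induction with
  | base => intro _; exact h0
  | succ k hk ih => intro hkm; exact hs k hk hkm (ih (by omega))

theorem sec_dn {c : ℕ} {Φ : ℕ → Prop} (h0 : Φ c) (hs : ∀ k, k < c → Φ (k + 1) → Φ k) :
    ∀ k, k ≤ c → Φ k := by
  intro k hk
  obtain ⟨j, rfl⟩ := Nat.exists_eq_add_of_le hk
  clear hk
  induction j generalizing k with
  | zero => simpa using h0
  | succ j ih =>
    apply hs k (by omega)
    have := ih (k + 1) (by
      have e : k + 1 + j = k + (j + 1) := by omega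
      rw [e]; exact h0) (by
      intro k' hk'
      apply hs
      omega)
    exact this

theorem sec_ind {m c : ℕ} {Φ : ℕ → Prop} (hc : c < m) (h0 : Φ c)
    (hu : ∀ k, k + 1 < m → Φ k → Φ (k + 1)) (hd : ∀ k, k + 1 < m → Φ (k + 1) → Φ k) :
    ∀ k, k < m → Φ k := by
  intro k hk
  rcases le_total c k with h | h
  · exact sec_up (m := m) h0 (fun k _ hk1 => hu k hk1) k h hk
  · exact sec_dn h0 (fun k hk1 => hd k (by omega)) k h


section Sections

variable {m L : ℕ} {P : Finset (Obj N)} {σ : ℕ → Obj N}

/-- A section whose member `c` is near the centre: positions grow at most by one per row. -/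
theorem Sec.wander (hσ : Sec m L P σ) (hP : ∀ p ∈ P, VObj m L p) (hL : m + 2 ≤ L) {c : ℕ}
    (hc : c < m) (hpos : pos (σ c).col ≤ 1) :
    ∀ k, k < m → gad (σ k).col = gad (σ c).col ∧
      pos (σ k).col ≤ pos (σ c).col + ((k - c) + (c - k)) := by
  intro k hk
  rcases le_total c k with h | h
  · refine sec_up (m := m) (c := c)
      (Φ := fun k => gad (σ k).col = gad (σ c).col ∧
        pos (σ k).col ≤ pos (σ c).col + ((k - c) + (c - k))) ⟨rfl, by omega⟩ ?_ k h hk
    intro k hck hk1 ih
    obtain ⟨h1, h2⟩ := (hσ.link k hk1).near (hP _ (hσ.mem k (by omega))).col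
      (hP _ (hσ.mem (k + 1) hk1)).col (Or.inl (by omega))
    exact ⟨h1.gad.symm.trans ih.1, by have := h1.pos; omega⟩
  · refine sec_dn (c := c)
      (Φ := fun k => gad (σ k).col = gad (σ c).col ∧
        pos (σ k).col ≤ pos (σ c).col + ((k - c) + (c - k))) ⟨rfl, by omega⟩ ?_ k h
    intro k hck ih
    obtain ⟨h1, h2⟩ := (hσ.link k (by omega)).near (hP _ (hσ.mem k (by omega))).col
      (hP _ (hσ.mem (k + 1) (by omega))).col (Or.inr (by omega))
    exact ⟨h1.gad.trans ih.1, by have := h1.symm.pos; omega⟩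

/-- The content of a section, read from the left letters. -/
def cont (N : Net) (m : ℕ) (σ : ℕ → Obj N) (j : ℕ) : N.Ltr := if j < m then (σ j).x else N.o

/-- Local section: all positions `< L`. -/
theorem Sec.loc (hσ : Sec m L P σ) (hP : ∀ p ∈ P, VObj m L p)
    (hpos : ∀ k < m, pos (σ k).col < L) :
    ∀ k, k + 1 < m → Near (σ k).col (σ (k + 1)).col ∧ (σ k).y = (σ (k + 1)).x := by
  intro k hk
  exact (hσ.link k hk).near (hP _ (hσ.mem k (by omega))).col
    (hP _ (hσ.mem (k + 1) (by omega))).col (Or.inl (hpos k (by omega)))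

theorem Sec.cont_x (k : ℕ) (hk : k < m) : (σ k).x = cont N m σ k := by
  simp [cont, hk]

theorem Sec.cont_y (hσ : Sec m L P σ) (hP : ∀ p ∈ P, VObj m L p)
    (hpos : ∀ k < m, pos (σ k).col < L) (hm0 : ∀ g, ∀ l ∈ N.A g m, l = N.o)
    (k : ℕ) (hk : k < m) : (σ k).y = cont N m σ (k + 1) := by
  by_cases h : k + 1 < m
  · simp only [cont, h, if_true]
    exact (hσ.loc hP hpos k h).2
  · simp only [cont, h, if_false]
    have hk' : k + 1 = m := by omega
    have h1 := (hP _ (hσ.mem k hk)).hy
    rw [hσ.row k hk, hk'] at h1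
    exact hm0 _ _ h1

/-- all members of a local section are in the gadget of any of them -/
theorem Sec.loc_gad (hσ : Sec m L P σ) (hP : ∀ p ∈ P, VObj m L p)
    (hpos : ∀ k < m, pos (σ k).col < L) {c : ℕ} (hc : c < m) :
    ∀ k, k < m → gad (σ k).col = gad (σ c).col := by
  apply sec_ind (m := m) (Φ := fun k => gad (σ k).col = gad (σ c).col) hc rfl
  · intro k hk h
    rw [← h, (hσ.loc hP hpos k hk).1.gad]
  · intro k hk h
    rw [← h, (hσ.loc hP hpos k hk).1.gad]

/-- a local section without centre stays in one arm -/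
theorem Sec.loc_arm (hσ : Sec m L P σ) (hP : ∀ p ∈ P, VObj m L p)
    (hpos : ∀ k < m, pos (σ k).col < L) (hnc : ∀ k < m, ∀ g, (σ k).col ≠ Col.ctr g)
    {c : ℕ} (hc : c < m) {g : N.Gad} {a : N.Arm g} {n : ℕ} (hcol : (σ c).col = Col.arm g a n) :
    ∀ k, k < m → ∃ n, (σ k).col = Col.arm g a n := by
  apply sec_ind (m := m) (Φ := fun k => ∃ n, (σ k).col = Col.arm g a n) hc ⟨n, hcol⟩
  · rintro k hk ⟨n, h⟩
    have h1 := (hσ.loc hP hpos k hk).1
    rw [h] at h1
    generalize hκ : (σ (k + 1)).col = κ at h1
    cases h1 with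
    | same => exact ⟨n, rfl⟩
    | ac => exact absurd hκ (hnc _ hk _)
    | up => exact ⟨_, rfl⟩
    | dn => exact ⟨_, rfl⟩
  · rintro k hk ⟨n, h⟩
    have h1 := (hσ.loc hP hpos k hk).1
    rw [h] at h1
    generalize hκ : (σ k).col = κ at h1
    cases h1 with
    | same => exact ⟨n, rfl⟩
    | ca => exact absurd hκ (hnc _ (by omega) _)
    | up => exact ⟨_, rfl⟩
    | dn => exact ⟨_, rfl⟩

/-- the hub of a column -/
def hubc : Col N → Option N.Hub
  | Col.ctr _ => none
  | Col.arm g a _ => some (N.hub g a)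

/-- the projection of a column -/
def prc : Col N → N.Ltr → N.Ltr
  | Col.ctr _ => id
  | Col.arm g a _ => N.pr g a

theorem prc_o (κ : Col N) : prc κ N.o = N.o := by
  cases κ with
  | ctr g => rfl
  | arm g a n => exact N.pr_o g a

theorem Near.hubc {κ κ' : Col N} (h : Near κ κ') (h1 : ∀ g, κ ≠ Col.ctr g)
    (h2 : ∀ g, κ' ≠ Col.ctr g) : hubc κ = hubc κ' ∧ prc κ = prc κ' := by
  cases h with
  | same => exact ⟨rfl, rfl⟩
  | ca => exact absurd rfl (h1 _)
  | ac => exact absurd rfl (h2 _)
  | up => exact ⟨rfl, rfl⟩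
  | dn => exact ⟨rfl, rfl⟩

theorem Link.hubc {p q : Obj N} (h : Link L p q) (hp : VCol L p.col) (hq : VCol L q.col)
    (h1 : ∀ g, p.col ≠ Col.ctr g) (h2 : ∀ g, q.col ≠ Col.ctr g) :
    Dup.hubc p.col = Dup.hubc q.col ∧ prc p.col p.y = prc q.col q.x := by
  rcases h.type with ⟨g, a, n, h3, h4, h5⟩ | ⟨g, a, n, g', a', n', h3, h4, hn, hn', hh, hl⟩
  · have := (near_of_int hp hq h3 h4).hubc h1 h2
    refine ⟨this.1, ?_⟩
    rw [this.2, h5]
  · rw [h3, h4]
    exact ⟨by simp [Dup.hubc, hh], hl⟩

/-- the projected content of a section -/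
def pcont (N : Net) (m : ℕ) (σ : ℕ → Obj N) (j : ℕ) : N.Ltr :=
  if j < m then prc (σ j).col (σ j).x else N.o

theorem Sec.hub_eq (hσ : Sec m L P σ) (hP : ∀ p ∈ P, VObj m L p)
    (hnc : ∀ k < m, ∀ g, (σ k).col ≠ Col.ctr g) {c : ℕ} (hc : c < m) :
    ∀ k, k < m → hubc (σ k).col = hubc (σ c).col := by
  apply sec_ind (m := m) (Φ := fun k => hubc (σ k).col = hubc (σ c).col) hc rfl
  · intro k hk h
    rw [← h]
    exact ((hσ.link k hk).hubc (hP _ (hσ.mem k (by omega))).col (hP _ (hσ.mem (k + 1) hk)).col
      (hnc _ (by omega)) (hnc _ hk)).1.symm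
  · intro k hk h
    rw [← h]
    exact ((hσ.link k hk).hubc (hP _ (hσ.mem k (by omega))).col (hP _ (hσ.mem (k + 1) hk)).col
      (hnc _ (by omega)) (hnc _ hk)).1

theorem Sec.pcont_y (hσ : Sec m L P σ) (hP : ∀ p ∈ P, VObj m L p)
    (hnc : ∀ k < m, ∀ g, (σ k).col ≠ Col.ctr g) (hm0 : ∀ g, ∀ l ∈ N.A g m, l = N.o)
    (k : ℕ) (hk : k < m) : prc (σ k).col (σ k).y = pcont N m σ (k + 1) := by
  by_cases h : k + 1 < m
  · simp only [pcont, h, if_true]
    exact ((hσ.link k h).hubc (hP _ (hσ.mem k (by omega))).col (hP _ (hσ.mem (k + 1) h)).col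
      (hnc _ (by omega)) (hnc _ h)).2
  · simp only [pcont, h, if_false]
    have hk' : k + 1 = m := by omega
    have h1 := (hP _ (hσ.mem k hk)).hy
    rw [hσ.row k hk, hk'] at h1
    rw [hm0 _ _ h1, prc_o]

/-- constancy of `ε` on the edges of a section without centre -/
theorem Sec.const [∀ g, Fintype (N.Arm g)] (hσ : Sec m L P σ)
    (hnc : ∀ k < m, ∀ g, (σ k).col ≠ Col.ctr g) {ε : Edge N → ZMod 2}
    (hG : ∀ p ∈ P, esum L p.col ε = bcol p.col) {c : ℕ} (hc : c < m) {e0 : Edge N}
    (he0 : Inc L (σ c).col e0) :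
    ∀ k, k < m → ∀ e, Inc L (σ k).col e → ε e = ε e0 := by
  have key : ∀ k < m, ∀ e, Inc L (σ k).col e → ∀ e', Inc L (σ k).col e' → ε e = ε e' := by
    intro k hk e he e' he'
    have hg := hG _ (hσ.mem k hk)
    generalize hκ : (σ k).col = κ at *
    cases κ with
    | ctr g => exact absurd hκ (hnc k hk g)
    | arm g a n =>
      have h2 : ε (Edge.int g a n) = ε (nxt L g a n) := by
        simp only [esum, bcol] at hg
        exact CharTwo.add_eq_zero.mp hg
      rcases he with rfl | rfl <;> rcases he' with rfl | rfl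
      · rfl
      · exact h2
      · exact h2.symm
      · rfl
  apply sec_ind (m := m) hc (Φ := fun k => ∀ e, Inc L (σ k).col e → ε e = ε e0)
  · intro e he
    exact key c hc e he e0 he0
  · intro k hk ih e he
    obtain ⟨f, hf1, hf2, _⟩ := hσ.link k hk
    rw [key (k + 1) hk e he f hf2]
    exact ih f hf1
  · intro k hk ih e he
    obtain ⟨f, hf1, hf2, _⟩ := hσ.link k hk
    rw [key k (by omega) e he f hf1]
    exact ih f hf2

/-- constancy of `ε` on the edges of an arm touched by a section through a centre -/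
theorem Sec.constC [∀ g, Fintype (N.Arm g)] (hσ : Sec m L P σ) (hP : ∀ p ∈ P, VObj m L p)
    (hpos : ∀ k < m, pos (σ k).col < L) {ε : Edge N → ZMod 2}
    (hG : ∀ p ∈ P, esum L p.col ε = bcol p.col) {c : ℕ} (hc : c < m) {g : N.Gad}
    (hcol : (σ c).col = Col.ctr g) :
    ∀ k, k < m → ∀ (a : N.Arm g) (n : ℕ), Inc L (σ k).col (Edge.int g a n) →
      ε (Edge.int g a n) = ε (Edge.int g a 1) := by
  have hstep : ∀ κ κ' : Col N, Near κ κ' → VCol L κ → VCol L κ' → pos κ < L → pos κ' < L →
      esum L κ' ε = bcol κ' →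
      (∀ (a : N.Arm g) (n : ℕ), Inc L κ (Edge.int g a n) → ε (Edge.int g a n) = ε (Edge.int g a 1)) →
      (∀ (a : N.Arm g) (n : ℕ), Inc L κ' (Edge.int g a n) → ε (Edge.int g a n) = ε (Edge.int g a 1)) := by
    intro κ κ' hn hv hv' hp hp' hG ih a n hinc
    rcases inc_int hinc with ⟨rfl, rfl⟩ | rfl | ⟨p, hp, rfl, rfl⟩
    · rfl
    · -- κ' = arm g a n, edge int g a n
      have hg : ε (Edge.int g a n) = ε (Edge.int g a (n + 1)) := by
        simp only [pos] at hp'
        simp only [esum, bcol, nxt, hp', if_true] at hG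
        exact CharTwo.add_eq_zero.mp hG
      cases hn with
      | same => exact ih a n (Or.inl rfl)
      | ca => rfl
      | up _ _ k =>
        apply ih a (k + 1)
        right
        simp only [pos] at hp
        simp [nxt, hp]
      | dn _ _ k =>
        rw [hg]
        exact ih a (n + 1) (Or.inl rfl)
    · -- κ' = arm g a p, edge int g a (p+1)
      have hg : ε (Edge.int g a p) = ε (Edge.int g a (p + 1)) := by
        simp only [esum, bcol, nxt, hp, if_true] at hG
        exact CharTwo.add_eq_zero.mp hG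
      cases hn with
      | same => exact ih a (p + 1) hinc
      | ca => exact hg.symm
      | up _ _ k =>
        rw [← hg]
        apply ih a (k + 1)
        right
        simp only [pos] at *
        simp [nxt, *]
      | dn _ _ k => exact ih a (p + 1) (Or.inl rfl)
  apply sec_ind (m := m) hc (Φ := fun k => ∀ (a : N.Arm g) (n : ℕ),
    Inc L (σ k).col (Edge.int g a n) → ε (Edge.int g a n) = ε (Edge.int g a 1))
  · intro a n h
    rw [hcol] at h
    rcases inc_int h with ⟨_, rfl⟩ | h | ⟨p, hp, _, h⟩
    · rfl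
    · cases h
    · cases h
  · intro k hk ih
    exact hstep _ _ (hσ.loc hP hpos k hk).1 (hP _ (hσ.mem k (by omega))).col
      (hP _ (hσ.mem (k + 1) hk)).col (hpos k (by omega)) (hpos _ hk) (hG _ (hσ.mem _ hk)) ih
  · intro k hk ih
    exact hstep _ _ (hσ.loc hP hpos k hk).1.symm (hP _ (hσ.mem (k + 1) hk)).col
      (hP _ (hσ.mem k (by omega))).col (hpos _ hk) (hpos k (by omega))
      (hG _ (hσ.mem _ (by omega))) ih

end Sections


/-! ### Potentials -/

/-- Potentials: edge, register, letter. -/
abbrev Pot (N : Net) := Edge N → ℕ → N.Ltr → ZMod 2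

/-- `V` is a potential with value `ε` at register `m`. -/
structure IsPot (m : ℕ) (V : Pot N) (ε : Edge N → ZMod 2) : Prop where
  zero : ∀ e l, V e 0 l = 0
  top : ∀ e l, V e m l = ε e

/-- The ports of the object `p` are not changed between `V` and `V'`. -/
structure Agree [∀ g, Fintype (N.Arm g)] (m L : ℕ) (V V' : Pot N) (p : Obj N) : Prop where
  hY : ∀ e, Inc L p.col e →
    V' e p.row (psi p.col e p.x) + V' e (p.row + 1) (psi p.col e p.y) =
      V e p.row (psi p.col e p.x) + V e (p.row + 1) (psi p.col e p.y)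
  hU1 : 1 ≤ p.row → esum L p.col (fun e => V' e p.row (psi p.col e p.x)) =
    esum L p.col (fun e => V e p.row (psi p.col e p.x))
  hU2 : p.row + 1 < m → esum L p.col (fun e => V' e (p.row + 1) (psi p.col e p.y)) =
    esum L p.col (fun e => V e (p.row + 1) (psi p.col e p.y))

section Reach

variable [∀ g, Fintype (N.Arm g)] {m L : ℕ} {P : Finset (Obj N)}

theorem esum_congr {κ : Col N} {f f' : Edge N → ZMod 2} (h : ∀ e, Inc L κ e → f e = f' e) :
    esum L κ f = esum L κ f' := by
  cases κ with
  | ctr g => exact Finset.sum_congr rfl fun a _ => h _ ⟨a, rfl⟩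
  | arm g a n => simp only [esum]; rw [h _ (Or.inl rfl), h _ (Or.inr rfl)]

theorem esum_add {κ : Col N} {f f' : Edge N → ZMod 2} :
    esum L κ (fun e => f e + f' e) = esum L κ f + esum L κ f' := by
  cases κ with
  | ctr g => exact Finset.sum_add_distrib
  | arm g a n => simp only [esum]; ring

theorem esum_zero {κ : Col N} : esum L κ (fun _ => 0) = 0 := by
  cases κ with
  | ctr g => simp [esum]
  | arm g a n => simp [esum]

/-- reach, second form: only the top register changes -/
theorem reach_touch (hm : 2 ≤ m) {V : Pot N} {ε ε' : Edge N → ZMod 2} (hV : IsPot m V ε)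
    (hε : ∀ p ∈ P, ∀ e, Inc L p.col e → ε' e = ε e) (hrow : ∀ p ∈ P, p.row < m) :
    ∃ V', IsPot m V' ε' ∧ ∀ p ∈ P, Agree m L V V' p := by
  refine ⟨fun e j l => if j = m then ε' e else V e j l, ⟨?_, ?_⟩, ?_⟩
  · intro e l
    have : (0 : ℕ) ≠ m := by omega
    simp [this, hV.zero]
  · intro e l
    simp
  · intro p hp
    have h1 : p.row ≠ m := (hrow p hp).ne
    refine ⟨?_, ?_, ?_⟩
    · intro e he
      simp only [h1, if_false]
      congr 1
      split_ifs with h2
      · rw [h2, hV.top, hε p hp e he]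
      · rfl
    · intro _
      simp only [h1, if_false]
    · intro h2
      have : p.row + 1 ≠ m := by omega
      simp only [this, if_false]

/-- reach from a difference potential -/
theorem reach_add {V W : Pot N} {ε ε' : Edge N → ZMod 2} (hV : IsPot m V ε)
    (hW : IsPot m W (fun e => ε' e + ε e))
    (hp : ∀ p ∈ P, Agree m L (fun _ _ _ => 0) W p) :
    ∃ V', IsPot m V' ε' ∧ ∀ p ∈ P, Agree m L V V' p := by
  refine ⟨fun e j l => V e j l + W e j l, ⟨?_, ?_⟩, ?_⟩
  · intro e l; rw [hV.zero, hW.zero, add_zero]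
  · intro e l
    rw [hV.top, hW.top]
    have := CharTwo.add_self_eq_zero (ε e)
    linear_combination this
  · intro p hpP
    have h := hp p hpP
    refine ⟨?_, ?_, ?_⟩
    · intro e he
      have := h.hY e he
      simp only [add_zero] at this
      linear_combination this
    · intro h1
      have := h.hU1 h1
      rw [esum_zero] at this
      rw [esum_add, this, add_zero]
    · intro h1
      have := h.hU2 h1
      rw [esum_zero] at this
      rw [esum_add, this, add_zero]

/-- reach, first form: `P` contains no section -/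
theorem reach_nosec (hm : 2 ≤ m) {V : Pot N} {ε ε' : Edge N → ZMod 2} (hV : IsPot m V ε)
    (hcard : P.card ≤ m) (hrow : ∀ p ∈ P, p.row < m)
    (hG : ∀ p ∈ P, esum L p.col ε = bcol p.col)
    (hG' : ∀ p ∈ P, esum L p.col ε' = bcol p.col)
    (hns : ∀ σ, ¬ Sec m L P σ) :
    ∃ V', IsPot m V' ε' ∧ ∀ p ∈ P, Agree m L V V' p := by
  classical
  set η : Edge N → ZMod 2 := fun e => ε' e + ε e with hη
  have hη0 : ∀ p ∈ P, esum L p.col η = 0 := by
    intro p hp
    rw [hη, esum_add, hG p hp, hG' p hp]
    exact CharTwo.add_self_eq_zero _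
  by_cases hempty : ∃ r < m, ∀ p ∈ P, p.row ≠ r
  · obtain ⟨r, hr, hr'⟩ := hempty
    apply reach_add (W := fun e j _ => if r < j then η e else 0) hV
    · refine ⟨?_, ?_⟩
      · intro e l; simp
      · intro e l; simp [hr, hη]
    · intro p hp
      have h1 := hr' p hp
      refine ⟨?_, ?_, ?_⟩
      · intro e he
        simp only [add_zero]
        rcases lt_or_gt_of_ne h1 with h2 | h2
        · have h3 : ¬ r < p.row := by omega
          have h4 : ¬ r < p.row + 1 := by omega
          simp [h3, h4]
        · have h4 : r < p.row + 1 := by omega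
          simp only [h2, h4, if_true]
          exact CharTwo.add_self_eq_zero _
      · intro _
        rw [esum_zero]
        split_ifs
        · exact hη0 p hp
        · exact esum_zero
      · intro _
        rw [esum_zero]
        split_ifs
        · exact hη0 p hp
        · exact esum_zero
  · push Not at hempty
    have : Nonempty (Obj N) := by
      obtain ⟨p, _⟩ := hempty 0 (by omega)
      exact ⟨p⟩
    choose! f hfP hfr using hempty
    have himg : P = (Finset.range m).image f := by
      symm
      apply Finset.eq_of_subset_of_card_le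
      · intro p hp
        obtain ⟨i, hi, rfl⟩ := Finset.mem_image.mp hp
        exact hfP i (Finset.mem_range.mp hi)
      · rw [Finset.card_image_of_injOn, Finset.card_range]
        · exact hcard
        · intro i hi j hj hij
          have h1 := hfr i (by simpa using hi)
          have h2 := hfr j (by simpa using hj)
          rw [← h1, ← h2]
          exact congrArg Obj.row hij
    have hP : ∀ p ∈ P, p = f p.row := by
      intro p hp
      rw [himg] at hp
      obtain ⟨i, hi, rfl⟩ := Finset.mem_image.mp hp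
      rw [hfr i (Finset.mem_range.mp hi)]
    -- a break
    have hbr : ∃ j, j + 1 < m ∧ ¬ Link L (f j) (f (j + 1)) := by
      by_contra hcon
      push Not at hcon
      exact hns f ⟨hfP, hfr, hcon⟩
    obtain ⟨j, hj, hjl⟩ := hbr
    -- nodes touched by f (j+1)
    let touch : Edge N → N.Ltr → Prop := fun e l =>
      Inc L (f (j + 1)).col e ∧ psi (f (j + 1)).col e (f (j + 1)).x = l
    apply reach_add (W := fun e i l =>
      if i = j + 1 then (if touch e l then η e else 0) else if j + 1 < i then η e else 0) hV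
    · refine ⟨?_, ?_⟩
      · intro e l; simp
      · intro e l
        have h1 : m ≠ j + 1 := by omega
        have h2 : j + 1 < m := by omega
        simp [h1, h2, hη]
    · intro p hp
      have hpf := hP p hp
      have hpm := hrow p hp
      rcases Nat.lt_trichotomy p.row (j + 1) with h1 | h1 | h1
      · -- rows ≤ j
        rcases Nat.lt_or_ge (p.row + 1) (j + 1) with h2 | h2
        · have e1 : p.row ≠ j + 1 := by omega
          have e2 : ¬ j + 1 < p.row := by omega
          have e3 : p.row ≠ j := by omega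
          have e4 : ¬ j < p.row := by omega
          refine ⟨?_, ?_, ?_⟩ <;> simp [e1, e2, e3, e4, esum_zero]
        · -- p.row = j
          have hrj : p.row = j := by omega
          rw [hrj] at hpf
          have e1 : j ≠ j + 1 := by omega
          have e2 : ¬ j + 1 < j := by omega
          have hnt : ∀ e, Inc L p.col e → ¬ touch e (psi p.col e p.y) := by
            rintro e he ⟨h3, h4⟩
            apply hjl
            exact ⟨e, by rw [← hpf]; exact he, h3, by rw [← hpf]; exact h4.symm⟩
          refine ⟨?_, ?_, ?_⟩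
          · intro e he
            simp [hrj, hnt e he]
          · intro _
            simp [hrj, esum_zero]
          · intro _
            apply esum_congr
            intro e he
            simp [hrj, hnt e he]
      · -- p.row = j + 1
        rw [h1] at hpf
        have ht : ∀ e, Inc L p.col e → touch e (psi p.col e p.x) := by
          intro e he
          rw [hpf] at he ⊢
          exact ⟨he, rfl⟩
        refine ⟨?_, ?_, ?_⟩
        · intro e he
          simp only [h1, if_true, ht e he, add_zero]
          have e1 : ¬ j + 1 + 1 = j + 1 := by omega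
          have e2 : j + 1 < j + 1 + 1 := by omega
          simp only [e1, e2, if_true, if_false]
          exact CharTwo.add_self_eq_zero _
        · intro _
          rw [esum_zero, ← hη0 p hp]
          apply esum_congr
          intro e he
          simp [h1, ht e he]
        · intro _
          rw [esum_zero, ← hη0 p hp]
          apply esum_congr
          intro e he
          simp [h1]
      · -- rows > j + 1
        have e1 : p.row ≠ j + 1 := by omega
        have e2 : p.row + 1 ≠ j + 1 := by omega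
        have e3 : j + 1 < p.row + 1 := by omega
        refine ⟨?_, ?_, ?_⟩
        · intro e he
          simp only [e1, e2, e3, h1, if_true, if_false, add_zero]
          exact CharTwo.add_self_eq_zero _
        · intro _
          rw [esum_zero, ← hη0 p hp]
          apply esum_congr
          intro e he
          simp only [e1, h1, if_true, if_false]
        · intro _
          rw [esum_zero, ← hη0 p hp]
          apply esum_congr
          intro e he
          simp only [e2, e3, if_true, if_false]

end Reach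


/-! ### Known facts -/

/-- The set `Kn` of known facts with values `val` is closed. -/
structure Closed [∀ g, Fintype (N.Arm g)] (m : ℕ) (Kn : N.Hub → (Fin (m + 1) → N.Ltr) → Prop)
    (val : N.Hub → (Fin (m + 1) → N.Ltr) → ZMod 2) : Prop where
  one : ∀ (g : N.Gad) (x : Fin (m + 1) → N.Ltr), (∀ j : Fin (m + 1), x j ∈ N.A g j) →
    ∀ a : N.Arm g, (∀ a', a' ≠ a → Kn (N.hub g a') (fun j => N.pr g a' (x j))) →
      Kn (N.hub g a) (fun j => N.pr g a (x j))
  all : ∀ (g : N.Gad) (x : Fin (m + 1) → N.Ltr), (∀ j : Fin (m + 1), x j ∈ N.A g j) →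
    (∀ a, Kn (N.hub g a) (fun j => N.pr g a (x j))) →
      ∑ a, val (N.hub g a) (fun j => N.pr g a (x j)) = N.beta g

/-- The Duplicator invariant on the top values. -/
structure Inv [∀ g, Fintype (N.Arm g)] (m L : ℕ) (Kn : N.Hub → (Fin (m + 1) → N.Ltr) → Prop)
    (val : N.Hub → (Fin (m + 1) → N.Ltr) → ZMod 2) (P : Finset (Obj N))
    (ε : Edge N → ZMod 2) : Prop where
  G1 : ∀ p ∈ P, esum L p.col ε = bcol p.col
  G2C : ∀ σ, Sec m L P σ → ∀ c < m, ∀ g, (σ c).col = Col.ctr g →
    ∀ k < m, ∀ (a : N.Arm g) (n : ℕ), Inc L (σ k).col (Edge.int g a n) →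
      Kn (N.hub g a) (fun j => N.pr g a (cont N m σ j)) →
        ε (Edge.int g a n) = val (N.hub g a) (fun j => N.pr g a (cont N m σ j))
  G2H : ∀ σ, Sec m L P σ → (∀ k < m, ∀ g, (σ k).col ≠ Col.ctr g) →
    ∀ h, hubc (σ 0).col = some h → Kn h (fun j => pcont N m σ j) →
      ∀ k < m, ∀ e, Inc L (σ k).col e → ε e = val h (fun j => pcont N m σ j)

section Cases

variable [∀ g, Fintype (N.Arm g)] {m L : ℕ} {P T : Finset (Obj N)}
  {Kn : N.Hub → (Fin (m + 1) → N.Ltr) → Prop}
  {val : N.Hub → (Fin (m + 1) → N.Ltr) → ZMod 2}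

theorem Sec.mono {σ : ℕ → Obj N} (h : Sec m L P σ) (hPT : P ⊆ T) : Sec m L T σ :=
  ⟨fun i hi => hPT (h.mem i hi), h.row, h.link⟩

/-- an unpebbled column in the arm `a`, when the centre is pebbled -/
theorem exists_free (hT : T.card ≤ m + 1) {g : N.Gad} (hg : ∃ p ∈ T, p.col = Col.ctr g)
    (a : N.Arm g) : ∃ t, 1 ≤ t ∧ t ≤ m + 1 ∧ ∀ p ∈ T, p.col ≠ Col.arm g a t := by
  classical
  by_contra hcon
  push Not at hcon
  let F : ℕ → Col N := fun n => if n = 0 then Col.ctr g else Col.arm g a n
  have hF : ∀ i j, F i = F j → i = j := by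
    intro i j hij
    simp only [F] at hij
    split_ifs at hij with h1 h2 h2
    · omega
    · injection hij
  have hsub : (Finset.range (m + 2)).image F ⊆ T.image Obj.col := by
    intro κ hκ
    obtain ⟨n, hn, rfl⟩ := Finset.mem_image.mp hκ
    have hn' := Finset.mem_range.mp hn
    rcases Nat.eq_zero_or_pos n with rfl | hn0
    · obtain ⟨p, hp, hp'⟩ := hg
      exact Finset.mem_image.mpr ⟨p, hp, by simpa [F] using hp'⟩
    · obtain ⟨p, hp, hp'⟩ := hcon n hn0 (by omega)
      refine Finset.mem_image.mpr ⟨p, hp, ?_⟩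
      have : n ≠ 0 := by omega
      simpa [F, this] using hp'
  have h1 := Finset.card_le_card hsub
  rw [Finset.card_image_of_injective _ (fun i j h => hF i j h), Finset.card_range] at h1
  have h2 : (T.image Obj.col).card ≤ T.card := Finset.card_image_le
  omega

/-- case (i): no section in `T` -/
theorem eps_nosec (hm : 2 ≤ m) (hL : m + 2 ≤ L) (harm : ∀ g, Nonempty (N.Arm g))
    (hV : ∀ p ∈ T, VObj m L p) (hT : T.card ≤ m + 1) (hns : ∀ σ, ¬ Sec m L T σ) :
    ∃ ε : Edge N → ZMod 2, Inv m L Kn val T ε := by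
  classical
  let a0 : ∀ g, N.Arm g := fun g => Classical.choice (harm g)
  have hfree : ∀ g : N.Gad, ∃ t, 1 ≤ t ∧ t ≤ m + 1 ∧
      ((∃ p ∈ T, p.col = Col.ctr g) → ∀ p ∈ T, p.col ≠ Col.arm g (a0 g) t) := by
    intro g
    by_cases hg : ∃ p ∈ T, p.col = Col.ctr g
    · obtain ⟨t, h1, h2, h3⟩ := exists_free hT hg (a0 g)
      exact ⟨t, h1, h2, fun _ => h3⟩
    · exact ⟨1, le_rfl, by omega, fun h => absurd h hg⟩
  choose t ht1 ht2 ht3 using hfree
  let ε : Edge N → ZMod 2
    | Edge.int g a p => if (∃ p ∈ T, p.col = Col.ctr g) ∧ a = a0 g ∧ p ≤ t g then N.beta g else 0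
    | Edge.hub _ => 0
  refine ⟨ε, ?_, fun σ hσ => absurd hσ (hns σ), fun σ hσ => absurd hσ (hns σ)⟩
  intro q hq
  have hv := (hV q hq).col
  generalize hκ : q.col = κ at *
  cases κ with
  | ctr g =>
    simp only [esum, bcol, ε]
    have hg : ∃ p ∈ T, p.col = Col.ctr g := ⟨q, hq, hκ⟩
    simp [hg, ht1 g]
  | arm g a p =>
    simp only [esum, bcol]
    obtain ⟨hp1, hp2⟩ := hv
    by_cases hg : ∃ p ∈ T, p.col = Col.ctr g
    · by_cases ha : a = a0 g
      · subst ha
        have hne : p ≠ t g := by
          rintro rfl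
          exact ht3 g hg q hq hκ
        have ht2' := ht2 g
        by_cases hpL : p < L
        · simp only [nxt, hpL, if_true, ε, hg, true_and]
          rcases lt_or_gt_of_ne hne with h | h
          · have h' : p + 1 ≤ t g := h
            simp only [h.le, h', if_true]
            exact CharTwo.add_self_eq_zero _
          · have h1 : ¬ p ≤ t g := by omega
            have h2 : ¬ p + 1 ≤ t g := by omega
            simp [h1, h2]
        · have h1 : ¬ p ≤ t g := by omega
          simp [nxt, hpL, ε, h1]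
      · by_cases hpL : p < L <;> simp [nxt, hpL, ε, ha]
    · by_cases hpL : p < L
      · simp only [nxt, hpL, if_true, ε, hg, false_and, if_false, add_zero]
      · simp only [nxt, hpL, if_false, ε, hg, false_and, add_zero]

/-- At most one object of `T` is outside a section. -/
theorem Sec.extra {σ : ℕ → Obj N} (hm : 2 ≤ m) (hT : T.card ≤ m + 1) (hσ : Sec m L T σ) :
    ∃ q ∈ T, ∀ p ∈ T, (p = σ p.row ∧ p.row < m) ∨ p = q := by
  classical
  set S := (Finset.range m).image σ with hS
  have hST : S ⊆ T := by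
    intro p hp
    obtain ⟨i, hi, rfl⟩ := Finset.mem_image.mp hp
    exact hσ.mem i (Finset.mem_range.mp hi)
  have hScard : S.card = m := by
    rw [hS, Finset.card_image_of_injOn, Finset.card_range]
    intro i hi j hj hij
    have h1 := hσ.row i (by simpa using hi)
    have h2 := hσ.row j (by simpa using hj)
    rw [← h1, ← h2]
    exact congrArg Obj.row hij
  have hSmem : ∀ p ∈ S, p = σ p.row ∧ p.row < m := by
    intro p hp
    obtain ⟨i, hi, rfl⟩ := Finset.mem_image.mp hp
    rw [hσ.row i (Finset.mem_range.mp hi)]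
    exact ⟨rfl, Finset.mem_range.mp hi⟩
  have hc : (T \ S).card ≤ 1 := by
    rw [Finset.card_sdiff_of_subset hST, hScard]
    omega
  rcases Finset.eq_empty_or_nonempty (T \ S) with h | ⟨q, hq⟩
  · refine ⟨σ 0, hσ.mem 0 (by omega), ?_⟩
    intro p hp
    left
    apply hSmem
    by_contra hpS
    have : p ∈ T \ S := Finset.mem_sdiff.mpr ⟨hp, hpS⟩
    rw [h] at this
    simp at this
  · refine ⟨q, (Finset.mem_sdiff.mp hq).1, ?_⟩
    intro p hp
    by_cases hpS : p ∈ S
    · exact Or.inl (hSmem p hpS)
    · right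
      exact Finset.card_le_one.mp hc _ (Finset.mem_sdiff.mpr ⟨hp, hpS⟩) _ hq

/-- two sections agree outside the row of the extra object -/
theorem Sec.agree {σ τ : ℕ → Obj N} (hτ : Sec m L T τ) {q : Obj N}
    (hq : ∀ p ∈ T, (p = σ p.row ∧ p.row < m) ∨ p = q) :
    ∀ i < m, i ≠ q.row → τ i = σ i := by
  intro i hi hiq
  rcases hq _ (hτ.mem i hi) with ⟨h, _⟩ | h
  · rw [hτ.row i hi] at h
    exact h
  · exfalso
    apply hiq
    rw [← h, hτ.row i hi]


/-- a section filling `P` -/
theorem Sec.full {τ : ℕ → Obj N} (hP : P.card ≤ m) (hτ : Sec m L P τ) :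
    ∀ p ∈ P, p = τ p.row ∧ p.row < m := by
  classical
  set S := (Finset.range m).image τ with hS
  have hST : S ⊆ P := by
    intro p hp
    obtain ⟨i, hi, rfl⟩ := Finset.mem_image.mp hp
    exact hτ.mem i (Finset.mem_range.mp hi)
  have hScard : S.card = m := by
    rw [hS, Finset.card_image_of_injOn, Finset.card_range]
    intro i hi j hj hij
    have h1 := hτ.row i (by simpa using hi)
    have h2 := hτ.row j (by simpa using hj)
    rw [← h1, ← h2]
    exact congrArg Obj.row hij
  have hSP : S = P := Finset.eq_of_subset_of_card_le hST (by omega)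
  intro p hp
  rw [← hSP] at hp
  obtain ⟨i, hi, rfl⟩ := Finset.mem_image.mp hp
  rw [hτ.row i (Finset.mem_range.mp hi)]
  exact ⟨rfl, Finset.mem_range.mp hi⟩

theorem exists_ne (hm : 2 ≤ m) (r : ℕ) : ∃ i < m, i ≠ r := by
  by_cases h : r = 0
  · exact ⟨1, by omega, by omega⟩
  · exact ⟨0, by omega, fun h' => h h'.symm⟩

/-- contents of two sections without centre coincide -/
theorem pcont_eq (hm : 2 ≤ m) (hV : ∀ p ∈ T, VObj m L p)
    (hA0 : ∀ g, ∀ l ∈ N.A g 0, l = N.o) (hAm : ∀ g, ∀ l ∈ N.A g m, l = N.o)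
    {σ τ : ℕ → Obj N} (hσ : Sec m L T σ) (hτ : Sec m L T τ)
    (hσc : ∀ k < m, ∀ g, (σ k).col ≠ Col.ctr g) (hτc : ∀ k < m, ∀ g, (τ k).col ≠ Col.ctr g)
    {q : Obj N} (hq : ∀ i < m, i ≠ q.row → τ i = σ i) :
    (∀ j, pcont N m τ j = pcont N m σ j) ∧ hubc (τ 0).col = hubc (σ 0).col := by
  constructor
  · intro j
    by_cases hj : j < m
    · by_cases hjq : j = q.row
      · rcases Nat.eq_zero_or_pos j with h0 | h0
        · subst h0
          have e1 : pcont N m τ 0 = N.o := by
            simp only [pcont, hj, if_true]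
            have := (hV _ (hτ.mem 0 hj)).hx
            rw [hτ.row 0 hj] at this
            rw [hA0 _ _ this, prc_o]
          have e2 : pcont N m σ 0 = N.o := by
            simp only [pcont, hj, if_true]
            have := (hV _ (hσ.mem 0 hj)).hx
            rw [hσ.row 0 hj] at this
            rw [hA0 _ _ this, prc_o]
          rw [e1, e2]
        · obtain ⟨i, rfl⟩ : ∃ i, j = i + 1 := ⟨j - 1, by omega⟩
          rw [← hτ.pcont_y hV hτc hAm i (by omega), ← hσ.pcont_y hV hσc hAm i (by omega),
            hq i (by omega) (by omega)]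
      · simp only [pcont, hj, if_true, hq j hj hjq]
    · simp only [pcont, hj, if_false]
  · obtain ⟨i, hi, hiq⟩ := exists_ne hm q.row
    rw [← hτ.hub_eq hV hτc (c := 0) (by omega) i hi, ← hσ.hub_eq hV hσc (c := 0) (by omega) i hi,
      hq i hi hiq]

/-- membership of the content of a local section -/
theorem Sec.cont_mem (hm : 2 ≤ m) (hV : ∀ p ∈ T, VObj m L p) (hAm : ∀ g, ∀ l ∈ N.A g m, l = N.o)
    {σ : ℕ → Obj N} (hσ : Sec m L T σ) (hpos : ∀ k < m, pos (σ k).col < L) {g : N.Gad}
    (hg : ∀ k < m, gad (σ k).col = g) (j : ℕ) (hj : j ≤ m) : cont N m σ j ∈ N.A g j := by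
  rcases Nat.lt_or_ge j m with h | h
  · rw [← Sec.cont_x j h, ← hg j h]
    have := (hV _ (hσ.mem j h)).hx
    rw [hσ.row j h] at this
    exact this
  · obtain rfl : j = m := by omega
    have h1 : j - 1 < j := by omega
    have := hσ.cont_y hV hpos hAm (j - 1) h1
    have e : j - 1 + 1 = j := by omega
    rw [e] at this
    rw [← this, ← hg (j - 1) h1]
    have h2 := (hV _ (hσ.mem (j - 1) h1)).hy
    rw [hσ.row (j - 1) h1, e] at h2
    exact h2

theorem exists_inc (hm : 2 ≤ m) {σ : ℕ → Obj N} (hσ : Sec m L T σ) : ∃ e, Inc L (σ 0).col e := by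
  obtain ⟨e, he, _⟩ := hσ.link 0 (by omega)
  exact ⟨e, he⟩

/-- case (ii): sections in `T`, none through a centre -/
theorem eps_hub (hm : 2 ≤ m) (hL : m + 2 ≤ L) (harm : ∀ g, Nonempty (N.Arm g))
    (hA0 : ∀ g, ∀ l ∈ N.A g 0, l = N.o) (hAm : ∀ g, ∀ l ∈ N.A g m, l = N.o)
    (hcl : Closed m Kn val)
    (hV : ∀ p ∈ T, VObj m L p) (hT : T.card ≤ m + 1) (hPT : P ⊆ T) (hP : P.card ≤ m)
    {ε : Edge N → ZMod 2} (hI : Inv m L Kn val P ε)
    {σ : ℕ → Obj N} (hσ : Sec m L T σ)
    (hnc : ∀ τ, Sec m L T τ → ∀ k < m, ∀ g, (τ k).col ≠ Col.ctr g) :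
    ∃ ε' : Edge N → ZMod 2, Inv m L Kn val T ε' ∧
      ((∃ τ, Sec m L P τ) → ∀ p ∈ P, ∀ e, Inc L p.col e → ε' e = ε e) := by
  classical
  obtain ⟨q, hqT, hq⟩ := hσ.extra hm hT
  have hVP : ∀ p ∈ P, VObj m L p := fun p hp => hV p (hPT hp)
  -- the hub
  obtain ⟨h0, hh0⟩ : ∃ h0, hubc (σ 0).col = some h0 := by
    have := hnc σ hσ 0 (by omega)
    generalize (σ 0).col = κ at this
    cases κ with
    | ctr g => exact absurd rfl (this g)
    | arm g a n => exact ⟨_, rfl⟩
  have hsame : ∀ τ, Sec m L T τ → (∀ j, pcont N m τ j = pcont N m σ j) ∧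
      hubc (τ 0).col = some h0 := by
    intro τ hτ
    have := pcont_eq hm hV hA0 hAm hσ hτ (hnc σ hσ) (hnc τ hτ) (q := q) (hτ.agree hq)
    exact ⟨this.1, this.2.trans hh0⟩
  -- the value v
  obtain ⟨v, hv1, hv2⟩ : ∃ v : ZMod 2,
      (Kn h0 (fun j => pcont N m σ j) → v = val h0 (fun j => pcont N m σ j)) ∧
      ((∃ τ, Sec m L P τ) → ∀ p ∈ P, ∀ e, Inc L p.col e → ε e = v) := by
    by_cases hPs : ∃ τ, Sec m L P τ
    · obtain ⟨τ, hτ⟩ := hPs
      have hτT := hτ.mono hPT
      obtain ⟨e0, he0⟩ := exists_inc hm hτ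
      have hconst := hτ.const (hnc τ hτT) hI.G1 (c := 0) (by omega) he0
      refine ⟨ε e0, ?_, ?_⟩
      · intro hk
        have hs := hsame τ hτT
        have e : (fun j : Fin (m + 1) => pcont N m σ j) = fun j : Fin (m + 1) => pcont N m τ j := by
          funext j; exact (hs.1 j).symm
        rw [e] at hk ⊢
        exact hI.G2H τ hτ (hnc τ hτT) h0 hs.2 hk 0 (by omega) e0 he0
      · intro _ p hp e he
        obtain ⟨h1, h2⟩ := hτ.full hP p hp
        rw [h1] at he
        exact hconst _ h2 e he
    · refine ⟨if Kn h0 (fun j => pcont N m σ j) then val h0 (fun j => pcont N m σ j) else 0, ?_, ?_⟩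
      · intro h; simp [h]
      · intro h; exact absurd h hPs
  -- the base assignment
  let base : Edge N → ZMod 2
    | Edge.int g a _ => if N.hub g a = h0 then v else 0
    | Edge.hub h => if h = h0 then v else 0
  have hbase : ∀ κ : Col N, hubc κ = some h0 → ∀ e, Inc L κ e → base e = v := by
    intro κ hκ e he
    cases κ with
    | ctr g => simp [hubc] at hκ
    | arm g a n =>
      simp only [hubc, Option.some.injEq] at hκ
      rcases he with rfl | rfl
      · simp [base, hκ]
      · unfold nxt
        split_ifs <;> simp [base, hκ]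
  have hbase2 : ∀ (g : N.Gad) (a : N.Arm g) (n : ℕ),
      base (Edge.int g a n) + base (nxt L g a n) = 0 := by
    intro g a n
    unfold nxt
    split_ifs <;> simp only [base] <;> exact CharTwo.add_self_eq_zero _
  let δ : N.Gad → ZMod 2 := fun g => N.beta g + ∑ a : N.Arm g, base (Edge.int g a 1)
  -- the free arm
  have hfree : ∀ g : N.Gad, ∃ a : N.Arm g, (∃ p ∈ T, p.col = Col.ctr g) →
      (∀ p ∈ T, p.col ≠ Col.arm g a 1) ∨ δ g = 0 := by
    intro g
    by_cases hex : ∃ a : N.Arm g, ∀ p ∈ T, p.col ≠ Col.arm g a 1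
    · obtain ⟨a, ha⟩ := hex
      exact ⟨a, fun _ => Or.inl ha⟩
    · push Not at hex
      let a1 : N.Arm g := Classical.choice (harm g)
      refine ⟨a1, ?_⟩
      rintro ⟨p0, hp0, hp0c⟩
      right
      have hp0q : p0 = q := by
        rcases hq p0 hp0 with ⟨h1, h2⟩ | h
        · exfalso
          rw [h1] at hp0c
          exact hnc σ hσ _ h2 _ hp0c
        · exact h
      have hin : ∀ a : N.Arm g, ∃ i < m, (σ i).col = Col.arm g a 1 := by
        intro a
        obtain ⟨p, hp, hpc⟩ := hex a
        rcases hq p hp with ⟨h1, h2⟩ | h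
        · exact ⟨p.row, h2, by rw [← h1]; exact hpc⟩
        · exfalso
          rw [h, ← hp0q, hp0c] at hpc
          cases hpc
      obtain ⟨i1, hi1, hi1c⟩ := hin a1
      have hw := hσ.wander hV hL hi1 (by rw [hi1c]; simp [pos])
      have hpos : ∀ k < m, pos (σ k).col < L := by
        intro k hk
        have h1 := (hw k hk).2
        rw [hi1c] at h1
        simp only [pos] at h1 ⊢
        have : pos (σ k).col ≤ 1 + (k - i1 + (i1 - k)) := h1
        show pos (σ k).col < L
        omega
      have hgad : ∀ k < m, gad (σ k).col = g := by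
        intro k hk
        rw [(hw k hk).1, hi1c]; rfl
      have harmk := hσ.loc_arm hV hpos (hnc σ hσ) hi1 hi1c
      have huniq : ∀ a : N.Arm g, a = a1 := by
        intro a
        obtain ⟨i, hi, hic⟩ := hin a
        obtain ⟨n, hn⟩ := harmk i hi
        rw [hic] at hn
        injection hn with _ h2 _
      have hmem : ∀ j : Fin (m + 1), cont N m σ j ∈ N.A g j := fun j =>
        hσ.cont_mem hm hV hAm hpos hgad j (by omega)
      have hkn := hcl.one g (fun j => cont N m σ j) hmem a1
        (fun a' ha' => absurd (huniq a') ha')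
      have hall := hcl.all g (fun j => cont N m σ j) hmem (fun a => by rw [huniq a]; exact hkn)
      have hsum : ∀ f : N.Arm g → ZMod 2, ∑ a, f a = f a1 := by
        intro f
        have : (Finset.univ : Finset (N.Arm g)) = {a1} := by
          ext a; simp [huniq a]
        rw [this, Finset.sum_singleton]
      rw [hsum] at hall
      have hhub : N.hub g a1 = h0 := by
        have h1 := hσ.hub_eq hV (hnc σ hσ) (c := 0) (by omega) i1 hi1
        rw [hi1c, hh0] at h1
        simpa [hubc] using h1
      have hpc : (fun j : Fin (m + 1) => N.pr g a1 (cont N m σ j)) =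
          fun j : Fin (m + 1) => pcont N m σ j := by
        funext j
        by_cases hj : (j : ℕ) < m
        · obtain ⟨n, hn⟩ := harmk j hj
          simp only [cont, pcont, hj, if_true, hn, prc]
        · simp only [cont, pcont, hj, if_false, N.pr_o]
      rw [hhub, hpc] at hkn hall
      have hv := hv1 hkn
      show N.beta g + ∑ a : N.Arm g, base (Edge.int g a 1) = 0
      rw [hsum]
      have : base (Edge.int g a1 1) = v := by simp [base, hhub]
      rw [this, hv, hall]
      exact CharTwo.add_self_eq_zero _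
  choose as has using hfree
  let flip : Edge N → ZMod 2
    | Edge.int g a p => if (∃ p ∈ T, p.col = Col.ctr g) ∧ p = 1 ∧ a = as g then δ g else 0
    | Edge.hub _ => 0
  have hflip : ∀ p ∈ T, (∀ g, p.col ≠ Col.ctr g) → ∀ e, Inc L p.col e → flip e = 0 := by
    intro p hp hpc e he
    have hvp := (hV p hp).col
    cases e with
    | hub h => rfl
    | int g a n =>
      simp only [flip]
      split_ifs with hc
      · obtain ⟨hc1, rfl, rfl⟩ := hc
        rcases has g hc1 with h | h
        · exfalso
          rcases inc_int he with ⟨h1, _⟩ | h1 | ⟨k, _, h2, h1⟩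
          · exact hpc _ h1
          · exact h p hp h1
          · rw [h1] at hvp
            simp only [VCol] at hvp
            omega
        · exact h
      · rfl
  have hε' : ∀ τ, Sec m L T τ → ∀ k < m, ∀ e, Inc L (τ k).col e → base e + flip e = v := by
    intro τ hτ k hk e he
    rw [hflip _ (hτ.mem k hk) (hnc τ hτ k hk) e he, add_zero]
    apply hbase (τ k).col _ e he
    rw [hτ.hub_eq hV (hnc τ hτ) (c := 0) (by omega) k hk]
    exact (hsame τ hτ).2
  refine ⟨fun e => base e + flip e, ⟨?_, ?_, ?_⟩, ?_⟩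
  · intro p hp
    have hvp := (hV p hp).col
    have hf := hflip p hp
    generalize hκ : p.col = κ at *
    cases κ with
    | ctr g =>
      have hg : ∃ p ∈ T, p.col = Col.ctr g := ⟨p, hp, hκ⟩
      simp only [esum, bcol]
      rw [Finset.sum_add_distrib]
      have : ∑ a : N.Arm g, flip (Edge.int g a 1) = δ g := by
        simp only [flip, hg, true_and]
        simp
      rw [this]
      show _ + (N.beta g + ∑ a : N.Arm g, base (Edge.int g a 1)) = N.beta g
      have h2 := CharTwo.add_self_eq_zero (∑ a : N.Arm g, base (Edge.int g a 1))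
      linear_combination h2
    | arm g a n =>
      have hf' := hf (by intro g'; simp)
      simp only [esum, bcol]
      rw [hf' _ (Or.inl rfl), hf' _ (Or.inr rfl), add_zero, add_zero]
      exact hbase2 g a n
  · intro τ hτ c hc g hcol
    exact absurd hcol (hnc τ hτ c hc g)
  · intro τ hτ _ h hh hk k hkm e he
    show base e + flip e = _
    rw [hε' τ hτ k hkm e he]
    have hs := hsame τ hτ
    have hh' : h = h0 := by
      rw [hs.2] at hh
      exact (Option.some.inj hh).symm
    subst hh'
    have e1 : (fun j : Fin (m + 1) => pcont N m τ j) = fun j : Fin (m + 1) => pcont N m σ j := by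
      funext j; exact hs.1 j
    rw [e1] at hk ⊢
    exact hv1 hk
  · rintro ⟨τ, hτ⟩ p hp e he
    rw [hv2 ⟨τ, hτ⟩ p hp e he]
    obtain ⟨h1, h2⟩ := hτ.full hP p hp
    rw [h1] at he
    exact hε' τ (hτ.mono hPT) _ h2 e he


/-- Choice of the values of the arms of a gadget. -/
theorem choose_v {ι : Type} [Fintype ι] (β : ZMod 2) (kn fix : ι → Prop) (vl w : ι → ZMod 2)
    (h1 : ∀ a, fix a → kn a → w a = vl a)
    (h2 : (∀ a, fix a ∨ kn a) → ∀ v : ι → ZMod 2, (∀ a, fix a → v a = w a) →
      (∀ a, kn a → v a = vl a) → ∑ a, v a = β) :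
    ∃ v : ι → ZMod 2, ∑ a, v a = β ∧ (∀ a, fix a → v a = w a) ∧ (∀ a, kn a → v a = vl a) := by
  classical
  let v0 : ι → ZMod 2 := fun a => if fix a then w a else if kn a then vl a else 0
  have h01 : ∀ a, fix a → v0 a = w a := fun a h => by simp [v0, h]
  have h02 : ∀ a, kn a → v0 a = vl a := by
    intro a h
    by_cases hf : fix a
    · simp [v0, hf, h1 a hf h]
    · simp [v0, hf, h]
  by_cases hall : ∀ a, fix a ∨ kn a
  · exact ⟨v0, h2 hall v0 h01 h02, h01, h02⟩
  · push Not at hall
    obtain ⟨a0, ha1, ha2⟩ := hall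
    refine ⟨fun a => v0 a + if a = a0 then β + ∑ b, v0 b else 0, ?_, ?_, ?_⟩
    · rw [Finset.sum_add_distrib]
      simp only [Finset.sum_ite_eq', Finset.mem_univ, if_true]
      have := CharTwo.add_self_eq_zero (∑ b, v0 b)
      linear_combination this
    · intro a ha
      have : a ≠ a0 := by rintro rfl; exact ha1 ha
      simp [this, h01 a ha]
    · intro a ha
      have : a ≠ a0 := by rintro rfl; exact ha2 ha
      simp [this, h02 a ha]

/-- contents of two local sections coincide -/
theorem cont_eq (hm : 2 ≤ m) (hV : ∀ p ∈ T, VObj m L p)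
    (hA0 : ∀ g, ∀ l ∈ N.A g 0, l = N.o) (hAm : ∀ g, ∀ l ∈ N.A g m, l = N.o)
    {σ τ : ℕ → Obj N} (hσ : Sec m L T σ) (hτ : Sec m L T τ)
    (hσp : ∀ k < m, pos (σ k).col < L) (hτp : ∀ k < m, pos (τ k).col < L)
    {q : Obj N} (hq : ∀ i < m, i ≠ q.row → τ i = σ i) :
    ∀ j, cont N m τ j = cont N m σ j := by
  intro j
  by_cases hj : j < m
  · by_cases hjq : j = q.row
    · rcases Nat.eq_zero_or_pos j with h0 | h0
      · subst h0
        have e1 : cont N m τ 0 = N.o := by
          rw [← Sec.cont_x 0 hj]
          have := (hV _ (hτ.mem 0 hj)).hx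
          rw [hτ.row 0 hj] at this
          exact hA0 _ _ this
        have e2 : cont N m σ 0 = N.o := by
          rw [← Sec.cont_x 0 hj]
          have := (hV _ (hσ.mem 0 hj)).hx
          rw [hσ.row 0 hj] at this
          exact hA0 _ _ this
        rw [e1, e2]
      · obtain ⟨i, rfl⟩ : ∃ i, j = i + 1 := ⟨j - 1, by omega⟩
        rw [← hτ.cont_y hV hτp hAm i (by omega), ← hσ.cont_y hV hσp hAm i (by omega),
          hq i (by omega) (by omega)]
    · simp only [cont, hj, if_true, hq j hj hjq]
  · simp only [cont, hj, if_false]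

/-- case (iii): a section of `T` goes through the centre of `g` -/
theorem eps_ctr (hm : 2 ≤ m) (hL : m + 2 ≤ L) (harm : ∀ g, Nonempty (N.Arm g))
    (hA0 : ∀ g, ∀ l ∈ N.A g 0, l = N.o) (hAm : ∀ g, ∀ l ∈ N.A g m, l = N.o)
    (hcl : Closed m Kn val)
    (hV : ∀ p ∈ T, VObj m L p) (hT : T.card ≤ m + 1) (hPT : P ⊆ T) (hP : P.card ≤ m)
    {ε : Edge N → ZMod 2} (hI : Inv m L Kn val P ε)
    {σ : ℕ → Obj N} (hσ : Sec m L T σ) {c : ℕ} (hc : c < m) {g : N.Gad}
    (hcol : (σ c).col = Col.ctr g) :
    ∃ ε' : Edge N → ZMod 2, Inv m L Kn val T ε' ∧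
      ((∃ τ, Sec m L P τ) → ∀ p ∈ P, ∀ e, Inc L p.col e → ε' e = ε e) := by
  classical
  obtain ⟨q, hqT, hq⟩ := hσ.extra hm hT
  have hVP : ∀ p ∈ P, VObj m L p := fun p hp => hV p (hPT hp)
  have hw := hσ.wander hV hL hc (by rw [hcol]; simp [pos])
  have hposσ : ∀ k < m, pos (σ k).col ≤ m - 1 := by
    intro k hk
    have h1 := (hw k hk).2
    rw [hcol] at h1
    have h2 : pos (σ k).col ≤ 0 + (k - c + (c - k)) := h1
    omega
  have hgadσ : ∀ k < m, gad (σ k).col = g := by
    intro k hk
    rw [(hw k hk).1, hcol]; rfl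
  -- every section of `T` is local, in `g`, at positions ≤ m
  have hloc : ∀ τ, Sec m L T τ → ∀ k < m, gad (τ k).col = g ∧ pos (τ k).col ≤ m := by
    intro τ hτ k hk
    have hag := hτ.agree hq
    by_cases hkq : k = q.row
    · -- neighbour in the section
      rcases Nat.eq_zero_or_pos k with h0 | h0
      · have h1 : k + 1 < m := by omega
        have e1 := hag (k + 1) h1 (by omega)
        have hl := hτ.link k h1
        have hp1 : pos (τ (k + 1)).col ≤ m - 1 := by rw [e1]; exact hposσ _ h1
        have hn := (hl.near (hV _ (hτ.mem k hk)).col (hV _ (hτ.mem (k + 1) h1)).col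
          (Or.inr (by omega))).1
        refine ⟨?_, ?_⟩
        · rw [hn.gad, e1]; exact hgadσ _ h1
        · have := hn.symm.pos; omega
      · obtain ⟨i, rfl⟩ : ∃ i, k = i + 1 := ⟨k - 1, by omega⟩
        have e1 := hag i (by omega) (by omega)
        have hl := hτ.link i hk
        have hp1 : pos (τ i).col ≤ m - 1 := by rw [e1]; exact hposσ _ (by omega)
        have hn := (hl.near (hV _ (hτ.mem i (by omega))).col (hV _ (hτ.mem (i + 1) hk)).col
          (Or.inl (by omega))).1
        refine ⟨?_, ?_⟩
        · rw [← hn.gad, e1]; exact hgadσ _ (by omega)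
        · have := hn.pos; omega
    · rw [hag k hk hkq]
      exact ⟨hgadσ k hk, by have := hposσ k hk; omega⟩
  have hlt : ∀ τ, Sec m L T τ → ∀ k < m, pos (τ k).col < L := by
    intro τ hτ k hk
    have := (hloc τ hτ k hk).2
    omega
  have hcont : ∀ τ, Sec m L T τ → ∀ j, cont N m τ j = cont N m σ j := fun τ hτ =>
    cont_eq hm hV hA0 hAm hσ hτ (hlt σ hσ) (hlt τ hτ) (hτ.agree hq)
  have hmem : ∀ j : Fin (m + 1), cont N m σ j ∈ N.A g j := fun j =>
    hσ.cont_mem hm hV hAm (hlt σ hσ) hgadσ j (by omega)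
  -- the projected content of a section without centre
  have hpcont : ∀ τ, Sec m L T τ → (∀ k < m, ∀ g, (τ k).col ≠ Col.ctr g) →
      ∃ a : N.Arm g, (∀ k < m, ∃ n, (τ k).col = Col.arm g a n) ∧
        (∀ j, pcont N m τ j = N.pr g a (cont N m σ j)) := by
    intro τ hτ hτc
    have h0 : 0 < m := by omega
    have hg0 := (hloc τ hτ 0 h0).1
    generalize hκ : (τ 0).col = κ at hg0
    cases κ with
    | ctr g' => exact absurd hκ (hτc 0 h0 g')
    | arm g' a n =>
      have : g' = g := hg0
      subst this
      have harm' := hτ.loc_arm hV (hlt τ hτ) hτc h0 hκ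
      refine ⟨a, harm', ?_⟩
      intro j
      by_cases hj : j < m
      · obtain ⟨n, hn⟩ := harm' j hj
        rw [← hcont τ hτ j]
        simp only [pcont, cont, hj, if_true, hn, prc]
      · simp only [pcont, cont, hj, if_false, N.pr_o]
  -- the values of the arms
  obtain ⟨v, hv0, hv1, hv2⟩ : ∃ v : N.Arm g → ZMod 2, ∑ a, v a = N.beta g ∧
      ((∃ τ, Sec m L P τ) → ∀ p ∈ P, ∀ (a : N.Arm g) (n : ℕ), Inc L p.col (Edge.int g a n) →
        v a = ε (Edge.int g a n)) ∧
      (∀ a, Kn (N.hub g a) (fun j => N.pr g a (cont N m σ j)) →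
        v a = val (N.hub g a) (fun j => N.pr g a (cont N m σ j))) := by
    by_cases hPs : ∃ τ, Sec m L P τ
    · obtain ⟨τ, hτ⟩ := hPs
      have hτT := hτ.mono hPT
      have hfun : (∀ a : N.Arm g, (fun j : Fin (m + 1) => N.pr g a (cont N m τ j)) =
          fun j : Fin (m + 1) => N.pr g a (cont N m σ j)) := by
        intro a; funext j; rw [hcont τ hτT j]
      by_cases hτc : ∃ c' < m, ∃ g', (τ c').col = Col.ctr g'
      · obtain ⟨c', hc', g', hc'g⟩ := hτc
        have hgg : g' = g := by
          have := (hloc τ hτT c' hc').1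
          rw [hc'g] at this
          exact this
        subst hgg
        have hcc := hτ.constC hVP (hlt τ hτT) hI.G1 hc' hc'g
        have hG := hI.G1 _ (hτ.mem c' hc')
        rw [hc'g] at hG
        refine ⟨fun a => ε (Edge.int g' a 1), hG, ?_, ?_⟩
        · intro _ p hp a n hpn
          obtain ⟨h1, h2⟩ := hτ.full hP p hp
          rw [h1] at hpn
          exact (hcc _ h2 a n hpn).symm
        · intro a hk
          have := hI.G2C τ hτ c' hc' g' hc'g c' hc' a 1 (by rw [hc'g]; exact ⟨a, rfl⟩)
          rw [hfun a] at this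
          exact this hk
      · push Not at hτc
        obtain ⟨a1, harm1, hpc1⟩ := hpcont τ hτT hτc
        obtain ⟨n0, hn0⟩ := harm1 0 (by omega)
        have hcst := hτ.const hτc hI.G1 (c := 0) (by omega) (e0 := Edge.int g a1 n0)
          (by rw [hn0]; exact Or.inl rfl)
        have hw1 : Kn (N.hub g a1) (fun j => N.pr g a1 (cont N m σ j)) →
            ε (Edge.int g a1 n0) = val (N.hub g a1) (fun j => N.pr g a1 (cont N m σ j)) := by
          intro hk
          have e : (fun j : Fin (m + 1) => pcont N m τ j) =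
              fun j : Fin (m + 1) => N.pr g a1 (cont N m σ j) := by
            funext j; exact hpc1 j
          have := hI.G2H τ hτ hτc (N.hub g a1) (by rw [hn0]; rfl)
          rw [e] at this
          exact this hk 0 (by omega) _ (by rw [hn0]; exact Or.inl rfl)
        obtain ⟨v, hv0, hv1, hv2⟩ := choose_v (N.beta g)
          (fun a => Kn (N.hub g a) (fun j => N.pr g a (cont N m σ j))) (fun a => a = a1)
          (fun a => val (N.hub g a) (fun j => N.pr g a (cont N m σ j)))
          (fun _ => ε (Edge.int g a1 n0))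
          (by rintro a rfl hk; exact hw1 hk)
          (by
            intro hall v hva hvk
            have hkall : ∀ a, Kn (N.hub g a) (fun j => N.pr g a (cont N m σ j)) := by
              intro a
              by_cases ha : a = a1
              · subst ha
                apply hcl.one g _ hmem
                intro a' ha'
                exact (hall a').resolve_left ha'
              · exact (hall a).resolve_left ha
            rw [← hcl.all g _ hmem hkall]
            exact Finset.sum_congr rfl fun a _ => hvk a (hkall a))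
        refine ⟨v, hv0, ?_, hv2⟩
        intro _ p hp a n hpn
        obtain ⟨h1, h2⟩ := hτ.full hP p hp
        rw [h1] at hpn
        obtain ⟨n', hn'⟩ := harm1 _ h2
        have ha : a = a1 := by
          rw [hn'] at hpn
          rcases inc_int hpn with ⟨h, _⟩ | h | ⟨_, _, _, h⟩
          · cases h
          · injection h with _ h3 _; exact h3.symm
          · injection h with _ h3 _; exact h3.symm
        subst ha
        rw [hv1 a rfl]
        exact (hcst _ h2 _ hpn).symm
    · obtain ⟨v, hv0, _, hv2⟩ := choose_v (N.beta g)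
          (fun a => Kn (N.hub g a) (fun j => N.pr g a (cont N m σ j))) (fun _ => False)
          (fun a => val (N.hub g a) (fun j => N.pr g a (cont N m σ j)))
          (fun _ => 0) (by intro a h; exact absurd h id)
          (by
            intro hall v _ hvk
            have hkall : ∀ a, Kn (N.hub g a) (fun j => N.pr g a (cont N m σ j)) := fun a =>
              (hall a).resolve_left id
            rw [← hcl.all g _ hmem hkall]
            exact Finset.sum_congr rfl fun a _ => hvk a (hkall a))
      exact ⟨v, hv0, fun h => absurd h hPs, hv2⟩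
  -- cut positions
  let t : N.Arm g → ℕ := fun a => if ∃ p ∈ T, p.col = Col.arm g a m then m + 1 else m
  have ht1 : ∀ a, m ≤ t a ∧ t a ≤ m + 1 := by
    intro a; simp only [t]; split_ifs <;> omega
  have htm : ∀ a, (∃ p ∈ T, p.col = Col.arm g a m) → t a = m + 1 := by
    intro a h; simp [t, h]
  have htfree : ∀ a, ∀ p ∈ T, p.col ≠ Col.arm g a (t a) := by
    intro a p hp hpc
    by_cases h : ∃ p ∈ T, p.col = Col.arm g a m
    · rw [htm a h] at hpc
      obtain ⟨p', hp', hpc'⟩ := h
      have hnot : ∀ r ∈ T, m ≤ pos r.col → r = q := by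
        intro r hr hrp
        rcases hq r hr with ⟨h1, h2⟩ | h
        · exfalso
          have := hposσ _ h2
          rw [← h1] at this
          omega
        · exact h
      have e1 := hnot p hp (by rw [hpc]; simp [pos])
      have e2 := hnot p' hp' (by rw [hpc']; simp [pos])
      rw [e1] at hpc
      rw [e2, hpc] at hpc'
      injection hpc' with _ _ h3
      omega
    · have : t a = m := by simp [t, h]
      rw [this] at hpc
      exact h ⟨p, hp, hpc⟩
  let a0 : ∀ g, N.Arm g := fun g => Classical.choice (harm g)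
  let ε' : Edge N → ZMod 2
    | Edge.int g' a p =>
      if h : g' = g then (if p ≤ t (h ▸ a) then v (h ▸ a) else 0)
      else if (∃ p ∈ T, p.col = Col.ctr g') ∧ p = 1 ∧ a = a0 g' then N.beta g' else 0
    | Edge.hub _ => 0
  have hε'g : ∀ (a : N.Arm g) (p : ℕ), ε' (Edge.int g a p) = if p ≤ t a then v a else 0 := by
    intro a p
    simp [ε']
  have hε'ne : ∀ (g' : N.Gad) (a : N.Arm g') (p : ℕ), g' ≠ g → ε' (Edge.int g' a p) =
      if (∃ p ∈ T, p.col = Col.ctr g') ∧ p = 1 ∧ a = a0 g' then N.beta g' else 0 := by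
    intro g' a p h
    simp [ε', h]
  -- touched edges of sections
  have htouch : ∀ p ∈ T, gad p.col = g → pos p.col ≤ m → ∀ e, Inc L p.col e →
      ∃ a n, e = Edge.int g a n ∧ ε' e = v a := by
    intro p hp hg hpm e he
    generalize hκ : p.col = κ at *
    cases κ with
    | ctr g' =>
      have : g' = g := hg
      subst this
      obtain ⟨a, rfl⟩ := he
      refine ⟨a, 1, rfl, ?_⟩
      rw [hε'g]
      have := ht1 a
      have : 1 ≤ t a := by omega
      simp [this]
    | arm g' a n =>
      have : g' = g := hg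
      subst this
      have hn : n ≤ m := hpm
      rcases he with rfl | rfl
      · refine ⟨a, n, rfl, ?_⟩
        rw [hε'g]
        have := ht1 a
        have : n ≤ t a := by omega
        simp [this]
      · have hnL : n < L := by omega
        refine ⟨a, n + 1, by simp [nxt, hnL], ?_⟩
        simp only [nxt, hnL, if_true]
        rw [hε'g]
        have : n + 1 ≤ t a := by
          rcases Nat.lt_or_ge n m with h | h
          · have := ht1 a; omega
          · have hnm : n = m := by omega
            rw [htm a ⟨p, hp, by rw [hκ, hnm]⟩]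
            omega
        simp [this]
  refine ⟨ε', ⟨?_, ?_, ?_⟩, ?_⟩
  · -- G1
    intro p hp
    have hvp := (hV p hp).col
    generalize hκ : p.col = κ at *
    cases κ with
    | ctr g' =>
      simp only [esum, bcol]
      by_cases hg : g' = g
      · subst hg
        rw [← hv0]
        apply Finset.sum_congr rfl
        intro a _
        rw [hε'g]
        have := ht1 a
        have : 1 ≤ t a := by omega
        simp [this]
      · have hex : ∃ p ∈ T, p.col = Col.ctr g' := ⟨p, hp, hκ⟩
        have : ∀ a : N.Arm g', ε' (Edge.int g' a 1) = if a = a0 g' then N.beta g' else 0 := by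
          intro a
          rw [hε'ne g' a 1 hg]
          simp [hex]
        simp [this]
    | arm g' a n =>
      simp only [esum, bcol]
      obtain ⟨hn1, hn2⟩ := hvp
      by_cases hg : g' = g
      · subst hg
        have hne : n ≠ t a := by
          rintro rfl
          exact htfree a p hp hκ
        have ht := ht1 a
        by_cases hnL : n < L
        · simp only [nxt, hnL, if_true]
          rw [hε'g, hε'g]
          rcases lt_or_gt_of_ne hne with h | h
          · have h' : n + 1 ≤ t a := h
            simp only [h.le, h', if_true]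
            exact CharTwo.add_self_eq_zero _
          · have h1 : ¬ n ≤ t a := by omega
            have h2 : ¬ n + 1 ≤ t a := by omega
            simp [h1, h2]
        · have h1 : ¬ n ≤ t a := by omega
          simp only [nxt, hnL, if_false]
          rw [hε'g]
          simp [h1, ε']
      · -- the extra object
        have hnoctr : ¬ ∃ p ∈ T, p.col = Col.ctr g' := by
          rintro ⟨r, hr, hrc⟩
          have e1 : r = q := by
            rcases hq r hr with ⟨h1, h2⟩ | h
            · exfalso
              apply hg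
              have := hgadσ _ h2
              rw [← h1, hrc] at this
              exact this
            · exact h
          have e2 : p = q := by
            rcases hq p hp with ⟨h1, h2⟩ | h
            · exfalso
              apply hg
              have := hgadσ _ h2
              rw [← h1, hκ] at this
              exact this
            · exact h
          rw [e1] at hrc
          rw [e2, hrc] at hκ
          cases hκ
        rw [hε'ne g' a n hg]
        by_cases hnL : n < L
        · simp only [nxt, hnL, if_true]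
          rw [hε'ne g' a (n + 1) hg]
          simp only [hnoctr, false_and, if_false, add_zero]
        · simp only [nxt, hnL, if_false, hnoctr, false_and, if_false, ε', add_zero]
  · -- G2C
    intro τ hτ c' hc' g' hc'g k hk a n hinc hkn
    have hgg : g' = g := by
      have := (hloc τ hτ c' hc').1
      rw [hc'g] at this
      exact this
    subst hgg
    obtain ⟨hg, hp⟩ := hloc τ hτ k hk
    obtain ⟨a', n', he, hεv⟩ := htouch _ (hτ.mem k hk) hg hp _ hinc
    injection he with _ h2 h3
    subst h2
    have e : (fun j : Fin (m + 1) => N.pr g' a (cont N m τ j)) =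
        fun j : Fin (m + 1) => N.pr g' a (cont N m σ j) := by
      funext j; rw [hcont τ hτ j]
    rw [e] at hkn ⊢
    rw [hεv]
    exact hv2 a hkn
  · -- G2H
    intro τ hτ hτc h hh hkn k hk e he
    obtain ⟨a, harm1, hpc⟩ := hpcont τ hτ hτc
    obtain ⟨n0, hn0⟩ := harm1 0 (by omega)
    rw [hn0] at hh
    have hh' : N.hub g a = h := by simpa [hubc] using hh
    subst hh'
    obtain ⟨hg, hp⟩ := hloc τ hτ k hk
    obtain ⟨a', n', he', hεv⟩ := htouch _ (hτ.mem k hk) hg hp _ he
    have haa : a' = a := by
      subst he'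
      obtain ⟨n, hn⟩ := harm1 k hk
      rw [hn] at he
      rcases inc_int he with ⟨h, _⟩ | h | ⟨_, _, _, h⟩
      · cases h
      · injection h with _ h3 _; exact h3.symm
      · injection h with _ h3 _; exact h3.symm
    subst haa
    have e1 : (fun j : Fin (m + 1) => pcont N m τ j) =
        fun j : Fin (m + 1) => N.pr g a' (cont N m σ j) := by
      funext j; exact hpc j
    rw [e1] at hkn ⊢
    rw [hεv]
    exact hv2 a' hkn
  · -- agreement
    rintro ⟨τ, hτ⟩ p hp e he
    obtain ⟨h1, h2⟩ := hτ.full hP p hp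
    have hτT := hτ.mono hPT
    obtain ⟨hg, hpp⟩ := hloc τ hτT _ h2
    rw [← h1] at hg hpp
    obtain ⟨a, n, rfl, hεv⟩ := htouch p (hPT hp) hg hpp e he
    rw [hεv]
    exact hv1 ⟨τ, hτ⟩ p hp a n he

/-- **Extension lemma (D)**. -/
theorem extend (hm : 2 ≤ m) (hL : m + 2 ≤ L) (harm : ∀ g, Nonempty (N.Arm g))
    (hA0 : ∀ g, ∀ l ∈ N.A g 0, l = N.o) (hAm : ∀ g, ∀ l ∈ N.A g m, l = N.o)
    (hcl : Closed m Kn val)
    (hV : ∀ p ∈ T, VObj m L p) (hT : T.card ≤ m + 1) (hPT : P ⊆ T) (hP : P.card ≤ m)
    {V : Pot N} {ε : Edge N → ZMod 2} (hpot : IsPot m V ε) (hI : Inv m L Kn val P ε) :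
    ∃ (V' : Pot N) (ε' : Edge N → ZMod 2), IsPot m V' ε' ∧ Inv m L Kn val T ε' ∧
      ∀ p ∈ P, Agree m L V V' p := by
  have hrow : ∀ p ∈ P, p.row < m := fun p hp => (hV p (hPT hp)).row
  have key : ∃ ε' : Edge N → ZMod 2, Inv m L Kn val T ε' ∧
      ((∃ τ, Sec m L P τ) → ∀ p ∈ P, ∀ e, Inc L p.col e → ε' e = ε e) := by
    by_cases hs : ∃ σ, Sec m L T σ
    · obtain ⟨σ, hσ⟩ := hs
      by_cases hc : ∃ τ, Sec m L T τ ∧ ∃ c < m, ∃ g, (τ c).col = Col.ctr g
      · obtain ⟨τ, hτ, c, hc, g, hcg⟩ := hc
        exact eps_ctr hm hL harm hA0 hAm hcl hV hT hPT hP hI hτ hc hcg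
      · push Not at hc
        exact eps_hub hm hL harm hA0 hAm hcl hV hT hPT hP hI hσ hc
    · push Not at hs
      obtain ⟨ε', h⟩ := eps_nosec (Kn := Kn) (val := val) hm hL harm hV hT hs
      exact ⟨ε', h, fun ⟨τ, hτ⟩ => absurd (hτ.mono hPT) (hs τ)⟩
  obtain ⟨ε', hI', hag⟩ := key
  by_cases hPs : ∃ τ, Sec m L P τ
  · obtain ⟨V', h1, h2⟩ := reach_touch hm hpot (hag hPs) hrow
    exact ⟨V', ε', h1, hI', h2⟩
  · push Not at hPs
    obtain ⟨V', h1, h2⟩ := reach_nosec hm hpot hP hrow hI.G1
      (fun p hp => hI'.G1 p (hPT hp)) hPs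
    exact ⟨V', ε', h1, hI', h2⟩

end Cases

end Crest.Agent.R290.Dup
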