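import Crest.Agent.R290.Defs
import Crest.Agent.R290.Dup

/-!
# Row 290, [NETD]: closed facts give a shift system (blueprint 2.1)
-/

set_option autoImplicit false
set_option linter.unusedSectionVars false

namespace Crest.Agent.R290

namespace NetD

open Finset

variable {H Λ : Type}

theorem bz_add (a b : Bool) : bz (a + b) = bz a + bz b := by
  cases a <;> cases b <;> decide

theorem bz_sum (l : List Bool) : bz l.sum = (l.map bz).sum := by
  induction l with
  | nil => rfl
  | cons a l ih => rw [List.sum_cons, List.map_cons, List.sum_cons, bz_add, ih]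

theorem range_sum {M : Type} [AddCommMonoid M] (n : ℕ) (f : ℕ → M) :
    ((List.range n).map f).sum = ∑ a : Fin n, f a := by
  rw [← Finset.sum_range]
  induction n with
  | zero => simp
  | succ n ih => rw [List.range_succ, List.map_append, List.sum_append, ih, Finset.sum_range_succ]; simp

variable (N : Net H Λ)

/-- the associated network of `Dup.lean` -/
def dnet (hN : N.OK) : Dup.Net where
  Hub := H
  Gad := Fin N.nG
  Ltr := Λ
  Arm := fun g => Fin (N.narm g)
  o := N.o
  hub := fun g a => N.hub g a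
  pr := fun g a => N.proj g a
  pr_o := fun g a => hN.proj_o g a
  A := fun g j => {x | x ∈ N.lett g j}
  beta := fun g => bz (decide (g.1 = N.gt))

variable {N}
variable (hN : N.OK)

instance (g : (dnet N hN).Gad) : Fintype ((dnet N hN).Arm g) := by
  unfold dnet; infer_instance

/-- the column map -/
def fcol (κ : Col) : Dup.Col (dnet N hN) :=
  if h : κ.1 < N.nG then
    if κ.2.2 = 0 then Dup.Col.ctr (N := dnet N hN) (⟨κ.1, h⟩ : Fin N.nG)
    else if h2 : κ.2.1 < N.narm κ.1 then
      Dup.Col.arm (N := dnet N hN) (⟨κ.1, h⟩ : Fin N.nG) (⟨κ.2.1, h2⟩ : Fin (N.narm κ.1)) κ.2.2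
    else Dup.Col.ctr (N := dnet N hN) (⟨N.gt, hN.gt_lt⟩ : Fin N.nG)
  else Dup.Col.ctr (N := dnet N hN) (⟨N.gt, hN.gt_lt⟩ : Fin N.nG)

/-- the edge map -/
def fedge (e : Edge H) : Dup.Edge (dnet N hN) :=
  match e with
  | Sum.inl h => Dup.Edge.hub (N := dnet N hN) h
  | Sum.inr κ =>
    if h : κ.1 < N.nG then
      if h2 : κ.2.1 < N.narm κ.1 then
        Dup.Edge.int (N := dnet N hN) (⟨κ.1, h⟩ : Fin N.nG) (⟨κ.2.1, h2⟩ : Fin (N.narm κ.1)) κ.2.2
      else Dup.Edge.int (N := dnet N hN) (⟨N.gt, hN.gt_lt⟩ : Fin N.nG)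
        (⟨0, by rw [hN.narm_gt]; exact Nat.one_pos⟩ : Fin (N.narm N.gt)) 0
    else Dup.Edge.int (N := dnet N hN) (⟨N.gt, hN.gt_lt⟩ : Fin N.nG)
        (⟨0, by rw [hN.narm_gt]; exact Nat.one_pos⟩ : Fin (N.narm N.gt)) 0

/-- the object map -/
def fobj (u : NObj Λ) : Dup.Obj (dnet N hN) :=
  ⟨fcol hN u.1, u.2.1, u.2.2.1, u.2.2.2⟩

/-- valid columns -/
inductive VC (N : Net H Λ) : Col → Prop
  | ctr (g : ℕ) (hg : g < N.nG) : VC N (g, 0, 0)
  | arm (g a p : ℕ) (hg : g < N.nG) (ha : a < N.narm g) (hp : p < N.L) : VC N (g, a, p + 1)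

theorem mem_objs (u : NObj Λ) : u ∈ N.objs → VC N u.1 ∧ u.2.1 < N.m ∧
    u.2.2.1 ∈ N.lett u.1.1 u.2.1 ∧ u.2.2.2 ∈ N.lett u.1.1 (u.2.1 + 1) := by
  intro h
  simp only [Net.objs, Net.cols, List.mem_flatMap, List.mem_range, List.mem_cons, List.mem_map] at h
  obtain ⟨g, hg, κ, hκ, i, hi, x, hx, y, hy, rfl⟩ := h
  rcases hκ with rfl | ⟨a, ha, p, hp, rfl⟩
  · exact ⟨VC.ctr g hg, hi, hx, hy⟩
  · exact ⟨VC.arm g a p hg ha hp, hi, hx, hy⟩

theorem fcol_ctr (g : ℕ) (hg : g < N.nG) :
    fcol hN (g, 0, 0) = Dup.Col.ctr (N := dnet N hN) (⟨g, hg⟩ : Fin N.nG) := by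
  simp [fcol, hg]

theorem fcol_arm (g a p : ℕ) (hg : g < N.nG) (ha : a < N.narm g) :
    fcol hN (g, a, p + 1) = Dup.Col.arm (N := dnet N hN) (⟨g, hg⟩ : Fin N.nG)
      (⟨a, ha⟩ : Fin (N.narm g)) (p + 1) := by
  simp [fcol, hg, ha]

theorem fedge_int (g a p : ℕ) (hg : g < N.nG) (ha : a < N.narm g) :
    fedge hN (Sum.inr (g, a, p)) = Dup.Edge.int (N := dnet N hN) (⟨g, hg⟩ : Fin N.nG)
      (⟨a, ha⟩ : Fin (N.narm g)) p := by
  simp [fedge, hg, ha]

theorem edges_ctr (g : ℕ) : N.edges (g, 0, 0) =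
    (List.range (N.narm g)).map fun a => Sum.inr (g, a, 1) := by
  simp [Net.edges]

theorem edges_arm (g a p : ℕ) : N.edges (g, a, p + 1) =
    [Sum.inr (g, a, p + 1), if p + 1 < N.L then Sum.inr (g, a, p + 1 + 1) else Sum.inl (N.hub g a)] := by
  simp [Net.edges]

theorem esum_eq {κ : Col} (hκ : VC N κ) (f : Dup.Edge (dnet N hN) → ZMod 2) :
    Dup.esum N.L (fcol hN κ) f = ((N.edges κ).map fun e => f (fedge hN e)).sum := by
  cases hκ with
  | ctr g hg =>
    rw [fcol_ctr hN g hg, edges_ctr, List.map_map, range_sum]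
    simp only [Dup.esum]
    apply Finset.sum_congr rfl
    intro a _
    change f _ = f (fedge hN (Sum.inr (g, (Fin.val (n := N.narm g) a), 1)))
    rw [fedge_int hN g (Fin.val (n := N.narm g) a) 1 hg (Fin.isLt (n := N.narm g) a)]
    rfl
  | arm g a p hg ha hp =>
    rw [fcol_arm hN g a p hg ha, edges_arm]
    simp only [Dup.esum, Dup.nxt, List.map_cons, List.map_nil, List.sum_cons, List.sum_nil, add_zero]
    rw [fedge_int hN g a (p + 1) hg ha]
    congr 1
    split_ifs
    · rw [fedge_int hN g a (p + 1 + 1) hg ha]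
    · rfl

theorem inc_of_mem {κ : Col} (hκ : VC N κ) {e : Edge H} (he : e ∈ N.edges κ) :
    Dup.Inc N.L (fcol hN κ) (fedge hN e) ∧
      ∀ x, Dup.psi (fcol hN κ) (fedge hN e) x = N.psi κ e x := by
  cases hκ with
  | ctr g hg =>
    rw [edges_ctr, List.mem_map] at he
    obtain ⟨a, ha, rfl⟩ := he
    have ha' := List.mem_range.mp ha
    rw [fcol_ctr hN g hg, fedge_int hN g a 1 hg ha']
    exact ⟨⟨_, rfl⟩, fun x => rfl⟩
  | arm g a p hg ha hp =>
    rw [edges_arm] at he
    rw [fcol_arm hN g a p hg ha]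
    rcases List.mem_cons.mp he with rfl | he
    · rw [fedge_int hN g a (p + 1) hg ha]
      exact ⟨Or.inl rfl, fun x => rfl⟩
    · have he := List.mem_singleton.mp he
      by_cases hp : p + 1 < N.L
      · rw [if_pos hp] at he
        subst he
        rw [fedge_int hN g a (p + 1 + 1) hg ha]
        refine ⟨Or.inr ?_, fun x => rfl⟩
        simp [Dup.nxt, hp]
      · rw [if_neg hp] at he
        subst he
        refine ⟨Or.inr ?_, fun x => rfl⟩
        simp only [Dup.nxt, hp, if_false]
        rfl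

/-- the shift given by a potential -/
def sV (V : Dup.Pot (dnet N hN)) : NVar H Λ → ZMod 2
  | Sum.inl (e, i, x, y) => V (fedge hN e) i x + V (fedge hN e) (i + 1) y
  | Sum.inr (κ, j, x) => ((N.edges κ).map fun e => V (fedge hN e) j (N.psi κ e x)).sum

theorem sV_U (V : Dup.Pot (dnet N hN)) {κ : Col} (hκ : VC N κ) (j : ℕ) (x : Λ) :
    sV hN V (Net.U κ j x) =
      Dup.esum N.L (fcol hN κ) (fun e => V e j (Dup.psi (fcol hN κ) e x)) := by
  rw [esum_eq hN hκ]
  simp only [Net.U, sV]
  congr 1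
  apply List.map_congr_left
  intro e he
  rw [(inc_of_mem hN hκ he).2 x]

theorem vobj {u : NObj Λ} (hu : u ∈ N.objs) : Dup.VObj N.m N.L (fobj hN u) := by
  obtain ⟨h1, h2, h3, h4⟩ := mem_objs u hu
  obtain ⟨κ, i, x, y⟩ := u
  simp only at h1 h2 h3 h4
  cases h1 with
  | ctr g hg =>
    refine ⟨h2, ?_, ?_, ?_⟩
    · show Dup.VCol N.L (fcol hN _)
      rw [fcol_ctr hN g hg]; trivial
    · show x ∈ (dnet N hN).A (Dup.gad (fcol hN _)) i
      rw [fcol_ctr hN g hg]; exact h3
    · show y ∈ (dnet N hN).A (Dup.gad (fcol hN _)) (i + 1)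
      rw [fcol_ctr hN g hg]; exact h4
  | arm g a p hg ha hp =>
    refine ⟨h2, ?_, ?_, ?_⟩
    · show Dup.VCol N.L (fcol hN _)
      rw [fcol_arm hN g a p hg ha]
      exact ⟨by omega, by omega⟩
    · show x ∈ (dnet N hN).A (Dup.gad (fcol hN _)) i
      rw [fcol_arm hN g a p hg ha]; exact h3
    · show y ∈ (dnet N hN).A (Dup.gad (fcol hN _)) (i + 1)
      rw [fcol_arm hN g a p hg ha]; exact h4

/-! ### closedness -/

/-- extension of a content by the trivial letter -/
def ex (N : Net H Λ) (z : Fin (N.m + 1) → Λ) : ℕ → Λ := fun j =>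
  if h : j < N.m + 1 then z ⟨j, h⟩ else N.o

include hN in
theorem ex_proj (g a : ℕ) (x : Fin (N.m + 1) → Λ) :
    ex N (fun j => N.proj g a (x j)) = fun j => N.proj g a (ex N x j) := by
  funext j
  unfold ex
  split_ifs
  · rfl
  · exact (hN.proj_o g a).symm

include hN in
theorem ex_content (g : ℕ) (hg : g < N.nG) (x : Fin (N.m + 1) → Λ)
    (hx : ∀ j : Fin (N.m + 1), x j ∈ N.lett g j) : N.Content g (ex N x) := by
  intro j
  unfold ex
  split_ifs with h
  · exact hx ⟨j, h⟩
  · rw [hN.lett_triv g hg j (Or.inr (by omega))]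
    exact List.mem_singleton.mpr rfl

theorem closed_transfer {Kn : H → (ℕ → Λ) → Prop} {val : H → (ℕ → Λ) → Bool}
    (h : N.Closed Kn val) :
    Dup.Closed (N := dnet N hN) N.m (fun hb z => Kn hb (ex N z)) (fun hb z => bz (val hb (ex N z))) := by
  constructor
  · intro g x hx a ha
    have hc := ex_content hN g.1 g.2 x hx
    have := h.ne_one g.1 g.2 (ex N x) hc a.1 a.2 (by
      intro a' ha' hne
      have := ha ⟨a', ha'⟩ (by
        intro e; apply hne; exact congrArg Fin.val e)
      have e := ex_proj hN g.1 a' x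
      rw [← e]
      exact this)
    have e := ex_proj hN g.1 a.1 x
    rw [← e] at this
    exact this
  · intro g x hx ha
    have hc := ex_content hN g.1 g.2 x hx
    have := h.sum_eq g.1 g.2 (ex N x) hc (by
      intro a ha'
      have h1 := ha ⟨a, ha'⟩
      rw [← ex_proj hN g.1 a x]
      exact h1)
    have h2 := congrArg bz this
    rw [bz_sum, List.map_map, range_sum] at h2
    show _ = bz (decide (g.1 = N.gt))
    rw [← h2]
    apply Finset.sum_congr rfl
    intro a _
    have e := ex_proj hN g.1 (Fin.val (n := N.narm g.1) a) x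
    simp only [Function.comp]
    rw [← e]
    rfl

theorem inv_mono {M : Dup.Net} [∀ g, Fintype (M.Arm g)] {m L : ℕ} {P Q : Finset (Dup.Obj M)}
    {Kn : M.Hub → (Fin (m + 1) → M.Ltr) → Prop} {val : M.Hub → (Fin (m + 1) → M.Ltr) → ZMod 2}
    {ε : Dup.Edge M → ZMod 2} (h : Dup.Inv m L Kn val P ε) (hQ : Q ⊆ P) :
    Dup.Inv m L Kn val Q ε :=
  ⟨fun p hp => h.G1 p (hQ hp), fun σ hσ => h.G2C σ (hσ.mono hQ), fun σ hσ => h.G2H σ (hσ.mono hQ)⟩

variable [DecidableEq H] [DecidableEq Λ]

theorem edges_nodup (κ : Col) : (N.edges κ).Nodup := by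
  unfold Net.edges
  split_ifs with h h2
  · apply List.Nodup.map _ List.nodup_range
    intro a b hab
    simpa using hab
  · simp only [List.nodup_cons, List.mem_singleton, List.not_mem_nil, not_false_eq_true,
      List.nodup_nil, and_true]
    intro e
    have := congrArg (fun s : Edge H => match s with | Sum.inl _ => 0 | Sum.inr k => k.2.2) e
    simp at this
  · simp

theorem ports_nodup (u : NObj Λ) : (N.ports u).Nodup := by
  unfold Net.ports
  rw [List.nodup_append]
  refine ⟨?_, ?_, ?_⟩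
  · apply List.Nodup.map _ (edges_nodup u.1)
    intro e e' h
    simp only [Net.Y, Sum.inl.injEq, Prod.mk.injEq] at h
    exact h.1
  · split_ifs <;> simp [Net.U]
  · intro a ha b hb
    simp only [List.mem_map] at ha
    obtain ⟨e, _, rfl⟩ := ha
    simp only [List.mem_append] at hb
    rcases hb with hb | hb <;> split_ifs at hb <;> simp at hb <;> subst hb <;> simp [Net.Y, Net.U]


theorem sum_ports (V : Dup.Pot (dnet N hN)) {ε : Dup.Edge (dnet N hN) → ZMod 2}
    (hV : Dup.IsPot N.m V ε) {u : NObj Λ} (hu : u ∈ N.objs)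
    (hG : Dup.esum N.L (fcol hN u.1) ε = Dup.bcol (fcol hN u.1)) :
    ((N.ports u).map (sV hN V)).sum = bz (N.beta u) := by
  obtain ⟨hκ, hi, hx, hy⟩ := mem_objs u hu
  obtain ⟨κ, i, x, y⟩ := u
  simp only at hκ hi hx hy hG
  have hg : κ.1 < N.nG := by cases hκ <;> assumption
  unfold Net.ports
  rw [List.map_append, List.sum_append, List.map_map, List.map_append, List.sum_append]
  -- the Y part
  have hY : ((N.edges κ).map ((sV hN V) ∘ fun e => Net.Y e i (N.psi κ e x) (N.psi κ e y))).sum =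
      ((N.edges κ).map fun e => V (fedge hN e) i (N.psi κ e x)).sum +
        ((N.edges κ).map fun e => V (fedge hN e) (i + 1) (N.psi κ e y)).sum := by
    rw [← List.sum_map_add]
    rfl
  have h1 : (List.map (sV hN V) (if 0 < i then [Net.U κ i x] else [])).sum =
      ((N.edges κ).map fun e => V (fedge hN e) i (N.psi κ e x)).sum := by
    split_ifs with h
    · simp [Net.U, sV]
    · have h0 : i = 0 := by omega
      subst h0
      simp only [List.map_nil, List.sum_nil]
      symm
      apply List.sum_eq_zero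
      intro z hz
      obtain ⟨e, _, rfl⟩ := List.mem_map.mp hz
      exact hV.zero _ _
  have h2 : (List.map (sV hN V) (if i + 1 < N.m then [Net.U κ (i + 1) y] else [])).sum =
      ((N.edges κ).map fun e => V (fedge hN e) (i + 1) (N.psi κ e y)).sum + bz (N.beta (κ, i, x, y)) := by
    split_ifs with h
    · have : N.beta (κ, i, x, y) = false := by
        simp only [Net.beta, decide_eq_false_iff_not, not_and]
        intro _; omega
      rw [this]
      simp [Net.U, sV, bz]
    · have hm : i + 1 = N.m := by omega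
      have e1 : ((N.edges κ).map fun e => V (fedge hN e) (i + 1) (N.psi κ e y)).sum =
          bz (N.beta (κ, i, x, y)) := by
        have : ((N.edges κ).map fun e => V (fedge hN e) (i + 1) (N.psi κ e y)) =
            ((N.edges κ).map fun e => ε (fedge hN e)) := by
          apply List.map_congr_left
          intro e _
          rw [hm]
          exact hV.top _ _
        rw [this, ← esum_eq hN hκ, hG]
        cases hκ with
        | ctr g hg' =>
          rw [fcol_ctr hN g hg']
          simp only [Dup.bcol]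
          show bz (decide (g = N.gt)) = _
          congr 1
          simp [Net.beta, hm]
        | arm g a p hg' ha hp =>
          rw [fcol_arm hN g a p hg' ha]
          simp only [Dup.bcol]
          have : N.beta ((g, a, p + 1), i, x, y) = false := by
            simp [Net.beta]
          rw [this]
          rfl
      rw [e1]
      simp only [List.map_nil, List.sum_nil]
      exact (CharTwo.add_self_eq_zero _).symm
  show ((N.edges κ).map ((sV hN V) ∘ fun e => Net.Y e i (N.psi κ e x) (N.psi κ e y))).sum +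
    ((List.map (sV hN V) (if 0 < i then [Net.U κ i x] else [])).sum +
      (List.map (sV hN V) (if i + 1 < N.m then [Net.U κ (i + 1) y] else [])).sum) =
      bz (N.beta (κ, i, x, y))
  rw [hY, h1, h2]
  have a1 := CharTwo.add_self_eq_zero (((N.edges κ).map fun e => V (fedge hN e) i (N.psi κ e x)).sum)
  have a2 := CharTwo.add_self_eq_zero
    (((N.edges κ).map fun e => V (fedge hN e) (i + 1) (N.psi κ e y)).sum)
  linear_combination a1 + a2

theorem agree_ports {V V' : Dup.Pot (dnet N hN)} {u : NObj Λ} (hu : u ∈ N.objs)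
    (h : Dup.Agree N.m N.L V V' (fobj hN u)) : ∀ x ∈ N.ports u, sV hN V' x = sV hN V x := by
  obtain ⟨hκ, hi, hx, hy⟩ := mem_objs u hu
  obtain ⟨κ, i, x, y⟩ := u
  simp only at hκ hi hx hy
  intro w hw
  unfold Net.ports at hw
  simp only [List.mem_append, List.mem_map] at hw
  rcases hw with ⟨e, he, rfl⟩ | hw | hw
  · obtain ⟨h1, h2⟩ := inc_of_mem hN hκ he
    have := h.hY (fedge hN e) h1
    simp only [fobj] at this
    rw [h2 x, h2 y] at this
    exact this
  · split_ifs at hw with h0
    · obtain rfl := List.mem_singleton.mp hw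
      rw [sV_U hN V' hκ, sV_U hN V hκ]
      exact h.hU1 h0
    · simp at hw
  · split_ifs at hw with h0
    · obtain rfl := List.mem_singleton.mp hw
      rw [sV_U hN V' hκ, sV_U hN V hκ]
      exact h.hU2 h0
    · simp at hw

end NetD

open NetD in
/-- **[NETD]** closed facts give a shift system. -/
theorem Net.shiftEquiv_of_closed {H Λ : Type} [DecidableEq H] [DecidableEq Λ] (N : Net H Λ)
    (hN : N.OK) {Kn : H → (ℕ → Λ) → Prop} {val : H → (ℕ → Λ) → Bool} (h : N.Closed Kn val) :
    ShiftEquiv N.objs N.ports N.beta (N.m + 1) := by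
  classical
  have hcl := closed_transfer hN h
  let img : Finset {u // u ∈ N.objs} → Finset (Dup.Obj (dnet N hN)) := fun P =>
    P.image fun u => fobj hN u.1
  have himg : ∀ (P : Finset {u // u ∈ N.objs}), ∀ p ∈ img P, Dup.VObj N.m N.L p := by
    intro P p hp
    obtain ⟨u, _, rfl⟩ := Finset.mem_image.mp hp
    exact vobj hN u.2
  refine ⟨fun P s => ∃ V ε, Dup.IsPot N.m V ε ∧
    Dup.Inv (N := dnet N hN) N.m N.L (fun hb z => Kn hb (ex N z)) (fun hb z => bz (val hb (ex N z)))
      (img P) ε ∧ s = sV hN V, ?_, ?_, ?_, ?_⟩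
  · -- valid
    rintro P s ⟨V, ε, hV, hI, rfl⟩ u hu
    rw [List.sum_toFinset _ (ports_nodup u.1)]
    exact sum_ports hN V hV u.2 (hI.G1 _ (Finset.mem_image.mpr ⟨u, hu, rfl⟩))
  · -- mono
    rintro P Q s ⟨V, ε, hV, hI, rfl⟩ hQ
    exact ⟨V, ε, hV, inv_mono hI (Finset.image_subset_image hQ), rfl⟩
  · -- empty
    refine ⟨_, fun _ _ _ => 0, fun _ => 0, ⟨fun _ _ => rfl, fun _ _ => rfl⟩, ⟨?_, ?_, ?_⟩, rfl⟩
    · intro p hp
      simp [img] at hp
    · intro σ hσ
      have := hσ.mem 0 (by have := hN.two_le; omega)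
      simp [img] at this
    · intro σ hσ
      have := hσ.mem 0 (by have := hN.two_le; omega)
      simp [img] at this
  · -- ext
    rintro P s ⟨V, ε, hV, hI, rfl⟩ hcard u
    have hsub : img P ⊆ img (insert u P) := Finset.image_subset_image (Finset.subset_insert _ _)
    have hA0 : ∀ g : (dnet N hN).Gad, ∀ l ∈ (dnet N hN).A g 0, l = (dnet N hN).o := by
      intro g l hl
      have h1 : l ∈ N.lett (Fin.val (n := N.nG) g) 0 := hl
      rw [hN.lett_triv _ (Fin.isLt (n := N.nG) g) 0 (Or.inl rfl)] at h1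
      exact List.mem_singleton.mp h1
    have hAm : ∀ g : (dnet N hN).Gad, ∀ l ∈ (dnet N hN).A g N.m, l = (dnet N hN).o := by
      intro g l hl
      have h1 : l ∈ N.lett (Fin.val (n := N.nG) g) N.m := hl
      rw [hN.lett_triv _ (Fin.isLt (n := N.nG) g) N.m (Or.inr le_rfl)] at h1
      exact List.mem_singleton.mp h1
    have harm : ∀ g : (dnet N hN).Gad, Nonempty ((dnet N hN).Arm g) := by
      intro g
      have h1 := hN.narm_odd _ (Fin.isLt (n := N.nG) g)
      exact ⟨(⟨0, h1.pos⟩ : Fin (N.narm (Fin.val (n := N.nG) g)))⟩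
    have hc1 : (img P).card ≤ N.m := by
      have : (img P).card ≤ P.card := Finset.card_image_le
      omega
    have hc2 : (img (insert u P)).card ≤ N.m + 1 := by
      have h1 : (img (insert u P)).card ≤ (insert u P).card := Finset.card_image_le
      have h2 : (insert u P).card ≤ P.card + 1 := Finset.card_insert_le _ _
      omega
    obtain ⟨V', ε', h1, h2, h3⟩ := Dup.extend (N := dnet N hN) (m := N.m) (L := N.L) hN.two_le
      (le_refl _) harm hA0 hAm hcl (himg _) hc2 hsub hc1 hV hI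
    refine ⟨sV hN V', ⟨V', ε', h1, h2, rfl⟩, ?_⟩
    intro v hv x hx
    exact agree_ports hN v.2 (h3 _ (Finset.mem_image.mpr ⟨v, hv, rfl⟩)) x (List.mem_toFinset.mp hx)

end Crest.Agent.R290

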