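import Crest.Agent.R290.Defs

/-!
# Row 290: column sums of a (local) solution of a network; networks without a global solution
-/

set_option autoImplicit false

namespace Crest.Agent.R290

open Finset

namespace NS

open Net

variable {H Λ : Type}

theorem list_range_sum (f : ℕ → Bool) (n : ℕ) :
    ((List.range n).map f).sum = ∑ i ∈ Finset.range n, f i := by
  induction n with
  | zero => rfl
  | succ n ih => rw [List.range_succ, List.map_append, List.sum_append, ih, Finset.sum_range_succ]; simp

/-- The value of a fact: sum of the `Y` variables along the rows -/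
def fval (m : ℕ) (s : NVar H Λ → Bool) (e : Edge H) (z : ℕ → Λ) : Bool :=
  ∑ i ∈ Finset.range m, s (Y e i (z i) (z (i + 1)))

theorem bool_add_self (a : Bool) : a + a = 0 := by cases a <;> rfl

theorem bool_add_eq_zero {a b : Bool} (h : a + b = 0) : a = b := by
  revert h; cases a <;> cases b <;> decide

/-- telescoping of the `U` variables -/
theorem sum_U (m : ℕ) (f : ℕ → Bool) :
    ∑ i ∈ Finset.range m, ((if 0 < i then f i else 0) + (if i + 1 < m then f (i + 1) else 0)) = 0 := by
  rw [Finset.sum_add_distrib]
  have h1 : ∑ i ∈ Finset.range m, (if 0 < i then f i else (0 : Bool)) =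
      ∑ i ∈ Finset.range m, (if i + 1 < m then f (i + 1) else (0 : Bool)) := by
    cases m with
    | zero => rfl
    | succ m =>
      rw [Finset.sum_range_succ', Finset.sum_range_succ]
      congr 1
      · apply Finset.sum_congr rfl
        intro i hi
        have := Finset.mem_range.1 hi
        rw [if_pos (Nat.succ_pos i), if_pos (by omega)]
      · simp
  rw [h1]
  exact bool_add_self _

/-- The sum over the rows of the constraints of a column. -/
theorem column_sum (N : Net H Λ) (s : NVar H Λ → Bool) (b : NObj Λ → Bool) (κ : Col) (x : ℕ → Λ)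
    (h : ∀ i < N.m, ((N.ports (κ, i, x i, x (i + 1))).map s).sum = b (κ, i, x i, x (i + 1))) :
    ((N.edges κ).map fun e => fval N.m s e (fun j => N.psi κ e (x j))).sum =
      ∑ i ∈ Finset.range N.m, b (κ, i, x i, x (i + 1)) := by
  have h1 : ∀ i ∈ Finset.range N.m, b (κ, i, x i, x (i + 1)) =
      ((N.edges κ).map fun e => s (Y e i (N.psi κ e (x i)) (N.psi κ e (x (i + 1))))).sum +
        ((if 0 < i then s (U κ i (x i)) else 0) +
          (if i + 1 < N.m then s (U κ (i + 1) (x (i + 1))) else 0)) := by
    intro i hi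
    rw [← h i (Finset.mem_range.1 hi)]
    simp only [Net.ports, List.map_append, List.sum_append, List.map_map, Function.comp_def]
    congr 1
    congr 1
    · split_ifs <;> simp
    · split_ifs <;> simp
  rw [Finset.sum_congr rfl h1, Finset.sum_add_distrib, sum_U N.m (fun j => s (U κ j (x j))), add_zero]
  induction N.edges κ with
  | nil => simp
  | cons e l ih =>
    simp only [List.map_cons, List.sum_cons, Finset.sum_add_distrib]
    rw [ih]
    rfl

/-- membership of objects -/
theorem mem_objs (N : Net H Λ) {g : ℕ} (hg : g < N.nG) {κ : Col} (hκ : κ ∈ N.cols g) {i : ℕ}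
    (hi : i < N.m) {x y : Λ} (hx : x ∈ N.lett g i) (hy : y ∈ N.lett g (i + 1)) :
    (κ, i, x, y) ∈ N.objs := by
  simp only [Net.objs, List.mem_flatMap, List.mem_range, List.mem_map]
  exact ⟨g, hg, κ, hκ, i, hi, x, hx, y, hy, rfl⟩

theorem ctr_mem_cols (N : Net H Λ) (g : ℕ) : (g, 0, 0) ∈ N.cols g := by simp [Net.cols]

theorem arm_mem_cols (N : Net H Λ) {g a p : ℕ} (ha : a < N.narm g) (hp : p < N.L) :
    (g, a, p + 1) ∈ N.cols g := by
  simp only [Net.cols, List.mem_cons, List.mem_flatMap, List.mem_range, List.mem_map]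
  exact Or.inr ⟨a, ha, p, hp, rfl⟩

theorem edges_ctr (N : Net H Λ) (g : ℕ) :
    N.edges (g, 0, 0) = (List.range (N.narm g)).map fun a => Sum.inr (g, a, 1) := by
  simp [Net.edges]

theorem edges_arm (N : Net H Λ) {g a p : ℕ} (hp : p + 1 < N.L) :
    N.edges (g, a, p + 1) = [Sum.inr (g, a, p + 1), Sum.inr (g, a, p + 2)] := by
  simp [Net.edges, hp]

theorem edges_last (N : Net H Λ) {g a p : ℕ} (hp : p + 1 = N.L) :
    N.edges (g, a, p + 1) = [Sum.inr (g, a, p + 1), Sum.inl (N.hub g a)] := by
  have h : ¬ p + 1 < N.L := by omega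
  simp only [Net.edges, Nat.succ_ne_zero, if_false, h]

/-- the beta of the centre -/
theorem beta_sum (N : Net H Λ) (hm : 0 < N.m) (κ : Col) (x : ℕ → Λ) :
    ∑ i ∈ Finset.range N.m, N.beta (κ, i, x i, x (i + 1)) = decide (κ = (N.gt, 0, 0)) := by
  by_cases hκ : κ = (N.gt, 0, 0)
  · have : ∀ i ∈ Finset.range N.m, N.beta (κ, i, x i, x (i + 1)) =
        if i = N.m - 1 then (1 : Bool) else 0 := by
      intro i hi
      have := Finset.mem_range.1 hi
      by_cases h : i = N.m - 1
      · rw [if_pos h]
        have h' : i + 1 = N.m := by omega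
        simp only [Net.beta]
        have e : (κ = (N.gt, 0, 0) ∧ i + 1 = N.m) := ⟨hκ, h'⟩
        simp only [e, and_self, decide_true]
        rfl
      · rw [if_neg h]
        have h' : ¬ i + 1 = N.m := by omega
        simp only [Net.beta]
        simp only [h', and_false, decide_false]
        rfl
    rw [Finset.sum_congr rfl this, Finset.sum_ite_eq' (Finset.range N.m) (N.m - 1) (fun _ => (1 : Bool)),
      if_pos (Finset.mem_range.2 (by omega))]
    simp only [hκ, decide_true]
    rfl
  · have : ∀ i ∈ Finset.range N.m, N.beta (κ, i, x i, x (i + 1)) = 0 := by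
      intro i hi
      simp only [Net.beta]
      simp only [hκ, false_and, decide_false]
      rfl
    rw [Finset.sum_congr rfl this, Finset.sum_const_zero]
    simp only [hκ, decide_false]
    rfl

/-- Along an arm the value does not change. -/
theorem arm_val (N : Net H Λ) (s : NVar H Λ → Bool) {g : ℕ} {a : ℕ} (x : ℕ → Λ)
    (h : ∀ p < N.L, ((N.edges (g, a, p + 1)).map
      fun e => fval N.m s e (fun j => N.psi (g, a, p + 1) e (x j))).sum = 0) :
    fval N.m s (Sum.inr (g, a, 1)) x = fval N.m s (Sum.inl (N.hub g a)) (fun j => N.proj g a (x j)) := by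
  have h1 : ∀ p < N.L, fval N.m s (Sum.inr (g, a, 1)) x = fval N.m s (Sum.inr (g, a, p + 1)) x := by
    intro p
    induction p with
    | zero => intro _; rfl
    | succ p ih =>
      intro hp
      rw [ih (by omega)]
      have := h p (by omega)
      rw [edges_arm N hp] at this
      simp only [List.map_cons, List.map_nil, List.sum_cons, List.sum_nil, add_zero] at this
      exact bool_add_eq_zero this
  have hL : N.m + 1 < N.L := by simp [Net.L]
  rw [h1 (N.m + 1) hL]
  have := h (N.m + 1) hL
  rw [edges_last N (by simp [Net.L])] at this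
  simp only [List.map_cons, List.map_nil, List.sum_cons, List.sum_nil, add_zero] at this
  exact bool_add_eq_zero this

/-- The values of a global solution at the hubs of a gadget add up to the twist. -/
theorem gadget_sum (N : Net H Λ) (hm : 0 < N.m) (s : NVar H Λ → Bool)
    (hs : IsSol N.objs N.ports N.beta s) {g : ℕ} (hg : g < N.nG) (x : ℕ → Λ) (hx : N.Content g x) :
    ∑ a ∈ Finset.range (N.narm g), fval N.m s (Sum.inl (N.hub g a)) (fun j => N.proj g a (x j)) =
      decide (g = N.gt) := by
  have hcol : ∀ κ ∈ N.cols g, ((N.edges κ).map fun e => fval N.m s e (fun j => N.psi κ e (x j))).sum =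
      decide (κ = (N.gt, 0, 0)) := by
    intro κ hκ
    rw [column_sum N s N.beta κ x, beta_sum N hm]
    intro i hi
    exact hs _ (mem_objs N hg hκ hi (hx i) (hx (i + 1)))
  have harm : ∀ a ∈ Finset.range (N.narm g), fval N.m s (Sum.inl (N.hub g a)) (fun j => N.proj g a (x j))
      = fval N.m s (Sum.inr (g, a, 1)) x := by
    intro a ha
    symm
    apply arm_val
    intro p hp
    rw [hcol _ (arm_mem_cols N (Finset.mem_range.1 ha) hp)]
    have : ¬ ((g, a, p + 1) = (N.gt, 0, 0)) := by
      intro h
      simp at h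
    simp only [this, decide_false]
    rfl
  rw [Finset.sum_congr rfl harm]
  have := hcol _ (ctr_mem_cols N g)
  rw [edges_ctr, List.map_map] at this
  have e1 : ((List.range (N.narm g)).map
      ((fun e => fval N.m s e (fun j => N.psi (g, 0, 0) e (x j))) ∘ fun a => Sum.inr (g, a, 1))).sum =
      ∑ a ∈ Finset.range (N.narm g), fval N.m s (Sum.inr (g, a, 1)) x := by
    rw [list_range_sum]
    rfl
  rw [e1] at this
  rw [this]
  by_cases hgt : g = N.gt
  · subst hgt; simp
  · have : ¬ ((g, 0, 0) = (N.gt, 0, 0)) := by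
      intro h
      exact hgt (Prod.mk.inj h).1
    simp only [this, hgt, decide_false]

end NS

namespace Net

variable {H Λ : Type}

/-- A three-armed gadget with two equal arms whose third arm sees a fact of the twisted gadget:
no global solution. -/
theorem no_solution (N : Net H Λ) (hN : N.OK) (g : ℕ) (hg : g < N.nG) (hgt : g ≠ N.gt)
    (h3 : N.narm g = 3) (hh : N.hub g 0 = N.hub g 1) (hp : N.proj g 0 = N.proj g 1)
    (h2 : N.hub g 2 = N.hub N.gt 0) (x y : ℕ → Λ) (hx : N.Content g x) (hy : N.Content N.gt y)
    (hxy : ∀ j, N.proj g 2 (x j) = N.proj N.gt 0 (y j)) :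
    ¬ ∃ s : NVar H Λ → Bool, IsSol N.objs N.ports N.beta s := by
  rintro ⟨s, hs⟩
  have hm : 0 < N.m := by have := hN.two_le; omega
  have e1 := NS.gadget_sum N hm s hs hg x hx
  have e2 := NS.gadget_sum N hm s hs hN.gt_lt y hy
  rw [h3] at e1
  rw [hN.narm_gt] at e2
  simp only [Finset.sum_range_succ, Finset.sum_range_zero, zero_add, hgt, decide_false, decide_true]
    at e1 e2
  rw [hh, hp, NS.bool_add_self, zero_add, h2] at e1
  have e3 : (fun j => N.proj g 2 (x j)) = fun j => N.proj N.gt 0 (y j) := funext hxy
  rw [e3, e2] at e1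
  exact absurd e1 (by decide)

end Net

end Crest.Agent.R290
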