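import Crest.Agent.R290.NetWF
import Crest.Agent.R290.AGBridge
import Crest.Agent.R290.NetNoSol

/-!
# Row 290, module NETID (blueprint 2.3): identification.

* `Net.solution_of_unlocked`: if every hub can be unlocked, a shift system for the parities `b` gives a
  global solution for `b`.
* `Net.no_solution` (the twist has no global solution) is in `NetNoSol.lean` (helper290), imported here.

The derivation calculus is done directly over `Net` and lists of objects: `Net.LSys` is the list form of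
a shift system, `Net.Kn S e z f` says that in every position covering the variables `Y (e, ·, z)` the
sum of their values is `f`.
-/

set_option autoImplicit false

namespace Crest.Agent.R290

namespace Net

open Finset

variable {H Λ : Type}

/-! ### arithmetic mod 2 -/

theorem z2_add_self (a : ZMod 2) : a + a = 0 := by revert a; decide

theorem z2_eq_of_add {a b c : ZMod 2} (h : a + b = c) : b = a + c := by
  revert h; revert a b c; decide

theorem z2_tele (g : ℕ → ZMod 2) (n : ℕ) : ∑ i ∈ range n, (g i + g (i + 1)) = g 0 + g n := by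
  induction n with
  | zero => simp [z2_add_self]
  | succ n ih =>
    rw [sum_range_succ, ih]
    calc g 0 + g n + (g n + g (n + 1)) = g 0 + (g n + g n) + g (n + 1) := by ring
      _ = g 0 + g (n + 1) := by rw [z2_add_self, add_zero]

/-! ### splitting a cocycle over rows -/

/-- A row function whose total over all contents vanishes is a coboundary. -/
theorem split_rows (m : ℕ) (A : ℕ → Λ → Prop) (c : ℕ → Λ) (hc : ∀ j, A j (c j))
    (d : ℕ → Λ → Λ → ZMod 2)
    (h : ∀ x : ℕ → Λ, (∀ j, A j (x j)) → ∑ i ∈ range m, d i (x i) (x (i + 1)) = 0) :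
    ∃ T : ℕ → Λ → ZMod 2, (∀ x, T 0 x = 0) ∧ (∀ y, A m y → T m y = 0) ∧
      ∀ i < m, ∀ x y, A i x → A (i + 1) y → T i x + T (i + 1) y = d i x y := by
  classical
  refine ⟨fun j x => ∑ i ∈ range j, d i (Function.update c j x i) (Function.update c j x (i + 1)),
    fun x => by simp, ?_, ?_⟩
  · intro y hy
    apply h
    intro j
    by_cases hj : j = m
    · subst hj; simpa using hy
    · rw [Function.update_of_ne hj]; exact hc j
  · intro i hi x y hx hy
    let w' : ℕ → Λ := Function.update c (i + 1) y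
    let w : ℕ → Λ := Function.update (Function.update c i x) (i + 1) y
    have hw' : ∀ j, A j (w' j) := by
      intro j
      by_cases hj : j = i + 1
      · subst hj; simpa [w'] using hy
      · simp only [w']; rw [Function.update_of_ne hj]; exact hc j
    have hw : ∀ j, A j (w j) := by
      intro j
      by_cases hj : j = i + 1
      · subst hj; simpa [w] using hy
      · simp only [w]; rw [Function.update_of_ne hj]
        by_cases hj' : j = i
        · subst hj'; simpa using hx
        · rw [Function.update_of_ne hj']; exact hc j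
    have e1 := h w hw
    have e2 := h w' hw'
    obtain ⟨k, rfl⟩ : ∃ k, m = (i + 1) + k := ⟨m - (i + 1), by omega⟩
    rw [sum_range_add] at e1 e2
    have et : ∑ t ∈ range k, d (i + 1 + t) (w (i + 1 + t)) (w (i + 1 + t + 1)) =
        ∑ t ∈ range k, d (i + 1 + t) (w' (i + 1 + t)) (w' (i + 1 + t + 1)) := by
      refine sum_congr rfl fun t _ => ?_
      have f1 : w (i + 1 + t) = w' (i + 1 + t) := by
        simp only [w, w']
        by_cases ht : i + 1 + t = i + 1
        · rw [ht]; simp
        · rw [Function.update_of_ne ht, Function.update_of_ne ht, Function.update_of_ne (by omega)]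
      have f2 : w (i + 1 + t + 1) = w' (i + 1 + t + 1) := by
        simp only [w, w']
        rw [Function.update_of_ne (by omega), Function.update_of_ne (by omega),
          Function.update_of_ne (by omega)]
      rw [f1, f2]
    rw [et] at e1
    have e3 : ∑ t ∈ range (i + 1), d t (w t) (w (t + 1)) =
        ∑ t ∈ range (i + 1), d t (w' t) (w' (t + 1)) := by
      have := e1.trans e2.symm
      exact add_right_cancel this
    rw [sum_range_succ] at e3
    have e4 : ∑ t ∈ range i, d t (w t) (w (t + 1)) =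
        ∑ t ∈ range i, d t (Function.update c i x t) (Function.update c i x (t + 1)) := by
      refine sum_congr rfl fun t ht => ?_
      have ht := mem_range.1 ht
      have f1 : w t = Function.update c i x t := Function.update_of_ne (by omega) _ _
      have f2 : w (t + 1) = Function.update c i x (t + 1) := Function.update_of_ne (by omega) _ _
      rw [f1, f2]
    have e5 : d i (w i) (w (i + 1)) = d i x y := by
      simp only [w]
      rw [Function.update_of_ne (by omega)]
      simp
    rw [e4, e5] at e3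
    change (∑ t ∈ range i, d t (Function.update c i x t) (Function.update c i x (t + 1))) +
      ∑ t ∈ range (i + 1), d t (w' t) (w' (t + 1)) = d i x y
    rw [← e3, ← add_assoc, z2_add_self, zero_add]

/-! ### sums over ports -/

theorem sum_ports {M : Type} [AddCommMonoid M] (N : Net H Λ) (s : NVar H Λ → M) (κ : Col) (i : ℕ)
    (x y : Λ) :
    ((N.ports (κ, i, x, y)).map s).sum =
      ((N.edges κ).map fun e => s (Y e i (N.psi κ e x) (N.psi κ e y))).sum +
        ((if 0 < i then s (U κ i x) else 0) + (if i + 1 < N.m then s (U κ (i + 1) y) else 0)) := by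
  rw [ports, List.map_append, List.sum_append, List.map_append, List.sum_append, List.map_map]
  congr 2
  · split_ifs <;> simp
  · split_ifs <;> simp

theorem sum_list_comm {ι M : Type} [AddCommMonoid M] (m : ℕ) (l : List ι) (f : ℕ → ι → M) :
    ∑ i ∈ range m, (l.map (f i)).sum = (l.map fun e => ∑ i ∈ range m, f i e).sum := by
  induction l with
  | nil => simp
  | cons a l ih => simp only [List.map_cons, List.sum_cons]; rw [sum_add_distrib, ih]

/-- object of a column in row `i` for a content -/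
def ob (κ : Col) (x : ℕ → Λ) (i : ℕ) : NObj Λ := (κ, i, x i, x (i + 1))

/-- content of a column seen at an edge -/
def see (N : Net H Λ) (κ : Col) (e : Edge H) (x : ℕ → Λ) : ℕ → Λ := fun j => N.psi κ e (x j)

/-- total parity of a column for a content -/
def dc (N : Net H Λ) (b : NObj Λ → ZMod 2) (κ : Col) (x : ℕ → Λ) : ZMod 2 :=
  ∑ i ∈ range N.m, b (ob κ x i)

/-- sum of the variables of an edge for a content -/
def flux (N : Net H Λ) (s : NVar H Λ → ZMod 2) (e : Edge H) (z : ℕ → Λ) : ZMod 2 :=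
  ∑ i ∈ range N.m, s (Y e i (z i) (z (i + 1)))

theorem col_sum (N : Net H Λ) (b : NObj Λ → ZMod 2) (s : NVar H Λ → ZMod 2) (κ : Col) (x : ℕ → Λ)
    (h : ∀ i < N.m, ((N.ports (ob κ x i)).map s).sum = b (ob κ x i)) :
    ((N.edges κ).map fun e => N.flux s e (N.see κ e x)).sum = N.dc b κ x := by
  have h1 : ∑ i ∈ range N.m, ((N.ports (ob κ x i)).map s).sum = N.dc b κ x :=
    sum_congr rfl fun i hi => h i (mem_range.1 hi)
  rw [← h1]
  unfold ob
  simp_rw [sum_ports]
  rw [sum_add_distrib, sum_list_comm]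
  let g : ℕ → ZMod 2 := fun j => if 0 < j ∧ j < N.m then s (U κ j (x j)) else 0
  have h2 : ∀ i ∈ range N.m, ((if 0 < i then s (U κ i (x i)) else 0) +
      (if i + 1 < N.m then s (U κ (i + 1) (x (i + 1))) else 0)) = g i + g (i + 1) := by
    intro i hi
    have hi := mem_range.1 hi
    simp only [g]
    congr 1
    · by_cases h0 : 0 < i
      · rw [if_pos h0, if_pos ⟨h0, hi⟩]
      · rw [if_neg h0, if_neg (fun h => h0 h.1)]
    · by_cases h0 : i + 1 < N.m
      · rw [if_pos h0, if_pos ⟨Nat.succ_pos i, h0⟩]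
      · rw [if_neg h0, if_neg (fun h => h0 h.2)]
  rw [sum_congr rfl h2, z2_tele]
  simp only [g]
  rw [if_neg (by omega), if_neg (by omega), add_zero, add_zero]
  rfl

/-! ### list form of a shift system -/

/-- list form of a shift system -/
structure LSys (N : Net H Λ) (b : NObj Λ → ZMod 2) (K : ℕ)
    (S : List (NObj Λ) → (NVar H Λ → ZMod 2) → Prop) : Prop where
  valid : ∀ {l s}, S l s → ∀ u ∈ l, ((N.ports u).map s).sum = b u
  mono : ∀ {l l' s}, S l s → l' ⊆ l → S l' s
  empty : ∃ s, S [] s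
  ext : ∀ {l s}, S l s → l.length < K → ∀ u ∈ N.objs, ∃ s', S (u :: l) s' ∧
    ∀ v ∈ l, ∀ x ∈ N.ports v, s' x = s x

theorem lsys_of_shiftEquiv [DecidableEq H] [DecidableEq Λ] (N : Net H Λ) (b : NObj Λ → Bool) (K : ℕ)
    (h : ShiftEquiv N.objs N.ports b K) : ∃ S, LSys N (fun u => bz (b u)) K S := by
  classical
  obtain ⟨S, hS⟩ := h
  refine ⟨fun l s => ∃ Q : Finset {u // u ∈ N.objs}, Q.card ≤ l.length ∧ S Q s ∧
    ∀ u ∈ l, ∃ h : u ∈ N.objs, (⟨u, h⟩ : {u // u ∈ N.objs}) ∈ Q, ?_, ?_, ?_, ?_⟩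
  · rintro l s ⟨Q, _, hQ, hl⟩ u hu
    obtain ⟨h, hq⟩ := hl u hu
    rw [← hS.valid hQ _ hq]
    exact (AGB.sum_toFinset (N.nodup_ports u) s).symm
  · rintro l l' s ⟨Q, _, hQ, hl⟩ hll
    refine ⟨l'.toFinset.attach.image fun u =>
      ⟨u.1, (hl u.1 (hll (List.mem_toFinset.1 u.2))).1⟩, ?_, ?_, ?_⟩
    · refine card_image_le.trans ?_
      rw [card_attach]
      exact List.toFinset_card_le _
    · refine hS.mono hQ ?_
      intro q hq
      obtain ⟨u, _, rfl⟩ := mem_image.1 hq
      exact (hl u.1 (hll (List.mem_toFinset.1 u.2))).2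
    · intro u hu
      exact ⟨(hl u (hll hu)).1, mem_image.2 ⟨⟨u, List.mem_toFinset.2 hu⟩, mem_attach _ _, rfl⟩⟩
  · obtain ⟨s, hs⟩ := hS.empty
    exact ⟨s, ∅, by simp, hs, by simp⟩
  · rintro l s ⟨Q, hc, hQ, hl⟩ hK u hu
    obtain ⟨s', hs', h'⟩ := hS.ext hQ (lt_of_le_of_lt hc hK) ⟨u, hu⟩
    refine ⟨s', ⟨insert ⟨u, hu⟩ Q, ?_, hs', ?_⟩, ?_⟩
    · exact (card_insert_le _ _).trans (by simpa using hc)
    · intro v hv
      rcases List.mem_cons.1 hv with rfl | hv
      · exact ⟨hu, mem_insert_self _ _⟩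
      · obtain ⟨h1, h2⟩ := hl v hv
        exact ⟨h1, mem_insert_of_mem h2⟩
    · intro v hv x hx
      obtain ⟨h1, h2⟩ := hl v hv
      exact h' _ h2 x (List.mem_toFinset.2 hx)

/-- a global solution is a list system -/
theorem lsys_of_solution (N : Net H Λ) (b : NObj Λ → ZMod 2) (s : NVar H Λ → ZMod 2)
    (h : ∀ u ∈ N.objs, ((N.ports u).map s).sum = b u) (K : ℕ) :
    LSys N b K (fun l s' => s' = s ∧ ∀ u ∈ l, u ∈ N.objs) where
  valid := by rintro l _ ⟨rfl, hl⟩ u hu; exact h u (hl u hu)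
  mono := by rintro l l' _ ⟨rfl, hl⟩ hll; exact ⟨rfl, fun u hu => hl u (hll hu)⟩
  empty := ⟨s, rfl, by simp⟩
  ext := by
    rintro l _ ⟨rfl, hl⟩ _ u hu
    refine ⟨_, ⟨rfl, ?_⟩, fun _ _ _ _ => rfl⟩
    intro v hv
    rcases List.mem_cons.1 hv with rfl | hv
    · exact hu
    · exact hl v hv

section calculus

variable {N : Net H Λ} {b : NObj Λ → ZMod 2} {S : List (NObj Λ) → (NVar H Λ → ZMod 2) → Prop}

/-- exchange the objects one by one -/
theorem LSys.exch (h : LSys N b (N.m + 1) S) (u u' : ℕ → NObj Λ) (v : ℕ → NVar H Λ)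
    (hu' : ∀ i < N.m, u' i ∈ N.objs) (hv : ∀ i < N.m, v i ∈ N.ports (u i))
    (hv' : ∀ i < N.m, v i ∈ N.ports (u' i)) {s : NVar H Λ → ZMod 2}
    (hs : S ((List.range N.m).map u) s) :
    ∃ s', S ((List.range N.m).map u') s' ∧ ∀ i < N.m, s' (v i) = s (v i) := by
  have key : ∀ k ≤ N.m, ∃ s', S ((List.range N.m).map fun i => if i < k then u' i else u i) s' ∧
      ∀ i < N.m, s' (v i) = s (v i) := by
    intro k
    induction k with
    | zero =>
      intro _
      exact ⟨s, by simpa using hs, fun _ _ => rfl⟩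
    | succ k ih =>
      intro hk
      obtain ⟨s1, h1, h2⟩ := ih (by omega)
      obtain ⟨s2, h3, h4⟩ := h.ext h1 (by simp) (u' k) (hu' k (by omega))
      refine ⟨s2, h.mono h3 ?_, ?_⟩
      · intro w hw
        obtain ⟨i, hi, rfl⟩ := List.mem_map.1 hw
        have hi := List.mem_range.1 hi
        by_cases hik : i = k
        · subst hik
          rw [if_pos (Nat.lt_succ_self i)]
          exact List.mem_cons_self ..
        · apply List.mem_cons_of_mem
          refine List.mem_map.2 ⟨i, List.mem_range.2 hi, ?_⟩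
          by_cases hlt : i < k
          · rw [if_pos hlt, if_pos (by omega)]
          · rw [if_neg hlt, if_neg (by omega)]
      · intro i hi
        rw [← h2 i hi]
        refine h4 (if i < k then u' i else u i) (List.mem_map.2 ⟨i, List.mem_range.2 hi, rfl⟩) _ ?_
        split
        · exact hv' i hi
        · exact hv i hi
  obtain ⟨s', h1, h2⟩ := key N.m le_rfl
  refine ⟨s', ?_, h2⟩
  have : ((List.range N.m).map fun i => if i < N.m then u' i else u i) =
      (List.range N.m).map u' := by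
    apply List.map_congr_left
    intro i hi
    rw [if_pos (List.mem_range.1 hi)]
  rwa [this] at h1

theorem LSys.exists_pos (h : LSys N b (N.m + 1) S) (u : ℕ → NObj Λ) (hu : ∀ i < N.m, u i ∈ N.objs) :
    ∃ s, S ((List.range N.m).map u) s := by
  have key : ∀ k ≤ N.m, ∃ s, S ((List.range k).map u) s := by
    intro k
    induction k with
    | zero => intro _; simpa using h.empty
    | succ k ih =>
      intro hk
      obtain ⟨s, hs⟩ := ih (by omega)
      obtain ⟨s', hs', _⟩ := h.ext hs (by simp; omega) (u k) (hu k (by omega))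
      refine ⟨s', h.mono hs' ?_⟩
      intro w hw
      obtain ⟨i, hi, rfl⟩ := List.mem_map.1 hw
      have hi := List.mem_range.1 hi
      by_cases hik : i = k
      · subst hik; exact List.mem_cons_self ..
      · exact List.mem_cons_of_mem _ (List.mem_map.2 ⟨i, List.mem_range.2 (by omega), rfl⟩)
  exact key N.m le_rfl

variable (N S)

/-- In every position covering the variables `Y (e, ·, z)` the sum of their values is `f`. -/
def Kn (e : Edge H) (z : ℕ → Λ) (f : ZMod 2) : Prop :=
  ∀ (u : ℕ → NObj Λ) (s : NVar H Λ → ZMod 2),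
    (∀ i < N.m, Y e i (z i) (z (i + 1)) ∈ N.ports (u i)) → S ((List.range N.m).map u) s →
      N.flux s e z = f

variable {N S}

theorem ob_mem {g : ℕ} {κ : Col} {x : ℕ → Λ} (hg : g < N.nG) (hκ : κ ∈ N.cols g)
    (hx : N.Content g x) {i : ℕ} (hi : i < N.m) : ob κ x i ∈ N.objs := by
  have e : κ.1 = g := by
    rw [mem_cols] at hκ
    rcases hκ with rfl | ⟨a, _, p, _, rfl⟩ <;> rfl
  rw [mem_objs]
  refine ⟨by rw [show (ob κ x i).1.1 = κ.1 from rfl, e]; exact hg, ?_, hi, ?_, ?_⟩
  · rw [show (ob κ x i).1.1 = κ.1 from rfl, e]; exact hκ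
  · rw [show (ob κ x i).1.1 = κ.1 from rfl, e]; exact hx i
  · rw [show (ob κ x i).1.1 = κ.1 from rfl, e]; exact hx (i + 1)

theorem Y_mem_ports {κ : Col} {x : ℕ → Λ} {e : Edge H} (he : e ∈ N.edges κ) (i : ℕ) :
    Y e i (N.see κ e x i) (N.see κ e x (i + 1)) ∈ N.ports (ob κ x i) := by
  rw [ports]
  apply List.mem_append_left
  exact List.mem_map.2 ⟨e, he, rfl⟩

theorem Kn.core (h : LSys N b (N.m + 1) S) {g : ℕ} {κ : Col} {x : ℕ → Λ} (hg : g < N.nG)
    (hκ : κ ∈ N.cols g) (hx : N.Content g x) {e : Edge H} (he : e ∈ N.edges κ) {z : ℕ → Λ}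
    (hz : z = N.see κ e x) {f : ZMod 2}
    (H : ∀ s, S ((List.range N.m).map (ob κ x)) s →
      ((N.edges κ).map fun e' => N.flux s e' (N.see κ e' x)).sum = N.dc b κ x →
        N.flux s e (N.see κ e x) = f) : Kn N S e z f := by
  subst hz
  intro u s hu hs
  obtain ⟨s', h1, h2⟩ := h.exch u (ob κ x)
    (fun i => Y e i (N.see κ e x i) (N.see κ e x (i + 1))) (fun i hi => ob_mem hg hκ hx hi) hu
    (fun i _ => Y_mem_ports he i) hs
  have h3 : N.flux s e (N.see κ e x) = N.flux s' e (N.see κ e x) :=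
    sum_congr rfl fun i hi => (h2 i (mem_range.1 hi)).symm
  rw [h3]
  refine H s' h1 (col_sum N b s' κ x fun i hi => h.valid h1 _ ?_)
  exact List.mem_map.2 ⟨i, List.mem_range.2 hi, rfl⟩

theorem Kn.unique (h : LSys N b (N.m + 1) S) {g : ℕ} {κ : Col} {x : ℕ → Λ} (hg : g < N.nG)
    (hκ : κ ∈ N.cols g) (hx : N.Content g x) {e : Edge H} (he : e ∈ N.edges κ) {f f' : ZMod 2}
    (h1 : Kn N S e (N.see κ e x) f) (h2 : Kn N S e (N.see κ e x) f') : f = f' := by
  obtain ⟨s, hs⟩ := h.exists_pos (ob κ x) (fun i hi => ob_mem hg hκ hx hi)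
  rw [← h1 (ob κ x) s (fun i _ => Y_mem_ports he i) hs,
    ← h2 (ob κ x) s (fun i _ => Y_mem_ports he i) hs]

/-! ### arms -/

variable (N)

/-- edge number `p` of the arm `a` of `g`; number `L` is the hub -/
def ed (g a p : ℕ) : Edge H := if p < N.L then Sum.inr (g, a, p + 1) else Sum.inl (N.hub g a)

/-- content seen at the edge number `p` -/
def cz (g a p : ℕ) (x : ℕ → Λ) : ℕ → Λ := if p < N.L then x else fun j => N.proj g a (x j)

variable {N}

theorem ed_L (g a : ℕ) : N.ed g a N.L = Sum.inl (N.hub g a) := if_neg (lt_irrefl _)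

theorem cz_L (g a : ℕ) (x : ℕ → Λ) : N.cz g a N.L x = fun j => N.proj g a (x j) :=
  if_neg (lt_irrefl _)

theorem ed_zero (g a : ℕ) : N.ed g a 0 = Sum.inr (g, a, 1) := if_pos (by unfold L; omega)

theorem cz_zero (g a : ℕ) (x : ℕ → Λ) : N.cz g a 0 x = x := if_pos (by unfold L; omega)

theorem edges_arm {g a p : ℕ} (hp : p < N.L) :
    N.edges (g, a, p + 1) = [N.ed g a p, N.ed g a (p + 1)] := by
  rw [edges, if_neg (by simp)]
  unfold ed
  rw [if_pos hp]

theorem see_ed (g a p q : ℕ) (x : ℕ → Λ) : N.see (g, a, p) (N.ed g a q) x = N.cz g a q x := by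
  unfold see ed cz psi
  by_cases h : q < N.L
  · rw [if_pos h, if_pos h]
  · rw [if_neg h, if_neg h]

theorem arm_mem {g a p : ℕ} (ha : a < N.narm g) (hp : p < N.L) : (g, a, p + 1) ∈ N.cols g :=
  N.mem_cols.2 (Or.inr ⟨a, ha, p, hp, rfl⟩)

theorem arm_sum (s : NVar H Λ → ZMod 2) {g a p : ℕ} (hp : p < N.L) (x : ℕ → Λ) :
    ((N.edges (g, a, p + 1)).map fun e => N.flux s e (N.see (g, a, p + 1) e x)).sum =
      N.flux s (N.ed g a p) (N.cz g a p x) + N.flux s (N.ed g a (p + 1)) (N.cz g a (p + 1) x) := by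
  rw [edges_arm hp]
  simp only [List.map_cons, List.map_nil, List.sum_cons, List.sum_nil, add_zero]
  rw [see_ed, see_ed]

theorem Kn.arm_out1 (h : LSys N b (N.m + 1) S) {g a p : ℕ} {x : ℕ → Λ} (hg : g < N.nG)
    (ha : a < N.narm g) (hp : p < N.L) (hx : N.Content g x) {f : ZMod 2}
    (hf : Kn N S (N.ed g a p) (N.cz g a p x) f) :
    Kn N S (N.ed g a (p + 1)) (N.cz g a (p + 1) x) (f + N.dc b (g, a, p + 1) x) := by
  refine Kn.core h hg (arm_mem ha hp) hx (by rw [edges_arm hp]; simp) (see_ed ..).symm ?_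
  intro s hs hsum
  rw [arm_sum s hp] at hsum
  rw [see_ed]
  have h1 : N.flux s (N.ed g a p) (N.cz g a p x) = f := by
    refine hf (ob (g, a, p + 1) x) s (fun i _ => ?_) hs
    have := Y_mem_ports (N := N) (κ := (g, a, p + 1)) (x := x) (e := N.ed g a p)
      (by rw [edges_arm hp]; simp) i
    rwa [see_ed] at this
  rw [h1] at hsum
  exact z2_eq_of_add hsum

theorem Kn.arm_in1 (h : LSys N b (N.m + 1) S) {g a p : ℕ} {x : ℕ → Λ} (hg : g < N.nG)
    (ha : a < N.narm g) (hp : p < N.L) (hx : N.Content g x) {f : ZMod 2}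
    (hf : Kn N S (N.ed g a (p + 1)) (N.cz g a (p + 1) x) f) :
    Kn N S (N.ed g a p) (N.cz g a p x) (f + N.dc b (g, a, p + 1) x) := by
  refine Kn.core h hg (arm_mem ha hp) hx (by rw [edges_arm hp]; simp) (see_ed ..).symm ?_
  intro s hs hsum
  rw [arm_sum s hp, add_comm] at hsum
  rw [see_ed]
  have h1 : N.flux s (N.ed g a (p + 1)) (N.cz g a (p + 1) x) = f := by
    refine hf (ob (g, a, p + 1) x) s (fun i _ => ?_) hs
    have := Y_mem_ports (N := N) (κ := (g, a, p + 1)) (x := x) (e := N.ed g a (p + 1))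
      (by rw [edges_arm hp]; simp) i
    rwa [see_ed] at this
  rw [h1] at hsum
  exact z2_eq_of_add hsum

/-- total parity of an arm -/
def armSum (N : Net H Λ) (b : NObj Λ → ZMod 2) (g a : ℕ) (x : ℕ → Λ) : ZMod 2 :=
  ∑ p ∈ range N.L, N.dc b (g, a, p + 1) x

theorem Kn.arm_out (h : LSys N b (N.m + 1) S) {g a : ℕ} {x : ℕ → Λ} (hg : g < N.nG)
    (ha : a < N.narm g) (hx : N.Content g x) {f : ZMod 2}
    (hf : Kn N S (Sum.inr (g, a, 1)) x f) :
    Kn N S (Sum.inl (N.hub g a)) (fun j => N.proj g a (x j)) (f + N.armSum b g a x) := by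
  have key : ∀ p ≤ N.L, Kn N S (N.ed g a p) (N.cz g a p x)
      (f + ∑ q ∈ range p, N.dc b (g, a, q + 1) x) := by
    intro p
    induction p with
    | zero => intro _; rw [ed_zero, cz_zero]; simpa using hf
    | succ p ih =>
      intro hp
      rw [sum_range_succ, ← add_assoc]
      exact Kn.arm_out1 h hg ha hp hx (ih (by omega))
  have := key N.L le_rfl
  rwa [ed_L, cz_L] at this

theorem Kn.arm_in (h : LSys N b (N.m + 1) S) {g a : ℕ} {x : ℕ → Λ} (hg : g < N.nG)
    (ha : a < N.narm g) (hx : N.Content g x) {f : ZMod 2}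
    (hf : Kn N S (Sum.inl (N.hub g a)) (fun j => N.proj g a (x j)) f) :
    Kn N S (Sum.inr (g, a, 1)) x (f + N.armSum b g a x) := by
  have key : ∀ p ≤ N.L, ∀ f', Kn N S (N.ed g a p) (N.cz g a p x) f' →
      Kn N S (Sum.inr (g, a, 1)) x (f' + ∑ q ∈ range p, N.dc b (g, a, q + 1) x) := by
    intro p
    induction p with
    | zero => intro _ f' hf'; rw [ed_zero, cz_zero] at hf'; simpa using hf'
    | succ p ih =>
      intro hp f' hf'
      have := ih (by omega) _ (Kn.arm_in1 h hg ha hp hx hf')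
      rw [sum_range_succ]
      rw [show f' + (∑ q ∈ range p, N.dc b (g, a, q + 1) x + N.dc b (g, a, p + 1) x) =
        f' + N.dc b (g, a, p + 1) x + ∑ q ∈ range p, N.dc b (g, a, q + 1) x by ring]
      exact this
  refine key N.L le_rfl f ?_
  rw [ed_L, cz_L]
  exact hf

/-! ### gadgets -/

theorem edges_ctr (g : ℕ) :
    N.edges (g, 0, 0) = (List.range (N.narm g)).map fun a => Sum.inr (g, a, 1) := by
  rw [edges, if_pos rfl]

theorem ctr_sum (s : NVar H Λ → ZMod 2) (g : ℕ) (x : ℕ → Λ) :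
    ((N.edges (g, 0, 0)).map fun e => N.flux s e (N.see (g, 0, 0) e x)).sum =
      ∑ a ∈ range (N.narm g), N.flux s (Sum.inr (g, a, 1)) x := by
  rw [edges_ctr, List.map_map, ← List.sum_toFinset _ List.nodup_range, List.toFinset_range]
  rfl

theorem Kn.gadget (h : LSys N b (N.m + 1) S) {g a : ℕ} {x : ℕ → Λ} (hg : g < N.nG)
    (ha : a < N.narm g) (hx : N.Content g x) (f : ℕ → ZMod 2)
    (hf : ∀ a' < N.narm g, a' ≠ a →
      Kn N S (Sum.inl (N.hub g a')) (fun j => N.proj g a' (x j)) (f a')) :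
    Kn N S (Sum.inl (N.hub g a)) (fun j => N.proj g a (x j))
      (∑ a' ∈ (range (N.narm g)).erase a, f a' +
        (N.dc b (g, 0, 0) x + ∑ a' ∈ range (N.narm g), N.armSum b g a' x)) := by
  have hc : Kn N S (Sum.inr (g, a, 1)) x
      (∑ a' ∈ (range (N.narm g)).erase a, (f a' + N.armSum b g a' x) + N.dc b (g, 0, 0) x) := by
    refine Kn.core h (κ := (g, 0, 0)) hg (N.mem_cols.2 (Or.inl rfl)) hx ?_ rfl ?_
    · rw [edges_ctr]
      exact List.mem_map.2 ⟨a, List.mem_range.2 ha, rfl⟩
    · intro s hs hsum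
      rw [ctr_sum, ← add_sum_erase _ _ (mem_range.2 ha), add_comm] at hsum
      have h1 : ∀ a' ∈ (range (N.narm g)).erase a, N.flux s (Sum.inr (g, a', 1)) x =
          f a' + N.armSum b g a' x := by
        intro a' ha'
        obtain ⟨h2, h3⟩ := mem_erase.1 ha'
        have h3 := mem_range.1 h3
        refine Kn.arm_in h hg h3 hx (hf a' h3 h2) (ob (g, 0, 0) x) s (fun i _ => ?_) hs
        exact Y_mem_ports (N := N) (κ := (g, 0, 0)) (x := x) (e := Sum.inr (g, a', 1))
          (by rw [edges_ctr]; exact List.mem_map.2 ⟨a', List.mem_range.2 h3, rfl⟩) i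
      rw [sum_congr rfl h1] at hsum
      exact z2_eq_of_add hsum
  have := Kn.arm_out h hg ha hx hc
  convert this using 1
  rw [sum_add_distrib, ← add_sum_erase _ _ (mem_range.2 ha)]
  ring

theorem Kn.gadget_sum (h : LSys N b (N.m + 1) S) {g : ℕ} {x : ℕ → Λ} (hg : g < N.nG)
    (h0 : 0 < N.narm g) (hx : N.Content g x) (f : ℕ → ZMod 2)
    (hf : ∀ a < N.narm g, Kn N S (Sum.inl (N.hub g a)) (fun j => N.proj g a (x j)) (f a)) :
    ∑ a ∈ range (N.narm g), f a =
      N.dc b (g, 0, 0) x + ∑ a ∈ range (N.narm g), N.armSum b g a x := by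
  have h1 := Kn.gadget h hg h0 hx f (fun a' ha' _ => hf a' ha')
  have h2 := hf 0 h0
  have hL : 0 < N.L := by unfold L; omega
  obtain ⟨k, hk⟩ : ∃ k, N.L = k + 1 := ⟨N.L - 1, by omega⟩
  have h3 : ∀ f', Kn N S (Sum.inl (N.hub g 0)) (fun j => N.proj g 0 (x j)) f' →
      Kn N S (N.ed g 0 N.L) (N.see (g, 0, k + 1) (N.ed g 0 N.L) x) f' := by
    intro f' hf'
    rw [see_ed, ed_L, cz_L]; exact hf'
  have h4 := Kn.unique h hg (arm_mem (p := k) h0 (by omega)) hx
    (by rw [edges_arm (by omega), ← hk]; simp) (h3 _ h1) (h3 _ h2)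
  rw [← add_sum_erase _ _ (mem_range.2 h0), ← h4, add_comm, ← add_assoc, z2_add_self, zero_add]

/-- Facts derived by unit propagation (without the twisted gadget) are known. -/
theorem Der.kn (h : LSys N b (N.m + 1) S) {e : H} {z : ℕ → Λ} (hd : N.Der e z) :
    ∃ f, Kn N S (Sum.inl e) z f := by
  induction hd with
  | mk g x a hg hgt hx ha _ ih =>
    have ih' : ∀ a', ∃ f, a' < N.narm g → a' ≠ a →
        Kn N S (Sum.inl (N.hub g a')) (fun j => N.proj g a' (x j)) f := by
      intro a'
      by_cases h1 : a' < N.narm g ∧ a' ≠ a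
      · obtain ⟨f, hf⟩ := ih a' h1.1 h1.2
        exact ⟨f, fun _ _ => hf⟩
      · exact ⟨0, fun h2 h3 => absurd ⟨h2, h3⟩ h1⟩
    choose f hf using ih'
    exact ⟨_, Kn.gadget h hg ha hx f hf⟩

/-- total parity of a gadget for a content -/
def tot (N : Net H Λ) (b : NObj Λ → ZMod 2) (g : ℕ) (x : ℕ → Λ) : ZMod 2 :=
  N.dc b (g, 0, 0) x + ∑ a ∈ range (N.narm g), N.armSum b g a x

/-- An unlocked hub fact is known, with the total parity of the unlocking gadget as value. -/
theorem Kn.unlocked (h : LSys N b (N.m + 1) S) {ug : H → ℕ} {lift : H → ℕ → Λ → Λ}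
    (hu : N.Unlocked ug lift) {g a : ℕ} (hg : g < N.nG) (ha : a < N.narm g) {x : ℕ → Λ}
    (hx : N.Content g x) :
    Kn N S (Sum.inl (N.hub g a)) (fun j => N.proj g a (x j))
      (N.tot b (ug (N.hub g a)) fun j => lift (N.hub g a) j (N.proj g a (x j))) := by
  obtain ⟨f, hf⟩ := Der.kn h (hu.der g hg a ha x hx)
  have hG := hu.lt g hg a ha
  have h3 := hu.narm g hg a ha
  have hlx : N.Content (ug (N.hub g a)) fun j => lift (N.hub g a) j (N.proj g a (x j)) :=
    fun j => hu.mem g hg a ha j _ (hx j)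
  have key := Kn.gadget h hG (a := 2) (by omega) hlx (fun _ => f) (by
    intro a' ha' hne
    have : a' = 0 ∨ a' = 1 := by omega
    rcases this with rfl | rfl
    · exact hf
    · rw [hu.hub01 g hg a ha, hu.proj01 g hg a ha] at hf
      exact hf)
  rw [hu.hub2 g hg a ha] at key
  have e1 : (fun j => N.proj (ug (N.hub g a)) 2 (lift (N.hub g a) j (N.proj g a (x j)))) =
      fun j => N.proj g a (x j) := funext fun j => hu.proj_lift g hg a ha j _ (hx j)
  rw [e1] at key
  have e2 : (range (N.narm (ug (N.hub g a)))).erase 2 = {0, 1} := by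
    rw [h3]; decide
  rw [e2, sum_pair (by decide), z2_add_self, zero_add] at key
  exact key

end calculus

/-! ### the solution -/

section solution

variable (N : Net H Λ) (b : NObj Λ → ZMod 2) (ug : H → ℕ) (lift : H → ℕ → Λ → Λ)

/-- parity of a gadget in row `i` -/
def gpar (g i : ℕ) (x y : Λ) : ZMod 2 :=
  b ((g, 0, 0), i, x, y) + ∑ a ∈ range (N.narm g), ∑ p ∈ range N.L, b ((g, a, p + 1), i, x, y)

theorem tot_eq (g : ℕ) (x : ℕ → Λ) :
    N.tot b g x = ∑ i ∈ range N.m, N.gpar b g i (x i) (x (i + 1)) := by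
  unfold tot gpar armSum dc ob
  rw [sum_add_distrib]
  congr 1
  symm
  rw [sum_comm]
  refine sum_congr rfl fun a _ => ?_
  rw [sum_comm]

/-- value of a hub variable -/
def Yh (h : H) (i : ℕ) (z z' : Λ) : ZMod 2 := N.gpar b (ug h) i (lift h i z) (lift h (i + 1) z')

/-- value of the variable of the edge number `p` of an arm, in terms of the letters of the gadget -/
def Ya (g a p i : ℕ) (x y : Λ) : ZMod 2 :=
  N.Yh b ug lift (N.hub g a) i (N.proj g a x) (N.proj g a y) +
    ∑ q ∈ Ico p N.L, b ((g, a, q + 1), i, x, y)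

/-- the solution; `T g` are the potentials of the centre of `g` -/
def sol (T : ℕ → ℕ → Λ → ZMod 2) : NVar H Λ → ZMod 2
  | .inl (.inl h, i, z, z') => N.Yh b ug lift h i z z'
  | .inl (.inr (g, a, p), i, x, y) => N.Ya b ug lift g a (p - 1) i x y
  | .inr ((g, _, p), j, x) => if p = 0 then T g j x else 0

/-- defect of the centre -/
def defect (g i : ℕ) (x y : Λ) : ZMod 2 :=
  (∑ a ∈ range (N.narm g), N.Yh b ug lift (N.hub g a) i (N.proj g a x) (N.proj g a y)) +
    N.gpar b g i x y

theorem sol_ed (T : ℕ → ℕ → Λ → ZMod 2) (g a p i : ℕ) (x y : Λ) (hp : p ≤ N.L) :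
    N.sol b ug lift T (Y (N.ed g a p) i (N.psi (g, a, p) (N.ed g a p) x)
      (N.psi (g, a, p) (N.ed g a p) y)) = N.Ya b ug lift g a p i x y := by
  unfold ed psi
  by_cases h : p < N.L
  · rw [if_pos h]
    rfl
  · have : p = N.L := by omega
    subst this
    rw [if_neg h]
    unfold Ya
    rw [Ico_self, sum_empty, add_zero]
    rfl

theorem sol_arm (T : ℕ → ℕ → Λ → ZMod 2) (g a p i : ℕ) (x y : Λ) (hp : p < N.L) :
    ((N.ports ((g, a, p + 1), i, x, y)).map (N.sol b ug lift T)).sum =
      b ((g, a, p + 1), i, x, y) := by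
  rw [sum_ports, edges_arm hp]
  simp only [List.map_cons, List.map_nil, List.sum_cons, List.sum_nil, add_zero]
  have e1 := N.sol_ed b ug lift T g a p i x y (by omega)
  have e2 := N.sol_ed b ug lift T g a (p + 1) i x y (by omega)
  have e3 : ∀ e : Edge H, ∀ w : Λ, N.psi (g, a, p + 1) e w = N.psi (g, a, p) e w := by
    intro e w; cases e <;> rfl
  rw [e3, e3, e1, e2]
  have e0 : ∀ j w, N.sol b ug lift T (U (g, a, p + 1) j w) = 0 := by
    intro j w
    change (if p + 1 = 0 then T g j w else 0) = 0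
    rw [if_neg (Nat.succ_ne_zero p)]
  have e4 : (if 0 < i then N.sol b ug lift T (U (g, a, p + 1) i x) else 0) = 0 := by
    rw [e0, ite_self]
  have e5 : (if i + 1 < N.m then N.sol b ug lift T (U (g, a, p + 1) (i + 1) y) else 0) = 0 := by
    rw [e0, ite_self]
  rw [e4, e5, add_zero, add_zero]
  unfold Ya
  rw [Finset.sum_eq_sum_Ico_succ_bot hp]
  generalize N.Yh b ug lift (N.hub g a) i (N.proj g a x) (N.proj g a y) = A
  generalize ∑ k ∈ Ico (p + 1) N.L, b ((g, a, k + 1), i, x, y) = B
  generalize b ((g, a, p + 1), i, x, y) = C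
  revert A B C; decide

theorem sol_ctr (T : ℕ → ℕ → Λ → ZMod 2) (g i : ℕ) (x y : Λ)
    (hT0 : i = 0 → T g i x = 0) (hTm : ¬ (i + 1 < N.m) → T g (i + 1) y = 0)
    (hT : T g i x + T g (i + 1) y = N.defect b ug lift g i x y) :
    ((N.ports ((g, 0, 0), i, x, y)).map (N.sol b ug lift T)).sum = b ((g, 0, 0), i, x, y) := by
  rw [sum_ports, edges_ctr, List.map_map, ← List.sum_toFinset _ List.nodup_range,
    List.toFinset_range]
  have e4 : (if 0 < i then N.sol b ug lift T (U (g, 0, 0) i x) else 0) = T g i x := by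
    by_cases h : 0 < i
    · rw [if_pos h]; rfl
    · rw [if_neg h, hT0 (by omega)]
  have e5 : (if i + 1 < N.m then N.sol b ug lift T (U (g, 0, 0) (i + 1) y) else 0) =
      T g (i + 1) y := by
    by_cases h : i + 1 < N.m
    · rw [if_pos h]; rfl
    · rw [if_neg h, hTm h]
  rw [e4, e5, hT]
  have e6 : ∀ a ∈ range (N.narm g), ((fun e => N.sol b ug lift T (Y e i (N.psi (g, 0, 0) e x)
      (N.psi (g, 0, 0) e y))) ∘ fun a => (Sum.inr (g, a, 1) : Edge H)) a =
      N.Yh b ug lift (N.hub g a) i (N.proj g a x) (N.proj g a y) +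
        ∑ q ∈ range N.L, b ((g, a, q + 1), i, x, y) := by
    intro a _
    change N.Ya b ug lift g a 0 i x y = _
    unfold Ya
    rw [range_eq_Ico]
  rw [sum_congr rfl e6, sum_add_distrib]
  unfold defect gpar
  generalize ∑ a ∈ range (N.narm g), N.Yh b ug lift (N.hub g a) i (N.proj g a x) (N.proj g a y) = A
  generalize ∑ a ∈ range (N.narm g), ∑ q ∈ range N.L, b ((g, a, q + 1), i, x, y) = B
  generalize b ((g, 0, 0), i, x, y) = C
  revert A B C; decide

end solution

end Net

section main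

variable {H Λ : Type} [DecidableEq H] [DecidableEq Λ]

open Finset in
theorem Net.solution_of_unlocked (N : Net H Λ) (hN : N.OK) {ug : H → ℕ} {lift : H → ℕ → Λ → Λ}
    (hu : N.Unlocked ug lift) (b : NObj Λ → Bool)
    (hS : ShiftEquiv N.objs N.ports b (N.m + 1)) :
    ∃ s : NVar H Λ → Bool, IsSol N.objs N.ports b s := by
  classical
  obtain ⟨S, hS⟩ := N.lsys_of_shiftEquiv b _ hS
  set b' : NObj Λ → ZMod 2 := fun u => bz (b u) with hb'
  have key : ∀ g, ∃ T : ℕ → Λ → ZMod 2, g < N.nG → (∀ x, T 0 x = 0) ∧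
      (∀ y ∈ N.lett g N.m, T N.m y = 0) ∧
      ∀ i < N.m, ∀ x ∈ N.lett g i, ∀ y ∈ N.lett g (i + 1),
        T i x + T (i + 1) y = N.defect b' ug lift g i x y := by
    intro g
    by_cases hg : g < N.nG
    · have hne : ∀ j, ∃ c, c ∈ N.lett g j := fun j => List.exists_mem_of_ne_nil _ (hN.lett_ne g j)
      choose c hc using hne
      obtain ⟨T, h1, h2, h3⟩ := Net.split_rows N.m (fun j x => x ∈ N.lett g j) c hc
        (N.defect b' ug lift g) (by
          intro x hx
          have hx : N.Content g x := hx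
          have h0 : 0 < N.narm g := (hN.narm_odd g hg).pos
          have h4 := Net.Kn.gadget_sum hS hg h0 hx _
            (fun a ha => Net.Kn.unlocked hS hu hg ha hx)
          have h5 : ∑ i ∈ range N.m, N.defect b' ug lift g i (x i) (x (i + 1)) =
              (∑ a ∈ range (N.narm g), N.tot b' (ug (N.hub g a))
                fun j => lift (N.hub g a) j (N.proj g a (x j))) + N.tot b' g x := by
            unfold Net.defect
            rw [sum_add_distrib, sum_comm, ← Net.tot_eq]
            congr 1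
            refine sum_congr rfl fun a _ => ?_
            rw [Net.tot_eq]
            rfl
          rw [h5, h4]
          exact Net.z2_add_self _)
      exact ⟨T, fun _ => ⟨h1, h2, fun i hi x hx y hy => h3 i hi x y hx hy⟩⟩
    · exact ⟨fun _ _ => 0, fun h => absurd h hg⟩
  choose T hT using key
  have hsol : ∀ u ∈ N.objs, ((N.ports u).map (N.sol b' ug lift T)).sum = b' u := by
    rintro ⟨κ, i, x, y⟩ hmem
    obtain ⟨hg, hκ, hi, hx, hy⟩ := N.mem_objs.1 hmem
    obtain ⟨h1, h2, h3⟩ := hT κ.1 hg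
    simp only at hg hκ hi hx hy
    rw [Net.mem_cols] at hκ
    rcases hκ with e | ⟨a, ha, p, hp, e⟩
    · rw [e]
      refine N.sol_ctr b' ug lift T κ.1 i x y (fun h => ?_) (fun h => ?_) (h3 i hi x hx y hy)
      · rw [h]; exact h1 x
      · have : i + 1 = N.m := by omega
        rw [this]
        apply h2
        rw [← this]; exact hy
    · rw [e]
      exact N.sol_arm b' ug lift T κ.1 a p i x y hp
  choose r hr using AGB.bz_surj
  refine ⟨fun v => r (N.sol b' ug lift T v), fun u hmem => ?_⟩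
  apply AGB.bz_inj
  rw [AGB.bz_sum, List.map_map]
  have := hsol u hmem
  simp only [hb'] at this
  rw [← this]
  congr 1
  apply List.map_congr_left
  intro v _
  exact hr _

end main

end Crest.Agent.R290
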