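import Crest.Agent.R290.Defs

/-!
# Row 290, [NETSP]: Spoiler's derivations in a network with `m + 1` pebbles

`Net.Drv`: derived facts; `Net.Drv.step`: column step (general parities, for `NetId`);
`Net.not_shiftEquiv_of_der`: the frozen statement.
-/

set_option autoImplicit false
set_option linter.unusedSectionVars false

namespace Crest.Agent.R290

open Finset

namespace Net

variable {H Λ : Type} [DecidableEq H] [DecidableEq Λ]

/-! ## ports -/

theorem sp_psi_inr (N : Net H Λ) (κ : Col) (e : ℕ × ℕ × ℕ) (x : Λ) : N.psi κ (Sum.inr e) x = x := rfl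

theorem sp_psi_inl (N : Net H Λ) (κ : Col) (h : H) (x : Λ) :
    N.psi κ (Sum.inl h) x = N.proj κ.1 κ.2.1 x := rfl

theorem sp_edges_nodup (N : Net H Λ) (κ : Col) : (N.edges κ).Nodup := by
  unfold edges
  split_ifs with h1 h2
  · refine List.Nodup.map ?_ List.nodup_range
    intro a b hab
    simpa using hab
  · simp only [List.nodup_cons, List.mem_singleton, List.not_mem_nil, not_false_eq_true,
      List.nodup_nil, and_true]
    intro h
    have h3 := Sum.inr.inj h
    have h4 := congrArg (fun q : ℕ × ℕ × ℕ => q.2.2) h3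
    simp only at h4
    omega
  · simp

theorem sp_ports_nodup (N : Net H Λ) (u : NObj Λ) : (N.ports u).Nodup := by
  unfold ports
  refine List.Nodup.append ?_ ?_ ?_
  · refine List.Nodup.map ?_ (N.sp_edges_nodup u.1)
    intro a b hab
    simp only [Y, Sum.inl.injEq, Prod.mk.injEq] at hab
    exact hab.1
  · refine List.Nodup.append ?_ ?_ ?_
    · split_ifs <;> simp
    · split_ifs <;> simp
    · intro a h1 h2
      split_ifs at h1 h2 with h3 h4
      · rw [List.mem_singleton] at h1 h2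
        rw [h1] at h2
        simp only [U, Sum.inr.injEq, Prod.mk.injEq] at h2
        omega
      · simp at h2
      · simp at h1
      · simp at h1
  · intro a h1 h2
    obtain ⟨e, _, rfl⟩ := List.mem_map.1 h1
    rcases List.mem_append.1 h2 with h2 | h2
    · split_ifs at h2
      · simp [Y, U] at h2
      · simp at h2
    · split_ifs at h2
      · simp [Y, U] at h2
      · simp at h2

theorem sp_sum_ports (N : Net H Λ) (u : NObj Λ) (s : NVar H Λ → ZMod 2) :
    ∑ v ∈ (N.ports u).toFinset, s v =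
      ((N.edges u.1).map fun e => s (Y e u.2.1 (N.psi u.1 e u.2.2.1) (N.psi u.1 e u.2.2.2))).sum +
        ((if 0 < u.2.1 then s (U u.1 u.2.1 u.2.2.1) else 0) +
          (if u.2.1 + 1 < N.m then s (U u.1 (u.2.1 + 1) u.2.2.2) else 0)) := by
  rw [List.sum_toFinset _ (N.sp_ports_nodup u)]
  unfold ports
  rw [List.map_append, List.sum_append, List.map_append, List.sum_append, List.map_map]
  congr 1
  congr 1
  · split_ifs <;> simp
  · split_ifs <;> simp

theorem sp_Y_mem_ports (N : Net H Λ) (u : NObj Λ) {e : Edge H} (he : e ∈ N.edges u.1) :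
    Y e u.2.1 (N.psi u.1 e u.2.2.1) (N.psi u.1 e u.2.2.2) ∈ N.ports u := by
  unfold ports
  exact List.mem_append_left _ (List.mem_map.2 ⟨e, he, rfl⟩)

theorem sp_mem_objs (N : Net H Λ) {κ : Col} {i : ℕ} {x y : Λ} :
    (κ, i, x, y) ∈ N.objs ↔ κ.1 < N.nG ∧ κ ∈ N.cols κ.1 ∧ i < N.m ∧ x ∈ N.lett κ.1 i ∧
      y ∈ N.lett κ.1 (i + 1) := by
  have hc : ∀ g κ, κ ∈ N.cols g → κ.1 = g := by
    intro g κ h
    unfold cols at h
    rcases List.mem_cons.1 h with rfl | h
    · rfl
    · obtain ⟨a, _, h⟩ := List.mem_flatMap.1 h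
      obtain ⟨p, _, rfl⟩ := List.mem_map.1 h
      rfl
  unfold objs
  simp only [List.mem_flatMap, List.mem_map, List.mem_range, Prod.mk.injEq]
  constructor
  · rintro ⟨g, hg, κ', hκ', i', hi', x', hx', y', hy', rfl, rfl, rfl, rfl⟩
    obtain rfl := hc _ _ hκ'
    exact ⟨hg, hκ', hi', hx', hy'⟩
  · rintro ⟨hg, hκ, hi, hx, hy⟩
    exact ⟨κ.1, hg, κ, hκ, i, hi, x, hx, y, hy, rfl, rfl, rfl, rfl⟩

theorem sp_ctr_mem_cols (N : Net H Λ) (g : ℕ) : (g, 0, 0) ∈ N.cols g := List.mem_cons_self ..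

theorem sp_arm_mem_cols (N : Net H Λ) {g a p : ℕ} (ha : a < N.narm g) (h1 : 1 ≤ p) (h2 : p ≤ N.L) :
    (g, a, p) ∈ N.cols g := by
  refine List.mem_cons_of_mem _ (List.mem_flatMap.2 ⟨a, List.mem_range.2 ha, ?_⟩)
  refine List.mem_map.2 ⟨p - 1, List.mem_range.2 (by omega), ?_⟩
  simp only [Prod.mk.injEq, true_and]
  omega

/-- object of a column and a content -/
def spOb (κ : Col) (x : ℕ → Λ) (i : ℕ) : NObj Λ := (κ, i, x i, x (i + 1))

theorem sp_ob_mem (N : Net H Λ) {κ : Col} {x : ℕ → Λ} (hg : κ.1 < N.nG) (hκ : κ ∈ N.cols κ.1)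
    (hx : N.Content κ.1 x) {i : ℕ} (hi : i < N.m) : spOb κ x i ∈ N.objs :=
  N.sp_mem_objs.2 ⟨hg, hκ, hi, hx _, hx _⟩

/-! ## positions -/

variable {N : Net H Λ} {b : NObj Λ → Bool}
  {S : Finset {u // u ∈ N.objs} → (NVar H Λ → ZMod 2) → Prop}

/-- exchanging the objects one by one, keeping the values of given ports -/
theorem sp_exch (hS : ShiftSys (fun u : {u // u ∈ N.objs} => (N.ports u.1).toFinset)
      (fun u => bz (b u.1)) (N.m + 1) S)
    {P : Finset {u // u ∈ N.objs}} {s : NVar H Λ → ZMod 2} (hP : S P s)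
    (y : Fin N.m → NVar H Λ) (p v : Fin N.m → {u // u ∈ N.objs})
    (hpP : ∀ i, p i ∈ P) (hp : ∀ i, y i ∈ N.ports (p i).1) (hv : ∀ i, y i ∈ N.ports (v i).1) :
    ∃ s', S (univ.image v) s' ∧ ∀ i, s' (y i) = s (y i) := by
  have key : ∀ k ≤ N.m, ∃ s', S (univ.image fun i : Fin N.m => if i.val < k then v i else p i) s' ∧
      ∀ i, s' (y i) = s (y i) := by
    intro k
    induction k with
    | zero =>
      intro _
      refine ⟨s, hS.mono hP ?_, fun _ => rfl⟩
      intro u hu
      obtain ⟨i, _, rfl⟩ := mem_image.1 hu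
      simpa using hpP i
    | succ k ih =>
      intro hk
      obtain ⟨s', h1, h2⟩ := ih (by omega)
      have hc : (univ.image fun i : Fin N.m => if i.val < k then v i else p i).card < N.m + 1 := by
        refine Nat.lt_succ_of_le (card_image_le.trans ?_)
        simp
      obtain ⟨s'', h3, h4⟩ := hS.ext h1 hc (v ⟨k, hk⟩)
      refine ⟨s'', hS.mono h3 ?_, ?_⟩
      · intro u hu
        obtain ⟨i, _, rfl⟩ := mem_image.1 hu
        by_cases hi : i.val < k
        · rw [if_pos (by omega)]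
          refine mem_insert_of_mem (mem_image.2 ⟨i, mem_univ _, ?_⟩)
          rw [if_pos hi]
        · by_cases hik : i.val = k
          · have : i = ⟨k, hk⟩ := Fin.ext hik
            rw [if_pos (by omega), this]
            exact mem_insert_self _ _
          · rw [if_neg (by omega)]
            refine mem_insert_of_mem (mem_image.2 ⟨i, mem_univ _, ?_⟩)
            rw [if_neg hi]
      · intro i
        rw [← h2 i]
        refine h4 (if i.val < k then v i else p i) (mem_image.2 ⟨i, mem_univ _, rfl⟩) (y i) ?_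
        rw [List.mem_toFinset]
        split_ifs
        · exact hv i
        · exact hp i
  obtain ⟨s', h1, h2⟩ := key N.m le_rfl
  refine ⟨s', ?_, h2⟩
  have : (fun i : Fin N.m => if i.val < N.m then v i else p i) = v := by
    funext i
    rw [if_pos i.isLt]
  rwa [this] at h1

/-- existence of positions -/
theorem sp_exPos (hS : ShiftSys (fun u : {u // u ∈ N.objs} => (N.ports u.1).toFinset)
      (fun u => bz (b u.1)) (N.m + 1) S) (v : Fin N.m → {u // u ∈ N.objs}) :
    ∃ s, S (univ.image v) s := by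
  have key : ∀ P : Finset {u // u ∈ N.objs}, P.card ≤ N.m + 1 → ∃ s, S P s := by
    intro P
    induction P using Finset.induction_on with
    | empty => intro _; exact hS.empty
    | insert u P hu ih =>
      intro hc
      rw [card_insert_of_notMem hu] at hc
      obtain ⟨s, hs⟩ := ih (by omega)
      obtain ⟨s', hs', _⟩ := hS.ext hs (by omega) u
      exact ⟨s', hs'⟩
  refine key _ ((card_image_le).trans ?_)
  simp

/-- Derived facts: in every position with all the variables `Y(e, i, z)` visible their shifts add up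
to `f`. -/
def Drv (N : Net H Λ) (S : Finset {u // u ∈ N.objs} → (NVar H Λ → ZMod 2) → Prop) (e : Edge H)
    (z : ℕ → Λ) (f : ZMod 2) : Prop :=
  ∀ P s, S P s → (∀ i < N.m, ∃ u ∈ P, Y e i (z i) (z (i + 1)) ∈ N.ports u.1) →
    ∑ i ∈ range N.m, s (Y e i (z i) (z (i + 1))) = f

theorem sp_z2_telescope (g : ℕ → ZMod 2) : ∀ n, ∑ i ∈ range n, (g i + g (i + 1)) = g 0 + g n := by
  have h2 : ∀ a : ZMod 2, a + a = 0 := by decide
  intro n
  induction n with
  | zero => simp [h2]
  | succ n ih =>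
    rw [sum_range_succ, ih]
    calc g 0 + g n + (g n + g (n + 1)) = g 0 + (g n + g n) + g (n + 1) := by ring
      _ = g 0 + g (n + 1) := by rw [h2, add_zero]

/-- sum over the edges of a column -/
theorem sp_col_sum (hS : ShiftSys (fun u : {u // u ∈ N.objs} => (N.ports u.1).toFinset)
      (fun u => bz (b u.1)) (N.m + 1) S)
    {κ : Col} (x : ℕ → Λ) (hκ : ∀ i < N.m, spOb κ x i ∈ N.objs)
    {P : Finset {u // u ∈ N.objs}} {s : NVar H Λ → ZMod 2} (hP : S P s)
    (hPκ : ∀ i (hi : i < N.m), ⟨spOb κ x i, hκ i hi⟩ ∈ P) :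
    ((N.edges κ).map fun e => ∑ i ∈ range N.m,
      s (Y e i (N.psi κ e (x i)) (N.psi κ e (x (i + 1))))).sum =
      ∑ i ∈ range N.m, bz (b (spOb κ x i)) := by
  have h1 : ∑ i ∈ range N.m, bz (b (spOb κ x i)) =
      ∑ i ∈ range N.m, ∑ v ∈ (N.ports (spOb κ x i)).toFinset, s v := by
    refine sum_congr rfl fun i hi => ?_
    rw [mem_range] at hi
    exact (hS.valid hP _ (hPκ i hi)).symm
  have h2 : ∀ (l : List (Edge H)) (f : Edge H → ℕ → ZMod 2),
      (l.map fun e => ∑ i ∈ range N.m, f e i).sum = ∑ i ∈ range N.m, (l.map fun e => f e i).sum := by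
    intro l f
    induction l with
    | nil => simp
    | cons e l ih => simp [ih, sum_add_distrib]
  rw [h1, h2]
  simp_rw [sp_sum_ports]
  rw [sum_add_distrib]
  let g : ℕ → ZMod 2 := fun j => if 0 < j ∧ j < N.m then s (U κ j (x j)) else 0
  have h3 : ∑ i ∈ range N.m, ((if 0 < (spOb κ x i).2.1 then s (U (spOb κ x i).1 (spOb κ x i).2.1 (spOb κ x i).2.2.1) else 0) +
      (if (spOb κ x i).2.1 + 1 < N.m then s (U (spOb κ x i).1 ((spOb κ x i).2.1 + 1) (spOb κ x i).2.2.2) else 0)) =
      ∑ i ∈ range N.m, (g i + g (i + 1)) := by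
    refine sum_congr rfl fun i hi => ?_
    rw [mem_range] at hi
    change (if 0 < i then s (U κ i (x i)) else 0) +
      (if i + 1 < N.m then s (U κ (i + 1) (x (i + 1))) else 0) = g i + g (i + 1)
    have e1 : g i = if 0 < i then s (U κ i (x i)) else 0 := by
      by_cases h : 0 < i
      · simp [g, h, hi]
      · simp [g, h]
    have e2 : g (i + 1) = if i + 1 < N.m then s (U κ (i + 1) (x (i + 1))) else 0 := by
      by_cases h : i + 1 < N.m
      · simp [g, h]
      · simp [g, h]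
    rw [e1, e2]
  rw [h3, sp_z2_telescope]
  simp only [g, lt_irrefl, false_and, and_false, if_false, add_zero]
  rfl

theorem sp_sum_map_filter {E : Type} [DecidableEq E] {l : List E} (hl : l.Nodup) {e₀ : E} (he : e₀ ∈ l)
    (F : E → ZMod 2) :
    (l.map F).sum = F e₀ + ((l.filter fun e => decide (e ≠ e₀)).map F).sum := by
  induction l with
  | nil => simp at he
  | cons a l ih =>
    rw [List.nodup_cons] at hl
    by_cases ha : a = e₀
    · subst ha
      have h1 : (a :: l).filter (fun e => decide (e ≠ a)) = l := by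
        rw [List.filter_cons_of_neg (by simp)]
        rw [List.filter_eq_self]
        intro e he'
        have : e ≠ a := by
          rintro rfl
          exact hl.1 he'
        simpa using this
      rw [h1, List.map_cons, List.sum_cons]
    · have he' : e₀ ∈ l := by
        rcases List.mem_cons.1 he with h | h
        · exact absurd h.symm ha
        · exact h
      rw [List.filter_cons_of_pos (by simpa using ha), List.map_cons, List.sum_cons, ih hl.2 he',
        List.map_cons, List.sum_cons]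
      ring

/-- **Column step**: if all edges of a column but `e₀` are derived then so is `e₀`. -/
theorem Drv.step (hS : ShiftSys (fun u : {u // u ∈ N.objs} => (N.ports u.1).toFinset)
      (fun u => bz (b u.1)) (N.m + 1) S)
    {κ : Col} (x : ℕ → Λ) (hκ : ∀ i < N.m, spOb κ x i ∈ N.objs)
    {e₀ : Edge H} (he₀ : e₀ ∈ N.edges κ) (f : Edge H → ZMod 2)
    (hf : ∀ e ∈ N.edges κ, e ≠ e₀ → N.Drv S e (fun j => N.psi κ e (x j)) (f e)) :
    N.Drv S e₀ (fun j => N.psi κ e₀ (x j))
      ((((N.edges κ).filter fun e => decide (e ≠ e₀)).map f).sum +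
        ∑ i ∈ range N.m, bz (b (spOb κ x i))) := by
  have h2 : ∀ a b c : ZMod 2, a + b = c → a = b + c := by decide
  intro P s hP hv
  have hv' : ∀ i : Fin N.m, ∃ u, u ∈ P ∧ Y e₀ i.val (N.psi κ e₀ (x i.val)) (N.psi κ e₀ (x (i.val + 1))) ∈ N.ports u.1 :=
    fun i => hv i.val i.isLt
  choose p hpP hp using hv'
  obtain ⟨s', h3, h4⟩ := sp_exch hS hP
    (fun i => Y e₀ i.val (N.psi κ e₀ (x i.val)) (N.psi κ e₀ (x (i.val + 1)))) p
    (fun i => ⟨spOb κ x i.val, hκ i.val i.isLt⟩) hpP hp (fun i => N.sp_Y_mem_ports (spOb κ x i.val) he₀)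
  have hmem : ∀ i (hi : i < N.m), (⟨spOb κ x i, hκ i hi⟩ : {u // u ∈ N.objs}) ∈
      univ.image (fun i : Fin N.m => (⟨spOb κ x i.val, hκ i.val i.isLt⟩ : {u // u ∈ N.objs})) :=
    fun i hi => mem_image.2 ⟨⟨i, hi⟩, mem_univ _, rfl⟩
  have h5 := sp_col_sum hS x hκ h3 hmem
  rw [sp_sum_map_filter (N.sp_edges_nodup κ) he₀] at h5
  have h6 : ∑ i ∈ range N.m, s' (Y e₀ i (N.psi κ e₀ (x i)) (N.psi κ e₀ (x (i + 1)))) =
      ∑ i ∈ range N.m, s (Y e₀ i (N.psi κ e₀ (x i)) (N.psi κ e₀ (x (i + 1)))) := by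
    refine sum_congr rfl fun i hi => ?_
    rw [mem_range] at hi
    exact h4 ⟨i, hi⟩
  rw [h6] at h5
  have h7 : (((N.edges κ).filter fun e => decide (e ≠ e₀)).map fun e => ∑ i ∈ range N.m,
      s' (Y e i (N.psi κ e (x i)) (N.psi κ e (x (i + 1))))) =
      ((N.edges κ).filter fun e => decide (e ≠ e₀)).map f := by
    refine List.map_congr_left fun e he => ?_
    rw [List.mem_filter] at he
    have he1 : e ∈ N.edges κ := he.1
    have he2 : e ≠ e₀ := by simpa using he.2
    refine hf e he1 he2 _ s' h3 fun i hi => ⟨_, hmem i hi, ?_⟩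
    exact N.sp_Y_mem_ports (spOb κ x i) he1
  rw [h7] at h5
  exact h2 _ _ _ h5

/-- derived values are unique -/
theorem Drv.unique (hS : ShiftSys (fun u : {u // u ∈ N.objs} => (N.ports u.1).toFinset)
      (fun u => bz (b u.1)) (N.m + 1) S)
    {κ : Col} (x : ℕ → Λ) (hκ : ∀ i < N.m, spOb κ x i ∈ N.objs)
    {e : Edge H} (he : e ∈ N.edges κ) {f f' : ZMod 2}
    (h1 : N.Drv S e (fun j => N.psi κ e (x j)) f) (h2 : N.Drv S e (fun j => N.psi κ e (x j)) f') :
    f = f' := by
  obtain ⟨s, hs⟩ := sp_exPos hS (fun i : Fin N.m => ⟨spOb κ x i.val, hκ i.val i.isLt⟩)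
  have hvis : ∀ i < N.m, ∃ u ∈ univ.image (fun i : Fin N.m =>
      (⟨spOb κ x i.val, hκ i.val i.isLt⟩ : {u // u ∈ N.objs})),
      Y e i (N.psi κ e (x i)) (N.psi κ e (x (i + 1))) ∈ N.ports u.1 := by
    intro i hi
    exact ⟨_, mem_image.2 ⟨⟨i, hi⟩, mem_univ _, rfl⟩, N.sp_Y_mem_ports (spOb κ x i) he⟩
  rw [← h1 _ s hs hvis, ← h2 _ s hs hvis]

/-! ## arms and centres -/

theorem sp_edges_ctr (N : Net H Λ) (g : ℕ) :
    N.edges (g, 0, 0) = (List.range (N.narm g)).map fun a => (Sum.inr (g, a, 1) : Edge H) := by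
  simp [edges]

theorem sp_edges_arm (N : Net H Λ) {g a p : ℕ} (hp : 1 ≤ p) :
    N.edges (g, a, p) = [Sum.inr (g, a, p),
      if p < N.L then Sum.inr (g, a, p + 1) else Sum.inl (N.hub g a)] := by
  unfold edges
  rw [if_neg (by simp only; omega)]

/-- total parity of a column for a content -/
def spBC (N : Net H Λ) (b : NObj Λ → Bool) (κ : Col) (x : ℕ → Λ) : ZMod 2 :=
  ∑ i ∈ range N.m, bz (b (spOb κ x i))

/-- step at a column with two edges -/
theorem Drv.two (hS : ShiftSys (fun u : {u // u ∈ N.objs} => (N.ports u.1).toFinset)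
      (fun u => bz (b u.1)) (N.m + 1) S)
    {κ : Col} (x : ℕ → Λ) (hκ : ∀ i < N.m, spOb κ x i ∈ N.objs) {e₁ e₂ : Edge H}
    (he : N.edges κ = [e₁, e₂]) {f : ZMod 2} (h : N.Drv S e₁ (fun j => N.psi κ e₁ (x j)) f) :
    N.Drv S e₂ (fun j => N.psi κ e₂ (x j)) (f + N.spBC b κ x) := by
  have hne : e₁ ≠ e₂ := by
    have := N.sp_edges_nodup κ
    rw [he] at this
    simpa using this
  have h1 := Drv.step hS x hκ (e₀ := e₂) (by rw [he]; simp) (fun _ => f) (by
    intro e h2 h3
    rw [he] at h2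
    simp only [List.mem_cons, List.not_mem_nil, or_false] at h2
    rcases h2 with rfl | rfl
    · exact h
    · exact absurd rfl h3)
  have h4 : (([e₁, e₂] : List (Edge H)).filter fun e => decide (e ≠ e₂)) = [e₁] := by
    rw [List.filter_cons_of_pos (by simpa using hne), List.filter_cons_of_neg (by simp)]
    rfl
  rw [he, h4] at h1
  simpa [spBC] using h1

/-- step at a column with two edges, other direction -/
theorem Drv.two' (hS : ShiftSys (fun u : {u // u ∈ N.objs} => (N.ports u.1).toFinset)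
      (fun u => bz (b u.1)) (N.m + 1) S)
    {κ : Col} (x : ℕ → Λ) (hκ : ∀ i < N.m, spOb κ x i ∈ N.objs) {e₁ e₂ : Edge H}
    (he : N.edges κ = [e₁, e₂]) {f : ZMod 2} (h : N.Drv S e₂ (fun j => N.psi κ e₂ (x j)) f) :
    N.Drv S e₁ (fun j => N.psi κ e₁ (x j)) (f + N.spBC b κ x) := by
  have hne : e₁ ≠ e₂ := by
    have := N.sp_edges_nodup κ
    rw [he] at this
    simpa using this
  have h1 := Drv.step hS x hκ (e₀ := e₁) (by rw [he]; simp) (fun _ => f) (by
    intro e h2 h3
    rw [he] at h2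
    simp only [List.mem_cons, List.not_mem_nil, or_false] at h2
    rcases h2 with rfl | rfl
    · exact absurd rfl h3
    · exact h)
  have h4 : (([e₁, e₂] : List (Edge H)).filter fun e => decide (e ≠ e₁)) = [e₂] := by
    rw [List.filter_cons_of_neg (by simp), List.filter_cons_of_pos (by simpa using hne.symm)]
    rfl
  rw [he, h4] at h1
  simpa [spBC] using h1

theorem sp_ob_mem_arm {g : ℕ} (hg : g < N.nG) {x : ℕ → Λ} (hx : N.Content g x) {a p : ℕ}
    (ha : a < N.narm g) (h1 : 1 ≤ p) (h2 : p ≤ N.L) : ∀ i < N.m, spOb (g, a, p) x i ∈ N.objs :=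
  fun _ hi => N.sp_ob_mem hg (N.sp_arm_mem_cols ha h1 h2) hx hi

theorem sp_ob_mem_ctr {g : ℕ} (hg : g < N.nG) {x : ℕ → Λ} (hx : N.Content g x) :
    ∀ i < N.m, spOb (g, 0, 0) x i ∈ N.objs :=
  fun _ hi => N.sp_ob_mem hg (N.sp_ctr_mem_cols g) hx hi

/-- from the centre outwards along an arm -/
theorem Drv.out (hS : ShiftSys (fun u : {u // u ∈ N.objs} => (N.ports u.1).toFinset)
      (fun u => bz (b u.1)) (N.m + 1) S)
    {g : ℕ} (hg : g < N.nG) {x : ℕ → Λ} (hx : N.Content g x) {a : ℕ} (ha : a < N.narm g)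
    {f : ZMod 2} (h : N.Drv S (Sum.inr (g, a, 1)) x f) :
    N.Drv S (Sum.inl (N.hub g a)) (fun j => N.proj g a (x j))
      (f + ∑ p ∈ range N.L, N.spBC b (g, a, p + 1) x) := by
  have hL : N.L = N.m + 2 := rfl
  have key : ∀ p < N.L, N.Drv S (Sum.inr (g, a, p + 1)) x
      (f + ∑ q ∈ range p, N.spBC b (g, a, q + 1) x) := by
    intro p
    induction p with
    | zero => intro _; simpa using h
    | succ p ih =>
      intro hp
      have h1 := ih (by omega)
      have he := N.sp_edges_arm (g := g) (a := a) (p := p + 1) (by omega)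
      rw [if_pos hp] at he
      have h2 := Drv.two hS x (sp_ob_mem_arm hg hx ha (p := p + 1) (by omega) (by omega)) he h1
      rw [sum_range_succ, ← add_assoc]
      exact h2
  have h1 := key (N.m + 1) (by omega)
  have he := N.sp_edges_arm (g := g) (a := a) (p := N.m + 1 + 1) (by omega)
  rw [if_neg (by omega)] at he
  have h2 := Drv.two hS x (sp_ob_mem_arm hg hx ha (p := N.m + 1 + 1) (by omega) (by omega)) he h1
  rw [hL, sum_range_succ, ← add_assoc]
  exact h2

/-- from the hub inwards along an arm -/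
theorem Drv.inn (hS : ShiftSys (fun u : {u // u ∈ N.objs} => (N.ports u.1).toFinset)
      (fun u => bz (b u.1)) (N.m + 1) S)
    {g : ℕ} (hg : g < N.nG) {x : ℕ → Λ} (hx : N.Content g x) {a : ℕ} (ha : a < N.narm g)
    {f : ZMod 2} (h : N.Drv S (Sum.inl (N.hub g a)) (fun j => N.proj g a (x j)) f) :
    N.Drv S (Sum.inr (g, a, 1)) x (f + ∑ p ∈ range N.L, N.spBC b (g, a, p + 1) x) := by
  have hL : N.L = N.m + 2 := rfl
  have he := N.sp_edges_arm (g := g) (a := a) (p := N.m + 1 + 1) (by omega)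
  rw [if_neg (by omega)] at he
  have h1 : N.Drv S (Sum.inr (g, a, N.m + 1 + 1)) x (f + N.spBC b (g, a, N.m + 1 + 1) x) :=
    Drv.two' hS x (sp_ob_mem_arm hg hx ha (p := N.m + 1 + 1) (by omega) (by omega)) he h
  have key : ∀ q ≤ N.m + 1, N.Drv S (Sum.inr (g, a, N.m + 1 - q + 1)) x
      (f + ∑ p ∈ Ico (N.m + 1 - q) N.L, N.spBC b (g, a, p + 1) x) := by
    intro q
    induction q with
    | zero =>
      intro _
      rw [Nat.sub_zero, hL, sum_eq_sum_Ico_succ_bot (by omega : N.m + 1 < N.m + 2)]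
      simpa using h1
    | succ q ih =>
      intro hq
      have h2 := ih (by omega)
      have e1 : N.m + 1 - q = N.m + 1 - (q + 1) + 1 := by omega
      rw [e1] at h2
      have he := N.sp_edges_arm (g := g) (a := a) (p := N.m + 1 - (q + 1) + 1) (by omega)
      rw [if_pos (by omega)] at he
      have h3 := Drv.two' hS x
        (sp_ob_mem_arm hg hx ha (p := N.m + 1 - (q + 1) + 1) (by omega) (by omega)) he h2
      rw [sum_eq_sum_Ico_succ_bot (by omega : N.m + 1 - (q + 1) < N.L), add_comm (N.spBC b _ x),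
        ← add_assoc]
      exact h3
  have h4 := key (N.m + 1) le_rfl
  rw [Nat.sub_self] at h4
  rw [range_eq_Ico]
  exact h4

/-- step at a centre -/
theorem Drv.ctr (hS : ShiftSys (fun u : {u // u ∈ N.objs} => (N.ports u.1).toFinset)
      (fun u => bz (b u.1)) (N.m + 1) S)
    {g : ℕ} (hg : g < N.nG) {x : ℕ → Λ} (hx : N.Content g x) {a : ℕ} (ha : a < N.narm g)
    (f : ℕ → ZMod 2)
    (h : ∀ a' < N.narm g, a' ≠ a → N.Drv S (Sum.inr (g, a', 1)) x (f a')) :
    N.Drv S (Sum.inr (g, a, 1)) x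
      (∑ a' ∈ (range (N.narm g)).erase a, f a' + N.spBC b (g, 0, 0) x) := by
  have he : (Sum.inr (g, a, 1) : Edge H) ∈ N.edges (g, 0, 0) := by
    rw [sp_edges_ctr]
    exact List.mem_map.2 ⟨a, List.mem_range.2 ha, rfl⟩
  have h1 := Drv.step hS x (sp_ob_mem_ctr hg hx) he
    (Sum.elim (fun _ => 0) fun q => f q.2.1) (by
    intro e h2 h3
    rw [sp_edges_ctr] at h2
    obtain ⟨a', ha', rfl⟩ := List.mem_map.1 h2
    refine h a' (List.mem_range.1 ha') ?_
    rintro rfl
    exact h3 rfl)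
  have h4 : ((((N.edges (g, 0, 0)).filter fun e => decide (e ≠ Sum.inr (g, a, 1))).map
      (Sum.elim (fun _ => (0 : ZMod 2)) fun q => f q.2.1))).sum =
        ∑ a' ∈ (range (N.narm g)).erase a, f a' := by
    have h5 := sp_sum_map_filter (N.sp_edges_nodup (g, 0, 0)) he
      (Sum.elim (fun _ => (0 : ZMod 2)) fun q => f q.2.1)
    have h6 := add_sum_erase (range (N.narm g)) f (mem_range.2 ha)
    have h7 : ((N.edges (g, 0, 0)).map (Sum.elim (fun _ => (0 : ZMod 2)) fun q => f q.2.1)).sum =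
        ∑ a' ∈ range (N.narm g), f a' := by
      rw [sp_edges_ctr, List.map_map, ← List.sum_toFinset _ List.nodup_range, List.toFinset_range]
      rfl
    rw [h7, ← h6] at h5
    exact (add_left_cancel h5).symm
  rw [h4] at h1
  exact h1

/-! ## the twist -/

theorem sp_BC_beta (N : Net H Λ) (hm : 1 ≤ N.m) (κ : Col) (x : ℕ → Λ) :
    N.spBC N.beta κ x = if κ = (N.gt, 0, 0) then 1 else 0 := by
  unfold spBC
  obtain ⟨n, hn⟩ : ∃ n, N.m = n + 1 := ⟨N.m - 1, by omega⟩
  rw [hn, sum_range_succ]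
  have h1 : ∑ i ∈ range n, bz (N.beta (spOb κ x i)) = 0 := by
    refine sum_eq_zero fun i hi => ?_
    rw [mem_range] at hi
    have : N.beta (spOb κ x i) = false := by
      refine decide_eq_false ?_
      rintro ⟨_, h⟩
      have h' : i + 1 = N.m := h
      omega
    rw [this]; rfl
  rw [h1, zero_add]
  by_cases hκ : κ = (N.gt, 0, 0)
  · have : N.beta (spOb κ x n) = true := decide_eq_true ⟨hκ, hn.symm⟩
    rw [this, if_pos hκ]; rfl
  · have : N.beta (spOb κ x n) = false := by
      refine decide_eq_false ?_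
      rintro ⟨h, _⟩
      exact hκ h
    rw [this, if_neg hκ]; rfl

theorem sp_arm_beta (N : Net H Λ) (hm : 1 ≤ N.m) (g a : ℕ) (x : ℕ → Λ) :
    ∑ p ∈ range N.L, N.spBC N.beta (g, a, p + 1) x = 0 := by
  refine sum_eq_zero fun p _ => ?_
  rw [N.sp_BC_beta hm, if_neg]
  intro h
  have := congrArg (fun q : Col => q.2.2) h
  simp at this

/-- facts derived without the twisted gadget have value `0` -/
theorem Der.sp_drv (hN : N.OK)
    (hS : ShiftSys (fun u : {u // u ∈ N.objs} => (N.ports u.1).toFinset)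
      (fun u => bz (N.beta u.1)) (N.m + 1) S)
    {h : H} {z : ℕ → Λ} (hd : N.Der h z) : N.Drv S (Sum.inl h) z 0 := by
  have hm : 1 ≤ N.m := by have := hN.two_le; omega
  induction hd with
  | mk g x a hg hgt hx ha _ ih =>
    have h1 : ∀ a' < N.narm g, a' ≠ a → N.Drv S (Sum.inr (g, a', 1)) x 0 := by
      intro a' ha' hne
      have h2 := Drv.inn hS hg hx ha' (ih a' ha' hne)
      rwa [N.sp_arm_beta hm, add_zero] at h2
    have h3 := Drv.ctr hS hg hx ha (fun _ => 0) h1
    rw [N.sp_BC_beta hm, if_neg (by intro h4; exact hgt (congrArg Prod.fst h4)), sum_const_zero,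
      add_zero] at h3
    have h4 := Drv.out hS hg hx ha h3
    rwa [N.sp_arm_beta hm, add_zero] at h4

/-- the twisted fact has value `1` -/
theorem sp_drv_tgt (hN : N.OK)
    (hS : ShiftSys (fun u : {u // u ∈ N.objs} => (N.ports u.1).toFinset)
      (fun u => bz (N.beta u.1)) (N.m + 1) S)
    {x : ℕ → Λ} (hx : N.Content N.gt x) :
    N.Drv S (Sum.inl (N.hub N.gt 0)) (fun j => N.proj N.gt 0 (x j)) 1 := by
  have hm : 1 ≤ N.m := by have := hN.two_le; omega
  have ha : 0 < N.narm N.gt := by rw [hN.narm_gt]; exact Nat.one_pos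
  have h3 := Drv.ctr hS hN.gt_lt hx ha (fun _ => 0) (by
    intro a' h1 h2
    rw [hN.narm_gt] at h1
    omega)
  rw [N.sp_BC_beta hm, if_pos rfl, sum_const_zero, zero_add] at h3
  have h4 := Drv.out hS hN.gt_lt hx ha h3
  rwa [N.sp_arm_beta hm, add_zero] at h4

/-- **[NETSP]** -/
theorem not_shiftEquiv_of_der (N : Net H Λ) (hN : N.OK) (x : ℕ → Λ) (hx : N.Content N.gt x)
    (h : N.Der (N.hub N.gt 0) (fun j => N.proj N.gt 0 (x j))) :
    ¬ ShiftEquiv N.objs N.ports N.beta (N.m + 1) := by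
  rintro ⟨S, hS⟩
  have h1 := Der.sp_drv hN hS h
  have h2 := sp_drv_tgt hN hS hx
  have ha : 0 < N.narm N.gt := by rw [hN.narm_gt]; exact Nat.one_pos
  have hL : N.L = N.m + 2 := rfl
  have he := N.sp_edges_arm (g := N.gt) (a := 0) (p := N.L) (by omega)
  rw [if_neg (by omega)] at he
  have h3 : (0 : ZMod 2) = 1 :=
    Drv.unique hS x (sp_ob_mem_arm hN.gt_lt hx ha (p := N.L) (by omega) le_rfl)
      (e := Sum.inl (N.hub N.gt 0)) (by rw [he]; simp) h1 h2
  exact absurd h3 (by decide)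

end Net

end Crest.Agent.R290
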