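import Crest.Agent.R290.Defs

/-!
Row 290, module NETWF: the XOR instance of a well-formed network is well-formed.
-/

set_option autoImplicit false

namespace Crest.Agent.R290

section util

/-- `flatMap` of a duplicate-free list is duplicate-free if the index can be read off. -/
theorem nodup_flatMap_key {α β : Type*} {l : List α} {f : α → List β} (k : β → α) (hl : l.Nodup)
    (h1 : ∀ x ∈ l, (f x).Nodup) (h2 : ∀ x ∈ l, ∀ y ∈ f x, k y = x) : (l.flatMap f).Nodup := by
  induction l with
  | nil => simp
  | cons a l ih =>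
    rw [List.flatMap_cons, List.nodup_append']
    rw [List.nodup_cons] at hl
    refine ⟨h1 a (by simp), ih hl.2 (fun x hx => h1 x (by simp [hx]))
      (fun x hx => h2 x (by simp [hx])), ?_⟩
    intro y hy hy'
    rw [List.mem_flatMap] at hy'
    obtain ⟨x, hx, hyx⟩ := hy'
    have e1 := h2 a (by simp) y hy
    have e2 := h2 x (by simp [hx]) y hyx
    exact hl.1 (by rw [← e1, e2]; exact hx)

theorem Net.mem_dd {X : Type} [DecidableEq X] {l : List X} {x : X} : x ∈ Net.dd l ↔ x ∈ l := by
  induction l with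
  | nil => simp [Net.dd]
  | cons a l ih =>
    have e : Net.dd (a :: l) = if a ∈ Net.dd l then Net.dd l else a :: Net.dd l := rfl
    rw [e]
    split
    · next h =>
      rw [List.mem_cons, ih]
      constructor
      · exact Or.inr
      · rintro (rfl | h')
        · exact ih.1 h
        · exact h'
    · rw [List.mem_cons, List.mem_cons, ih]

theorem Net.nodup_dd {X : Type} [DecidableEq X] (l : List X) : (Net.dd l).Nodup := by
  induction l with
  | nil => simp [Net.dd]
  | cons a l ih =>
    have e : Net.dd (a :: l) = if a ∈ Net.dd l then Net.dd l else a :: Net.dd l := rfl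
    rw [e]
    split
    · exact ih
    · next h => exact List.nodup_cons.2 ⟨h, ih⟩

end util

namespace Net

variable {H Λ : Type} (N : Net H Λ)

theorem mem_cols {g : ℕ} {κ : Col} : κ ∈ N.cols g ↔
    κ = (g, 0, 0) ∨ ∃ a < N.narm g, ∃ p < N.L, κ = (g, a, p + 1) := by
  simp only [cols, List.mem_cons, List.mem_flatMap, List.mem_range, List.mem_map]
  constructor
  · rintro (h | ⟨a, ha, p, hp, rfl⟩)
    · exact Or.inl h
    · exact Or.inr ⟨a, ha, p, hp, rfl⟩
  · rintro (h | ⟨a, ha, p, hp, rfl⟩)
    · exact Or.inl h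
    · exact Or.inr ⟨a, ha, p, hp, rfl⟩

theorem mem_objs {u : NObj Λ} : u ∈ N.objs ↔
    u.1.1 < N.nG ∧ u.1 ∈ N.cols u.1.1 ∧ u.2.1 < N.m ∧ u.2.2.1 ∈ N.lett u.1.1 u.2.1 ∧
      u.2.2.2 ∈ N.lett u.1.1 (u.2.1 + 1) := by
  obtain ⟨κ, i, x, y⟩ := u
  simp only [objs, List.mem_flatMap, List.mem_range, List.mem_map, Prod.mk.injEq]
  constructor
  · rintro ⟨g, hg, κ', hκ', i', hi', x', hx', y', hy', rfl, rfl, rfl, rfl⟩
    have e : κ'.1 = g := by
      rw [mem_cols] at hκ'
      rcases hκ' with rfl | ⟨a, _, p, _, rfl⟩ <;> rfl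
    subst e
    exact ⟨hg, hκ', hi', hx', hy'⟩
  · rintro ⟨h1, h2, h3, h4, h5⟩
    exact ⟨κ.1, h1, κ, h2, i, h3, x, h4, y, h5, rfl, rfl, rfl, rfl⟩

theorem nodup_cols (g : ℕ) : (N.cols g).Nodup := by
  rw [cols, List.nodup_cons]
  constructor
  · simp
  · refine nodup_flatMap_key (fun κ => κ.2.1) List.nodup_range ?_ ?_
    · intro a _
      refine List.Nodup.map ?_ List.nodup_range
      intro p q h
      simpa using h
    · intro a _ κ hκ
      simp only [List.mem_map] at hκ
      obtain ⟨p, _, rfl⟩ := hκ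
      rfl

theorem nodup_objs (hN : N.OK) : N.objs.Nodup := by
  refine nodup_flatMap_key (fun u => u.1.1) List.nodup_range ?_ ?_
  · intro g _
    refine nodup_flatMap_key (fun u => u.1) (N.nodup_cols g) ?_ ?_
    · intro κ _
      refine nodup_flatMap_key (fun u => u.2.1) List.nodup_range ?_ ?_
      · intro i _
        refine nodup_flatMap_key (fun u => u.2.2.1) (hN.lett_nodup g i) ?_ ?_
        · intro x _
          refine List.Nodup.map ?_ (hN.lett_nodup g (i + 1))
          intro y y' h
          simpa using h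
        · intro x _ u hu
          simp only [List.mem_map] at hu
          obtain ⟨y, _, rfl⟩ := hu
          rfl
      · intro i _ u hu
        simp only [List.mem_flatMap, List.mem_map] at hu
        obtain ⟨x, _, y, _, rfl⟩ := hu
        rfl
    · intro κ _ u hu
      simp only [List.mem_flatMap, List.mem_map] at hu
      obtain ⟨i, _, x, _, y, _, rfl⟩ := hu
      rfl
  · intro g _ u hu
    simp only [List.mem_flatMap, List.mem_map] at hu
    obtain ⟨κ, hκ, i, _, x, _, y, _, rfl⟩ := hu
    rw [mem_cols] at hκ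
    rcases hκ with rfl | ⟨a, _, p, _, rfl⟩ <;> rfl

theorem objs_ne (hN : N.OK) : N.objs ≠ [] := by
  obtain ⟨x, hx⟩ := List.exists_mem_of_ne_nil _ (hN.lett_ne N.gt 0)
  obtain ⟨y, hy⟩ := List.exists_mem_of_ne_nil _ (hN.lett_ne N.gt 1)
  have : ((N.gt, 0, 0), 0, x, y) ∈ N.objs :=
    N.mem_objs.2 ⟨hN.gt_lt, N.mem_cols.2 (Or.inl rfl), by have := hN.two_le; show 0 < N.m; omega, hx, hy⟩
  exact List.ne_nil_of_mem this

theorem nodup_edges (κ : Col) : (N.edges κ).Nodup := by
  rw [edges]
  split
  · refine List.Nodup.map ?_ List.nodup_range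
    intro a b h
    simpa using h
  · next h =>
    obtain ⟨g, a, p⟩ := κ
    split <;> simp

theorem nodup_ports (u : NObj Λ) : (N.ports u).Nodup := by
  rw [ports, List.nodup_append', List.nodup_append']
  refine ⟨List.Nodup.map ?_ (N.nodup_edges u.1), ⟨?_, ?_, ?_⟩, ?_⟩
  · intro e e' h
    simp only [Y, Sum.inl.injEq, Prod.mk.injEq] at h
    exact h.1
  · split <;> simp
  · split <;> simp
  · intro x hx hx'
    split at hx
    · split at hx'
      · simp only [List.mem_singleton] at hx hx'
        rw [hx] at hx'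
        simp only [U, Sum.inr.injEq, Prod.mk.injEq] at hx'
        omega
      · simp at hx'
    · simp at hx
  · intro x hx hx'
    simp only [List.mem_map] at hx
    obtain ⟨e, _, rfl⟩ := hx
    simp only [List.mem_append] at hx'
    rcases hx' with hx' | hx'
    · split at hx' <;> simp [Y, U] at hx'
    · split at hx' <;> simp [Y, U] at hx'

theorem two_le_ports (hN : N.OK) {u : NObj Λ} (hu : u ∈ N.objs) : 2 ≤ (N.ports u).length := by
  have h2 := hN.two_le
  rw [ports, List.length_append, List.length_append, List.length_map]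
  rw [mem_objs] at hu
  have hU : 1 ≤ (if 0 < u.2.1 then [U (H := H) u.1 u.2.1 u.2.2.1] else []).length +
      (if u.2.1 + 1 < N.m then [U (H := H) u.1 (u.2.1 + 1) u.2.2.2] else []).length := by
    by_cases h : 0 < u.2.1
    · rw [if_pos h]; simp
    · rw [if_pos (show u.2.1 + 1 < N.m by omega)]; simp
  have hY : 1 ≤ (N.edges u.1).length := by
    rw [edges]
    split
    · rw [List.length_map, List.length_range]
      obtain ⟨k, hk⟩ := hN.narm_odd u.1.1 hu.1
      omega
    · simp
  omega

variable [DecidableEq H] [DecidableEq Λ]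

theorem xi_OK (hN : N.OK) : N.xi.OK where
  objs_nodup := N.nodup_objs hN
  objs_ne := N.objs_ne hN
  ports_nodup u _ := N.nodup_ports u
  two_le _ hu := N.two_le_ports hN hu
  vl_nodup := nodup_dd _
  mem_vl x := by
    show x ∈ dd (N.objs.flatMap N.ports) ↔ _
    rw [mem_dd, List.mem_flatMap]
    rfl

end Net

end Crest.Agent.R290
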