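import Crest.Agent.R290.Defs

/-!
# Row 290, module PROG: Horn rules of a flat program

* `rder_of_halts` : a halting run gives a Horn derivation of the halting fact.
* `closed_of_runsForever` : if the program never halts, the true facts are closed under the rules and
  contain no halting fact.
* `progRules_hubs`.
-/

set_option autoImplicit false

namespace Crest.Agent.R290

open Function

namespace Prog

/-- stacks with creation times -/
abbrev XS : Type := ℕ → List (ℕ × Bool)

/-- configurations with creation times -/
structure XCfg : Type where
  /-- program counter -/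
  pc : ℕ
  /-- stacks -/
  st : XS

/-- effect of one instruction at time `t` -/
def xexec (t : ℕ) (i : FInstr) (s : XS) : XCfg :=
  match i with
  | .push k b j => ⟨j, update s k ((t + 1, b) :: s k)⟩
  | .pop k e tt f =>
      match s k with
      | [] => ⟨e, s⟩
      | (_, true) :: l => ⟨tt, update s k l⟩
      | (_, false) :: l => ⟨f, update s k l⟩

/-- run with creation times -/
def xrun (p : Flat) : ℕ → XCfg
  | 0 => ⟨0, fun _ => []⟩
  | t + 1 =>
      match p[(xrun p t).pc]? with
      | none => xrun p t
      | some i => xexec t i (xrun p t).st

theorem xrun_succ {p : Flat} {t : ℕ} {i : FInstr} (h : p[(xrun p t).pc]? = some i) :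
    xrun p (t + 1) = xexec t i (xrun p t).st := by
  conv_lhs => unfold xrun
  rw [h]

theorem xrun_erase (p : Flat) (t : ℕ) :
    (xrun p t).pc = (frun p t).pc ∧
      ∀ k, ((xrun p t).st k).map Prod.snd = (frun p t).st k := by
  induction t with
  | zero => exact ⟨rfl, fun k => rfl⟩
  | succ t ih =>
    obtain ⟨ih1, ih2⟩ := ih
    rw [frun_succ]
    cases hi : p[(xrun p t).pc]? with
    | none =>
      have h1 : xrun p (t + 1) = xrun p t := by
        conv_lhs => unfold xrun
        rw [hi]
      have h2 : fstep p (frun p t) = frun p t := by
        unfold fstep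
        rw [← ih1, hi]
      rw [h1, h2]
      exact ⟨ih1, ih2⟩
    | some i =>
      rw [xrun_succ hi, fstep_getElem (by rw [← ih1]; exact hi)]
      cases i with
      | push k b j =>
        refine ⟨rfl, fun k' => ?_⟩
        simp only [xexec, FInstr.exec]
        by_cases hk : k' = k
        · subst hk
          simp [ih2]
        · simp [hk, ih2]
      | pop k e tt f =>
        have hk := ih2 k
        simp only [xexec, FInstr.exec]
        cases hs : (xrun p t).st k with
        | nil =>
          rw [hs] at hk
          simp only [List.map_nil] at hk
          rw [← hk]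
          exact ⟨rfl, ih2⟩
        | cons a l =>
          obtain ⟨s, b⟩ := a
          rw [hs] at hk
          simp only [List.map_cons] at hk
          rw [← hk]
          cases b
          · refine ⟨rfl, fun k' => ?_⟩
            by_cases hk' : k' = k
            · subst hk'
              simp
            · simp [hk', ih2]
          · refine ⟨rfl, fun k' => ?_⟩
            by_cases hk' : k' = k
            · subst hk'
              simp
            · simp [hk', ih2]

/-- creation time of the top cell (`0` if empty) -/
def top : List (ℕ × Bool) → ℕ
  | [] => 0
  | (s, _) :: _ => s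

@[simp] theorem top_nil : top [] = 0 := rfl
@[simp] theorem top_cons (s : ℕ) (b : Bool) (l : List (ℕ × Bool)) : top ((s, b) :: l) = s := rfl

/-- every cell was created by a push, on top of what is below it now -/
def Good (p : Flat) : List (ℕ × Bool) → Prop
  | [] => True
  | (s, b) :: l =>
      (∃ t k j, s = t + 1 ∧ p[(xrun p t).pc]? = some (.push k b j) ∧
        top ((xrun p t).st k) = top l) ∧ Good p l

theorem good_xrun (p : Flat) (t k : ℕ) : Good p ((xrun p t).st k) := by
  induction t generalizing k with
  | zero => exact trivial
  | succ t ih =>
    cases hi : p[(xrun p t).pc]? with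
    | none =>
      have h1 : xrun p (t + 1) = xrun p t := by
        conv_lhs => unfold xrun
        rw [hi]
      rw [h1]
      exact ih k
    | some i =>
      rw [xrun_succ hi]
      cases i with
      | push k' b j =>
        simp only [xexec]
        by_cases hk : k = k'
        · subst hk
          rw [update_self]
          exact ⟨⟨t, k, j, rfl, hi, rfl⟩, ih k⟩
        · rw [update_of_ne hk]
          exact ih k
      | pop k' e tt f =>
        simp only [xexec]
        cases hs : (xrun p t).st k' with
        | nil => exact ih k
        | cons a l =>
          obtain ⟨s, b⟩ := a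
          have hl : Good p l := by
            have := ih k'
            rw [hs] at this
            exact this.2
          cases b
          · by_cases hk : k = k'
            · subst hk
              simpa using hl
            · simpa [hk] using ih k
          · by_cases hk : k = k'
            · subst hk
              simpa using hl
            · simpa [hk] using ih k

/-! ### the true facts -/

/-- true facts -/
def Tr (p : Flat) : Hub → ℕ → ℕ → Prop
  | (0, i), a, c => c = 0 ∧ min (xrun p a).pc p.length = i
  | (1, k), a, c => top ((xrun p a).st k) = c
  | (2, b), a, c => c = 0 ∧ ∃ t k b' j, a = t + 1 ∧ p[(xrun p t).pc]? = some (.push k b' j) ∧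
      b'.toNat = b
  | (3, _), a, c => ∃ t k b' j, a = t + 1 ∧ p[(xrun p t).pc]? = some (.push k b' j) ∧
      top ((xrun p t).st k) = c
  | _, _, _ => False

theorem mem_persist {Ks i k : ℕ} {r : Rule} (h : r ∈ persist Ks i k) :
    ∃ k', k' < Ks ∧ k' ≠ k ∧ r = ([((0, i), 1, 0), ((1, k'), 1, 3)], ((1, k'), 2, 3)) := by
  unfold persist at h
  obtain ⟨k', hk', rfl⟩ := List.mem_map.1 h
  obtain ⟨h1, h2⟩ := List.mem_filter.1 hk'
  exact ⟨k', List.mem_range.1 h1, of_decide_eq_true h2, rfl⟩

end Prog

theorem progRules_hubs (p : Flat) (Ks : ℕ) :
    ∀ r ∈ progRules p Ks, r.2.1 ≠ (4, 0) ∧ ∀ a ∈ r.1, a.1 ≠ (4, 0) := by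
  intro r hr
  unfold progRules at hr
  rcases List.mem_append.1 hr with hr | hr
  · rcases List.mem_append.1 hr with hr | hr
    · rw [List.mem_singleton] at hr
      subst hr
      simp
    · obtain ⟨k, hk, rfl⟩ := List.mem_map.1 hr
      simp
  · obtain ⟨ci, hci, hr⟩ := List.mem_flatMap.1 hr
    obtain ⟨c, i⟩ := ci
    cases c with
    | push k b j =>
      simp only [instrRules] at hr
      rcases List.mem_append.1 hr with hr | hr
      · simp only [List.mem_cons, List.not_mem_nil, or_false] at hr
        rcases hr with rfl | rfl | rfl | rfl <;> simp
      · obtain ⟨k', -, -, rfl⟩ := Prog.mem_persist hr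
        simp
    | pop k e t f =>
      simp only [instrRules] at hr
      rcases List.mem_append.1 hr with hr | hr
      · simp only [List.mem_cons, List.not_mem_nil, or_false] at hr
        rcases hr with rfl | rfl | rfl | rfl | rfl <;> simp
      · obtain ⟨k', -, -, rfl⟩ := Prog.mem_persist hr
        simp

theorem closed_of_runsForever (p : Flat) (Ks : ℕ) (_hp : WF p Ks) (h : RunsForever p) (M : ℕ) :
    ∃ Tr, HornClosed (progRules p Ks) M Tr ∧ ∀ t, ¬ Tr (0, p.length) t 0 := by
  have hpc : ∀ t, (Prog.xrun p t).pc < p.length := by
    intro t
    have := h t
    unfold FHalts at this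
    rw [(Prog.xrun_erase p t).1]
    omega
  refine ⟨Prog.Tr p, ?_, ?_⟩
  swap
  · intro t ht
    have h1 : min (Prog.xrun p t).pc p.length = p.length := ht.2
    have := hpc t
    omega
  intro r hr t s s' _ _ _ _ hprem
  unfold progRules at hr
  rcases List.mem_append.1 hr with hr | hr
  · rcases List.mem_append.1 hr with hr | hr
    · rw [List.mem_singleton] at hr
      subst hr
      exact ⟨rfl, by simp [sel, Prog.xrun]⟩
    · obtain ⟨k, hk, rfl⟩ := List.mem_map.1 hr
      show Prog.top ((Prog.xrun p _).st k) = _
      simp [sel, Prog.xrun]
  · obtain ⟨ci, hci, hr⟩ := List.mem_flatMap.1 hr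
    obtain ⟨c, i⟩ := ci
    have hci' : p[i]? = some c := by
      have := List.mem_zipIdx_iff_getElem?.1 hci
      exact this
    have hil : i < p.length := by
      by_contra hcon
      rw [List.getElem?_eq_none (by omega)] at hci'
      simp at hci'
    -- the state premise
    have hSt : ∀ {t : ℕ}, Prog.Tr p (0, i) t 0 → (Prog.xrun p t).pc = i := by
      intro t ht
      have h1 : min (Prog.xrun p t).pc p.length = i := ht.2
      have := hpc t
      omega
    cases c with
    | push k b j =>
      simp only [instrRules] at hr
      have key : Prog.Tr p (0, i) t 0 → Prog.xrun p (t + 1) =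
          ⟨j, update (Prog.xrun p t).st k ((t + 1, b) :: (Prog.xrun p t).st k)⟩ := by
        intro ht
        have h1 := hSt ht
        rw [Prog.xrun_succ (i := .push k b j) (by rw [h1]; exact hci')]
        rfl
      have key2 : Prog.Tr p (0, i) t 0 → p[(Prog.xrun p t).pc]? = some (.push k b j) := by
        intro ht
        rw [hSt ht]
        exact hci'
      rcases List.mem_append.1 hr with hr | hr
      · simp only [List.mem_cons, List.not_mem_nil, or_false] at hr
        rcases hr with rfl | rfl | rfl | rfl
        · have h1 := hprem _ (List.mem_cons_self ..)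
          simp only [Rule.usesT, Atom.usesT, sel] at h1 ⊢
          simp at h1 ⊢
          refine ⟨rfl, ?_⟩
          rw [key h1]
        · have h1 := hprem _ (List.mem_cons_self ..)
          simp only [Rule.usesT, Atom.usesT, sel] at h1 ⊢
          simp at h1 ⊢
          show Prog.top ((Prog.xrun p (t + 1)).st k) = t + 1
          rw [key h1]
          simp
        · have h1 := hprem _ (List.mem_cons_self ..)
          have h2 := hprem _ (List.mem_cons_of_mem _ (List.mem_cons_self ..))
          simp only [Rule.usesT, Atom.usesT, sel] at h1 h2 ⊢
          simp at h1 h2 ⊢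
          exact ⟨t, k, b, j, rfl, key2 h1, h2⟩
        · have h1 := hprem _ (List.mem_cons_self ..)
          simp only [Rule.usesT, Atom.usesT, sel] at h1 ⊢
          simp at h1 ⊢
          exact ⟨rfl, t, k, b, j, rfl, key2 h1, rfl⟩
      · obtain ⟨k', -, hk', rfl⟩ := Prog.mem_persist hr
        have h1 := hprem _ (List.mem_cons_self ..)
        have h2 := hprem _ (List.mem_cons_of_mem _ (List.mem_cons_self ..))
        simp only [Rule.usesT, Atom.usesT, sel] at h1 h2 ⊢
        simp at h1 h2 ⊢
        show Prog.top ((Prog.xrun p (t + 1)).st k') = s
        rw [key h1]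
        simp only [update_of_ne hk']
        exact h2
    | pop k e tt f =>
      simp only [instrRules] at hr
      have key : Prog.Tr p (0, i) t 0 → Prog.xrun p (t + 1) =
          Prog.xexec t (.pop k e tt f) (Prog.xrun p t).st := by
        intro ht
        have h1 := hSt ht
        rw [Prog.xrun_succ (i := .pop k e tt f) (by rw [h1]; exact hci')]
      have keyk : ∀ k' ≠ k, Prog.Tr p (0, i) t 0 →
          (Prog.xrun p (t + 1)).st k' = (Prog.xrun p t).st k' := by
        intro k' hk' ht
        rw [key ht]
        simp only [Prog.xexec]
        cases hs : (Prog.xrun p t).st k with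
        | nil => rfl
        | cons a l =>
          obtain ⟨s, b⟩ := a
          cases b <;> simp [hk']
      have hgood := Prog.good_xrun p t k
      -- empty stack
      have hemp : Prog.Tr p (1, k) t 0 → (Prog.xrun p t).st k = [] := by
        intro h2
        have h2' : Prog.top ((Prog.xrun p t).st k) = 0 := h2
        cases hs : (Prog.xrun p t).st k with
        | nil => rfl
        | cons a l =>
          obtain ⟨s, b⟩ := a
          rw [hs] at h2' hgood
          obtain ⟨⟨t0, k0, j0, h3, -, -⟩, -⟩ := hgood
          simp only [Prog.top_cons] at h2'
          omega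
      -- nonempty stack
      have hcell : Prog.Tr p (1, k) t s → s ≠ 0 → ∃ b l, (Prog.xrun p t).st k = (s, b) :: l ∧
          ∃ t0 k0 j0, s = t0 + 1 ∧ p[(Prog.xrun p t0).pc]? = some (.push k0 b j0) ∧
            Prog.top ((Prog.xrun p t0).st k0) = Prog.top l := by
        intro h2 hs0
        have h2' : Prog.top ((Prog.xrun p t).st k) = s := h2
        cases hs : (Prog.xrun p t).st k with
        | nil =>
          rw [hs] at h2'
          simp only [Prog.top_nil] at h2'
          omega
        | cons a l =>
          obtain ⟨s1, b⟩ := a
          rw [hs] at h2' hgood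
          simp only [Prog.top_cons] at h2'
          subst h2'
          exact ⟨b, l, rfl, hgood.1⟩
      rcases List.mem_append.1 hr with hr | hr
      · simp only [List.mem_cons, List.not_mem_nil, or_false] at hr
        rcases hr with rfl | rfl | rfl | rfl | rfl
        · have h1 := hprem _ (List.mem_cons_self ..)
          have h2 := hprem _ (List.mem_cons_of_mem _ (List.mem_cons_self ..))
          simp only [Rule.usesT, Atom.usesT, sel] at h1 h2 ⊢
          simp at h1 h2 ⊢
          refine ⟨rfl, ?_⟩
          rw [key h1]
          simp only [Prog.xexec, hemp h2]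
        · have h1 := hprem _ (List.mem_cons_self ..)
          have h2 := hprem _ (List.mem_cons_of_mem _ (List.mem_cons_self ..))
          simp only [Rule.usesT, Atom.usesT, sel] at h1 h2 ⊢
          simp at h1 h2 ⊢
          show Prog.top ((Prog.xrun p (t + 1)).st k) = 0
          rw [key h1]
          simp only [Prog.xexec, hemp h2, Prog.top_nil]
        · have h1 := hprem _ (List.mem_cons_self ..)
          have h2 := hprem _ (List.mem_cons_of_mem _ (List.mem_cons_self ..))
          have h3 := hprem _ (List.mem_cons_of_mem _ (List.mem_cons_of_mem _
            (List.mem_cons_self ..)))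
          simp only [Rule.usesT, Atom.usesT, sel] at h1 h2 h3 ⊢
          simp at h1 h2 h3 ⊢
          obtain ⟨-, t1, k1, b1, j1, h4, h5, h6⟩ := h3
          obtain ⟨b, l, h7, t0, k0, j0, h8, h9, h10⟩ := hcell h2 (by omega)
          have ht01 : t1 = t0 := by omega
          subst ht01
          rw [h5] at h9
          simp only [Option.some.injEq, FInstr.push.injEq] at h9
          have hb : b = true := by
            rw [← h9.2.1]
            cases b1
            · simp at h6
            · rfl
          subst hb
          refine ⟨rfl, ?_⟩
          rw [key h1]
          simp only [Prog.xexec, h7]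
        · have h1 := hprem _ (List.mem_cons_self ..)
          have h2 := hprem _ (List.mem_cons_of_mem _ (List.mem_cons_self ..))
          have h3 := hprem _ (List.mem_cons_of_mem _ (List.mem_cons_of_mem _
            (List.mem_cons_self ..)))
          simp only [Rule.usesT, Atom.usesT, sel] at h1 h2 h3 ⊢
          simp at h1 h2 h3 ⊢
          obtain ⟨-, t1, k1, b1, j1, h4, h5, h6⟩ := h3
          obtain ⟨b, l, h7, t0, k0, j0, h8, h9, h10⟩ := hcell h2 (by omega)
          have ht01 : t1 = t0 := by omega
          subst ht01
          rw [h5] at h9
          simp only [Option.some.injEq, FInstr.push.injEq] at h9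
          have hb : b = false := by
            rw [← h9.2.1]
            cases b1
            · rfl
            · simp at h6
          subst hb
          refine ⟨rfl, ?_⟩
          rw [key h1]
          simp only [Prog.xexec, h7]
        · have h1 := hprem _ (List.mem_cons_self ..)
          have h2 := hprem _ (List.mem_cons_of_mem _ (List.mem_cons_self ..))
          have h3 := hprem _ (List.mem_cons_of_mem _ (List.mem_cons_of_mem _
            (List.mem_cons_self ..)))
          simp only [Rule.usesT, Atom.usesT, sel] at h1 h2 h3 ⊢
          simp at h1 h2 h3 ⊢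
          obtain ⟨t1, k1, b1, j1, h4, h5, h6⟩ := h3
          obtain ⟨b, l, h7, t0, k0, j0, h8, h9, h10⟩ := hcell h2 (by omega)
          have ht01 : t1 = t0 := by omega
          subst ht01
          rw [h5] at h9
          simp only [Option.some.injEq, FInstr.push.injEq] at h9
          obtain ⟨hk1, hb1, -⟩ := h9
          subst hk1
          show Prog.top ((Prog.xrun p (t + 1)).st k) = s'
          rw [key h1]
          have : Prog.top l = s' := by rw [← h10, h6]
          cases b <;> simp [Prog.xexec, h7, this]
      · obtain ⟨k', -, hk', rfl⟩ := Prog.mem_persist hr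
        have h1 := hprem _ (List.mem_cons_self ..)
        have h2 := hprem _ (List.mem_cons_of_mem _ (List.mem_cons_self ..))
        simp only [Rule.usesT, Atom.usesT, sel] at h1 h2 ⊢
        simp at h1 h2 ⊢
        show Prog.top ((Prog.xrun p (t + 1)).st k') = s
        rw [keyk k' hk' h1]
        exact h2

namespace Prog

theorem RDer.step {rs : List Rule} {M : ℕ} (r : Rule) (t s s' : ℕ) (hr : r ∈ rs)
    (hu : Rule.usesT r = true) (ht : t + 1 < M) (hs : s < M) (hs' : s' < M)
    (h : ∀ a ∈ r.1, RDer rs M a.1 (sel a.2.1 (t, t + 1, s, s')) (sel a.2.2 (t, t + 1, s, s'))) :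
    RDer rs M r.2.1 (sel r.2.2.1 (t, t + 1, s, s')) (sel r.2.2.2 (t, t + 1, s, s')) := by
  have := RDer.mk (rs := rs) (M := M) r t s s' hr (by omega) hs hs' (fun _ => ht)
    (by rw [if_pos hu]; exact h)
  rw [if_pos hu] at this
  exact this

/-- the cells of a stack are derived -/
def DGood (rs : List Rule) (M : ℕ) : List (ℕ × Bool) → Prop
  | [] => True
  | (s, b) :: l => s < M ∧ RDer rs M (2, b.toNat) s 0 ∧ RDer rs M (3, 0) s (top l) ∧ DGood rs M l

theorem DGood.top_lt {rs : List Rule} {M : ℕ} (hM : 0 < M) {l : List (ℕ × Bool)}
    (h : DGood rs M l) : top l < M := by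
  cases l with
  | nil => exact hM
  | cons a l =>
    obtain ⟨s, b⟩ := a
    exact h.1

theorem mem_progRules {p : Flat} {Ks i : ℕ} {c : FInstr} {r : Rule} (hi : p[i]? = some c)
    (hr : r ∈ instrRules Ks p.length i c) : r ∈ progRules p Ks := by
  unfold progRules
  refine List.mem_append_right _ (List.mem_flatMap.2 ⟨(c, i), ?_, hr⟩)
  exact List.mem_zipIdx_iff_getElem?.2 hi

theorem mem_persist' {Ks i k k' : ℕ} (h1 : k' < Ks) (h2 : k' ≠ k) :
    (([((0, i), 1, 0), ((1, k'), 1, 3)], ((1, k'), 2, 3)) : Rule) ∈ persist Ks i k := by
  unfold persist
  refine List.mem_map.2 ⟨k', List.mem_filter.2 ⟨List.mem_range.2 h1, decide_eq_true h2⟩, rfl⟩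

/-- all facts about the configuration at time `t` are derived -/
structure DAt (p : Flat) (Ks M t : ℕ) : Prop where
  st : RDer (progRules p Ks) M (0, min (xrun p t).pc p.length) t 0
  top : ∀ k < Ks, RDer (progRules p Ks) M (1, k) t (top ((xrun p t).st k))
  good : ∀ k, DGood (progRules p Ks) M ((xrun p t).st k)

theorem dat_zero (p : Flat) (Ks M : ℕ) (hM : 0 < M) : DAt p Ks M 0 := by
  refine ⟨?_, ?_, fun k => trivial⟩
  · have h := RDer.mk (rs := progRules p Ks) (M := M) ([], ((0, 0), 0, 0)) 0 0 0
      (by unfold progRules; simp) hM hM hM (by simp [Rule.usesT, Atom.usesT]) (by simp)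
    simpa [sel, xrun] using h
  · intro k hk
    have h := RDer.mk (rs := progRules p Ks) (M := M) ([], ((1, k), 0, 0)) 0 0 0
      (by
        unfold progRules
        refine List.mem_append_left _ (List.mem_append_right _ ?_)
        exact List.mem_map.2 ⟨k, List.mem_range.2 hk, rfl⟩) hM hM hM
      (by simp [Rule.usesT, Atom.usesT]) (by simp)
    simpa [sel, xrun] using h

theorem dat_succ (p : Flat) (Ks : ℕ) (hp : WF p Ks) (M t : ℕ) (ht : t + 1 < M)
    (hpc : (xrun p t).pc < p.length) (h : DAt p Ks M t) : DAt p Ks M (t + 1) := by
  obtain ⟨c, hc⟩ : ∃ c, p[(xrun p t).pc]? = some c := ⟨_, List.getElem?_eq_getElem hpc⟩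
  have hM : 0 < M := by omega
  have hst : RDer (progRules p Ks) M (0, (xrun p t).pc) t 0 := by
    have := h.st
    rwa [min_eq_left hpc.le] at this
  have hcp : c ∈ p := List.mem_of_getElem? hc
  have hpers : ∀ k k', k' < Ks → k' ≠ k → persist Ks (xrun p t).pc k ⊆
      progRules p Ks → RDer (progRules p Ks) M (1, k') (t + 1) (Prog.top ((xrun p t).st k')) := by
    intro k k' hk1 hk2 hsub
    have := RDer.step (rs := progRules p Ks) (M := M)
      ([((0, (xrun p t).pc), 1, 0), ((1, k'), 1, 3)], ((1, k'), 2, 3)) t
      (Prog.top ((xrun p t).st k')) 0 (hsub (mem_persist' hk1 hk2)) rfl ht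
      ((h.good k').top_lt hM) hM (by
        intro a ha
        simp only [List.mem_cons, List.not_mem_nil, or_false] at ha
        rcases ha with rfl | rfl
        · exact hst
        · exact h.top k' hk1)
    exact this
  cases c with
  | push k b j =>
    have hk : k < Ks := hp _ hcp
    have hx : xrun p (t + 1) = ⟨j, update (xrun p t).st k ((t + 1, b) :: (xrun p t).st k)⟩ := by
      rw [xrun_succ hc]
      rfl
    have hmem : ∀ r, r ∈ instrRules Ks p.length (xrun p t).pc (.push k b j) →
        r ∈ progRules p Ks := fun r hr => mem_progRules hc hr
    have hsub : persist Ks (xrun p t).pc k ⊆ progRules p Ks := by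
      intro r hr
      exact hmem r (by simp only [instrRules]; exact List.mem_append_right _ hr)
    refine ⟨?_, ?_, ?_⟩
    · rw [hx]
      exact RDer.step (rs := progRules p Ks) (M := M)
        ([((0, (xrun p t).pc), 1, 0)], ((0, min j p.length), 2, 0)) t 0 0
        (hmem _ (by simp [instrRules])) rfl ht hM hM (by
          intro a ha
          simp only [List.mem_cons, List.not_mem_nil, or_false] at ha
          subst ha
          exact hst)
    · intro k' hk'
      rw [hx]
      by_cases hkk : k' = k
      · subst hkk
        have := RDer.step (rs := progRules p Ks) (M := M)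
          ([((0, (xrun p t).pc), 1, 0)], ((1, k'), 2, 2)) t 0 0
          (hmem _ (by simp [instrRules])) rfl ht hM hM (by
            intro a ha
            simp only [List.mem_cons, List.not_mem_nil, or_false] at ha
            subst ha
            exact hst)
        simpa [sel] using this
      · simp only [update_of_ne hkk]
        exact hpers k k' hk' hkk hsub
    · intro k'
      rw [hx]
      by_cases hkk : k' = k
      · subst hkk
        simp only [update_self]
        refine ⟨ht, ?_, ?_, h.good k'⟩
        · exact RDer.step (rs := progRules p Ks) (M := M)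
            ([((0, (xrun p t).pc), 1, 0)], ((2, b.toNat), 2, 0)) t 0 0
            (hmem _ (by simp [instrRules])) rfl ht hM hM (by
              intro a ha
              simp only [List.mem_cons, List.not_mem_nil, or_false] at ha
              subst ha
              exact hst)
        · exact RDer.step (rs := progRules p Ks) (M := M)
            ([((0, (xrun p t).pc), 1, 0), ((1, k'), 1, 3)], ((3, 0), 2, 3)) t
            (Prog.top ((xrun p t).st k')) 0
            (hmem _ (by simp [instrRules])) rfl ht ((h.good k').top_lt hM) hM (by
              intro a ha
              simp only [List.mem_cons, List.not_mem_nil, or_false] at ha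
              rcases ha with rfl | rfl
              · exact hst
              · exact h.top k' hk)
      · simp only [update_of_ne hkk]
        exact h.good k'
  | pop k e tt f =>
    have hk : k < Ks := hp _ hcp
    have hmem : ∀ r, r ∈ instrRules Ks p.length (xrun p t).pc (.pop k e tt f) →
        r ∈ progRules p Ks := fun r hr => mem_progRules hc hr
    have hsub : persist Ks (xrun p t).pc k ⊆ progRules p Ks := by
      intro r hr
      exact hmem r (by simp only [instrRules]; exact List.mem_append_right _ hr)
    have htop := h.top k hk
    cases hs : (xrun p t).st k with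
    | nil =>
      rw [hs] at htop
      have hx : xrun p (t + 1) = ⟨e, (xrun p t).st⟩ := by
        rw [xrun_succ hc]
        simp only [xexec, hs]
      refine ⟨?_, ?_, ?_⟩
      · rw [hx]
        exact RDer.step (rs := progRules p Ks) (M := M)
          ([((0, (xrun p t).pc), 1, 0), ((1, k), 1, 0)], ((0, min e p.length), 2, 0)) t 0 0
          (hmem _ (by simp [instrRules])) rfl ht hM hM (by
            intro a ha
            simp only [List.mem_cons, List.not_mem_nil, or_false] at ha
            rcases ha with rfl | rfl
            · exact hst
            · exact htop)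
      · intro k' hk'
        rw [hx]
        by_cases hkk : k' = k
        · subst hkk
          have := RDer.step (rs := progRules p Ks) (M := M)
            ([((0, (xrun p t).pc), 1, 0), ((1, k'), 1, 0)], ((1, k'), 2, 0)) t 0 0
            (hmem _ (by simp [instrRules])) rfl ht hM hM (by
              intro a ha
              simp only [List.mem_cons, List.not_mem_nil, or_false] at ha
              rcases ha with rfl | rfl
              · exact hst
              · exact htop)
          simpa [sel, hs] using this
        · exact hpers k k' hk' hkk hsub
      · intro k'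
        rw [hx]
        exact h.good k'
    | cons a l =>
      obtain ⟨s, b⟩ := a
      rw [hs] at htop
      have hg := h.good k
      rw [hs] at hg
      obtain ⟨hsM, hsym, hnxt, hgl⟩ := hg
      have hx : xrun p (t + 1) = ⟨if b then tt else f, update (xrun p t).st k l⟩ := by
        rw [xrun_succ hc]
        cases b <;> simp [xexec, hs]
      refine ⟨?_, ?_, ?_⟩
      · rw [hx]
        cases b
        · exact RDer.step (rs := progRules p Ks) (M := M)
            ([((0, (xrun p t).pc), 1, 0), ((1, k), 1, 3), ((2, 0), 3, 0)],
              ((0, min f p.length), 2, 0)) t s 0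
            (hmem _ (by simp [instrRules])) rfl ht hsM hM (by
              intro a ha
              simp only [List.mem_cons, List.not_mem_nil, or_false] at ha
              rcases ha with rfl | rfl | rfl
              · exact hst
              · exact htop
              · exact hsym)
        · exact RDer.step (rs := progRules p Ks) (M := M)
            ([((0, (xrun p t).pc), 1, 0), ((1, k), 1, 3), ((2, 1), 3, 0)],
              ((0, min tt p.length), 2, 0)) t s 0
            (hmem _ (by simp [instrRules])) rfl ht hsM hM (by
              intro a ha
              simp only [List.mem_cons, List.not_mem_nil, or_false] at ha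
              rcases ha with rfl | rfl | rfl
              · exact hst
              · exact htop
              · exact hsym)
      · intro k' hk'
        rw [hx]
        by_cases hkk : k' = k
        · subst hkk
          have := RDer.step (rs := progRules p Ks) (M := M)
            ([((0, (xrun p t).pc), 1, 0), ((1, k'), 1, 3), ((3, 0), 3, 4)], ((1, k'), 2, 4)) t s
            (Prog.top l) (hmem _ (by simp [instrRules])) rfl ht hsM (hgl.top_lt hM) (by
              intro a ha
              simp only [List.mem_cons, List.not_mem_nil, or_false] at ha
              rcases ha with rfl | rfl | rfl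
              · exact hst
              · exact htop
              · exact hnxt)
          simpa [sel] using this
        · simp only [update_of_ne hkk]
          exact hpers k k' hk' hkk hsub
      · intro k'
        rw [hx]
        by_cases hkk : k' = k
        · subst hkk
          simpa using hgl
        · simp only [update_of_ne hkk]
          exact h.good k'

end Prog

theorem rder_of_halts (p : Flat) (Ks : ℕ) (hp : WF p Ks) (M n : ℕ) (hn : n < M)
    (h : FHalts p n) : ∃ t < M, RDer (progRules p Ks) M (0, p.length) t 0 := by
  classical
  have hex : ∃ T, FHalts p T := ⟨n, h⟩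
  have hT : FHalts p (Nat.find hex) := Nat.find_spec hex
  have hTn : Nat.find hex ≤ n := Nat.find_min' hex h
  have hmin : ∀ t < Nat.find hex, (Prog.xrun p t).pc < p.length := by
    intro t ht
    have := Nat.find_min hex ht
    unfold FHalts at this
    rw [(Prog.xrun_erase p t).1]
    omega
  have hind : ∀ t, t ≤ Nat.find hex → Prog.DAt p Ks M t := by
    intro t
    induction t with
    | zero => intro _; exact Prog.dat_zero p Ks M (by omega)
    | succ t ih =>
      intro ht
      exact Prog.dat_succ p Ks hp M t (by omega) (hmin t (by omega)) (ih (by omega))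
  refine ⟨Nat.find hex, by omega, ?_⟩
  have h1 := (hind _ le_rfl).st
  have h2 : p.length ≤ (Prog.xrun p (Nat.find hex)).pc := by
    rw [(Prog.xrun_erase p _).1]
    exact hT
  rwa [min_eq_right h2] at h1

end Crest.Agent.R290

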