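import Crest.Agent.R290.Defs

/-!
# Row 290, module RULES: the network of a list of rules
-/

set_option autoImplicit false
set_option linter.unusedVariables false

namespace Crest.Agent.R290

namespace Rules

/-! ### Digits -/

/-- digit `i` of `a` in base `B` -/
abbrev dg (B a i : ℕ) : ℕ := a / B ^ i % B

theorem dg_zero (B a : ℕ) : dg B a 0 = a % B := by simp [dg]

theorem dg_succ (B a i : ℕ) : dg B a (i + 1) = dg B (a / B) i := by
  simp only [dg, pow_succ', Nat.div_div_eq_div_mul]

theorem dg_lt {B : ℕ} (hB : 2 ≤ B) (a i : ℕ) : dg B a i < B := Nat.mod_lt _ (by omega)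

theorem dg_of_zero (B i : ℕ) : dg B 0 i = 0 := by simp [dg]

theorem div_lt_pow {B D a : ℕ} (hB : 2 ≤ B) (h : a < B ^ (D + 1)) : a / B < B ^ D := by
  rw [Nat.div_lt_iff_lt_mul (by omega)]
  rwa [pow_succ] at h

theorem dg_inj {B : ℕ} (hB : 2 ≤ B) : ∀ {D a a' : ℕ}, a < B ^ D → a' < B ^ D →
    (∀ i < D, dg B a i = dg B a' i) → a = a' := by
  intro D
  induction D with
  | zero => intro a a' h h' _; simp only [pow_zero] at h h'; omega
  | succ D ih =>
    intro a a' h h' hd
    have h0 := hd 0 (by omega)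
    rw [dg_zero, dg_zero] at h0
    have h1 : a / B = a' / B := ih (div_lt_pow hB h) (div_lt_pow hB h') (fun i hi => by
      have := hd (i + 1) (by omega)
      rwa [dg_succ, dg_succ] at this)
    rw [← Nat.div_add_mod a B, ← Nat.div_add_mod a' B, h0, h1]

theorem exists_num {B : ℕ} (hB : 2 ≤ B) : ∀ (D : ℕ) (d : ℕ → ℕ), (∀ i < D, d i < B) →
    ∃ a < B ^ D, ∀ i < D, dg B a i = d i := by
  intro D
  induction D with
  | zero => intro d _; exact ⟨0, by simp, by omega⟩
  | succ D ih =>
    intro d hd
    obtain ⟨a, ha, h⟩ := ih (fun i => d (i + 1)) (fun i hi => hd (i + 1) (by omega))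
    refine ⟨d 0 + B * a, ?_, ?_⟩
    · have := hd 0 (by omega)
      rw [pow_succ]
      nlinarith
    · intro i hi
      have h0 := hd 0 (by omega)
      rcases i with _ | i
      · rw [dg_zero, Nat.add_mul_mod_self_left, Nat.mod_eq_of_lt h0]
      · rw [dg_succ, Nat.add_mul_div_left _ _ (by omega), Nat.div_eq_of_lt h0, zero_add]
        exact h i (by omega)

theorem incr_of_digits {B : ℕ} (hB : 2 ≤ B) : ∀ (f D t t' : ℕ), f < D → t < B ^ D → t' < B ^ D →
    (∀ i < f, dg B t i = B - 1 ∧ dg B t' i = 0) → dg B t' f = dg B t f + 1 →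
    (∀ i, f < i → i < D → dg B t i = dg B t' i) → t' = t + 1 := by
  intro f
  induction f with
  | zero =>
    intro D t t' hf ht ht' _ h0 h1
    obtain ⟨D, rfl⟩ : ∃ D', D = D' + 1 := ⟨D - 1, by omega⟩
    rw [dg_zero, dg_zero] at h0
    have h2 : t / B = t' / B := dg_inj hB (div_lt_pow hB ht) (div_lt_pow hB ht') (fun i hi => by
      have := h1 (i + 1) (by omega) (by omega)
      rwa [dg_succ, dg_succ] at this)
    have e1 := Nat.div_add_mod t B
    have e2 := Nat.div_add_mod t' B
    rw [h2] at e1
    omega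
  | succ f ih =>
    intro D t t' hf ht ht' hl h0 h1
    obtain ⟨D, rfl⟩ : ∃ D', D = D' + 1 := ⟨D - 1, by omega⟩
    have h2 : t' / B = t / B + 1 := by
      apply ih D (t / B) (t' / B) (by omega) (div_lt_pow hB ht) (div_lt_pow hB ht')
      · intro i hi
        have := hl (i + 1) (by omega)
        rwa [dg_succ, dg_succ] at this
      · rwa [dg_succ, dg_succ] at h0
      · intro i hi hiD
        have := h1 (i + 1) (by omega) (by omega)
        rwa [dg_succ, dg_succ] at this
    have h3 := hl 0 (by omega)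
    rw [dg_zero, dg_zero] at h3
    have e1 := Nat.div_add_mod t B
    have e2 := Nat.div_add_mod t' B
    rw [h2, h3.2] at e2
    rw [h3.1] at e1
    have : B * (t / B + 1) = B * (t / B) + B := by ring
    omega

theorem digits_of_incr {B : ℕ} (hB : 2 ≤ B) : ∀ (D t : ℕ), t + 1 < B ^ D → ∃ f < D,
    (∀ i < f, dg B t i = B - 1 ∧ dg B (t + 1) i = 0) ∧ dg B (t + 1) f = dg B t f + 1 ∧
      (∀ i, f < i → dg B (t + 1) i = dg B t i) := by
  intro D
  induction D with
  | zero => intro t h; simp at h
  | succ D ih =>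
    intro t h
    have e1 := Nat.div_add_mod t B
    by_cases h1 : t % B < B - 1
    · have h2 : (t + 1) / B = t / B := by
        have h5 : (t % B + 1 + B * (t / B)) / B = t / B := by
          rw [Nat.add_mul_div_left _ _ (by omega), Nat.div_eq_of_lt (by omega), zero_add]
        have h6 : t % B + 1 + B * (t / B) = t + 1 := by omega
        rwa [h6] at h5
      refine ⟨0, by omega, by omega, ?_, ?_⟩
      · rw [dg_zero, dg_zero]
        have h5 : (t % B + 1 + B * (t / B)) % B = t % B + 1 := by
          rw [Nat.add_mul_mod_self_left, Nat.mod_eq_of_lt (by omega)]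
        have h6 : t % B + 1 + B * (t / B) = t + 1 := by omega
        rwa [h6] at h5
      · intro i hi
        obtain ⟨i, rfl⟩ : ∃ i', i = i' + 1 := ⟨i - 1, by omega⟩
        rw [dg_succ, dg_succ, h2]
    · have h1' : t % B = B - 1 := by
        have := Nat.mod_lt t (show 0 < B by omega)
        omega
      have h6 : 0 + B * (t / B + 1) = t + 1 := by
        have : B * (t / B + 1) = B * (t / B) + B := by ring
        omega
      have h2 : (t + 1) / B = t / B + 1 := by
        rw [← h6, Nat.add_mul_div_left _ _ (by omega), Nat.zero_div, zero_add]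
      have h3 : (t + 1) % B = 0 := by
        rw [← h6, Nat.add_mul_mod_self_left, Nat.zero_mod]
      obtain ⟨f, hf, ha, hb, hc⟩ := ih (t / B) (by
        have := div_lt_pow hB h
        omega)
      refine ⟨f + 1, by omega, ?_, ?_, ?_⟩
      · intro i hi
        rcases i with _ | i
        · rw [dg_zero, dg_zero]; exact ⟨h1', h3⟩
        · rw [dg_succ, dg_succ, h2]; exact ha i (by omega)
      · rw [dg_succ, dg_succ, h2]; exact hb
      · intro i hi
        obtain ⟨i, rfl⟩ : ∃ i', i = i' + 1 := ⟨i - 1, by omega⟩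
        rw [dg_succ, dg_succ, h2]
        exact hc i (by omega)

/-! ### Letters -/

theorem mem_letters {B D f j : ℕ} {q : Let} : q ∈ letters B D f j ↔
    if j = 0 ∨ D < j then q = (0, 0, 0, 0) else
      q.2.2.1 < B ∧ q.2.2.2 < B ∧
        (if f = 0 then q.1 < B ∧ q.2.1 = 0
        else if j < f then q.1 = B - 1 ∧ q.2.1 = 0
        else if j = f then q.1 < B - 1 ∧ q.2.1 = q.1 + 1
        else q.1 < B ∧ q.2.1 = q.1) := by
  obtain ⟨q1, q2, q3, q4⟩ := q
  unfold letters
  by_cases h0 : j = 0 ∨ D < j
  · rw [if_pos h0, if_pos h0]; simp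
  · rw [if_neg h0, if_neg h0]
    simp only [List.mem_flatMap, List.mem_map, List.mem_range, Prod.mk.injEq]
    have key : ∀ (l : List (ℕ × ℕ)) (Q : Prop), ((q1, q2) ∈ l ↔ Q) →
        ((∃ a ∈ l, ∃ a_1 < B, ∃ a_2 < B, a.1 = q1 ∧ a.2 = q2 ∧ a_1 = q3 ∧ a_2 = q4) ↔
          q3 < B ∧ q4 < B ∧ Q) := by
      intro l Q hQ
      constructor
      · rintro ⟨⟨a, b⟩, hab, c, hc, d, hd, rfl, rfl, rfl, rfl⟩
        exact ⟨hc, hd, hQ.mp hab⟩
      · rintro ⟨hc, hd, hq⟩
        exact ⟨(q1, q2), hQ.mpr hq, q3, hc, q4, hd, rfl, rfl, rfl, rfl⟩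
    apply key
    split_ifs
    · simp only [List.mem_map, List.mem_range, Prod.mk.injEq]
      constructor
      · rintro ⟨d, hd, rfl, rfl⟩; exact ⟨hd, rfl⟩
      · rintro ⟨h, rfl⟩; exact ⟨q1, h, rfl, rfl⟩
    · simp
    · simp only [List.mem_map, List.mem_range, Prod.mk.injEq]
      constructor
      · rintro ⟨d, hd, rfl, rfl⟩; exact ⟨hd, rfl⟩
      · rintro ⟨h, rfl⟩; exact ⟨q1, h, rfl, rfl⟩
    · simp only [List.mem_map, List.mem_range, Prod.mk.injEq]
      constructor
      · rintro ⟨d, hd, rfl, rfl⟩; exact ⟨hd, rfl⟩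
      · rintro ⟨h, h'⟩; exact ⟨q1, h, rfl, h'.symm⟩

theorem letters_nodup (B D f j : ℕ) : (letters B D f j).Nodup := by
  unfold letters
  split_ifs with h0
  · simp
  all_goals
    rw [List.nodup_flatMap]
    constructor
    · intro p _
      rw [List.nodup_flatMap]
      constructor
      · intro a _
        apply List.Nodup.map _ List.nodup_range
        intro c c' h
        simpa using h
      · apply List.Nodup.pairwise_of_forall_ne List.nodup_range
        intro a _ b _ hab
        simp only [Function.onFun, List.disjoint_left, List.mem_map, not_exists, not_and]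
        rintro _ ⟨c, _, rfl⟩ c' _ h
        simp only [Prod.mk.injEq] at h
        exact hab h.2.2.1.symm
    · apply List.Nodup.pairwise_of_forall_ne
      · first
          | exact List.nodup_singleton _
          | (apply List.Nodup.map _ List.nodup_range
             intro c c' h
             simpa using h)
      · intro p _ p' _ hpp
        simp only [Function.onFun, List.disjoint_left, List.mem_flatMap, List.mem_map, not_exists,
          not_and]
        rintro _ ⟨a, _, c, _, rfl⟩ a' _ c' _ h
        simp only [Prod.mk.injEq] at h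
        exact hpp (Prod.ext h.1.symm h.2.1.symm)

/-! ### Arms -/

theorem arms_length (r : Rule) : (Rule.arms r).length = 2 * r.1.length + 1 := by
  unfold Rule.arms
  rw [List.length_append, List.length_flatMap]
  simp [mul_comm]

theorem arms_getD_dbl (l : List Atom) (x d : Atom) : ∀ i, i < 2 * l.length →
    (l.flatMap (fun a => [a, a]) ++ [x]).getD i d = l.getD (i / 2) d := by
  induction l with
  | nil => intro i hi; simp at hi
  | cons a l ih =>
    intro i hi
    rw [List.length_cons] at hi
    rcases i with _ | _ | i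
    · simp
    · simp
    · have := ih i (by omega)
      rw [show (i + 1 + 1) / 2 = i / 2 + 1 by omega]
      simpa using this

theorem arms_getD_last (l : List Atom) (x d : Atom) :
    (l.flatMap (fun a => [a, a]) ++ [x]).getD (2 * l.length) d = x := by
  induction l with
  | nil => simp
  | cons a l ih =>
    rw [List.length_cons, show 2 * (l.length + 1) = 2 * l.length + 1 + 1 by ring]
    simpa using ih

variable (rs : List Rule) (B D : ℕ)

/-- rule and mark of gadget `g` -/
abbrev RM (g : ℕ) : Rule × ℕ := (gadgets rs D).getD g (tgtRule, 0)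

theorem armOf_dbl {g i : ℕ} (h : i < 2 * (RM rs D g).1.1.length) :
    armOf rs D g i = (RM rs D g).1.1.getD (i / 2) ((4, 0), 3, 4) := by
  unfold armOf Rule.arms
  exact arms_getD_dbl _ _ _ i h

theorem armOf_last (g : ℕ) : armOf rs D g (2 * (RM rs D g).1.1.length) = (RM rs D g).1.2 := by
  unfold armOf Rule.arms
  exact arms_getD_last _ _ _

/-- the gadgets without the twisted one -/
def gads0 : List (Rule × ℕ) :=
  rs.flatMap fun r => if Rule.usesT r then (List.range D).map (fun f => (r, f + 1)) else [(r, 0)]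

theorem gadgets_eq : gadgets rs D = gads0 rs D ++ [(tgtRule, 0)] := rfl

theorem gadgets_length : (gadgets rs D).length = (gads0 rs D).length + 1 := by
  rw [gadgets_eq]; simp

theorem RM_gt : RM rs D (gads0 rs D).length = (tgtRule, 0) := by
  unfold RM
  rw [gadgets_eq]
  simp

theorem RM_mem {g : ℕ} (hg : g < (gads0 rs D).length) : RM rs D g ∈ gads0 rs D := by
  unfold RM
  rw [gadgets_eq, List.getD_append _ _ _ _ hg, List.getD_eq_getElem _ _ hg]
  exact List.getElem_mem _

theorem mem_gads0 {x : Rule × ℕ} : x ∈ gads0 rs D ↔ x.1 ∈ rs ∧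
    (if Rule.usesT x.1 then ∃ f < D, x.2 = f + 1 else x.2 = 0) := by
  obtain ⟨r, f⟩ := x
  unfold gads0
  rw [List.mem_flatMap]
  constructor
  · rintro ⟨r', hr', h⟩
    split_ifs at h with hu
    · rw [List.mem_map] at h
      obtain ⟨f', hf', h⟩ := h
      simp only [Prod.mk.injEq] at h
      obtain ⟨rfl, rfl⟩ := h
      exact ⟨hr', by rw [if_pos hu]; exact ⟨f', List.mem_range.mp hf', rfl⟩⟩
    · rw [List.mem_singleton, Prod.mk.injEq] at h
      obtain ⟨rfl, rfl⟩ := h
      exact ⟨hr', by rw [if_neg hu]⟩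
  · rintro ⟨hr, h⟩
    refine ⟨r, hr, ?_⟩
    split_ifs at h ⊢ with hu
    · obtain ⟨f', hf', rfl⟩ := h
      exact List.mem_map.mpr ⟨f', List.mem_range.mpr hf', rfl⟩
    · simp only at h
      rw [h]
      exact List.mem_singleton.mpr rfl

theorem exists_RM {x : Rule × ℕ} (hx : x ∈ gads0 rs D) :
    ∃ g < (gads0 rs D).length, RM rs D g = x := by
  obtain ⟨g, hg, h⟩ := List.getElem_of_mem hx
  refine ⟨g, hg, ?_⟩
  unfold RM
  rw [gadgets_eq, List.getD_append _ _ _ _ hg, List.getD_eq_getElem _ _ hg, h]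

@[simp] theorem ruleNet_m : (ruleNet rs B D).m = D + 1 := rfl
@[simp] theorem ruleNet_nG : (ruleNet rs B D).nG = (gads0 rs D).length + 1 := gadgets_length rs D
@[simp] theorem ruleNet_gt : (ruleNet rs B D).gt = (gads0 rs D).length := by
  show (gadgets rs D).length - 1 = _
  rw [gadgets_length]; rfl
@[simp] theorem ruleNet_narm (g : ℕ) :
    (ruleNet rs B D).narm g = 2 * (RM rs D g).1.1.length + 1 := arms_length _
@[simp] theorem ruleNet_hub (g a : ℕ) : (ruleNet rs B D).hub g a = (armOf rs D g a).1 := rfl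
@[simp] theorem ruleNet_proj (g a : ℕ) (q : Let) : (ruleNet rs B D).proj g a q =
    (sel (armOf rs D g a).2.1 q, sel (armOf rs D g a).2.2 q, 0, 0) := rfl
@[simp] theorem ruleNet_lett (g j : ℕ) :
    (ruleNet rs B D).lett g j = letters B D (RM rs D g).2 j := rfl
@[simp] theorem ruleNet_o : (ruleNet rs B D).o = (0, 0, 0, 0) := rfl

theorem sel_zero' (c : ℕ) : sel c (0, 0, 0, 0) = 0 := by
  unfold sel; split_ifs <;> rfl

theorem letters_ne (hB : 2 ≤ B) (f j : ℕ) : letters B D f j ≠ [] := by
  have : ∃ q, q ∈ letters B D f j := by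
    by_cases h0 : j = 0 ∨ D < j
    · exact ⟨(0, 0, 0, 0), by rw [mem_letters, if_pos h0]⟩
    · by_cases h1 : f = 0
      · refine ⟨(0, 0, 0, 0), ?_⟩
        rw [mem_letters, if_neg h0, if_pos h1]
        exact ⟨show 0 < B by omega, show 0 < B by omega, show 0 < B by omega, rfl⟩
      · by_cases h2 : j < f
        · refine ⟨(B - 1, 0, 0, 0), ?_⟩
          rw [mem_letters, if_neg h0, if_neg h1, if_pos h2]
          exact ⟨show 0 < B by omega, show 0 < B by omega, rfl, rfl⟩
        · by_cases h3 : j = f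
          · refine ⟨(0, 1, 0, 0), ?_⟩
            rw [mem_letters, if_neg h0, if_neg h1, if_neg h2, if_pos h3]
            exact ⟨show 0 < B by omega, show 0 < B by omega, show 0 < B - 1 by omega, rfl⟩
          · refine ⟨(0, 0, 0, 0), ?_⟩
            rw [mem_letters, if_neg h0, if_neg h1, if_neg h2, if_neg h3]
            exact ⟨show 0 < B by omega, show 0 < B by omega, show 0 < B by omega, rfl⟩
  obtain ⟨q, hq⟩ := this
  exact List.ne_nil_of_mem hq

/-! ### Contents and numbers -/

/-- the content of a quadruple of numbers -/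
def qc (q : ℕ × ℕ × ℕ × ℕ) (j : ℕ) : Let :=
  if j = 0 ∨ D < j then (0, 0, 0, 0) else
    (dg B q.1 (j - 1), dg B q.2.1 (j - 1), dg B q.2.2.1 (j - 1), dg B q.2.2.2 (j - 1))

theorem sel_dg (c i : ℕ) (q : ℕ × ℕ × ℕ × ℕ) :
    sel c (dg B q.1 i, dg B q.2.1 i, dg B q.2.2.1 i, dg B q.2.2.2 i) = dg B (sel c q) i := by
  unfold sel
  split_ifs
  · rfl
  · rfl
  · rfl
  · rfl
  · exact (dg_of_zero B i).symm

theorem proj_qc (c d : ℕ) (q : ℕ × ℕ × ℕ × ℕ) (j : ℕ) :
    ((sel c (qc B D q j), sel d (qc B D q j), 0, 0) : Let) = dig B D (sel c q) (sel d q) j := by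
  unfold qc dig
  split_ifs
  · rw [sel_zero', sel_zero']
  · rw [sel_dg, sel_dg]

variable {rs B D}

theorem exists_mark (hB : 2 ≤ B) {r : Rule} (hr : r ∈ rs) {t s s' : ℕ}
    (ht' : Rule.usesT r = true → t + 1 < B ^ D) :
    ∃ f, (r, f) ∈ gads0 rs D ∧
      ∀ j, qc B D (t, if Rule.usesT r then t + 1 else 0, s, s') j ∈ letters B D f j := by
  by_cases hu : Rule.usesT r = true
  · obtain ⟨f, hf, h1, h2, h3⟩ := digits_of_incr hB D t (ht' hu)
    refine ⟨f + 1, ?_, ?_⟩
    · rw [mem_gads0]
      refine ⟨hr, ?_⟩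
      rw [if_pos hu]
      exact ⟨f, hf, rfl⟩
    · intro j
      rw [mem_letters]
      unfold qc
      by_cases h0 : j = 0 ∨ D < j
      · rw [if_pos h0, if_pos h0]
      · rw [if_neg h0, if_neg h0, if_pos hu]
        refine ⟨dg_lt hB _ _, dg_lt hB _ _, ?_⟩
        rw [if_neg (by omega)]
        split_ifs with h4 h5
        · exact h1 (j - 1) (by omega)
        · have h6 : j - 1 = f := by omega
          simp only [h6]
          refine ⟨?_, h2⟩
          have := dg_lt hB (t + 1) f
          omega
        · exact ⟨dg_lt hB _ _, h3 (j - 1) (by omega)⟩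
  · refine ⟨0, ?_, ?_⟩
    · rw [mem_gads0]
      refine ⟨hr, ?_⟩
      rw [if_neg hu]
    · intro j
      rw [mem_letters]
      unfold qc
      by_cases h0 : j = 0 ∨ D < j
      · rw [if_pos h0, if_pos h0]
      · rw [if_neg h0, if_neg h0, if_neg hu, if_pos rfl]
        exact ⟨dg_lt hB _ _, dg_lt hB _ _, dg_lt hB _ _, dg_of_zero _ _⟩

theorem decode (hB : 2 ≤ B) {f : ℕ} (hf : f ≤ D) {x : ℕ → Let} (hx : ∀ j, x j ∈ letters B D f j) :
    ∃ t t' s s', t < B ^ D ∧ t' < B ^ D ∧ s < B ^ D ∧ s' < B ^ D ∧
      (t' = if f = 0 then 0 else t + 1) ∧ ∀ j, x j = qc B D (t, t', s, s') j := by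
  have hlt : ∀ i < D, (x (i + 1)).1 < B ∧ (x (i + 1)).2.1 < B ∧ (x (i + 1)).2.2.1 < B ∧
      (x (i + 1)).2.2.2 < B := by
    intro i hi
    have h := hx (i + 1)
    rw [mem_letters, if_neg (by omega)] at h
    obtain ⟨h1, h2, h3⟩ := h
    split_ifs at h3 <;> omega
  obtain ⟨t, ht, ht1⟩ := exists_num hB D (fun i => (x (i + 1)).1) (fun i hi => (hlt i hi).1)
  obtain ⟨t', ht', ht1'⟩ := exists_num hB D (fun i => (x (i + 1)).2.1)
    (fun i hi => (hlt i hi).2.1)
  obtain ⟨s, hs, hs1⟩ := exists_num hB D (fun i => (x (i + 1)).2.2.1)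
    (fun i hi => (hlt i hi).2.2.1)
  obtain ⟨s', hs', hs1'⟩ := exists_num hB D (fun i => (x (i + 1)).2.2.2)
    (fun i hi => (hlt i hi).2.2.2)
  refine ⟨t, t', s, s', ht, ht', hs, hs', ?_, ?_⟩
  · split_ifs with hf0
    · apply dg_inj hB ht' (by positivity)
      intro i hi
      rw [ht1' i hi, dg_of_zero]
      have h := hx (i + 1)
      rw [mem_letters, if_neg (by omega), if_pos hf0] at h
      exact h.2.2.2
    · apply incr_of_digits hB (f - 1) D t t' (by omega) ht ht'
      · intro i hi
        rw [ht1 i (by omega), ht1' i (by omega)]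
        have h := hx (i + 1)
        rw [mem_letters, if_neg (by omega), if_neg hf0, if_pos (by omega)] at h
        exact h.2.2
      · rw [ht1 _ (by omega), ht1' _ (by omega), show f - 1 + 1 = f by omega]
        have h := hx f
        rw [mem_letters, if_neg (by omega), if_neg hf0, if_neg (by omega), if_pos rfl] at h
        exact h.2.2.2
      · intro i hi hiD
        rw [ht1 i (by omega), ht1' i (by omega)]
        have h := hx (i + 1)
        rw [mem_letters, if_neg (by omega), if_neg hf0, if_neg (by omega), if_neg (by omega)] at h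
        exact h.2.2.2.symm
  · intro j
    unfold qc
    split_ifs with h0
    · have h := hx j
      rw [mem_letters, if_pos h0] at h
      exact h
    · have e := ht1 (j - 1) (by omega)
      have e' := ht1' (j - 1) (by omega)
      have e2 := hs1 (j - 1) (by omega)
      have e2' := hs1' (j - 1) (by omega)
      rw [show j - 1 + 1 = j by omega] at e e' e2 e2'
      simp only [e, e', e2, e2']

theorem dig_inj (hB : 2 ≤ B) {a c a' c' : ℕ} (ha : a < B ^ D) (hc : c < B ^ D) (ha' : a' < B ^ D)
    (hc' : c' < B ^ D) (h : dig B D a c = dig B D a' c') : a = a' ∧ c = c' := by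
  have key : ∀ i < D, dg B a i = dg B a' i ∧ dg B c i = dg B c' i := by
    intro i hi
    have := congrFun h (i + 1)
    unfold dig at this
    rw [if_neg (by omega), if_neg (by omega)] at this
    simp only [Prod.mk.injEq, Nat.add_sub_cancel] at this
    exact ⟨this.1, this.2.1⟩
  exact ⟨dg_inj hB ha ha' fun i hi => (key i hi).1, dg_inj hB hc hc' fun i hi => (key i hi).2⟩

theorem sel_lt {M c : ℕ} {q : ℕ × ℕ × ℕ × ℕ} (h0 : 0 < M) (h1 : q.1 < M) (h2 : q.2.1 < M)
    (h3 : q.2.2.1 < M) (h4 : q.2.2.2 < M) : sel c q < M := by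
  unfold sel; split_ifs <;> assumption

end Rules

open Rules

theorem ruleNet_OK (rs : List Rule) (B D : ℕ) (hB : 2 ≤ B) (hD : 1 ≤ D) : (ruleNet rs B D).OK where
  two_le := by rw [ruleNet_m]; omega
  gt_lt := by rw [ruleNet_gt, ruleNet_nG]; omega
  narm_gt := by
    rw [ruleNet_narm, ruleNet_gt, RM_gt]; rfl
  narm_odd := by
    intro g _
    rw [ruleNet_narm]
    exact ⟨_, rfl⟩
  lett_triv := by
    intro g _ j hj
    rw [ruleNet_lett, ruleNet_o]
    unfold letters
    rw [if_pos]
    rw [ruleNet_m] at hj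
    omega
  proj_o := by
    intro g a
    rw [ruleNet_proj, ruleNet_o, sel_zero', sel_zero']
  lett_nodup := by
    intro g j
    rw [ruleNet_lett]
    exact letters_nodup _ _ _ _
  lett_ne := by
    intro g j
    rw [ruleNet_lett]
    exact letters_ne B D hB _ _

theorem ruleNet_der (rs : List Rule) (B D : ℕ) (hB : 2 ≤ B) (hD : 1 ≤ D) {h : Hub} {a c : ℕ}
    (hd : RDer rs (B ^ D) h a c) : (ruleNet rs B D).Der h (dig B D a c) := by
  induction hd with
  | mk r t s s' hr ht hs hs' ht' h ih =>
    obtain ⟨f, hf, hx⟩ := exists_mark (s := s) (s' := s') hB hr ht'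
    obtain ⟨g, hg, hRM⟩ := exists_RM rs D hf
    set q : ℕ × ℕ × ℕ × ℕ := (t, if Rule.usesT r then t + 1 else 0, s, s') with hq
    have hlast : armOf rs D g (2 * r.1.length) = r.2 := by
      have := armOf_last rs D g
      rw [hRM] at this
      exact this
    have hn : (ruleNet rs B D).narm g = 2 * r.1.length + 1 := by rw [ruleNet_narm, hRM]
    have key := Net.Der.mk (N := ruleNet rs B D) g (qc B D q) (2 * r.1.length)
      (by rw [ruleNet_nG]; omega) (by rw [ruleNet_gt]; omega)
      (by intro j; rw [ruleNet_lett, hRM]; exact hx j)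
      (by rw [hn]; omega) ?_
    · rw [ruleNet_hub, hlast] at key
      have e : (fun j => (ruleNet rs B D).proj g (2 * r.1.length) (qc B D q j)) =
          dig B D (sel r.2.2.1 q) (sel r.2.2.2 q) := by
        funext j
        rw [ruleNet_proj, hlast]
        exact proj_qc B D _ _ _ _
      rw [e] at key
      exact key
    · intro a' ha' hne
      rw [hn] at ha'
      have ha2 : a' < 2 * (RM rs D g).1.1.length := by
        rw [hRM]; show a' < 2 * r.1.length; omega
      have hidx : a' / 2 < r.1.length := by omega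
      have harm : armOf rs D g a' = r.1[a' / 2] := by
        rw [armOf_dbl rs D ha2, hRM, List.getD_eq_getElem _ _ hidx]
      have := ih (r.1[a' / 2]) (List.getElem_mem _)
      rw [ruleNet_hub, harm]
      have e : (fun j => (ruleNet rs B D).proj g a' (qc B D q j)) =
          dig B D (sel (r.1[a' / 2]).2.1 q) (sel (r.1[a' / 2]).2.2 q) := by
        funext j
        rw [ruleNet_proj, harm]
        exact proj_qc B D _ _ _ _
      rw [e]
      exact this

namespace Rules

theorem mem_unlock {acc : Hub} {rs : List Rule} {r : Rule} : r ∈ unlock acc rs ↔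
    ∃ h, (h ∈ hubsOf rs ∨ h = acc ∨ h = (4, 0)) ∧ r = ([(acc, 1, 0)], (h, 3, 4)) := by
  unfold unlock
  rw [List.mem_map]
  constructor
  · rintro ⟨h, hh, rfl⟩
    rw [List.mem_append] at hh
    refine ⟨h, ?_, rfl⟩
    rcases hh with hh | hh
    · exact Or.inl hh
    · simp only [List.mem_cons, List.not_mem_nil, or_false] at hh
      exact Or.inr hh
  · rintro ⟨h, hh, rfl⟩
    refine ⟨h, ?_, rfl⟩
    rw [List.mem_append]
    rcases hh with hh | hh
    · exact Or.inl hh
    · right
      simp only [List.mem_cons, List.not_mem_nil, or_false]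
      exact hh

/-- the gadgets are either the twisted one or given by a rule, and their contents by numbers -/
theorem gadget_cases (rs : List Rule) {B D : ℕ} (hB : 2 ≤ B) {g : ℕ}
    (hg : g < (gads0 rs D).length) {x : ℕ → Let} (hx : (ruleNet rs B D).Content g x) :
    ∃ r ∈ rs, ∃ t s s', t < B ^ D ∧ s < B ^ D ∧ s' < B ^ D ∧
      (Rule.usesT r = true → t + 1 < B ^ D) ∧ (ruleNet rs B D).narm g = 2 * r.1.length + 1 ∧
      (∀ a (ha : a / 2 < r.1.length), (ruleNet rs B D).hub g a = (r.1[a / 2]).1 ∧
        (fun j => (ruleNet rs B D).proj g a (x j)) =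
          dig B D (sel (r.1[a / 2]).2.1 (t, if Rule.usesT r then t + 1 else 0, s, s'))
            (sel (r.1[a / 2]).2.2 (t, if Rule.usesT r then t + 1 else 0, s, s'))) ∧
      ((ruleNet rs B D).hub g (2 * r.1.length) = r.2.1 ∧
        (fun j => (ruleNet rs B D).proj g (2 * r.1.length) (x j)) =
          dig B D (sel r.2.2.1 (t, if Rule.usesT r then t + 1 else 0, s, s'))
            (sel r.2.2.2 (t, if Rule.usesT r then t + 1 else 0, s, s'))) := by
  obtain ⟨⟨r, f⟩, hRM⟩ : ∃ y, RM rs D g = y := ⟨_, rfl⟩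
  have hmem := RM_mem rs D hg
  rw [hRM, mem_gads0] at hmem
  obtain ⟨hr, hf⟩ := hmem
  simp only at hr hf
  have hfD : f ≤ D := by
    split_ifs at hf
    · obtain ⟨f', h1, h2⟩ := hf; omega
    · omega
  obtain ⟨t, t', s, s', ht, ht', hs, hs', htt, hxq⟩ := decode (x := x) hB hfD (by
    intro j
    have := hx j
    rw [ruleNet_lett, hRM] at this
    exact this)
  have htt' : t' = if Rule.usesT r then t + 1 else 0 := by
    split_ifs at hf ⊢ with hu
    · obtain ⟨f', h1, h2⟩ := hf
      rw [htt, if_neg (by omega)]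
    · rw [htt, if_pos hf]
  refine ⟨r, hr, t, s, s', ht, hs, hs', ?_, ?_, ?_, ?_, ?_⟩
  · intro hu
    rw [if_pos hu] at htt'
    omega
  · rw [ruleNet_narm, hRM]
  · intro a ha
    have ha2 : a < 2 * (RM rs D g).1.1.length := by
      rw [hRM]; show a < 2 * r.1.length; omega
    have harm : armOf rs D g a = r.1[a / 2] := by
      rw [armOf_dbl rs D ha2, hRM, List.getD_eq_getElem _ _ ha]
    refine ⟨by rw [ruleNet_hub, harm], ?_⟩
    funext j
    rw [ruleNet_proj, harm, hxq j, proj_qc, htt']
  · have := armOf_last rs D g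
    rw [hRM] at this
    rw [ruleNet_hub]
    exact congrArg Prod.fst this
  · have := armOf_last rs D g
    rw [hRM] at this
    have h2 : armOf rs D g (2 * r.1.length) = r.2 := this
    funext j
    rw [ruleNet_proj, h2, hxq j, proj_qc, htt']

theorem gt_hub (rs : List Rule) (B D : ℕ) : (ruleNet rs B D).hub (gads0 rs D).length 0 = (4, 0) := by
  rw [ruleNet_hub]
  unfold armOf
  have := RM_gt rs D
  unfold RM at this
  rw [this]
  rfl

theorem sum_false {α : Type} (l : List α) (f : α → Bool) (h : ∀ a ∈ l, f a = false) :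
    (l.map f).sum = false := by
  induction l with
  | nil => rfl
  | cons a l ih =>
    rw [List.map_cons, List.sum_cons, h a (by simp), ih fun b hb => h b (by simp [hb])]
    rfl

end Rules

open Rules

/-- Closed number-level facts not containing `acc` give a closed network (with unlocking rules). -/
theorem ruleNet_closed (rs : List Rule) (B D : ℕ) (hB : 2 ≤ B) (hD : 1 ≤ D) (acc : Hub)
    (hacc : acc ≠ (4, 0)) (hrs : ∀ r ∈ rs, r.2.1 ≠ (4, 0) ∧ ∀ a ∈ r.1, a.1 ≠ (4, 0))
    (Tr : Hub → ℕ → ℕ → Prop) (hTr : HornClosed rs (B ^ D) Tr) (hno : ∀ t, ¬ Tr acc t 0) :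
    ∃ (Kn : Hub → (ℕ → Let) → Prop) (val : Hub → (ℕ → Let) → Bool),
      (ruleNet (rs ++ unlock acc rs) B D).Closed Kn val := by
  have hM : 0 < B ^ D := by positivity
  refine ⟨fun h z => h = (4, 0) ∨ ∃ a c, a < B ^ D ∧ c < B ^ D ∧ z = dig B D a c ∧ Tr h a c,
    fun h _ => decide (h = (4, 0)), ?_, ?_⟩
  · intro g hg x hx a ha hall
    rw [ruleNet_nG] at hg
    by_cases hgt : g = (gads0 (rs ++ unlock acc rs) D).length
    · subst hgt
      have : (ruleNet (rs ++ unlock acc rs) B D).narm
          (gads0 (rs ++ unlock acc rs) D).length = 1 := by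
        rw [ruleNet_narm, RM_gt]; rfl
      have ha0 : a = 0 := by omega
      subst ha0
      exact Or.inl (gt_hub _ _ _)
    · obtain ⟨r, hr, t, s, s', ht, hs, hs', hu, hn, harm, hhead, hheadp⟩ :=
        gadget_cases _ hB (show g < (gads0 (rs ++ unlock acc rs) D).length by omega) hx
      rw [hn] at ha hall
      by_cases hal : a / 2 < r.1.length
      · -- the twin arm
        obtain ⟨a', ha', hne, hdiv⟩ : ∃ a', a' < 2 * r.1.length + 1 ∧ a' ≠ a ∧ a' / 2 = a / 2 := by
          rcases Nat.even_or_odd a with h | h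
          · obtain ⟨k, hk⟩ := h
            exact ⟨a + 1, by omega, by omega, by omega⟩
          · obtain ⟨k, hk⟩ := h
            exact ⟨a - 1, by omega, by omega, by omega⟩
        have h1 := hall a' ha' hne
        obtain ⟨e1, e2⟩ := harm a hal
        obtain ⟨e1', e2'⟩ := harm a' (by rw [hdiv]; exact hal)
        simp only [hdiv] at e1' e2'
        rw [e1', e2'] at h1
        rw [e1, e2]
        exact h1
      · have hal' : a = 2 * r.1.length := by omega
        subst hal'
        rw [List.mem_append] at hr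
        rcases hr with hr | hr
        · -- an ordinary rule
          rw [hhead, hheadp]
          right
          have hq2 : (if Rule.usesT r = true then t + 1 else 0) < B ^ D := by
            split_ifs with h
            · exact hu h
            · exact hM
          refine ⟨_, _, sel_lt hM ht hq2 hs hs', sel_lt hM ht hq2 hs hs', rfl, ?_⟩
          apply hTr r hr t s s' ht hs hs' hu
          intro b hb
          obtain ⟨i, hi, rfl⟩ := List.getElem_of_mem hb
          have h1 := hall (2 * i) (by omega) (by omega)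
          have hdiv : 2 * i / 2 = i := by omega
          obtain ⟨e1, e2⟩ := harm (2 * i) (by rw [hdiv]; exact hi)
          simp only [hdiv] at e1 e2
          rw [e1, e2] at h1
          rcases h1 with h1 | ⟨a1, c1, ha1, hc1, hz, hT⟩
          · exact absurd h1 ((hrs r hr).2 _ hb)
          · obtain ⟨z1, z2⟩ := dig_inj hB (sel_lt hM ht hq2 hs hs') (sel_lt hM ht hq2 hs hs')
              ha1 hc1 hz
            rw [← z1, ← z2] at hT
            exact hT
        · -- an unlocking rule
          exfalso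
          rw [mem_unlock] at hr
          obtain ⟨h, -, rfl⟩ := hr
          have h1 := hall 0 (by simp) (by simp)
          obtain ⟨e1, e2⟩ := harm 0 (by simp)
          rw [e1, e2] at h1
          rcases h1 with h1 | ⟨a1, c1, ha1, hc1, hz, hT⟩
          · exact hacc h1
          · obtain ⟨z1, z2⟩ := dig_inj hB (a := t) (c := 0) ht hM ha1 hc1 hz
            rw [← z1, ← z2] at hT
            exact hno _ hT
  · intro g hg x hx hall
    rw [ruleNet_nG] at hg
    rw [ruleNet_gt]
    by_cases hgt : g = (gads0 (rs ++ unlock acc rs) D).length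
    · subst hgt
      have : (ruleNet (rs ++ unlock acc rs) B D).narm
          (gads0 (rs ++ unlock acc rs) D).length = 1 := by
        rw [ruleNet_narm, RM_gt]; rfl
      rw [this]
      have e0 : List.range 1 = [0] := rfl
      rw [e0, List.map_cons, List.map_nil, List.sum_cons, List.sum_nil, add_zero]
      exact (decide_eq_true (gt_hub _ _ _)).trans (decide_eq_true rfl).symm
    · obtain ⟨r, hr, t, s, s', ht, hs, hs', hu, hn, harm, hhead, hheadp⟩ :=
        gadget_cases _ hB (show g < (gads0 (rs ++ unlock acc rs) D).length by omega) hx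
      rw [hn] at hall ⊢
      rw [List.mem_append] at hr
      rcases hr with hr | hr
      · rw [decide_eq_false hgt]
        apply sum_false
        intro a ha
        rw [List.mem_range] at ha
        apply decide_eq_false
        by_cases hal : a / 2 < r.1.length
        · rw [(harm a hal).1]
          exact (hrs r hr).2 _ (List.getElem_mem _)
        · have hal' : a = 2 * r.1.length := by omega
          subst hal'
          rw [hhead]
          exact (hrs r hr).1
      · exfalso
        rw [mem_unlock] at hr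
        obtain ⟨h, -, rfl⟩ := hr
        have h1 := hall 0 (by simp)
        obtain ⟨e1, e2⟩ := harm 0 (by simp)
        rw [e1, e2] at h1
        rcases h1 with h1 | ⟨a1, c1, ha1, hc1, hz, hT⟩
        · exact hacc h1
        · obtain ⟨z1, z2⟩ := dig_inj hB (a := t) (c := 0) ht hM ha1 hc1 hz
          rw [← z1, ← z2] at hT
          exact hno _ hT

namespace Rules

theorem RDer.mono {rs rs' : List Rule} (hsub : ∀ r ∈ rs, r ∈ rs') {M : ℕ} {h : Hub} {a c : ℕ}
    (hd : RDer rs M h a c) : RDer rs' M h a c := by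
  induction hd with
  | mk r t s s' hr ht hs hs' ht' h ih => exact RDer.mk r t s s' (hsub r hr) ht hs hs' ht' ih

/-- the unlocking rule of a hub -/
abbrev ur (acc h : Hub) : Rule := ([(acc, 1, 0)], (h, 3, 4))

theorem ur_usesT (acc h : Hub) : Rule.usesT (ur acc h) = false := rfl

theorem hub_mem (acc : Hub) (rs : List Rule) (B D : ℕ) {g a : ℕ}
    (hg : g < (ruleNet (rs ++ unlock acc rs) B D).nG)
    (ha : a < (ruleNet (rs ++ unlock acc rs) B D).narm g) :
    (ruleNet (rs ++ unlock acc rs) B D).hub g a ∈ hubsOf rs ∨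
      (ruleNet (rs ++ unlock acc rs) B D).hub g a = acc ∨
      (ruleNet (rs ++ unlock acc rs) B D).hub g a = (4, 0) := by
  rw [ruleNet_nG] at hg
  rw [ruleNet_narm] at ha
  rw [ruleNet_hub]
  by_cases hgt : g = (gads0 (rs ++ unlock acc rs) D).length
  · right; right
    subst hgt
    rw [RM_gt] at ha
    have ha0 : a = 0 := by
      have h1 : a < 2 * tgtRule.1.length + 1 := ha
      have : 2 * tgtRule.1.length + 1 = 1 := rfl
      omega
    subst ha0
    exact gt_hub (rs ++ unlock acc rs) B D
  · have hmem := RM_mem (rs ++ unlock acc rs) D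
      (show g < (gads0 (rs ++ unlock acc rs) D).length by omega)
    rw [mem_gads0] at hmem
    have hin : ∃ b, (b ∈ (RM (rs ++ unlock acc rs) D g).1.1 ++ [(RM (rs ++ unlock acc rs) D g).1.2]) ∧
        armOf (rs ++ unlock acc rs) D g a = b := by
      by_cases hal : a < 2 * (RM (rs ++ unlock acc rs) D g).1.1.length
      · have hidx : a / 2 < (RM (rs ++ unlock acc rs) D g).1.1.length := by omega
        refine ⟨_, ?_, armOf_dbl _ D hal⟩
        rw [List.getD_eq_getElem _ _ hidx]
        exact List.mem_append_left _ (List.getElem_mem _)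
      · have hal' : a = 2 * (RM (rs ++ unlock acc rs) D g).1.1.length := by omega
        refine ⟨_, ?_, hal' ▸ armOf_last _ D g⟩
        exact List.mem_append_right _ (List.mem_singleton.mpr rfl)
    obtain ⟨b, hb, harm⟩ := hin
    rw [harm]
    have h1 := hmem.1
    rw [List.mem_append] at h1
    rcases h1 with h1 | h1
    · left
      unfold hubsOf
      rw [List.mem_flatMap]
      exact ⟨_, h1, List.mem_map.mpr ⟨b, hb, rfl⟩⟩
    · rw [mem_unlock] at h1
      obtain ⟨h, hh, hr⟩ := h1
      rw [hr] at hb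
      simp only [List.cons_append, List.nil_append, List.mem_cons, List.not_mem_nil, or_false] at hb
      rcases hb with rfl | rfl
      · right; left; rfl
      · exact hh

theorem exists_ug (acc : Hub) (rs : List Rule) (D : ℕ) {h : Hub}
    (hh : h ∈ hubsOf rs ∨ h = acc ∨ h = (4, 0)) :
    ∃ g < (gads0 (rs ++ unlock acc rs) D).length,
      RM (rs ++ unlock acc rs) D g = (ur acc h, 0) := by
  apply exists_RM
  rw [mem_gads0]
  refine ⟨List.mem_append_right _ (mem_unlock.mpr ⟨h, hh, rfl⟩), ?_⟩
  rw [if_neg]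
  rw [ur_usesT]
  simp

theorem ur_arms (acc h : Hub) (rs : List Rule) (D : ℕ) {g : ℕ}
    (hg : RM (rs ++ unlock acc rs) D g = (ur acc h, 0)) :
    armOf (rs ++ unlock acc rs) D g 0 = (acc, 1, 0) ∧
    armOf (rs ++ unlock acc rs) D g 1 = (acc, 1, 0) ∧
    armOf (rs ++ unlock acc rs) D g 2 = (h, 3, 4) := by
  refine ⟨?_, ?_, ?_⟩
  · rw [armOf_dbl _ D (by rw [hg]; simp), hg]; rfl
  · rw [armOf_dbl _ D (by rw [hg]; simp), hg]; rfl
  · have := armOf_last (rs ++ unlock acc rs) D g
    rw [hg] at this
    exact this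

theorem fst_lt {B D f j c d : ℕ} {q : Let} (hB : 2 ≤ B) (hj : ¬ (j = 0 ∨ D < j))
    (hq : q ∈ letters B D f j) : sel c q < B := by
  rw [mem_letters, if_neg hj] at hq
  have h0 : 0 < B := by omega
  obtain ⟨h1, h2, h3⟩ := hq
  apply sel_lt h0 _ _ h1 h2
  · split_ifs at h3 <;> omega
  · split_ifs at h3 <;> omega

end Rules

open Rules

theorem ruleNet_unlocked (rs : List Rule) (B D : ℕ) (hB : 2 ≤ B) (hD : 1 ≤ D) (acc : Hub)
    (t : ℕ) (ht : t < B ^ D) (hd : RDer rs (B ^ D) acc t 0) :
    ∃ ug lift, (ruleNet (rs ++ unlock acc rs) B D).Unlocked ug lift := by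
  classical
  have H := fun h (hh : h ∈ hubsOf rs ∨ h = acc ∨ h = (4, 0)) => exists_ug acc rs D hh
  choose! ug hug1 hug2 using H
  have hder : (ruleNet (rs ++ unlock acc rs) B D).Der acc (dig B D t 0) :=
    ruleNet_der _ B D hB hD (RDer.mono (fun r hr => List.mem_append_left _ hr) hd)
  refine ⟨ug, fun _ j q => if j = 0 ∨ D < j then (0, 0, 0, 0) else (dg B t (j - 1), 0, q.1, q.2.1),
    ?_, ?_, ?_, ?_, ?_, ?_, ?_, ?_, ?_⟩
  · intro g hg a ha
    have := hug1 _ (hub_mem acc rs B D hg ha)
    rw [ruleNet_nG]; omega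
  · intro g hg a ha
    have := hug1 _ (hub_mem acc rs B D hg ha)
    rw [ruleNet_gt]; omega
  · intro g hg a ha
    rw [ruleNet_narm, hug2 _ (hub_mem acc rs B D hg ha)]; rfl
  · intro g hg a ha
    have := ur_arms acc _ rs D (hug2 _ (hub_mem acc rs B D hg ha))
    rw [ruleNet_hub, this.2.2]
  · intro g hg a ha
    have := ur_arms acc _ rs D (hug2 _ (hub_mem acc rs B D hg ha))
    rw [ruleNet_hub (a := 0), ruleNet_hub (a := 1), this.1, this.2.1]
  · intro g hg a ha
    have := ur_arms acc _ rs D (hug2 _ (hub_mem acc rs B D hg ha))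
    funext q
    rw [ruleNet_proj, ruleNet_proj, this.1, this.2.1]
  · intro g hg a ha j x hx
    rw [ruleNet_lett, hug2 _ (hub_mem acc rs B D hg ha), mem_letters]
    by_cases hj : j = 0 ∨ D < j
    · rw [if_pos hj, if_pos hj]
    · rw [if_neg hj, if_neg hj, if_pos rfl]
      rw [ruleNet_lett] at hx
      exact ⟨fst_lt (d := 0) hB hj hx, fst_lt (d := 0) hB hj hx, dg_lt hB _ _, rfl⟩
  · intro g hg a ha j x hx
    have := ur_arms acc _ rs D (hug2 _ (hub_mem acc rs B D hg ha))
    rw [ruleNet_proj (g := ug _) (a := 2), this.2.2]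
    by_cases hj : j = 0 ∨ D < j
    · rw [if_pos hj]
      rw [ruleNet_lett, mem_letters, if_pos hj] at hx
      rw [hx, ruleNet_proj, sel_zero', sel_zero', sel_zero', sel_zero']
    · rw [if_neg hj]
      rfl
  · intro g hg a ha x hx
    have := ur_arms acc _ rs D (hug2 _ (hub_mem acc rs B D hg ha))
    rw [ruleNet_hub (g := ug _) (a := 0), this.1]
    convert hder using 1
    funext j
    rw [ruleNet_proj (g := ug _) (a := 0), this.1]
    unfold dig
    split_ifs
    · rfl
    · show (_, _, _, _) = (_, _, _, _)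
      rw [Nat.zero_div, Nat.zero_mod]
      rfl

/-- the twisted fact is derivable when `acc` is -/
theorem ruleNet_der_tgt (rs : List Rule) (B D : ℕ) (hB : 2 ≤ B) (hD : 1 ≤ D) (acc : Hub)
    (t : ℕ) (ht : t < B ^ D) (hd : RDer rs (B ^ D) acc t 0) :
    ∃ x, (ruleNet (rs ++ unlock acc rs) B D).Content (ruleNet (rs ++ unlock acc rs) B D).gt x ∧
      (ruleNet (rs ++ unlock acc rs) B D).Der
        ((ruleNet (rs ++ unlock acc rs) B D).hub (ruleNet (rs ++ unlock acc rs) B D).gt 0)
        (fun j => (ruleNet (rs ++ unlock acc rs) B D).proj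
          (ruleNet (rs ++ unlock acc rs) B D).gt 0 (x j)) := by
  have hM : 0 < B ^ D := by positivity
  refine ⟨fun _ => (0, 0, 0, 0), ?_, ?_⟩
  · intro j
    rw [ruleNet_gt, ruleNet_lett, RM_gt, mem_letters]
    split_ifs with h
    · rfl
    · exact ⟨by show 0 < B; omega, by show 0 < B; omega, by show 0 < B; omega, rfl⟩
    · exact absurd rfl ‹¬ _›
    · exact absurd rfl ‹¬ _›
    · exact absurd rfl ‹¬ _›
  · rw [ruleNet_gt, gt_hub]
    have h1 : RDer (rs ++ unlock acc rs) (B ^ D) acc t 0 :=
      RDer.mono (fun r hr => List.mem_append_left _ hr) hd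
    have h2 : RDer (rs ++ unlock acc rs) (B ^ D) (4, 0) 0 0 := by
      have := RDer.mk (rs := rs ++ unlock acc rs) (M := B ^ D) (ur acc (4, 0)) t 0 0
        (List.mem_append_right _ (mem_unlock.mpr ⟨(4, 0), by simp, rfl⟩)) ht hM hM
        (by rw [ur_usesT]; simp) (by
          intro a ha
          rw [List.mem_singleton] at ha
          subst ha
          exact h1)
      exact this
    have h3 := ruleNet_der _ B D hB hD h2
    convert h3 using 1
    funext j
    rw [ruleNet_proj, sel_zero', sel_zero']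
    unfold dig
    split_ifs
    · rfl
    · rw [Nat.zero_div, Nat.zero_mod]

end Crest.Agent.R290
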