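import Crest.Agent.R290.Rules
import Crest.Agent.R290.NetNoSol

/-!
# Row 290, module RULES: no global solution of the twisted instance
-/

set_option autoImplicit false
set_option linter.unusedVariables false

namespace Crest.Agent.R290

open Rules

theorem ruleNet_no_solution (rs : List Rule) (B D : ℕ) (hB : 2 ≤ B) (hD : 1 ≤ D) (acc : Hub) :
    ¬ ∃ s : NVar Hub Let → Bool, IsSol (ruleNet (rs ++ unlock acc rs) B D).objs
      (ruleNet (rs ++ unlock acc rs) B D).ports (ruleNet (rs ++ unlock acc rs) B D).beta s := by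
  obtain ⟨g, hg, hRM⟩ := exists_ug acc rs D (h := (4, 0)) (Or.inr (Or.inr rfl))
  have harms := ur_arms acc _ rs D hRM
  refine Net.no_solution _ (ruleNet_OK _ B D hB hD) g (by rw [ruleNet_nG]; omega)
    (by rw [ruleNet_gt]; omega) (by rw [ruleNet_narm, hRM]; rfl) ?_ ?_ ?_
    (fun _ => (0, 0, 0, 0)) (fun _ => (0, 0, 0, 0)) ?_ ?_ ?_
  · rw [ruleNet_hub, ruleNet_hub, harms.1, harms.2.1]
  · funext q
    rw [ruleNet_proj, ruleNet_proj, harms.1, harms.2.1]
  · rw [ruleNet_gt, gt_hub, ruleNet_hub, harms.2.2]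
  · intro j
    rw [ruleNet_lett, hRM, mem_letters]
    split_ifs with h
    · rfl
    · exact ⟨by show 0 < B; omega, by show 0 < B; omega, by show 0 < B; omega, rfl⟩
    · exact absurd rfl ‹¬ _›
    · exact absurd rfl ‹¬ _›
    · exact absurd rfl ‹¬ _›
  · intro j
    rw [ruleNet_gt, ruleNet_lett, RM_gt, mem_letters]
    split_ifs with h
    · rfl
    · exact ⟨by show 0 < B; omega, by show 0 < B; omega, by show 0 < B; omega, rfl⟩
    · exact absurd rfl ‹¬ _›
    · exact absurd rfl ‹¬ _›
    · exact absurd rfl ‹¬ _›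
  · intro j
    rw [ruleNet_proj, ruleNet_proj, sel_zero', sel_zero', sel_zero', sel_zero']

end Crest.Agent.R290
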