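import Crest.Agent.R290.Defs

/-!
# Row 290, module RULES: unlocking (`ruleNet_unlocked`, `ruleNet_der_tgt`), relative to `ruleNet_der`
-/

set_option autoImplicit false

namespace Crest.Agent.R290

namespace RulesUnl

theorem rder_mono {rs rs' : List Rule} {M : ℕ} (hsub : rs ⊆ rs') {h : Hub} {a c : ℕ}
    (hd : RDer rs M h a c) : RDer rs' M h a c := by
  induction hd with
  | mk r t s s' hr ht hs hs' ht' _ ih => exact RDer.mk r t s s' (hsub hr) ht hs hs' ht' ih

/-- the unlocking rule of `h` -/
def ur (acc h : Hub) : Rule := ([(acc, 1, 0)], (h, 3, 4))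

theorem arms_ur (acc h : Hub) : Rule.arms (ur acc h) = [(acc, 1, 0), (acc, 1, 0), (h, 3, 4)] := rfl

/-- all gadgets but the twisted one -/
def gad0 (rs : List Rule) (D : ℕ) : List (Rule × ℕ) :=
  rs.flatMap fun r => if Rule.usesT r then (List.range D).map (fun f => (r, f + 1)) else [(r, 0)]

theorem gadgets_eq (rs : List Rule) (D : ℕ) : gadgets rs D = gad0 rs D ++ [(tgtRule, 0)] := rfl

/-- all hubs -/
def allHubs (acc : Hub) (rs : List Rule) : List Hub := hubsOf rs ++ [acc, (4, 0)]

theorem mem_gad0_ur {acc h : Hub} {rs : List Rule} (D : ℕ) (hh : h ∈ allHubs acc rs) :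
    (ur acc h, 0) ∈ gad0 (rs ++ unlock acc rs) D := by
  unfold gad0
  refine List.mem_flatMap.2 ⟨ur acc h, List.mem_append_right _ ?_, ?_⟩
  · exact List.mem_map.2 ⟨h, hh, rfl⟩
  · rw [if_neg]
    · exact List.mem_singleton.2 rfl
    · simp [ur, Rule.usesT, Atom.usesT]

/-- the unlocking gadget of `h` -/
def ug (acc : Hub) (rs : List Rule) (D : ℕ) (h : Hub) : ℕ :=
  (gadgets (rs ++ unlock acc rs) D).idxOf (ur acc h, 0)

theorem ug_lt' {acc h : Hub} {rs : List Rule} (D : ℕ) (hh : h ∈ allHubs acc rs) :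
    ug acc rs D h < (gad0 (rs ++ unlock acc rs) D).length := by
  unfold ug
  rw [gadgets_eq, List.idxOf_append_of_mem (mem_gad0_ur D hh)]
  exact List.idxOf_lt_length_iff.2 (mem_gad0_ur D hh)

theorem ug_lt {acc h : Hub} {rs : List Rule} (D : ℕ) (hh : h ∈ allHubs acc rs) :
    ug acc rs D h < (gadgets (rs ++ unlock acc rs) D).length := by
  have := ug_lt' D hh
  rw [gadgets_eq, List.length_append]
  simp only [List.length_singleton]
  omega

theorem ug_ne {acc h : Hub} {rs : List Rule} (D : ℕ) (hh : h ∈ allHubs acc rs) :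
    ug acc rs D h ≠ (gadgets (rs ++ unlock acc rs) D).length - 1 := by
  have := ug_lt' D hh
  rw [gadgets_eq, List.length_append]
  simp only [List.length_singleton]
  omega

theorem getD_ug {acc h : Hub} {rs : List Rule} (D : ℕ) (hh : h ∈ allHubs acc rs) :
    (gadgets (rs ++ unlock acc rs) D).getD (ug acc rs D h) (tgtRule, 0) = (ur acc h, 0) := by
  have h1 := ug_lt D hh
  rw [List.getD_eq_getElem _ _ h1]
  exact List.getElem_idxOf h1

theorem armOf_ug {acc h : Hub} {rs : List Rule} (D : ℕ) (hh : h ∈ allHubs acc rs) (a : ℕ) :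
    armOf (rs ++ unlock acc rs) D (ug acc rs D h) a =
      ([(acc, 1, 0), (acc, 1, 0), (h, 3, 4)] : List Atom).getD a ((4, 0), 3, 4) := by
  unfold armOf
  rw [getD_ug D hh]
  rfl

/-- every rule of a gadget has its hubs among `allHubs` -/
theorem hub_mem {acc : Hub} {rs : List Rule} {D g a : ℕ}
    (hg : g < (gadgets (rs ++ unlock acc rs) D).length)
    (ha : a < (Rule.arms ((gadgets (rs ++ unlock acc rs) D).getD g (tgtRule, 0)).1).length) :
    (armOf (rs ++ unlock acc rs) D g a).1 ∈ allHubs acc rs := by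
  unfold armOf
  rw [List.getD_eq_getElem _ _ ha]
  have hx := List.getElem_mem ha
  generalize (Rule.arms ((gadgets (rs ++ unlock acc rs) D).getD g (tgtRule, 0)).1)[a] = x at hx
  rw [List.getD_eq_getElem _ _ hg] at hx
  have hy := List.getElem_mem hg
  generalize (gadgets (rs ++ unlock acc rs) D)[g] = y at hx hy
  rw [gadgets_eq] at hy
  rcases List.mem_append.1 hy with hy | hy
  · unfold gad0 at hy
    obtain ⟨r, hr, hy⟩ := List.mem_flatMap.1 hy
    have hyr : y.1 = r := by
      split_ifs at hy
      · obtain ⟨f, -, rfl⟩ := List.mem_map.1 hy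
        rfl
      · rw [List.mem_singleton] at hy
        subst hy
        rfl
    rw [hyr] at hx
    have hx' : x ∈ r.1 ++ [r.2] := by
      unfold Rule.arms at hx
      rcases List.mem_append.1 hx with hx | hx
      · obtain ⟨b, hb, hx⟩ := List.mem_flatMap.1 hx
        refine List.mem_append_left _ ?_
        simp only [List.mem_cons, List.not_mem_nil, or_false, or_self] at hx
        subst hx
        exact hb
      · exact List.mem_append_right _ hx
    rcases List.mem_append.1 hr with hr | hr
    · refine List.mem_append_left _ ?_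
      unfold hubsOf
      exact List.mem_flatMap.2 ⟨r, hr, List.mem_map.2 ⟨x, hx', rfl⟩⟩
    · unfold unlock at hr
      obtain ⟨h, hh, rfl⟩ := List.mem_map.1 hr
      simp only [List.cons_append, List.nil_append, List.mem_cons, List.not_mem_nil,
        or_false] at hx'
      rcases hx' with rfl | rfl
      · exact List.mem_append_right _ (List.mem_cons_self ..)
      · exact hh
  · rw [List.mem_singleton] at hy
    subst hy
    simp only [Rule.arms, tgtRule, List.flatMap_nil, List.nil_append, List.mem_singleton] at hx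
    subst hx
    exact List.mem_append_right _ (List.mem_cons_of_mem _ (List.mem_cons_self ..))

theorem sel_zero (c : ℕ) : sel c (0, 0, 0, 0) = 0 := by
  unfold sel
  split_ifs <;> rfl

/-- letters have small components -/
theorem letters_bd {B D f j : ℕ} (hB : 2 ≤ B) {x : Let} (hx : x ∈ letters B D f j) (c : ℕ) :
    sel c x < B := by
  unfold letters at hx
  have h0 : sel c (0, 0, 0, 0) < B := by
    rw [sel_zero]
    omega
  by_cases hj : j = 0 ∨ D < j
  · rw [if_pos hj, List.mem_singleton] at hx
    rw [hx]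
    exact h0
  · rw [if_neg hj] at hx
    obtain ⟨p, hp, hx⟩ := List.mem_flatMap.1 hx
    obtain ⟨a, ha, hx⟩ := List.mem_flatMap.1 hx
    obtain ⟨b, hb, rfl⟩ := List.mem_map.1 hx
    have ha' := List.mem_range.1 ha
    have hb' := List.mem_range.1 hb
    have hp' : p.1 < B ∧ p.2 < B := by
      split_ifs at hp
      · obtain ⟨d, hd, rfl⟩ := List.mem_map.1 hp
        have := List.mem_range.1 hd
        refine ⟨?_, ?_⟩ <;> dsimp only <;> omega
      · rw [List.mem_singleton] at hp
        subst hp
        refine ⟨?_, ?_⟩ <;> dsimp only <;> omega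
      · obtain ⟨d, hd, rfl⟩ := List.mem_map.1 hp
        have := List.mem_range.1 hd
        refine ⟨?_, ?_⟩ <;> dsimp only <;> omega
      · obtain ⟨d, hd, rfl⟩ := List.mem_map.1 hp
        have := List.mem_range.1 hd
        refine ⟨?_, ?_⟩ <;> dsimp only <;> omega
    unfold sel
    split_ifs
    · exact hp'.1
    · exact hp'.2
    · exact ha'
    · exact hb'
    · omega

theorem letters_triv {B D f j : ℕ} (hj : j = 0 ∨ D < j) : letters B D f j = [(0, 0, 0, 0)] := by
  unfold letters
  rw [if_pos hj]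

theorem mem_letters_zero {B D j d a b : ℕ} (hj : ¬ (j = 0 ∨ D < j)) (hd : d < B) (ha : a < B)
    (hb : b < B) : (d, 0, a, b) ∈ letters B D 0 j := by
  unfold letters
  rw [if_neg hj, if_pos rfl]
  refine List.mem_flatMap.2 ⟨(d, 0), List.mem_map.2 ⟨d, List.mem_range.2 hd, rfl⟩, ?_⟩
  exact List.mem_flatMap.2 ⟨a, List.mem_range.2 ha, List.mem_map.2 ⟨b, List.mem_range.2 hb, rfl⟩⟩

/-- lifting a hub letter to the unlocking gadget -/
def lift (B D t : ℕ) (_h : Hub) (j : ℕ) (y : Let) : Let :=
  if j = 0 ∨ D < j then (0, 0, 0, 0) else (t / B ^ (j - 1) % B, 0, y.1, y.2.1)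

theorem dig_lift (B D t : ℕ) (h : Hub) (y : ℕ → Let) :
    (fun j => ((sel 1 (lift B D t h j (y j)), sel 0 (lift B D t h j (y j)), 0, 0) : Let)) =
      dig B D t 0 := by
  funext j
  unfold dig lift
  by_cases hj : j = 0 ∨ D < j
  · rw [if_pos hj, if_pos hj]
    rfl
  · rw [if_neg hj, if_neg hj]
    simp [sel]

theorem unlocked (rs : List Rule) (B D : ℕ) (hB : 2 ≤ B) (_hD : 1 ≤ D) (acc : Hub)
    (t : ℕ) (hder : (ruleNet (rs ++ unlock acc rs) B D).Der acc (dig B D t 0)) :
    ∃ ug lift, (ruleNet (rs ++ unlock acc rs) B D).Unlocked ug lift := by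
  refine ⟨ug acc rs D, lift B D t, ?_⟩
  have hm : ∀ g < (ruleNet (rs ++ unlock acc rs) B D).nG,
      ∀ a < (ruleNet (rs ++ unlock acc rs) B D).narm g,
      (ruleNet (rs ++ unlock acc rs) B D).hub g a ∈ allHubs acc rs :=
    fun g hg a ha => hub_mem hg ha
  refine ⟨?_, ?_, ?_, ?_, ?_, ?_, ?_, ?_, ?_⟩
  · intro g hg a ha
    exact ug_lt D (hm g hg a ha)
  · intro g hg a ha
    exact ug_ne D (hm g hg a ha)
  · intro g hg a ha
    show (Rule.arms ((gadgets (rs ++ unlock acc rs) D).getD
      (ug acc rs D ((ruleNet (rs ++ unlock acc rs) B D).hub g a)) (tgtRule, 0)).1).length = 3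
    rw [getD_ug D (hm g hg a ha)]
    rfl
  · intro g hg a ha
    show (armOf (rs ++ unlock acc rs) D
      (ug acc rs D ((ruleNet (rs ++ unlock acc rs) B D).hub g a)) 2).1 = _
    rw [armOf_ug D (hm g hg a ha)]
    rfl
  · intro g hg a ha
    show (armOf (rs ++ unlock acc rs) D
      (ug acc rs D ((ruleNet (rs ++ unlock acc rs) B D).hub g a)) 0).1 =
      (armOf (rs ++ unlock acc rs) D
      (ug acc rs D ((ruleNet (rs ++ unlock acc rs) B D).hub g a)) 1).1
    rw [armOf_ug D (hm g hg a ha), armOf_ug D (hm g hg a ha)]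
    rfl
  · intro g hg a ha
    funext q
    show (sel (armOf (rs ++ unlock acc rs) D
      (ug acc rs D ((ruleNet (rs ++ unlock acc rs) B D).hub g a)) 0).2.1 q,
      sel (armOf (rs ++ unlock acc rs) D
      (ug acc rs D ((ruleNet (rs ++ unlock acc rs) B D).hub g a)) 0).2.2 q, 0, 0) =
      (sel (armOf (rs ++ unlock acc rs) D
      (ug acc rs D ((ruleNet (rs ++ unlock acc rs) B D).hub g a)) 1).2.1 q,
      sel (armOf (rs ++ unlock acc rs) D
      (ug acc rs D ((ruleNet (rs ++ unlock acc rs) B D).hub g a)) 1).2.2 q, 0, 0)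
    rw [armOf_ug D (hm g hg a ha), armOf_ug D (hm g hg a ha)]
    rfl
  · intro g hg a ha j x hx
    show _ ∈ letters B D ((gadgets (rs ++ unlock acc rs) D).getD
      (ug acc rs D ((ruleNet (rs ++ unlock acc rs) B D).hub g a)) (tgtRule, 0)).2 j
    rw [getD_ug D (hm g hg a ha)]
    have hx' : x ∈ letters B D ((gadgets (rs ++ unlock acc rs) D).getD g (tgtRule, 0)).2 j := hx
    by_cases hj : j = 0 ∨ D < j
    · unfold lift
      rw [if_pos hj, letters_triv hj]
      exact List.mem_singleton.2 rfl
    · unfold lift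
      rw [if_neg hj]
      exact mem_letters_zero hj (Nat.mod_lt _ (by omega)) (letters_bd hB hx' _)
        (letters_bd hB hx' _)
  · intro g hg a ha j x hx
    have hx' : x ∈ letters B D ((gadgets (rs ++ unlock acc rs) D).getD g (tgtRule, 0)).2 j := hx
    show (sel (armOf (rs ++ unlock acc rs) D
      (ug acc rs D ((ruleNet (rs ++ unlock acc rs) B D).hub g a)) 2).2.1 _,
      sel (armOf (rs ++ unlock acc rs) D
      (ug acc rs D ((ruleNet (rs ++ unlock acc rs) B D).hub g a)) 2).2.2 _, 0, 0) =
      (sel (armOf (rs ++ unlock acc rs) D g a).2.1 x,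
       sel (armOf (rs ++ unlock acc rs) D g a).2.2 x, 0, 0)
    rw [armOf_ug D (hm g hg a ha)]
    show (sel 3 (lift B D t _ j (sel (armOf (rs ++ unlock acc rs) D g a).2.1 x,
       sel (armOf (rs ++ unlock acc rs) D g a).2.2 x, 0, 0)),
      sel 4 (lift B D t _ j (sel (armOf (rs ++ unlock acc rs) D g a).2.1 x,
       sel (armOf (rs ++ unlock acc rs) D g a).2.2 x, 0, 0)), 0, 0) = _
    by_cases hj : j = 0 ∨ D < j
    · rw [letters_triv hj, List.mem_singleton] at hx'
      subst hx'
      unfold lift
      rw [if_pos hj]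
      simp only [sel_zero]
    · unfold lift
      rw [if_neg hj]
      rfl
  · intro g hg a ha x hx
    have h1 : (ruleNet (rs ++ unlock acc rs) B D).hub
        (ug acc rs D ((ruleNet (rs ++ unlock acc rs) B D).hub g a)) 0 = acc := by
      show (armOf (rs ++ unlock acc rs) D
        (ug acc rs D ((ruleNet (rs ++ unlock acc rs) B D).hub g a)) 0).1 = _
      rw [armOf_ug D (hm g hg a ha)]
      rfl
    have h2 : ∀ q, (ruleNet (rs ++ unlock acc rs) B D).proj
        (ug acc rs D ((ruleNet (rs ++ unlock acc rs) B D).hub g a)) 0 q =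
        (sel 1 q, sel 0 q, 0, 0) := by
      intro q
      show (sel (armOf (rs ++ unlock acc rs) D
        (ug acc rs D ((ruleNet (rs ++ unlock acc rs) B D).hub g a)) 0).2.1 q,
        sel (armOf (rs ++ unlock acc rs) D
        (ug acc rs D ((ruleNet (rs ++ unlock acc rs) B D).hub g a)) 0).2.2 q, 0, 0) = _
      rw [armOf_ug D (hm g hg a ha)]
      rfl
    rw [h1]
    have h3 := dig_lift B D t ((ruleNet (rs ++ unlock acc rs) B D).hub g a)
      (fun j => (ruleNet (rs ++ unlock acc rs) B D).proj g a (x j))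
    simp only [h2]
    rw [h3]
    exact hder

theorem der_tgt (rs : List Rule) (B D : ℕ) (hB : 2 ≤ B) (_hD : 1 ≤ D) (acc : Hub)
    (t : ℕ) (hder : (ruleNet (rs ++ unlock acc rs) B D).Der acc (dig B D t 0)) :
    ∃ x, (ruleNet (rs ++ unlock acc rs) B D).Content (ruleNet (rs ++ unlock acc rs) B D).gt x ∧
      (ruleNet (rs ++ unlock acc rs) B D).Der
        ((ruleNet (rs ++ unlock acc rs) B D).hub (ruleNet (rs ++ unlock acc rs) B D).gt 0)
        (fun j => (ruleNet (rs ++ unlock acc rs) B D).proj
          (ruleNet (rs ++ unlock acc rs) B D).gt 0 (x j)) := by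
  have hlast : (gadgets (rs ++ unlock acc rs) D).getD
      ((gadgets (rs ++ unlock acc rs) D).length - 1) (tgtRule, 0) = (tgtRule, 0) := by
    rw [gadgets_eq]
    simp
  have hz : ∀ (f j : ℕ), f = 0 → (0, 0, 0, 0) ∈ letters B D f j := by
    intro f j hf
    subst hf
    by_cases hj : j = 0 ∨ D < j
    · rw [letters_triv hj]
      exact List.mem_singleton.2 rfl
    · exact mem_letters_zero hj (by omega) (by omega) (by omega)
  have hmem : ((4, 0) : Hub) ∈ allHubs acc rs :=
    List.mem_append_right _ (List.mem_cons_of_mem _ (List.mem_cons_self ..))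
  refine ⟨fun _ => (0, 0, 0, 0), ?_, ?_⟩
  · intro j
    show (0, 0, 0, 0) ∈ letters B D ((gadgets (rs ++ unlock acc rs) D).getD
      ((gadgets (rs ++ unlock acc rs) D).length - 1) (tgtRule, 0)).2 j
    rw [hlast]
    exact hz _ _ rfl
  · have hg0 : (ruleNet (rs ++ unlock acc rs) B D).hub
        (ruleNet (rs ++ unlock acc rs) B D).gt 0 = (4, 0) := by
      show (armOf (rs ++ unlock acc rs) D
        ((gadgets (rs ++ unlock acc rs) D).length - 1) 0).1 = _
      unfold armOf
      rw [hlast]
      rfl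
    have hp0 : ∀ q, (ruleNet (rs ++ unlock acc rs) B D).proj
        (ruleNet (rs ++ unlock acc rs) B D).gt 0 q = (sel 3 q, sel 4 q, 0, 0) := by
      intro q
      show (sel (armOf (rs ++ unlock acc rs) D
        ((gadgets (rs ++ unlock acc rs) D).length - 1) 0).2.1 q,
        sel (armOf (rs ++ unlock acc rs) D
        ((gadgets (rs ++ unlock acc rs) D).length - 1) 0).2.2 q, 0, 0) = _
      unfold armOf
      rw [hlast]
      rfl
    rw [hg0]
    simp only [hp0, sel_zero]
    -- the unlocking gadget of the target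
    have hhub : ∀ a, (ruleNet (rs ++ unlock acc rs) B D).hub (ug acc rs D (4, 0)) a =
        (([(acc, 1, 0), (acc, 1, 0), ((4, 0), 3, 4)] : List Atom).getD a ((4, 0), 3, 4)).1 := by
      intro a
      show (armOf (rs ++ unlock acc rs) D (ug acc rs D (4, 0)) a).1 = _
      rw [armOf_ug D hmem]
    have hproj : ∀ a q, (ruleNet (rs ++ unlock acc rs) B D).proj (ug acc rs D (4, 0)) a q =
        (sel (([(acc, 1, 0), (acc, 1, 0), ((4, 0), 3, 4)] : List Atom).getD a
          ((4, 0), 3, 4)).2.1 q,
        sel (([(acc, 1, 0), (acc, 1, 0), ((4, 0), 3, 4)] : List Atom).getD a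
          ((4, 0), 3, 4)).2.2 q, 0, 0) := by
      intro a q
      show (sel (armOf (rs ++ unlock acc rs) D (ug acc rs D (4, 0)) a).2.1 q,
        sel (armOf (rs ++ unlock acc rs) D (ug acc rs D (4, 0)) a).2.2 q, 0, 0) = _
      rw [armOf_ug D hmem]
    have hnarm : (ruleNet (rs ++ unlock acc rs) B D).narm (ug acc rs D (4, 0)) = 3 := by
      show (Rule.arms ((gadgets (rs ++ unlock acc rs) D).getD
        (ug acc rs D (4, 0)) (tgtRule, 0)).1).length = 3
      rw [getD_ug D hmem]
      rfl
    have hcontent : (ruleNet (rs ++ unlock acc rs) B D).Content (ug acc rs D (4, 0))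
        (fun j => lift B D t (4, 0) j (0, 0, 0, 0)) := by
      intro j
      show _ ∈ letters B D ((gadgets (rs ++ unlock acc rs) D).getD
        (ug acc rs D (4, 0)) (tgtRule, 0)).2 j
      rw [getD_ug D hmem]
      by_cases hj : j = 0 ∨ D < j
      · simp only [lift, if_pos hj, letters_triv hj]
        exact List.mem_singleton.2 rfl
      · simp only [lift, if_neg hj]
        exact mem_letters_zero hj (Nat.mod_lt _ (by omega)) (by omega) (by omega)
    have key := Net.Der.mk (N := ruleNet (rs ++ unlock acc rs) B D) (ug acc rs D (4, 0))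
      (fun j => lift B D t (4, 0) j (0, 0, 0, 0)) 2 (ug_lt D hmem) (ug_ne D hmem) hcontent
      (by rw [hnarm]; omega) (by
        intro a' ha' hne
        rw [hnarm] at ha'
        have hlow : a' = 0 ∨ a' = 1 := by omega
        have hdl := dig_lift B D t (4, 0) (fun _ => (0, 0, 0, 0))
        rcases hlow with rfl | rfl
        · simp only [hhub, hproj]
          show (ruleNet (rs ++ unlock acc rs) B D).Der acc
            (fun j => (sel 1 (lift B D t (4, 0) j (0, 0, 0, 0)),
              sel 0 (lift B D t (4, 0) j (0, 0, 0, 0)), 0, 0))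
          rw [hdl]
          exact hder
        · simp only [hhub, hproj]
          show (ruleNet (rs ++ unlock acc rs) B D).Der acc
            (fun j => (sel 1 (lift B D t (4, 0) j (0, 0, 0, 0)),
              sel 0 (lift B D t (4, 0) j (0, 0, 0, 0)), 0, 0))
          rw [hdl]
          exact hder)
    have h5 : (fun j => (ruleNet (rs ++ unlock acc rs) B D).proj (ug acc rs D (4, 0)) 2
        (lift B D t (4, 0) j (0, 0, 0, 0))) = fun _ => ((0, 0, 0, 0) : Let) := by
      funext j
      rw [hproj]
      show (sel 3 (lift B D t (4, 0) j (0, 0, 0, 0)),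
        sel 4 (lift B D t (4, 0) j (0, 0, 0, 0)), 0, 0) = _
      by_cases hj : j = 0 ∨ D < j
      · simp only [lift, if_pos hj, sel_zero]
      · simp only [lift, if_neg hj]
        rfl
    rw [h5, hhub] at key
    exact key

end RulesUnl

end Crest.Agent.R290
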