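import Crest.Agent.R290.WL
import Crest.Agent.R290.AGBridge
import Crest.Agent.R290.EncA1
import Crest.Agent.R290.EncA2
import Crest.Agent.R290.EncA3
import Crest.Agent.R290.NetWF
import Crest.Agent.R290.NetD
import Crest.Agent.R290.NetSp
import Crest.Agent.R290.NetId
import Crest.Agent.R290.Rules
import Crest.Agent.R290.RulesUnl
import Crest.Agent.R290.RulesNS
import Crest.Agent.R290.Prog

/-!
# Row 290: assembly of the combinatorial part, anchor encoding (`coreA`).
-/

set_option autoImplicit false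

namespace Crest.Agent.R290

open Crest.WLRefine
open Crest.Agent.R290.WL (PEquiv)

/-- transport of a matrix along an equality of orders -/
def castG {k n : ℕ} (h : k = n) (G : Fin k → Fin k → Bool) : Fin n → Fin n → Bool :=
  fun i j => G (Fin.cast h.symm i) (Fin.cast h.symm j)

theorem castG_rfl {k : ℕ} (G : Fin k → Fin k → Bool) : castG rfl G = G := rfl

theorem castG_code {k n : ℕ} (h : k = n) (G : Fin k → Fin k → Bool) :
    adjMatrixCode (castG h G) = adjMatrixCode G := by subst h; rfl

theorem castG_diam {k n : ℕ} (h : k = n) (G : Fin k → Fin k → Bool)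
    (hG : SimpleConnDiamTwo G) : SimpleConnDiamTwo (castG h G) := by subst h; exact hG

theorem castG_sub {k n : ℕ} (h : k = n) (G : Fin k → Fin k → Bool)
    (hG : SimpleConnSubcubic G) : SimpleConnSubcubic (castG h G) := by subst h; exact hG

theorem castG_pequiv {k n k' n' K : ℕ} (h : k = n) (h' : k' = n') (G : Fin k → Fin k → Bool)
    (G' : Fin k' → Fin k' → Bool) :
    PEquiv K (castG h G) (castG h' G') ↔ PEquiv K G G' := by subst h; subst h'; exact Iff.rfl

theorem castG_pequiv_right {k k' n' K : ℕ} (h' : k' = n') (G : Fin k → Fin k → Bool)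
    (G' : Fin k' → Fin k' → Bool) :
    PEquiv K G (castG h' G') ↔ PEquiv K G G' := by subst h'; exact Iff.rfl

theorem castG_iso {k n k' n' : ℕ} (h : k = n) (h' : k' = n') (G : Fin k → Fin k → Bool)
    (G' : Fin k' → Fin k' → Bool) :
    AdjIso (castG h G) (castG h' G') ↔ AdjIso G G' := by subst h; subst h'; exact Iff.rfl

theorem castG_ident {k n K : ℕ} (h : k = n) (G : Fin k → Fin k → Bool) :
    Identifies K (castG h G) ↔ Identifies K G := by subst h; exact Iff.rfl

theorem AdjIso.trans' {n m l : ℕ} {A : Fin n → Fin n → Bool} {B : Fin m → Fin m → Bool}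
    {C : Fin l → Fin l → Bool} (h : AdjIso A B) (h' : AdjIso B C) : AdjIso A C := by
  obtain ⟨e, he⟩ := h
  obtain ⟨f, hf⟩ := h'
  exact ⟨e.trans f, fun v w => by rw [Equiv.trans_apply, Equiv.trans_apply, hf, he]⟩

theorem AdjIso.symm' {n m : ℕ} {A : Fin n → Fin n → Bool} {B : Fin m → Fin m → Bool}
    (h : AdjIso A B) : AdjIso B A := by
  obtain ⟨e, he⟩ := h
  exact ⟨e.symm, fun v w => by rw [← he, Equiv.apply_symm_apply, Equiv.apply_symm_apply]⟩

section

variable (p : Flat) (Ks B D : ℕ)

theorem progNet_OK (hB : 2 ≤ B) (hD : 1 ≤ D) : (progNet p Ks B D).OK := ruleNet_OK _ B D hB hD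

theorem progXI_OK (hB : 2 ≤ B) (hD : 1 ≤ D) : (progXI p Ks B D).OK :=
  Net.xi_OK _ (progNet_OK p Ks B D hB hD)

/-- halting case: no shift system for the twist -/
theorem prog_not_shiftEquiv (hp : WF p Ks) (hB : 2 ≤ B) (hD : 1 ≤ D)
    (h : ∃ t < B ^ D, FHalts p t) :
    ¬ ShiftEquiv (progXI p Ks B D).objs (progXI p Ks B D).ports (progNet p Ks B D).beta (D + 2) := by
  obtain ⟨t, ht, hh⟩ := h
  obtain ⟨t', ht', hd⟩ := rder_of_halts p Ks hp (B ^ D) t ht hh
  obtain ⟨x, hx, hder⟩ := ruleNet_der_tgt (progRules p Ks) B D hB hD (0, p.length) t' ht' hd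
  exact Net.not_shiftEquiv_of_der _ (progNet_OK p Ks B D hB hD) x hx hder

/-- halting case: every consistent parity function is a coboundary -/
theorem prog_solution (hp : WF p Ks) (hB : 2 ≤ B) (hD : 1 ≤ D)
    (h : ∃ t < B ^ D, FHalts p t) (b : NObj Let → Bool)
    (hb : ShiftEquiv (progXI p Ks B D).objs (progXI p Ks B D).ports b (D + 2)) :
    ∃ s, IsSol (progXI p Ks B D).objs (progXI p Ks B D).ports b s := by
  obtain ⟨t, ht, hh⟩ := h
  obtain ⟨t', ht', hd⟩ := rder_of_halts p Ks hp (B ^ D) t ht hh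
  obtain ⟨ug, lift, hu⟩ := ruleNet_unlocked (progRules p Ks) B D hB hD (0, p.length) t' ht' hd
  exact Net.solution_of_unlocked _ (progNet_OK p Ks B D hB hD) hu b hb

/-- running case: a shift system for the twist -/
theorem prog_shiftEquiv (hp : WF p Ks) (hB : 2 ≤ B) (hD : 1 ≤ D) (h : RunsForever p) :
    ShiftEquiv (progXI p Ks B D).objs (progXI p Ks B D).ports (progNet p Ks B D).beta (D + 2) := by
  obtain ⟨Tr, hTr, hno⟩ := closed_of_runsForever p Ks hp h (B ^ D)
  obtain ⟨Kn, val, hcl⟩ := ruleNet_closed (progRules p Ks) B D hB hD (0, p.length)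
    (by simp) (progRules_hubs p Ks) Tr hTr hno
  exact Net.shiftEquiv_of_closed _ (progNet_OK p Ks B D hB hD) hcl

theorem prog_no_solution (hB : 2 ≤ B) (hD : 1 ≤ D) :
    ¬ ∃ s, IsSol (progXI p Ks B D).objs (progXI p Ks B D).ports (progNet p Ks B D).beta s :=
  ruleNet_no_solution (progRules p Ks) B D hB hD (0, p.length)

end

/-- isomorphic lifts have a global solution -/
theorem solution_of_encA_iso {O X : Type} [DecidableEq O] [DecidableEq X] (I : XI O X) (hI : I.OK)
    (D : ℕ) (hD : (encA I 0).order (fun _ => false) + 2 ≤ D) (b : O → Bool)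
    (h : AdjIso ((encA I D).mat fun _ => false) ((encA I D).mat (bA b))) :
    ∃ s : X → Bool, IsSol I.objs I.ports b s :=
  sol_of_adjIso_of_shift hI.ports_nodup
    (fun K hK hP => shift_of_encA_pequiv I hI D hD b K hK hP) h

theorem coreA (p : Flat) (Ks B D pad : ℕ) (hp : WF p Ks) (hB : 2 ≤ B) (hD : 1 ≤ D)
    (hpad : baseOrder p Ks B D + 2 ≤ pad) :
    ∃ (n : ℕ) (G0 G1 : Fin n → Fin n → Bool), n = baseOrder p Ks B D + pad ∧
      SimpleConnDiamTwo G0 ∧ SimpleConnDiamTwo G1 ∧
      adjMatrixCode G0 = graphA p Ks B D pad false ∧ adjMatrixCode G1 = graphA p Ks B D pad true ∧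
      ((∃ t < B ^ D, FHalts p t) →
        ¬ JEquiv (D + 1) G0 G1 ∧ ¬ SEquiv (D + 2) G0 G1 ∧ Identifies (D + 1) G0) ∧
      (RunsForever p → JEquiv (D + 1) G0 G1 ∧ SEquiv (D + 2) G0 G1 ∧
        ∀ k', 1 ≤ k' → k' ≤ D + 1 → ¬ Identifies k' G0) := by
  have hI := progXI_OK p Ks B D hB hD
  have h0 : (encA (progXI p Ks B D) pad).order (fun _ => false) = baseOrder p Ks B D + pad := by
    have := encA_order (progXI p Ks B D) hI pad (fun _ => false)
    rw [bA_false] at this
    exact this
  have h1 : (encA (progXI p Ks B D) pad).order (bA (progNet p Ks B D).beta) =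
      baseOrder p Ks B D + pad := encA_order (progXI p Ks B D) hI pad _
  have hG0 : SimpleConnDiamTwo ((encA (progXI p Ks B D) pad).mat fun _ => false) := by
    have := encA_simple (progXI p Ks B D) hI pad (fun _ => false)
    rwa [bA_false] at this
  have hG1 := encA_simple (progXI p Ks B D) hI pad (progNet p Ks B D).beta
  refine ⟨_, castG h0 ((encA (progXI p Ks B D) pad).mat fun _ => false),
    castG h1 ((encA (progXI p Ks B D) pad).mat (bA (progNet p Ks B D).beta)), rfl,
    castG_diam h0 _ hG0, castG_diam h1 _ hG1, ?_, ?_, ?_, ?_⟩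
  · rw [castG_code, AG.adjMatrixCode_mat]
    unfold graphA
    simp only [Bool.false_and]
    rw [bA_false]
  · rw [castG_code, AG.adjMatrixCode_mat]
    unfold graphA
    simp only [Bool.true_and]
  · intro hh
    have hnp : ¬ PEquiv (D + 2) ((encA (progXI p Ks B D) pad).mat fun _ => false)
        ((encA (progXI p Ks B D) pad).mat (bA (progNet p Ks B D).beta)) := fun hP =>
      prog_not_shiftEquiv p Ks B D hp hB hD hh
        (shift_of_encA_pequiv _ hI pad hpad _ (D + 2) (by omega) hP)
    refine ⟨fun hJ => ?_, fun hS => ?_, ?_⟩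
    · exact hnp ((castG_pequiv h0 h1 _ _).1 ((WL.jequiv_iff (by omega)).1 hJ))
    · exact hnp ((castG_pequiv h0 h1 _ _).1 ((WL.sequiv_iff (by omega)).1 hS))
    · rw [castG_ident]
      intro m H hH hWL
      unfold WLEquiv at hWL
      rw [if_neg (by omega)] at hWL
      have hP := (WL.jequiv_iff (by omega)).1 hWL
      obtain ⟨b, hb⟩ := encA_reconstruct _ hI pad hpad (D + 2) (by omega) H hH hP
      have hP2 : PEquiv (D + 2) ((encA (progXI p Ks B D) pad).mat fun _ => false)
          ((encA (progXI p Ks B D) pad).mat (bA b)) :=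
        hP.trans (WL.AdjIso.pequiv (D + 2) (AdjIso.symm' hb))
      have hS := shift_of_encA_pequiv _ hI pad hpad b (D + 2) (by omega) hP2
      obtain hs := prog_solution p Ks B D hp hB hD hh b hS
      exact AdjIso.trans' (encA_iso_of_solution _ hI pad b hs) hb
  · intro hr
    have hP := encA_pequiv_of_shift _ hI pad _ (D + 2) (prog_shiftEquiv p Ks B D hp hB hD hr)
    have hP' := (castG_pequiv h0 h1 _ _).2 hP
    refine ⟨(WL.jequiv_iff (by omega)).2 hP', (WL.sequiv_iff (by omega)).2 hP', ?_⟩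
    intro k' hk1 hk2 hid
    have hiso := hid _ _ (castG_diam h1 _ hG1).1 (WL.PEquiv.wlEquiv (k := D + 1) hk1 hk2 hP')
    rw [castG_iso] at hiso
    exact prog_no_solution p Ks B D hB hD (solution_of_encA_iso _ hI pad hpad _ hiso)

end Crest.Agent.R290
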