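import Crest.Agent.R290.AGBridge
import Crest.Agent.R290.NetWF

/-!
# Row 290, ENCS-2: order and Duplicator side of the subcubic encoding `encS`.
-/

set_option autoImplicit false
set_option linter.unusedSectionVars false

namespace Crest.Agent.R290

open Crest.WLRefine
open Crest.Agent.R290.WL (PEquiv)

namespace EncS2

section subdiv

variable {C X : Type} [DecidableEq C] [DecidableEq X] (G : BG C X)

theorem mem_cls {c : C ⊕ (ℕ × ℕ)} : c ∈ (subdiv G).cls ↔
    (∃ c' ∈ G.cls, c = Sum.inl c') ∨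
      ∃ k j, k < G.es.length ∧ j < k + 2 ∧ c = Sum.inr (k, j) := by
  simp only [subdiv, List.mem_append, List.mem_map, List.mem_flatMap, List.mem_range]
  constructor
  · rintro (⟨c', h, rfl⟩ | ⟨k, hk, j, hj, rfl⟩)
    · exact Or.inl ⟨c', h, rfl⟩
    · exact Or.inr ⟨k, j, hk, hj, rfl⟩
  · rintro (⟨c', h, rfl⟩ | ⟨k, j, hk, hj, rfl⟩)
    · exact Or.inl ⟨c', h, rfl⟩
    · exact Or.inr ⟨k, hk, j, hj, rfl⟩

theorem cls_nodup (h : G.cls.Nodup) : (subdiv G).cls.Nodup := by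
  change (G.cls.map Sum.inl ++
    (List.range G.es.length).flatMap fun k =>
      (List.range (k + 2)).map fun j => (Sum.inr (k, j) : C ⊕ (ℕ × ℕ))).Nodup
  rw [List.nodup_append']
  refine ⟨h.map Sum.inl_injective, ?_, ?_⟩
  · refine nodup_flatMap_key (fun c => Sum.elim (fun _ => 0) (fun p => p.1) c) List.nodup_range ?_ ?_
    · intro k _
      refine List.nodup_range.map ?_
      intro a b hab
      simpa using hab
    · intro k _ c hc
      rw [List.mem_map] at hc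
      obtain ⟨j, _, rfl⟩ := hc
      rfl
  · intro c hc hc'
    rw [List.mem_map] at hc
    rw [List.mem_flatMap] at hc'
    obtain ⟨c1, _, rfl⟩ := hc
    obtain ⟨k, _, hc'⟩ := hc'
    rw [List.mem_map] at hc'
    obtain ⟨j, _, hj⟩ := hc'
    exact absurd hj (by simp)

@[simp] theorem vars_inl (c : C) : (subdiv G).vars (Sum.inl c) = G.vars c := rfl

@[simp] theorem con_inl (c : C) : (subdiv G).con (Sum.inl c) = G.con c := rfl

theorem vars_inr {k : ℕ} (j : ℕ) (hk : k < G.es.length) :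
    (subdiv G).vars (Sum.inr (k, j)) = G.vars (G.es[k]).1 := by
  change (match G.es[k]? with
      | some e => G.vars e.1
      | none => []) = _
  rw [List.getElem?_eq_getElem hk]

theorem con_inr {k : ℕ} (j : ℕ) (hk : k < G.es.length) :
    (subdiv G).con (Sum.inr (k, j)) = G.con (G.es[k]).1 := by
  change (match G.es[k]? with
      | some e => G.con e.1
      | none => false) = _
  rw [List.getElem?_eq_getElem hk]

@[simp] theorem bSub_inl (b : C → Bool) (c : C) : bSub G b (Sum.inl c) = b c := rfl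

theorem bSub_inr (b : C → Bool) {k : ℕ} (j : ℕ) (hk : k < G.es.length) :
    bSub G b (Sum.inr (k, j)) = b (G.es[k]).1 := by
  change (match G.es[k]? with
      | some e => b e.1
      | none => false) = _
  rw [List.getElem?_eq_getElem hk]

/-- The base class of a class of the subdivision (an end class of the edge). -/
def bcl (c : C ⊕ (ℕ × ℕ)) (d : C) : C :=
  match c with
  | .inl c => c
  | .inr (k, _) => match G.es[k]? with
    | some e => e.1
    | none => d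

/-- Every class of the subdivision copies variables, constraint and parity of a base class. -/
theorem bcl_spec (hes : ∀ e ∈ G.es, e.1 ∈ G.cls) (d : C) {c : C ⊕ (ℕ × ℕ)}
    (hc : c ∈ (subdiv G).cls) :
    bcl G c d ∈ G.cls ∧ (subdiv G).vars c = G.vars (bcl G c d) ∧
      (subdiv G).con c = G.con (bcl G c d) ∧ ∀ b, bSub G b c = b (bcl G c d) := by
  rcases (mem_cls G).1 hc with ⟨c', hc', rfl⟩ | ⟨k, j, hk, _, rfl⟩
  · exact ⟨hc', rfl, rfl, fun _ => rfl⟩
  · have e : bcl G (Sum.inr (k, j)) d = (G.es[k]).1 := by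
      change (match G.es[k]? with
          | some e => e.1
          | none => d) = _
      rw [List.getElem?_eq_getElem hk]
    rw [e]
    exact ⟨hes _ (List.getElem_mem hk), vars_inr G j hk, con_inr G j hk, fun b => bSub_inr G b j hk⟩

end subdiv

section base

variable {O X : Type} [DecidableEq O] [DecidableEq X] (I : XI O X)

theorem mem_base_cls {c : CB O X} : c ∈ (baseS I).cls ↔
    (∃ u ∈ I.objs, ∃ i < (I.ports u).length, ∃ l < (I.ports u).length, c = Sum.inl (u, i, l)) ∨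
    (∃ u ∈ I.objs, ∃ i < (I.ports u).length, c = Sum.inr (Sum.inl (u, i))) ∨
    (∃ x ∈ I.vl, c = Sum.inr (Sum.inr (Sum.inl x))) ∨
    ∃ x ∈ I.vl, c = Sum.inr (Sum.inr (Sum.inr x)) := by
  simp only [baseS, List.mem_append, List.mem_map, List.mem_flatMap, List.mem_range]
  constructor
  · rintro (((⟨u, hu, i, hi, l, hl, rfl⟩ | ⟨u, hu, i, hi, rfl⟩) | ⟨x, hx, rfl⟩) | ⟨x, hx, rfl⟩)
    · exact Or.inl ⟨u, hu, i, hi, l, hl, rfl⟩
    · exact Or.inr (Or.inl ⟨u, hu, i, hi, rfl⟩)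
    · exact Or.inr (Or.inr (Or.inl ⟨x, hx, rfl⟩))
    · exact Or.inr (Or.inr (Or.inr ⟨x, hx, rfl⟩))
  · rintro (⟨u, hu, i, hi, l, hl, rfl⟩ | ⟨u, hu, i, hi, rfl⟩ | ⟨x, hx, rfl⟩ | ⟨x, hx, rfl⟩)
    · exact Or.inl (Or.inl (Or.inl ⟨u, hu, i, hi, l, hl, rfl⟩))
    · exact Or.inl (Or.inl (Or.inr ⟨u, hu, i, hi, rfl⟩))
    · exact Or.inl (Or.inr ⟨x, hx, rfl⟩)
    · exact Or.inr ⟨x, hx, rfl⟩

theorem mem_occ {x : X} {o : O × ℕ} :
    o ∈ I.occ x ↔ o.1 ∈ I.objs ∧ (I.ports o.1)[o.2]? = some x := by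
  obtain ⟨u, i⟩ := o
  simp only [XI.occ, List.mem_flatMap, List.mem_map, List.mem_filter, List.mem_range,
    decide_eq_true_eq, Prod.mk.injEq]
  constructor
  · rintro ⟨u', hu', i', ⟨hi', h⟩, rfl, rfl⟩
    exact ⟨hu', h⟩
  · rintro ⟨hu, h⟩
    exact ⟨u, hu, i, ⟨(List.getElem?_eq_some_iff.1 h).1, h⟩, rfl, rfl⟩

theorem mem_base_es {e : CB O X × CB O X} : e ∈ (baseS I).es ↔
    (∃ u ∈ I.objs, ∃ i, i + 1 < (I.ports u).length ∧
      e = (Sum.inl (u, i, 0), Sum.inl (u, i + 1, 0))) ∨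
    (∃ u ∈ I.objs, ∃ i < (I.ports u).length, ∃ l, l + 1 < (I.ports u).length ∧
      e = (Sum.inl (u, i, l), Sum.inl (u, i, l + 1))) ∨
    (∃ u ∈ I.objs, ∃ i < (I.ports u).length,
      e = (Sum.inl (u, i, (I.ports u).length - 1), Sum.inr (Sum.inl (u, i)))) ∨
    (∃ x ∈ I.vl, ∃ o ∈ (I.occ x).zip (I.occ x).tail,
      e = (Sum.inr (Sum.inl o.1), Sum.inr (Sum.inl o.2))) ∨
    (∃ x ∈ I.vl, ∃ o ∈ (I.occ x).take 1,
      e = (Sum.inr (Sum.inl o), Sum.inr (Sum.inr (Sum.inl x)))) ∨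
    (∃ x ∈ I.vl, e = (Sum.inr (Sum.inr (Sum.inl x)), Sum.inr (Sum.inr (Sum.inr x)))) ∨
    (∃ p ∈ I.vl.zip I.vl.tail,
      e = (Sum.inr (Sum.inr (Sum.inr p.1)), Sum.inr (Sum.inr (Sum.inr p.2)))) := by
  simp only [baseS, List.mem_append, List.mem_map, List.mem_flatMap, List.mem_range]
  constructor
  · rintro ((((((⟨u, hu, i, hi, rfl⟩ | ⟨u, hu, i, hi, l, hl, rfl⟩) | ⟨u, hu, i, hi, rfl⟩) |
      ⟨x, hx, o, ho, rfl⟩) | ⟨x, hx, o, ho, rfl⟩) | ⟨x, hx, rfl⟩) | ⟨p, hp, rfl⟩)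
    · exact Or.inl ⟨u, hu, i, by omega, rfl⟩
    · exact Or.inr (Or.inl ⟨u, hu, i, hi, l, by omega, rfl⟩)
    · exact Or.inr (Or.inr (Or.inl ⟨u, hu, i, hi, rfl⟩))
    · exact Or.inr (Or.inr (Or.inr (Or.inl ⟨x, hx, o, ho, rfl⟩)))
    · exact Or.inr (Or.inr (Or.inr (Or.inr (Or.inl ⟨x, hx, o, ho, rfl⟩))))
    · exact Or.inr (Or.inr (Or.inr (Or.inr (Or.inr (Or.inl ⟨x, hx, rfl⟩)))))
    · exact Or.inr (Or.inr (Or.inr (Or.inr (Or.inr (Or.inr ⟨p, hp, rfl⟩)))))
  · rintro (⟨u, hu, i, hi, rfl⟩ | ⟨u, hu, i, hi, l, hl, rfl⟩ | ⟨u, hu, i, hi, rfl⟩ |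
      ⟨x, hx, o, ho, rfl⟩ | ⟨x, hx, o, ho, rfl⟩ | ⟨x, hx, rfl⟩ | ⟨p, hp, rfl⟩)
    · exact Or.inl (Or.inl (Or.inl (Or.inl (Or.inl (Or.inl ⟨u, hu, i, by omega, rfl⟩)))))
    · exact Or.inl (Or.inl (Or.inl (Or.inl (Or.inl (Or.inr ⟨u, hu, i, hi, l, by omega, rfl⟩)))))
    · exact Or.inl (Or.inl (Or.inl (Or.inl (Or.inr ⟨u, hu, i, hi, rfl⟩))))
    · exact Or.inl (Or.inl (Or.inl (Or.inr ⟨x, hx, o, ho, rfl⟩)))
    · exact Or.inl (Or.inl (Or.inr ⟨x, hx, o, ho, rfl⟩))
    · exact Or.inl (Or.inr ⟨x, hx, rfl⟩)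
    · exact Or.inr ⟨p, hp, rfl⟩

theorem base_cls_nodup (hI : I.OK) : (baseS I).cls.Nodup := by
  change ((I.objs.flatMap fun u => (List.range (I.ports u).length).flatMap fun i =>
      (List.range (I.ports u).length).map fun l => (Sum.inl (u, i, l) : CB O X)) ++
    (I.objs.flatMap fun u => (List.range (I.ports u).length).map fun i =>
      (Sum.inr (Sum.inl (u, i)) : CB O X)) ++
    (I.vl.map fun x => (Sum.inr (Sum.inr (Sum.inl x)) : CB O X)) ++
    (I.vl.map fun x => (Sum.inr (Sum.inr (Sum.inr x)) : CB O X))).Nodup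
  rw [List.nodup_append', List.nodup_append', List.nodup_append']
  obtain ⟨u0, _⟩ : ∃ u0, u0 ∈ I.objs := List.exists_mem_of_ne_nil _ hI.objs_ne
  refine ⟨⟨⟨?_, ?_, ?_⟩, ?_, ?_⟩, ?_, ?_⟩
  · refine nodup_flatMap_key (fun c => Sum.elim (fun p => p.1) (fun _ => u0) c) hI.objs_nodup ?_ ?_
    · intro u _
      refine nodup_flatMap_key (fun c => Sum.elim (fun p => p.2.1) (fun _ => 0) c)
        List.nodup_range ?_ ?_
      · intro i _
        refine List.nodup_range.map ?_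
        intro a b hab
        simpa using hab
      · intro i _ c hc
        obtain ⟨l, _, rfl⟩ := List.mem_map.1 hc
        rfl
    · intro u _ c hc
      obtain ⟨i, _, hc⟩ := List.mem_flatMap.1 hc
      obtain ⟨l, _, rfl⟩ := List.mem_map.1 hc
      rfl
  · refine nodup_flatMap_key
      (fun c => Sum.elim (fun _ => u0) (fun q => Sum.elim (fun p => p.1) (fun _ => u0) q) c)
      hI.objs_nodup ?_ ?_
    · intro u _
      refine List.nodup_range.map ?_
      intro a b hab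
      simpa using hab
    · intro u _ c hc
      obtain ⟨i, _, rfl⟩ := List.mem_map.1 hc
      rfl
  · intro c hc hc'
    obtain ⟨u, _, hc⟩ := List.mem_flatMap.1 hc
    obtain ⟨i, _, hc⟩ := List.mem_flatMap.1 hc
    obtain ⟨l, _, rfl⟩ := List.mem_map.1 hc
    obtain ⟨u', _, hc'⟩ := List.mem_flatMap.1 hc'
    obtain ⟨i', _, hc'⟩ := List.mem_map.1 hc'
    exact absurd hc' (by simp)
  · refine hI.vl_nodup.map ?_
    intro a b hab
    simpa using hab
  · intro c hc hc'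
    obtain ⟨x, _, rfl⟩ := List.mem_map.1 hc'
    rcases List.mem_append.1 hc with hc | hc
    · obtain ⟨u, _, hc⟩ := List.mem_flatMap.1 hc
      obtain ⟨i, _, hc⟩ := List.mem_flatMap.1 hc
      obtain ⟨l, _, hc⟩ := List.mem_map.1 hc
      exact absurd hc (by simp)
    · obtain ⟨u, _, hc⟩ := List.mem_flatMap.1 hc
      obtain ⟨i, _, hc⟩ := List.mem_map.1 hc
      exact absurd hc (by simp)
  · refine hI.vl_nodup.map ?_
    intro a b hab
    simpa using hab
  · intro c hc hc'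
    obtain ⟨x, _, rfl⟩ := List.mem_map.1 hc'
    rcases List.mem_append.1 hc with hc | hc
    · rcases List.mem_append.1 hc with hc | hc
      · obtain ⟨u, _, hc⟩ := List.mem_flatMap.1 hc
        obtain ⟨i, _, hc⟩ := List.mem_flatMap.1 hc
        obtain ⟨l, _, hc⟩ := List.mem_map.1 hc
        exact absurd hc (by simp)
      · obtain ⟨u, _, hc⟩ := List.mem_flatMap.1 hc
        obtain ⟨i, _, hc⟩ := List.mem_map.1 hc
        exact absurd hc (by simp)
    · obtain ⟨y, _, hc⟩ := List.mem_map.1 hc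
      exact absurd hc (by simp)

/-- ends of base edges are classes, and the variables of the second end are variables of the
first one -/
theorem base_es_fst {e : CB O X × CB O X} (he : e ∈ (baseS I).es) :
    e.1 ∈ (baseS I).cls := by
  rw [mem_base_cls]
  rcases (mem_base_es I).1 he with ⟨u, hu, i, hi, rfl⟩ | ⟨u, hu, i, hi, l, hl, rfl⟩ |
      ⟨u, hu, i, hi, rfl⟩ | ⟨x, hx, o, ho, rfl⟩ | ⟨x, hx, o, ho, rfl⟩ | ⟨x, hx, rfl⟩ | ⟨p, hp, rfl⟩
  · exact Or.inl ⟨u, hu, i, by omega, 0, by omega, rfl⟩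
  · exact Or.inl ⟨u, hu, i, hi, l, by omega, rfl⟩
  · exact Or.inl ⟨u, hu, i, hi, _, by omega, rfl⟩
  · have h := (mem_occ I).1 (List.of_mem_zip ho).1
    exact Or.inr (Or.inl ⟨o.1.1, h.1, o.1.2, (List.getElem?_eq_some_iff.1 h.2).1, rfl⟩)
  · have h := (mem_occ I).1 (List.mem_of_mem_take ho)
    exact Or.inr (Or.inl ⟨o.1, h.1, o.2, (List.getElem?_eq_some_iff.1 h.2).1, rfl⟩)
  · exact Or.inr (Or.inr (Or.inl ⟨x, hx, rfl⟩))
  · exact Or.inr (Or.inr (Or.inr ⟨_, (List.of_mem_zip hp).1, rfl⟩))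

theorem base_es_snd {e : CB O X × CB O X} (he : e ∈ (baseS I).es) :
    e.2 ∈ (baseS I).cls := by
  rw [mem_base_cls]
  rcases (mem_base_es I).1 he with ⟨u, hu, i, hi, rfl⟩ | ⟨u, hu, i, hi, l, hl, rfl⟩ |
      ⟨u, hu, i, hi, rfl⟩ | ⟨x, hx, o, ho, rfl⟩ | ⟨x, hx, o, ho, rfl⟩ | ⟨x, hx, rfl⟩ | ⟨p, hp, rfl⟩
  · exact Or.inl ⟨u, hu, i + 1, by omega, 0, by omega, rfl⟩
  · exact Or.inl ⟨u, hu, i, hi, l + 1, by omega, rfl⟩
  · exact Or.inr (Or.inl ⟨u, hu, i, hi, rfl⟩)
  · have h := (mem_occ I).1 (List.mem_of_mem_tail (List.of_mem_zip ho).2)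
    exact Or.inr (Or.inl ⟨o.2.1, h.1, o.2.2, (List.getElem?_eq_some_iff.1 h.2).1, rfl⟩)
  · exact Or.inr (Or.inr (Or.inl ⟨x, hx, rfl⟩))
  · exact Or.inr (Or.inr (Or.inr ⟨x, hx, rfl⟩))
  · exact Or.inr (Or.inr (Or.inr ⟨_, List.mem_of_mem_tail (List.of_mem_zip hp).2, rfl⟩))

/-- the dominating object of a base class -/
def domB (u0 : O) : CB O X → O
  | .inl (u, _, _) => u
  | .inr (.inl (u, _)) => u
  | .inr (.inr _) => u0

theorem domB_mem {u0 : O} (h0 : u0 ∈ I.objs) {c : CB O X} (hc : c ∈ (baseS I).cls) :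
    domB u0 c ∈ I.objs := by
  rcases (mem_base_cls I).1 hc with ⟨u, hu, i, hi, l, hl, rfl⟩ | ⟨u, hu, i, hi, rfl⟩ |
    ⟨x, hx, rfl⟩ | ⟨x, hx, rfl⟩
  · exact hu
  · exact hu
  · exact h0
  · exact h0

theorem mvars_eq {u : O} {i : ℕ} (l : ℕ) (hi : i < (I.ports u).length) :
    I.mvars u i l = (I.ports u)[i] :: ((I.ports u).eraseIdx i).drop l := by
  unfold XI.mvars
  rw [List.getElem?_eq_getElem hi]

theorem vars_base_subset (u0 : O) {c : CB O X} (hc : c ∈ (baseS I).cls) :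
    (baseS I).vars c ⊆ I.ports (domB u0 c) := by
  rcases (mem_base_cls I).1 hc with ⟨u, hu, i, hi, l, hl, rfl⟩ | ⟨u, hu, i, hi, rfl⟩ |
    ⟨x, hx, rfl⟩ | ⟨x, hx, rfl⟩
  · change (if l = 0 then I.ports u else I.mvars u i l) ⊆ I.ports u
    split_ifs with h
    · exact List.Subset.refl _
    · rw [mvars_eq I l hi]
      intro x hx
      rcases List.mem_cons.1 hx with rfl | hx
      · exact List.getElem_mem hi
      · exact List.mem_of_mem_eraseIdx (List.mem_of_mem_drop hx)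
  · change (match (I.ports u)[i]? with
      | some x => [x]
      | none => []) ⊆ I.ports u
    rw [List.getElem?_eq_getElem hi]
    intro x hx
    rw [List.mem_singleton] at hx
    rw [hx]
    exact List.getElem_mem hi
  · exact List.nil_subset _
  · exact List.nil_subset _

theorem vars_base_nodup (hI : I.OK) {c : CB O X} (hc : c ∈ (baseS I).cls) :
    ((baseS I).vars c).Nodup := by
  rcases (mem_base_cls I).1 hc with ⟨u, hu, i, hi, l, hl, rfl⟩ | ⟨u, hu, i, hi, rfl⟩ |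
    ⟨x, hx, rfl⟩ | ⟨x, hx, rfl⟩
  · change (if l = 0 then I.ports u else I.mvars u i l).Nodup
    split_ifs with h
    · exact hI.ports_nodup u hu
    · rw [mvars_eq I l hi, List.nodup_cons]
      have hn := hI.ports_nodup u hu
      constructor
      · intro hx
        have hx := List.mem_of_mem_drop hx
        rw [List.mem_eraseIdx_iff_getElem?] at hx
        obtain ⟨j, hj, hx⟩ := hx
        obtain ⟨hj', hx⟩ := List.getElem?_eq_some_iff.1 hx
        exact hj ((hn.getElem_inj_iff (hi := hj') (hj := hi)).1 hx)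
      · exact ((hn.eraseIdx i)).sublist (List.drop_sublist _ _)
  · change (match (I.ports u)[i]? with
      | some x => [x]
      | none => []).Nodup
    rw [List.getElem?_eq_getElem hi]
    exact List.nodup_singleton _
  · exact List.nodup_nil
  · exact List.nodup_nil

theorem con_base (u0 : O) (b : O → Bool) {c : CB O X} (h : (baseS I).con c = true) :
    (baseS I).vars c = I.ports (domB u0 c) ∧ bB b c = b (domB u0 c) := by
  rcases c with ⟨u, i, l⟩ | _
  · have hl : l = 0 := of_decide_eq_true h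
    subst hl
    exact ⟨rfl, rfl⟩
  · exact absurd h (by simp [baseS])

end base

end EncS2

section encs

variable {O X : Type} [DecidableEq O] [DecidableEq X]

theorem encS_order_eq (I : XI O X) (hI : I.OK) (b : O → Bool) :
    (encS I).order (bS I b) = (encS I).order (fun _ => false) := by
  obtain ⟨u0, h0⟩ : ∃ u0, u0 ∈ I.objs := List.exists_mem_of_ne_nil _ hI.objs_ne
  refine AG.order_eq _ _ _ fun c hc hcon => ?_
  obtain ⟨h1, h2, h3, -⟩ := EncS2.bcl_spec (baseS I) (fun e he => EncS2.base_es_fst I he)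
    (Sum.inl (u0, 0, 0)) hc
  unfold encS at hcon ⊢
  rw [h2, (EncS2.con_base I u0 b (h3 ▸ hcon)).1]
  intro h
  have := hI.two_le _ (EncS2.domB_mem I h0 h1)
  rw [h] at this
  exact absurd this (by simp)

theorem encS_pequiv_of_shift (I : XI O X) (hI : I.OK) (b : O → Bool) (K : ℕ)
    (h : ShiftEquiv I.objs I.ports b K) :
    PEquiv K ((encS I).mat fun _ => false) ((encS I).mat (bS I b)) := by
  obtain ⟨u0, h0⟩ : ∃ u0, u0 ∈ I.objs := List.exists_mem_of_ne_nil _ hI.objs_ne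
  have key := fun {c} hc => EncS2.bcl_spec (c := c) (baseS I)
    (fun e he => EncS2.base_es_fst I he) (Sum.inl (u0, 0, 0)) hc
  refine AG.pequiv_of_shiftEquiv (encS I) (bS I b) I.objs I.ports b
    (fun c => EncS2.domB u0 (EncS2.bcl (baseS I) c (Sum.inl (u0, 0, 0)))) K
    (EncS2.cls_nodup _ (EncS2.base_cls_nodup I hI)) hI.ports_nodup ?_ ?_ ?_ h
  · intro c hc
    unfold encS at hc ⊢
    rw [(key hc).2.1]
    exact EncS2.vars_base_nodup I hI (key hc).1
  · intro c hc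
    unfold encS at hc ⊢
    rw [(key hc).2.1]
    exact ⟨EncS2.domB_mem I h0 (key hc).1, EncS2.vars_base_subset I u0 (key hc).1⟩
  · intro c hc hcon
    unfold encS at hc hcon ⊢
    obtain ⟨h1, h2, h3, h4⟩ := key hc
    rw [h2]
    have := EncS2.con_base I u0 b (h3 ▸ hcon)
    exact ⟨this.1, (h4 _).trans this.2⟩

end encs

end Crest.Agent.R290
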