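import Crest.Agent.R290.BaseGood
import Crest.Agent.R290.BaseNodup
import Crest.Agent.R290.BaseTwo
import Crest.Agent.R290.EncS2

/-!
# Row 290, module ENCS: `shift_of_encS_pequiv` (helper217)

`encS_pequiv_of_shift` and `encS_order_eq` are in `EncS2.lean` (helper119).
-/

set_option autoImplicit false

namespace Crest.Agent.R290

open Crest.Agent.R290.WL (PEquiv PSys)

section encs
variable {O X : Type} [DecidableEq O] [DecidableEq X]

theorem baseS_good (I : XI O X) (hI : I.OK) : (baseS I).Good :=
  BaseGood.baseS_good' hI (baseS_es_nodup I hI) (baseS_two I hI)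

/-- `Model` gives `AGModel` -/
theorem Model.toAGModel {C V : Type} {G : AG C X} {b : C → Bool} {A : V → V → Bool} {cl : V → C}
    {as : V → X → ZMod 2} (hv : ∀ c ∈ G.cls, (G.vars c).Nodup) (h : Model G b A cl as) :
    AGModel G b A cl as where
  cl_mem := h.cl_mem
  adj_iff := h.adj_iff
  ext := h.ext
  exist c hc α hα := h.exists_v c hc α fun hcon => by
    rw [List.sum_toFinset _ (hv c hc)]
    exact hα hcon
  par v hcon := by
    rw [← List.sum_toFinset _ (hv _ (h.cl_mem v))]
    exact h.parity v hcon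

theorem subdiv_vars_nodup {C : Type} [DecidableEq C] {G : BG C X} (hG : G.Good) :
    ∀ c ∈ (subdiv G).cls, ((subdiv G).vars c).Nodup := by
  rintro (c | ⟨k, j⟩) hc
  · exact hG.nodup c (mem_subdiv_cls_inl.1 hc)
  · have hk := (mem_subdiv_cls_inr.1 hc).1
    have he : G.es[k]? = some G.es[k] := by simp [hk]
    rw [subdiv_vars_inr he]
    exact hG.nodup _ (hG.mem1 _ (List.getElem_mem hk))

theorem shift_of_encS_pequiv (I : XI O X) (hI : I.OK) (b : O → Bool) (K : ℕ) (hK : 3 ≤ K)
    (h : PEquiv K ((encS I).mat fun _ => false) ((encS I).mat (bS I b))) :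
    ShiftEquiv I.objs I.ports b K := by
  have hG := baseS_good I hI
  have hnd : (encS I).cls.Nodup := EncS2.cls_nodup _ (EncS2.base_cls_nodup I hI)
  have hvn : ∀ c ∈ (encS I).cls, ((encS I).vars c).Nodup := subdiv_vars_nodup hG
  have hb0 : (bSub (baseS I) fun _ => false) = fun _ => false := by
    funext c
    rcases c with c | ⟨k, j⟩
    · rfl
    · simp only [bSub]
      cases (baseS I).es[k]? <;> rfl
  have hm0 : AGModel (subdiv (baseS I)) (bSub (baseS I) fun _ => false)
      ((encS I).mat (bSub (baseS I) fun _ => false)) _ _ :=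
    Model.toAGModel hvn (AG.model_mat (G := encS I) (b := bSub (baseS I) fun _ => false) hnd hvn)
  have hm' : AGModel (subdiv (baseS I)) (bSub (baseS I) (bB b)) ((encS I).mat (bS I b)) _ _ :=
    Model.toAGModel hvn (AG.model_mat (G := encS I) (b := bS I b) hnd hvn)
  have h' : PEquiv K ((encS I).mat (bSub (baseS I) fun _ => false)) ((encS I).mat (bS I b)) := by
    rw [hb0]
    exact h
  obtain ⟨R, hR⟩ := h'
  refine shift_of_psys hG (BaseGood.baseS_parOK b) hm' (top := fun u => Sum.inl (u, 0, 0)) hm0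
    ?_ ?_ hR hK
  · intro u hu
    have h2 := hI.two_le u hu
    exact ⟨(BaseGood.mem_cls_inl I).2 ⟨hu, by omega, by omega⟩, rfl, rfl, rfl⟩
  · intro u hu v hv x hxu hxv
    exact BaseGood.baseS_meet hI hu hv hxu hxv

end encs

end Crest.Agent.R290
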