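import Crest.Agent.R290.EncS2
import Crest.Agent.R290.BaseNodup
import Crest.Agent.R290.BaseTwo
import Crest.Agent.R290.Subdiv
import Crest.Agent.R290.BaseGood

/-!
# Row 290, ENCS-3: `encS_simple` (simple, connected, maximum degree at most three)
-/

set_option autoImplicit false
set_option linter.unusedSectionVars false

namespace Crest.Agent.R290

open Crest.WLRefine

namespace EncS3

/-! ### at most `n` elements -/

section few

variable {τ : Type*}

/-- at most `n` elements satisfy `S` -/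
def Few (n : ℕ) (S : τ → Prop) : Prop := ∃ L : List τ, L.length ≤ n ∧ ∀ s, S s → s ∈ L

theorem Few.mono {n m : ℕ} {S T : τ → Prop} (h : Few n S) (hnm : n ≤ m) (hST : ∀ s, T s → S s) :
    Few m T := by
  obtain ⟨L, h1, h2⟩ := h
  exact ⟨L, h1.trans hnm, fun s hs => h2 s (hST s hs)⟩

theorem Few.or {n m : ℕ} {S T : τ → Prop} (h : Few n S) (h' : Few m T) :
    Few (n + m) (fun s => S s ∨ T s) := by
  obtain ⟨L, h1, h2⟩ := h
  obtain ⟨L', h1', h2'⟩ := h'
  refine ⟨L ++ L', by rw [List.length_append]; omega, ?_⟩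
  rintro s (hs | hs)
  · exact List.mem_append.2 (Or.inl (h2 s hs))
  · exact List.mem_append.2 (Or.inr (h2' s hs))

theorem Few.one {S : τ → Prop} (h : ∀ s t, S s → S t → s = t) : Few 1 S := by
  by_cases hS : ∃ s, S s
  · obtain ⟨s, hs⟩ := hS
    exact ⟨[s], le_rfl, fun t ht => by rw [List.mem_singleton]; exact h t s ht hs⟩
  · exact ⟨[], Nat.zero_le _, fun t ht => (hS ⟨t, ht⟩).elim⟩

theorem Few.two {S : τ → Prop} (a b : τ) (h : ∀ s, S s → s = a ∨ s = b) : Few 2 S :=
  ⟨[a, b], le_rfl, fun s hs => by simpa using h s hs⟩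

end few

/-! ### agreement graphs -/

section ag

variable {C X : Type} [DecidableEq X] (G : AG C X) (b : C → Bool)

theorem maxDeg_of_few (hcls : G.cls.Nodup)
    (h : ∀ p ∈ G.items b, Few 3 (fun q => q ∈ G.items b ∧ G.adj p q = true)) :
    MaxDegLeThree (G.mat b) := by
  classical
  intro v
  obtain ⟨L, hL, h2⟩ := h ((G.items b).get v) (List.get_mem _ _)
  have h3 : (Finset.univ.filter fun w => G.mat b v w = true).card ≤ L.toFinset.card := by
    refine Finset.card_le_card_of_injOn (fun w => (G.items b).get w) ?_ ?_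
    · intro w hw
      have hw' : G.mat b v w = true := by simpa using hw
      simp only [Finset.mem_coe, List.mem_toFinset]
      exact h2 _ ⟨List.get_mem _ _, hw'⟩
    · intro w _ w' _ hww
      exact (List.nodup_iff_injective_get.1 (AGB.items_nodup G b hcls)) hww
  exact h3.trans ((List.toFinset_card_le L).trans hL)

/-- the assignment of the smaller class is determined -/
theorem det {l l' : List X} (hl : l.Nodup) (hl' : l'.Nodup) (hs : l' ⊆ l) {α β : List Bool}
    (hα : α.length = l.length) (hβ : β.length = l'.length) (h : agree l α l' β = true) :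
    β = l'.map (AGB.val l α) := by
  rw [← AGB.map_val hl' hβ]
  apply List.map_congr_left
  intro x hx
  exact ((AGB.agree_iff hl hl' hα hβ).1 h x (hs hx) hx).symm

theorem agree_map {l l' : List X} (hl : l.Nodup) (hl' : l'.Nodup) {α : List Bool}
    (hα : α.length = l.length) : agree l α l' (l'.map (AGB.val l α)) = true := by
  rw [AGB.agree_iff hl hl' hα (by simp)]
  intro x _ hx'
  exact (AGB.val_map _ hx').symm

end ag

/-! ### the subdivision -/

section subdiv

variable {C X : Type} [DecidableEq C] [DecidableEq X] (G : BG C X) (b : C → Bool)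

/-- hypotheses on the base graph -/
structure Hyp : Prop where
  cls : G.cls.Nodup
  es : G.es.Nodup
  fst : ∀ e ∈ G.es, e.1 ∈ G.cls
  snd : ∀ e ∈ G.es, e.2 ∈ G.cls
  vars : ∀ c ∈ G.cls, (G.vars c).Nodup
  sub : ∀ e ∈ G.es, G.vars e.2 ⊆ G.vars e.1

/-- the assignments `β` of the edge `e` agreeing with `(c, α)` -/
def Bet (c : C) (α : List Bool) (e : C × C) (β : List Bool) : Prop :=
  β.length = (G.vars e.1).length ∧ (G.con e.1 = true → β.sum = b e.1) ∧
    agree (G.vars c) α (G.vars e.1) β = true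

/-- the neighbours on edges with `P` -/
def NS (c : C) (α : List Bool) (P : C × C → Prop) (q : (C ⊕ (ℕ × ℕ)) × List Bool) : Prop :=
  ∃ (e : C × C) (k : ℕ) (β : List Bool), P e ∧ G.es[k]? = some e ∧ q = (Sum.inr (k, 0), β) ∧
    Bet G b c α e β

theorem few_NS {n : ℕ} (hes : G.es.Nodup) {c : C} {α : List Bool} {P : C × C → Prop}
    (hP : ∀ e e', P e → P e' → e = e') (hB : ∀ e, P e → Few n (Bet G b c α e)) :
    Few n (NS G b c α P) := by
  by_cases h : ∃ (e : C × C) (k : ℕ), P e ∧ G.es[k]? = some e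
  · obtain ⟨e, k, he, hk⟩ := h
    obtain ⟨L, hL, h2⟩ := hB e he
    refine ⟨L.map fun β => (Sum.inr (k, 0), β), by simpa using hL, ?_⟩
    rintro q ⟨e', k', β, he', hk', rfl, hβ⟩
    obtain rfl := hP e e' he he'
    have hkk : k' = k := by
      obtain ⟨h1, h1'⟩ := List.getElem?_eq_some_iff.1 hk
      obtain ⟨h3, h3'⟩ := List.getElem?_eq_some_iff.1 hk'
      exact (hes.getElem_inj_iff (hi := h3) (hj := h1)).1 (h3'.trans h1'.symm)
    subst hkk
    exact List.mem_map.2 ⟨β, h2 β hβ, rfl⟩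
  · refine ⟨[], Nat.zero_le _, ?_⟩
    rintro q ⟨e', k', β, he', hk', -⟩
    exact (h ⟨e', k', he', hk'⟩).elim

/-- neighbours of a base vertex -/
theorem nbr_base {c : C} {α : List Bool} {q : (C ⊕ (ℕ × ℕ)) × List Bool}
    (hq : q ∈ (subdiv G).items (bSub G b)) (h : (subdiv G).adj (Sum.inl c, α) q = true) :
    NS G b c α (fun e => e ∈ G.es ∧ (e.1 = c ∨ e.2 = c)) q := by
  obtain ⟨c', β⟩ := q
  obtain ⟨h1, h2, h3⟩ := (AGB.mem_items _ _).1 hq
  simp only [AG.adj, Bool.and_eq_true] at h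
  obtain ⟨hE, ha⟩ := h
  rcases c' with c' | ⟨k, j⟩
  · rw [ES_inl_inl] at hE
    exact absurd hE (by simp)
  · obtain ⟨rfl, e, he, hc⟩ := (ES_inl_inr).1 hE
    simp only at h1 h2 h3
    rw [subdiv_vars_inr he] at h2 ha
    rw [subdiv_con_inr he, bSub_inr he] at h3
    exact ⟨e, k, β, ⟨List.mem_of_getElem? he, hc⟩, he, rfl, h2, h3, ha⟩

variable {G b}

/-- outgoing edges and edges with the same variables: one neighbour -/
theorem bet_one (hG : Hyp G) {c : C} {α : List Bool} (hc : c ∈ G.cls)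
    (hα : α.length = (G.vars c).length) {e : C × C} (he : e ∈ G.es) (hs : G.vars e.1 ⊆ G.vars c) :
    Few 1 (Bet G b c α e) := by
  refine Few.one ?_
  rintro β β' ⟨h1, -, h3⟩ ⟨h1', -, h3'⟩
  rw [det (hG.vars c hc) (hG.vars _ (hG.fst e he)) hs hα h1 h3,
    det (hG.vars c hc) (hG.vars _ (hG.fst e he)) hs hα h1' h3']

/-- one more variable: two neighbours -/
theorem bet_two (hG : Hyp G) {c : C} {α : List Bool} (hc : c ∈ G.cls)
    (hα : α.length = (G.vars c).length) {e : C × C} (he : e ∈ G.es) (y : X)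
    (hs : ∀ x ∈ G.vars e.1, x = y ∨ x ∈ G.vars c) : Few 2 (Bet G b c α e) := by
  have hc' := hG.vars c hc
  have he' := hG.vars _ (hG.fst e he)
  refine Few.two ((G.vars e.1).map (Function.update (AGB.val (G.vars c) α) y true))
    ((G.vars e.1).map (Function.update (AGB.val (G.vars c) α) y false)) ?_
  rintro β ⟨h1, -, h3⟩
  rw [AGB.agree_iff hc' he' hα h1] at h3
  have key : ∀ v, AGB.val (G.vars e.1) β y = v →
      β = (G.vars e.1).map (Function.update (AGB.val (G.vars c) α) y v) := by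
    intro v hv
    conv_lhs => rw [← AGB.map_val he' h1]
    apply List.map_congr_left
    intro x hx
    by_cases hxy : x = y
    · subst hxy
      rw [Function.update_self, hv]
    · rw [Function.update_of_ne hxy]
      exact (h3 x ((hs x hx).resolve_left hxy) hx).symm
  cases hv : AGB.val (G.vars e.1) β y
  · exact Or.inr (key _ hv)
  · exact Or.inl (key _ hv)

theorem sum_update {l : List X} (hl : l.Nodup) {y : X} (hy : y ∈ l) (f g : X → Bool)
    (hfg : ∀ x ∈ l, x ≠ y → f x = g x) (h : (l.map f).sum = (l.map g).sum) : f y = g y := by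
  induction l with
  | nil => simp at hy
  | cons a l ih =>
    rw [List.nodup_cons] at hl
    simp only [List.map_cons, List.sum_cons] at h
    rcases List.mem_cons.1 hy with rfl | hy
    · have h1 : l.map f = l.map g := by
        apply List.map_congr_left
        intro x hx
        exact hfg x (List.mem_cons_of_mem _ hx) (by rintro rfl; exact hl.1 hx)
      rw [h1] at h
      exact add_right_cancel h
    · have hay : a ≠ y := by rintro rfl; exact hl.1 hy
      rw [hfg a List.mem_cons_self hay] at h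
      exact ih hl.2 hy (fun x hx => hfg x (List.mem_cons_of_mem _ hx)) (add_left_cancel h)

/-- one more variable, but constrained: one neighbour -/
theorem bet_con (hG : Hyp G) {c : C} {α : List Bool} (hc : c ∈ G.cls)
    (hα : α.length = (G.vars c).length) {e : C × C} (he : e ∈ G.es) (hcon : G.con e.1 = true)
    (y : X) (hy : y ∈ G.vars e.1)
    (hs : ∀ x ∈ G.vars e.1, x = y ∨ x ∈ G.vars c) : Few 1 (Bet G b c α e) := by
  have hc' := hG.vars c hc
  have he' := hG.vars _ (hG.fst e he)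
  refine Few.one ?_
  rintro β β' ⟨h1, h2, h3⟩ ⟨h1', h2', h3'⟩
  rw [AGB.agree_iff hc' he' hα h1] at h3
  rw [AGB.agree_iff hc' he' hα h1'] at h3'
  have hxy : ∀ x ∈ G.vars e.1, x ≠ y → AGB.val (G.vars e.1) β x = AGB.val (G.vars e.1) β' x := by
    intro x hx hxy
    have hx' := (hs x hx).resolve_left hxy
    rw [← h3 x hx' hx, ← h3' x hx' hx]
  have hsum : ((G.vars e.1).map (AGB.val (G.vars e.1) β)).sum =
      ((G.vars e.1).map (AGB.val (G.vars e.1) β')).sum := by
    rw [AGB.map_val he' h1, AGB.map_val he' h1', h2 hcon, h2' hcon]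
  have hyy := sum_update he' hy _ _ hxy hsum
  rw [← AGB.map_val he' h1, ← AGB.map_val he' h1']
  apply List.map_congr_left
  intro x hx
  by_cases h : x = y
  · rw [h]; exact hyy
  · exact hxy x hx h

/-- neighbours in a fixed smaller class -/
theorem few_class {C' : Type} (H : AG C' X) (b' : C' → Bool) {p : C' × List Bool}
    (hp : p ∈ H.items b') (c' : C') (hn : (H.vars p.1).Nodup) (hn' : (H.vars c').Nodup)
    (hs : H.vars c' ⊆ H.vars p.1) :
    Few 1 (fun q => (q ∈ H.items b' ∧ H.adj p q = true) ∧ q.1 = c') := by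
  refine Few.one ?_
  rintro ⟨c1, β⟩ ⟨c2, β'⟩ ⟨⟨h1, h2⟩, rfl⟩ ⟨⟨h1', h2'⟩, h3⟩
  simp only at h3
  subst h3
  have hα := ((AGB.mem_items _ _).1 hp).2.1
  have hβ := ((AGB.mem_items _ _).1 h1).2.1
  have hβ' := ((AGB.mem_items _ _).1 h1').2.1
  simp only [AG.adj, Bool.and_eq_true] at h2 h2'
  have e1 : β = _ := det hn hn' hs hα hβ h2.2
  have e2 : β' = _ := det hn hn' hs hα hβ' h2'.2
  rw [e1, e2]

/-- degree of the subdivision and pendant vertices -/
theorem few_inr (hG : Hyp G) {k j : ℕ} {α : List Bool}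
    (hp : (Sum.inr (k, j), α) ∈ (subdiv G).items (bSub G b)) :
    Few 3 (fun q => q ∈ (subdiv G).items (bSub G b) ∧ (subdiv G).adj (Sum.inr (k, j), α) q = true) := by
  have hk := mem_subdiv_cls_inr.1 ((AGB.mem_items _ _).1 hp).1
  obtain ⟨e, he⟩ : ∃ e, G.es[k]? = some e := ⟨_, List.getElem?_eq_getElem hk.1⟩
  have hem := List.mem_of_getElem? he
  have hv : ∀ j', (subdiv G).vars (Sum.inr (k, j')) = G.vars e.1 := fun j' => subdiv_vars_inr he
  have hn1 := hG.vars _ (hG.fst e hem)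
  have hn2 := hG.vars _ (hG.snd e hem)
  have hp1 : ((subdiv G).vars (Sum.inr (k, j))).Nodup := by rw [hv]; exact hn1
  have F1 := few_class (subdiv G) (bSub G b) hp (Sum.inl e.1) hp1 (by rw [subdiv_vars_inl]; exact hn1)
    (by rw [subdiv_vars_inl]; simp only [hv]; exact List.Subset.refl _)
  have F2 := few_class (subdiv G) (bSub G b) hp (Sum.inl e.2) hp1 (by rw [subdiv_vars_inl]; exact hn2)
    (by rw [subdiv_vars_inl]; simp only [hv]; exact hG.sub e hem)
  have F3 := fun j' => few_class (subdiv G) (bSub G b) hp (Sum.inr (k, j')) hp1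
    (by rw [hv]; exact hn1) (by simp only [hv]; exact List.Subset.refl _)
  by_cases hj : j = 0
  · subst hj
    refine ((F1.or F2).or (F3 1)).mono le_rfl ?_
    rintro ⟨c', β⟩ ⟨hq, ha⟩
    have ha' := ha
    simp only [AG.adj, Bool.and_eq_true] at ha'
    obtain ⟨hE, -⟩ := ha'
    rcases c' with c' | ⟨k', j'⟩
    · obtain ⟨-, e', he', h⟩ := ES_inr_inl.1 hE
      rw [he] at he'
      obtain rfl := Option.some.inj he'
      rcases h with rfl | rfl
      · exact Or.inl (Or.inl ⟨⟨hq, ha⟩, rfl⟩)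
      · exact Or.inl (Or.inr ⟨⟨hq, ha⟩, rfl⟩)
    · obtain ⟨rfl, h⟩ := ES_inr_inr.1 hE
      have : j' = 1 := by omega
      subst this
      exact Or.inr ⟨⟨hq, ha⟩, rfl⟩
  · refine ((F3 (j + 1)).or (F3 (j - 1))).mono (by norm_num) ?_
    rintro ⟨c', β⟩ ⟨hq, ha⟩
    have ha' := ha
    simp only [AG.adj, Bool.and_eq_true] at ha'
    obtain ⟨hE, -⟩ := ha'
    rcases c' with c' | ⟨k', j'⟩
    · exact absurd (ES_inr_inl.1 hE).1 hj
    · obtain ⟨rfl, h⟩ := ES_inr_inr.1 hE
      rcases h with rfl | h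
      · exact Or.inl ⟨⟨hq, ha⟩, rfl⟩
      · have : j' = j - 1 := by omega
        subst this
        exact Or.inr ⟨⟨hq, ha⟩, rfl⟩

end subdiv

/-! ### the base graph -/

section base

variable {O X : Type} [DecidableEq O] [DecidableEq X] {I : XI O X} {b : CB O X → Bool}

open BaseGood (BE mem_es_iff)

theorem hyp_base (hI : I.OK) : Hyp (baseS I) where
  cls := EncS2.base_cls_nodup I hI
  es := baseS_es_nodup I hI
  fst _ he := EncS2.base_es_fst I he
  snd _ he := EncS2.base_es_snd I he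
  vars _ hc := EncS2.vars_base_nodup I hI hc
  sub _ he := ((mem_es_iff I _ _).1 he).sub

/-- three groups of edges, one neighbour on each -/
theorem three (hI : I.OK) {c : CB O X} {α : List Bool} (hc : c ∈ (baseS I).cls)
    (hα : α.length = ((baseS I).vars c).length) (P Q R : CB O X × CB O X → Prop)
    (hP : ∀ e e', P e → P e' → e = e') (hQ : ∀ e e', Q e → Q e' → e = e')
    (hR : ∀ e e', R e → R e' → e = e')
    (hs : ∀ e, P e ∨ Q e ∨ R e → e ∈ (baseS I).es → (baseS I).vars e.1 ⊆ (baseS I).vars c)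
    (hcov : ∀ e ∈ (baseS I).es, e.1 = c ∨ e.2 = c → P e ∨ Q e ∨ R e) :
    Few 3 (NS (baseS I) b c α (fun e => e ∈ (baseS I).es ∧ (e.1 = c ∨ e.2 = c))) := by
  have F : ∀ P : CB O X × CB O X → Prop, (∀ e e', P e → P e' → e = e') →
      (∀ e, P e → e ∈ (baseS I).es → (baseS I).vars e.1 ⊆ (baseS I).vars c) →
      Few 1 (NS (baseS I) b c α fun e => P e ∧ e ∈ (baseS I).es) := by
    intro P hP hs
    refine few_NS _ _ (hyp_base hI).es (fun e e' h h' => hP e e' h.1 h'.1) ?_
    rintro e ⟨h1, h2⟩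
    exact bet_one (hyp_base hI) hc hα h2 (hs e h1 h2)
  refine (((F P hP fun e h => hs e (Or.inl h)).or (F Q hQ fun e h => hs e (Or.inr (Or.inl h)))).or
    (F R hR fun e h => hs e (Or.inr (Or.inr h)))).mono le_rfl ?_
  rintro q ⟨e, k, β, ⟨h1, h2⟩, h3⟩
  rcases hcov e h1 h2 with h | h | h
  · exact Or.inl (Or.inl ⟨e, k, β, ⟨h, h1⟩, h3⟩)
  · exact Or.inl (Or.inr ⟨e, k, β, ⟨h, h1⟩, h3⟩)
  · exact Or.inr ⟨e, k, β, ⟨h, h1⟩, h3⟩

/-- two groups of edges, one neighbour on the first and two on the second -/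
theorem onetwo (hI : I.OK) {c : CB O X} {α : List Bool} (hc : c ∈ (baseS I).cls)
    (hα : α.length = ((baseS I).vars c).length) (P Q : CB O X × CB O X → Prop)
    (hP : ∀ e e', P e → P e' → e = e') (hQ : ∀ e e', Q e → Q e' → e = e')
    (hs : ∀ e, P e → e ∈ (baseS I).es → (baseS I).vars e.1 ⊆ (baseS I).vars c) (y : X)
    (hs2 : ∀ e, Q e → e ∈ (baseS I).es → ∀ x ∈ (baseS I).vars e.1, x = y ∨ x ∈ (baseS I).vars c)
    (hcov : ∀ e ∈ (baseS I).es, e.1 = c ∨ e.2 = c → P e ∨ Q e) :
    Few 3 (NS (baseS I) b c α (fun e => e ∈ (baseS I).es ∧ (e.1 = c ∨ e.2 = c))) := by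
  have F1 : Few 1 (NS (baseS I) b c α fun e => P e ∧ e ∈ (baseS I).es) := by
    refine few_NS _ _ (hyp_base hI).es (fun e e' h h' => hP e e' h.1 h'.1) ?_
    rintro e ⟨h1, h2⟩
    exact bet_one (hyp_base hI) hc hα h2 (hs e h1 h2)
  have F2 : Few 2 (NS (baseS I) b c α fun e => Q e ∧ e ∈ (baseS I).es) := by
    refine few_NS _ _ (hyp_base hI).es (fun e e' h h' => hQ e e' h.1 h'.1) ?_
    rintro e ⟨h1, h2⟩
    exact bet_two (hyp_base hI) hc hα h2 y (hs2 e h1 h2)
  refine (F1.or F2).mono le_rfl ?_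
  rintro q ⟨e, k, β, ⟨h1, h2⟩, h3⟩
  rcases hcov e h1 h2 with h | h
  · exact Or.inl ⟨e, k, β, ⟨h, h1⟩, h3⟩
  · exact Or.inr ⟨e, k, β, ⟨h, h1⟩, h3⟩

theorem deg_top (hI : I.OK) {u : O} {i : ℕ} {α : List Bool}
    (hc : (Sum.inl (u, i, 0) : CB O X) ∈ (baseS I).cls)
    (hα : α.length = ((baseS I).vars (Sum.inl (u, i, 0))).length) :
    Few 3 (NS (baseS I) b (Sum.inl (u, i, 0)) α
      (fun e => e ∈ (baseS I).es ∧ (e.1 = Sum.inl (u, i, 0) ∨ e.2 = Sum.inl (u, i, 0)))) := by
  obtain ⟨hu, hi, -⟩ := BaseGood.mem_cls_inl I |>.1 hc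
  have h2 := hI.two_le u hu
  refine three hI hc hα (fun e => e = (Sum.inl (u, i, 0), Sum.inl (u, i + 1, 0)))
    (fun e => e = (Sum.inl (u, i, 0), Sum.inl (u, i, 1)))
    (fun e => ∃ i', i' + 1 = i ∧ e = (Sum.inl (u, i', 0), Sum.inl (u, i, 0)))
    (by rintro e e' rfl rfl; rfl) (by rintro e e' rfl rfl; rfl) ?_ ?_ ?_
  · rintro e e' ⟨i1, h1, rfl⟩ ⟨i2, h2, rfl⟩
    obtain rfl : i1 = i2 := by omega
    rfl
  · rintro e (rfl | rfl | ⟨i', -, rfl⟩) he
    · exact List.Subset.refl _
    · exact List.Subset.refl _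
    · exact List.Subset.refl _
  · rintro ⟨c1, c2⟩ he hcc
    simp only at hcc
    have he := (mem_es_iff I _ _).1 he
    cases he with
    | spine u' i' hu' hi' =>
      simp only [Sum.inl.injEq, Prod.mk.injEq] at hcc
      rcases hcc with ⟨rfl, rfl, -⟩ | ⟨rfl, rfl, -⟩
      · exact Or.inl rfl
      · exact Or.inr (Or.inr ⟨i', rfl, rfl⟩)
    | down u' i' l' hu' hi' hl' =>
      simp only [Sum.inl.injEq, Prod.mk.injEq] at hcc
      rcases hcc with ⟨rfl, rfl, rfl⟩ | ⟨-, -, h⟩
      · exact Or.inr (Or.inl rfl)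
      · omega
    | last u' i' hu' hi' =>
      simp only [Sum.inl.injEq, Prod.mk.injEq, reduceCtorEq, or_false] at hcc
      obtain ⟨rfl, rfl, h⟩ := hcc
      omega
    | chain x j o o' hx h1 h2 => simp at hcc
    | join x o hx h1 => simp at hcc
    | bus x hx => simp at hcc
    | line j x x' h1 h2 => simp at hcc

theorem deg_low (hI : I.OK) {u : O} {i l : ℕ} {α : List Bool} (hl1 : 1 ≤ l)
    (hc : (Sum.inl (u, i, l) : CB O X) ∈ (baseS I).cls)
    (hα : α.length = ((baseS I).vars (Sum.inl (u, i, l))).length) :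
    Few 3 (NS (baseS I) b (Sum.inl (u, i, l)) α
      (fun e => e ∈ (baseS I).es ∧ (e.1 = Sum.inl (u, i, l) ∨ e.2 = Sum.inl (u, i, l)))) := by
  obtain ⟨hu, hi, hl⟩ := BaseGood.mem_cls_inl I |>.1 hc
  have h2 := hI.two_le u hu
  obtain ⟨x, hx⟩ := BaseGood.getElem?_of_lt hi
  have hlen : ((I.ports u).eraseIdx i).length = (I.ports u).length - 1 :=
    List.length_eraseIdx_of_lt hi
  have hll : l - 1 < ((I.ports u).eraseIdx i).length := by omega
  refine onetwo hI hc hα
    (fun e => (l + 1 < (I.ports u).length ∧ e = (Sum.inl (u, i, l), Sum.inl (u, i, l + 1))) ∨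
      (l + 1 = (I.ports u).length ∧ e = (Sum.inl (u, i, l), Sum.inr (Sum.inl (u, i)))))
    (fun e => e = (Sum.inl (u, i, l - 1), Sum.inl (u, i, l)))
    ?_ (by rintro e e' rfl rfl; rfl) ?_ ((I.ports u).eraseIdx i)[l - 1] ?_ ?_
  · rintro e e' (⟨h1, rfl⟩ | ⟨h1, rfl⟩) (⟨h2, rfl⟩ | ⟨h2, rfl⟩)
    · rfl
    · omega
    · omega
    · rfl
  · rintro e (⟨-, rfl⟩ | ⟨-, rfl⟩) he
    · exact List.Subset.refl _
    · exact List.Subset.refl _
  · rintro e rfl he z hz
    rw [BaseGood.vars_low hl1 hx]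
    have hz' : z = x ∨ z ∈ ((I.ports u).eraseIdx i).drop (l - 1) := by
      by_cases hl0 : l = 1
      · subst hl0
        rw [show 1 - 1 = 0 from rfl, BaseGood.vars_top] at hz
        by_cases hzx : z = x
        · exact Or.inl hzx
        · refine Or.inr ?_
          rw [show 1 - 1 = 0 from rfl, List.drop_zero, List.mem_eraseIdx_iff_getElem?]
          obtain ⟨j, hj⟩ := List.getElem?_of_mem hz
          refine ⟨j, ?_, hj⟩
          rintro rfl
          rw [hx] at hj
          exact hzx (Option.some.inj hj).symm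
      · rw [BaseGood.vars_low (by omega) hx] at hz
        exact List.mem_cons.1 hz
    rcases hz' with rfl | hz'
    · exact Or.inr List.mem_cons_self
    · rw [List.drop_eq_getElem_cons hll] at hz'
      rcases List.mem_cons.1 hz' with h | h
      · exact Or.inl h
      · rw [show l - 1 + 1 = l by omega] at h
        exact Or.inr (List.mem_cons_of_mem _ h)
  · rintro ⟨c1, c2⟩ he hcc
    simp only at hcc
    have he := (mem_es_iff I _ _).1 he
    cases he with
    | spine u' i' hu' hi' =>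
      simp only [Sum.inl.injEq, Prod.mk.injEq] at hcc
      rcases hcc with ⟨rfl, rfl, h⟩ | ⟨rfl, rfl, h⟩
      · omega
      · omega
    | down u' i' l' hu' hi' hl' =>
      simp only [Sum.inl.injEq, Prod.mk.injEq] at hcc
      rcases hcc with ⟨rfl, rfl, rfl⟩ | ⟨rfl, rfl, rfl⟩
      · exact Or.inl (Or.inl ⟨hl', rfl⟩)
      · exact Or.inr rfl
    | last u' i' hu' hi' =>
      simp only [Sum.inl.injEq, Prod.mk.injEq, reduceCtorEq, or_false] at hcc
      obtain ⟨rfl, rfl, rfl⟩ := hcc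
      exact Or.inl (Or.inr ⟨by omega, rfl⟩)
    | chain x j o o' hx h1 h2 => simp at hcc
    | join x o hx h1 => simp at hcc
    | bus x hx => simp at hcc
    | line j x x' h1 h2 => simp at hcc

theorem nodup_idx {α : Type} {l : List α} (hl : l.Nodup) {j j' : ℕ} {a : α} (h : l[j]? = some a)
    (h' : l[j']? = some a) : j = j' := by
  obtain ⟨h1, h1'⟩ := List.getElem?_eq_some_iff.1 h
  obtain ⟨h2, h2'⟩ := List.getElem?_eq_some_iff.1 h'
  exact (hl.getElem_inj_iff (hi := h1) (hj := h2)).1 (h1'.trans h2'.symm)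

theorem deg_chain (hI : I.OK) {u : O} {i : ℕ} {α : List Bool}
    (hc : (Sum.inr (Sum.inl (u, i)) : CB O X) ∈ (baseS I).cls)
    (hα : α.length = ((baseS I).vars (Sum.inr (Sum.inl (u, i)))).length) :
    Few 3 (NS (baseS I) b (Sum.inr (Sum.inl (u, i))) α
      (fun e => e ∈ (baseS I).es ∧
        (e.1 = Sum.inr (Sum.inl (u, i)) ∨ e.2 = Sum.inr (Sum.inl (u, i))))) := by
  obtain ⟨hu, hi⟩ := BaseGood.mem_cls_chain I |>.1 hc
  have h2 := hI.two_le u hu
  obtain ⟨x, hx⟩ := BaseGood.getElem?_of_lt hi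
  have hocc := BaseGood.occ_nodup hI x
  refine three hI hc hα
    (fun e => e = (Sum.inl (u, i, (I.ports u).length - 1), Sum.inr (Sum.inl (u, i))))
    (fun e => ∃ j o', (I.occ x)[j]? = some (u, i) ∧ (I.occ x)[j + 1]? = some o' ∧
      e = (Sum.inr (Sum.inl (u, i)), Sum.inr (Sum.inl o')))
    (fun e => (∃ j o, (I.occ x)[j]? = some o ∧ (I.occ x)[j + 1]? = some (u, i) ∧
      e = (Sum.inr (Sum.inl o), Sum.inr (Sum.inl (u, i)))) ∨
      ((I.occ x)[0]? = some (u, i) ∧
        e = (Sum.inr (Sum.inl (u, i)), Sum.inr (Sum.inr (Sum.inl x)))))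
    (by rintro e e' rfl rfl; rfl) ?_ ?_ ?_ ?_
  · rintro e e' ⟨j, o, h1, h1', rfl⟩ ⟨j', o', h3, h3', rfl⟩
    obtain rfl := nodup_idx hocc h1 h3
    rw [h1'] at h3'
    rw [Option.some.inj h3']
  · rintro e e' (⟨j, o, h1, h1', rfl⟩ | ⟨h1, rfl⟩) (⟨j', o', h3, h3', rfl⟩ | ⟨h3, rfl⟩)
    · have := nodup_idx hocc h1' h3'
      obtain rfl : j = j' := by omega
      rw [h1] at h3
      rw [Option.some.inj h3]
    · have := nodup_idx hocc h1' h3
      omega
    · have := nodup_idx hocc h3' h1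
      omega
    · rfl
  · rw [BaseGood.vars_chain hx]
    rintro e (rfl | ⟨j, o', -, -, rfl⟩ | ⟨j, o, h1, -, rfl⟩ | ⟨-, rfl⟩) he
    · have hlen : ((I.ports u).eraseIdx i).length = (I.ports u).length - 1 :=
        List.length_eraseIdx_of_lt hi
      simp only
      rw [BaseGood.vars_low (by omega) hx, List.drop_eq_nil_of_le (by omega)]
      exact List.Subset.refl _
    · simp only
      rw [BaseGood.vars_chain hx]
      exact List.Subset.refl _
    · have h1' := ((BaseGood.mem_occ I).1 (List.mem_of_getElem? h1)).2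
      simp only
      rw [show o = (o.1, o.2) from rfl, BaseGood.vars_chain h1']
      exact List.Subset.refl _
    · simp only
      rw [BaseGood.vars_chain hx]
      exact List.Subset.refl _
  · rintro ⟨c1, c2⟩ he hcc
    simp only at hcc
    have he := (mem_es_iff I _ _).1 he
    cases he with
    | spine u' i' hu' hi' => simp at hcc
    | down u' i' l' hu' hi' hl' => simp at hcc
    | last u' i' hu' hi' =>
      simp only [Sum.inr.injEq, Sum.inl.injEq, Prod.mk.injEq, reduceCtorEq, false_or] at hcc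
      obtain ⟨rfl, rfl⟩ := hcc
      exact Or.inl rfl
    | chain x' j o o' hx' h1 h2 =>
      have h1x := ((BaseGood.mem_occ I).1 (List.mem_of_getElem? h1)).2
      have h2x := ((BaseGood.mem_occ I).1 (List.mem_of_getElem? h2)).2
      simp only [Sum.inr.injEq, Sum.inl.injEq] at hcc
      rcases hcc with rfl | rfl
      · rw [hx] at h1x
        obtain rfl := Option.some.inj h1x
        exact Or.inr (Or.inl ⟨j, o', h1, h2, rfl⟩)
      · rw [hx] at h2x
        obtain rfl := Option.some.inj h2x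
        exact Or.inr (Or.inr (Or.inl ⟨j, o, h1, h2, rfl⟩))
    | join x' o hx' h1 =>
      have h1x := ((BaseGood.mem_occ I).1 (List.mem_of_getElem? h1)).2
      simp only [Sum.inr.injEq, Sum.inl.injEq, reduceCtorEq, or_false] at hcc
      subst hcc
      rw [hx] at h1x
      obtain rfl := Option.some.inj h1x
      exact Or.inr (Or.inr (Or.inr ⟨h1, rfl⟩))
    | bus x hx => simp at hcc
    | line j x x' h1 h2 => simp at hcc

theorem deg_join (hI : I.OK) {x : X} {α : List Bool}
    (hc : (Sum.inr (Sum.inr (Sum.inl x)) : CB O X) ∈ (baseS I).cls)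
    (hα : α.length = ((baseS I).vars (Sum.inr (Sum.inr (Sum.inl x)))).length) :
    Few 3 (NS (baseS I) b (Sum.inr (Sum.inr (Sum.inl x))) α
      (fun e => e ∈ (baseS I).es ∧
        (e.1 = Sum.inr (Sum.inr (Sum.inl x)) ∨ e.2 = Sum.inr (Sum.inr (Sum.inl x))))) := by
  refine onetwo hI hc hα
    (fun e => e = (Sum.inr (Sum.inr (Sum.inl x)), Sum.inr (Sum.inr (Sum.inr x))))
    (fun e => ∃ o, (I.occ x)[0]? = some o ∧ e = (Sum.inr (Sum.inl o), Sum.inr (Sum.inr (Sum.inl x))))
    (by rintro e e' rfl rfl; rfl) ?_ ?_ x ?_ ?_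
  · rintro e e' ⟨o, h1, rfl⟩ ⟨o', h2, rfl⟩
    rw [h1] at h2
    rw [Option.some.inj h2]
  · rintro e rfl he
    exact List.Subset.refl _
  · rintro e ⟨o, h1, rfl⟩ he z hz
    have h1x := ((BaseGood.mem_occ I).1 (List.mem_of_getElem? h1)).2
    simp only at hz
    rw [show o = (o.1, o.2) from rfl, BaseGood.vars_chain h1x] at hz
    exact Or.inl (List.mem_singleton.1 hz)
  · rintro ⟨c1, c2⟩ he hcc
    simp only at hcc
    have he := (mem_es_iff I _ _).1 he
    cases he with
    | spine u' i' hu' hi' => simp at hcc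
    | down u' i' l' hu' hi' hl' => simp at hcc
    | last u' i' hu' hi' => simp at hcc
    | chain x' j o o' hx' h1 h2 => simp at hcc
    | join x' o hx' h1 =>
      simp only [Sum.inr.injEq, Sum.inl.injEq, reduceCtorEq, false_or] at hcc
      subst hcc
      exact Or.inr ⟨o, h1, rfl⟩
    | bus x' hx' =>
      simp only [Sum.inr.injEq, Sum.inl.injEq, reduceCtorEq, or_false] at hcc
      subst hcc
      exact Or.inl rfl
    | line j x x' h1 h2 => simp at hcc

theorem deg_bus (hI : I.OK) {x : X} {α : List Bool}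
    (hc : (Sum.inr (Sum.inr (Sum.inr x)) : CB O X) ∈ (baseS I).cls)
    (hα : α.length = ((baseS I).vars (Sum.inr (Sum.inr (Sum.inr x)))).length) :
    Few 3 (NS (baseS I) b (Sum.inr (Sum.inr (Sum.inr x))) α
      (fun e => e ∈ (baseS I).es ∧
        (e.1 = Sum.inr (Sum.inr (Sum.inr x)) ∨ e.2 = Sum.inr (Sum.inr (Sum.inr x))))) := by
  have hvl := hI.vl_nodup
  refine three hI hc hα
    (fun e => e = (Sum.inr (Sum.inr (Sum.inl x)), Sum.inr (Sum.inr (Sum.inr x))))
    (fun e => ∃ j x', I.vl[j]? = some x ∧ I.vl[j + 1]? = some x' ∧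
      e = (Sum.inr (Sum.inr (Sum.inr x)), Sum.inr (Sum.inr (Sum.inr x'))))
    (fun e => ∃ j x', I.vl[j]? = some x' ∧ I.vl[j + 1]? = some x ∧
      e = (Sum.inr (Sum.inr (Sum.inr x')), Sum.inr (Sum.inr (Sum.inr x))))
    (by rintro e e' rfl rfl; rfl) ?_ ?_ ?_ ?_
  · rintro e e' ⟨j, o, h1, h1', rfl⟩ ⟨j', o', h3, h3', rfl⟩
    obtain rfl := nodup_idx hvl h1 h3
    rw [h1'] at h3'
    rw [Option.some.inj h3']
  · rintro e e' ⟨j, o, h1, h1', rfl⟩ ⟨j', o', h3, h3', rfl⟩
    have := nodup_idx hvl h1' h3'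
    obtain rfl : j = j' := by omega
    rw [h1] at h3
    rw [Option.some.inj h3]
  · rintro e (rfl | ⟨j, o', -, -, rfl⟩ | ⟨j, o, h1, -, rfl⟩) he
    · exact List.Subset.refl _
    · exact List.Subset.refl _
    · exact List.Subset.refl _
  · rintro ⟨c1, c2⟩ he hcc
    simp only at hcc
    have he := (mem_es_iff I _ _).1 he
    cases he with
    | spine u' i' hu' hi' => simp at hcc
    | down u' i' l' hu' hi' hl' => simp at hcc
    | last u' i' hu' hi' => simp at hcc
    | chain x' j o o' hx' h1 h2 => simp at hcc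
    | join x' o hx' h1 => simp at hcc
    | bus x' hx' =>
      simp only [Sum.inr.injEq, reduceCtorEq, false_or] at hcc
      subst hcc
      exact Or.inl rfl
    | line j x1 x2 h1 h2 =>
      simp only [Sum.inr.injEq] at hcc
      rcases hcc with rfl | rfl
      · exact Or.inr (Or.inl ⟨j, x2, h1, h2, rfl⟩)
      · exact Or.inr (Or.inr ⟨j, x1, h1, h2, rfl⟩)

theorem maxDeg (I : XI O X) (hI : I.OK) (b : O → Bool) : MaxDegLeThree ((encS I).mat (bS I b)) := by
  refine maxDeg_of_few _ _ (EncS2.cls_nodup _ (EncS2.base_cls_nodup I hI)) ?_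
  rintro ⟨c, α⟩ hp
  rcases c with c | ⟨k, j⟩
  · obtain ⟨h1, h2, -⟩ := (AGB.mem_items _ _).1 hp
    have h1 := (mem_subdiv_cls_inl).1 h1
    simp only at h2
    have h2 : α.length = ((baseS I).vars c).length := h2
    have key : Few 3 (NS (baseS I) (bB b) c α (fun e => e ∈ (baseS I).es ∧ (e.1 = c ∨ e.2 = c))) := by
      rcases c with ⟨u, i, l⟩ | ⟨u, i⟩ | x | x
      · rcases Nat.eq_zero_or_pos l with rfl | hl
        · exact deg_top hI h1 h2
        · exact deg_low hI hl h1 h2
      · exact deg_chain hI h1 h2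
      · exact deg_join hI h1 h2
      · exact deg_bus hI h1 h2
    refine key.mono le_rfl ?_
    rintro q ⟨hq, ha⟩
    exact nbr_base (baseS I) (bB b) hq ha
  · exact few_inr (hyp_base hI) hp

theorem isSimple (I : XI O X) (b : O → Bool) : IsSimple ((encS I).mat (bS I b)) := by
  refine AG.isSimple_mat _ _ ?_ ?_
  · rintro (c | ⟨k, j⟩) (c' | ⟨k', j'⟩)
    · rfl
    · rfl
    · rfl
    · show decide _ = decide _
      congr 1
      apply propext
      constructor
      · rintro ⟨rfl, h⟩; exact ⟨rfl, h.symm⟩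
      · rintro ⟨rfl, h⟩; exact ⟨rfl, h.symm⟩
  · rintro (c | ⟨k, j⟩)
    · rfl
    · show decide _ = false
      rw [decide_eq_false_iff_not]
      rintro ⟨-, h⟩
      omega

end base

end EncS3

end Crest.Agent.R290
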