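import Crest.Agent.R290.EncS3C
import Crest.Agent.R290.EncS3D

/-!
# Row 290, ENCS-3: `encS_simple`
-/

set_option autoImplicit false

namespace Crest.Agent.R290

open Crest.WLRefine

theorem encS_simple {O X : Type} [DecidableEq O] [DecidableEq X] (I : XI O X) (hI : I.OK)
    (b : O → Bool) : SimpleConnSubcubic ((encS I).mat (bS I b)) :=
  ⟨EncS3.isSimple I b, EncS3.conn I hI b, EncS3.maxDeg I hI b⟩

end Crest.Agent.R290
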