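import Crest.Agent.R290.Core
import Crest.Agent.R290.EncS
import Crest.Agent.R290.EncS2
import Crest.Agent.R290.EncS3

/-!
# Row 290: assembly of the combinatorial part, subcubic encoding (`coreS`).
-/

set_option autoImplicit false

namespace Crest.Agent.R290

open Crest.WLRefine
open Crest.Agent.R290.WL (PEquiv)

theorem bS_false {O X : Type} [DecidableEq O] [DecidableEq X] (I : XI O X) :
    bS I (fun _ : O => false) = fun _ => false := by
  funext c
  rcases c with ((⟨u, i, l⟩ | c) | ⟨k, j⟩)
  · rfl
  · rfl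
  · unfold bS bSub
    simp only
    split
    · rename_i e _
      rcases e.1 with (⟨u, i, l⟩ | c) <;> rfl
    · rfl

theorem coreS (p : Flat) (Ks B D : ℕ) (hp : WF p Ks) (hB : 2 ≤ B) (hD : 1 ≤ D) :
    ∃ (n : ℕ) (G0 G1 : Fin n → Fin n → Bool), 0 < n ∧
      SimpleConnSubcubic G0 ∧ SimpleConnSubcubic G1 ∧
      adjMatrixCode G0 = graphS p Ks B D false ∧ adjMatrixCode G1 = graphS p Ks B D true ∧
      ((∃ t < B ^ D, FHalts p t) → ¬ JEquiv (D + 1) G0 G1) ∧
      (RunsForever p → JEquiv (D + 1) G0 G1) := by
  have hI := progXI_OK p Ks B D hB hD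
  have h1 : (encS (progXI p Ks B D)).order (bS (progXI p Ks B D) (progNet p Ks B D).beta) =
      (encS (progXI p Ks B D)).order (fun _ => false) := encS_order_eq _ hI _
  have hG0 : SimpleConnSubcubic ((encS (progXI p Ks B D)).mat fun _ => false) := by
    have := encS_simple (progXI p Ks B D) hI (fun _ => false)
    rwa [bS_false] at this
  have hG1 := encS_simple (progXI p Ks B D) hI (progNet p Ks B D).beta
  have hn : 0 < (encS (progXI p Ks B D)).order (fun _ => false) := by
    have := hG0.2.1.nonempty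
    exact Fin.pos_iff_nonempty.2 this
  refine ⟨_, (encS (progXI p Ks B D)).mat fun _ => false,
    castG h1 ((encS (progXI p Ks B D)).mat (bS _ (progNet p Ks B D).beta)), hn,
    hG0, castG_sub h1 _ hG1, ?_, ?_, ?_, ?_⟩
  · rw [AG.adjMatrixCode_mat]
    unfold graphS
    simp only [Bool.false_and]
    rw [bS_false]
  · rw [castG_code, AG.adjMatrixCode_mat]
    unfold graphS
    simp only [Bool.true_and]
  · intro hh hJ
    have hP := (castG_pequiv_right h1 _ _).1 ((WL.jequiv_iff (by omega)).1 hJ)
    exact prog_not_shiftEquiv p Ks B D hp hB hD hh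
      (shift_of_encS_pequiv _ hI _ (D + 2) (by omega) hP)
  · intro hr
    have hP := encS_pequiv_of_shift _ hI _ (D + 2) (prog_shiftEquiv p Ks B D hp hB hD hr)
    exact (WL.jequiv_iff (by omega)).2 ((castG_pequiv_right h1 _ _).2 hP)

end Crest.Agent.R290
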