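import Crest.Agent.Lib.PT.Core

/-!
# Row 290: flat programs over Bool stacks

* `FInstr`, `Flat`, `fstep`, `frun`, `FHalts p T` (halted after `T` steps, from empty stacks).
* `fcomp c o`: compiled code of a `Cmd` placed at offset `o`; `fcomp_sim`.
* `loadRun w c`: flat program which pushes `w` on stack `0`, runs `c`, and halts iff the top of
  stack `0` is `true` (otherwise it loops forever).
* `PT.while_run`: while loops of polynomial-time functions.
-/

set_option autoImplicit false

namespace Crest.Agent.R290

open Crest.Agent.Lib.PT Function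

/-- instruction of a flat Bool-stack program -/
inductive FInstr : Type
  /-- push `b` on stack `k`, go to `j` -/
  | push (k : ℕ) (b : Bool) (j : ℕ)
  /-- pop stack `k`: go to `e` if it is empty, to `t` if the popped symbol is `true`, to `f` if it is
  `false` -/
  | pop (k e t f : ℕ)
  deriving DecidableEq, Repr, Inhabited

/-- a flat program: instruction `i` of the list has label `i`; every label `≥ length` is halting -/
abbrev Flat : Type := List FInstr

/-- configurations -/
structure FCfg : Type where
  /-- program counter -/
  pc : ℕ
  /-- stacks -/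
  st : Store

/-- effect of one instruction -/
def FInstr.exec (i : FInstr) (s : Store) : FCfg :=
  match i with
  | .push k b j => ⟨j, update s k (b :: s k)⟩
  | .pop k e t f =>
      match s k with
      | [] => ⟨e, s⟩
      | true :: l => ⟨t, update s k l⟩
      | false :: l => ⟨f, update s k l⟩

/-- one step (identity if halted) -/
def fstep (p : Flat) (c : FCfg) : FCfg :=
  match p[c.pc]? with
  | none => c
  | some i => i.exec c.st

/-- initial configuration -/
def finit : FCfg := ⟨0, fun _ => []⟩

/-- configuration after `T` steps -/
def frun (p : Flat) (T : ℕ) : FCfg := (fstep p)^[T] finit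

/-- `p` started on empty stacks is halted after `T` steps -/
def FHalts (p : Flat) (T : ℕ) : Prop := p.length ≤ (frun p T).pc

theorem fstep_halted {p : Flat} {c : FCfg} (h : p.length ≤ c.pc) : fstep p c = c := by
  unfold fstep
  rw [List.getElem?_eq_none h]

theorem iter_halted {p : Flat} {c : FCfg} (h : p.length ≤ c.pc) (n : ℕ) : (fstep p)^[n] c = c := by
  induction n with
  | zero => rfl
  | succ n ih => rw [iterate_succ_apply, fstep_halted h, ih]

theorem frun_succ (p : Flat) (T : ℕ) : frun p (T + 1) = fstep p (frun p T) := by
  unfold frun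
  rw [iterate_succ_apply']

theorem frun_add (p : Flat) (T n : ℕ) : frun p (T + n) = (fstep p)^[n] (frun p T) := by
  unfold frun
  rw [add_comm, iterate_add_apply]

theorem FHalts.mono {p : Flat} {T T' : ℕ} (h : FHalts p T) (hT : T ≤ T') : FHalts p T' := by
  obtain ⟨n, rfl⟩ := Nat.exists_eq_add_of_le hT
  unfold FHalts at h ⊢
  rw [frun_add, iter_halted h]
  exact h

theorem fstep_getElem {p : Flat} {c : FCfg} {i : FInstr} (h : p[c.pc]? = some i) :
    fstep p c = i.exec c.st := by
  unfold fstep
  rw [h]

/-! ### compilation of structured programs -/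

/-- code size -/
def csize : Cmd → ℕ
  | .skip => 0
  | .push _ _ => 1
  | .pop _ => 1
  | .seq c d => csize c + csize d
  | .ite _ e c d => 3 + (csize e + (2 + (csize c + (2 + csize d))))
  | .loop _ c => 3 + (csize c + 2)

/-- jump from `o` (two instructions) -/
def jmp (o target : ℕ) : Flat := [.push 0 true (o + 1), .pop 0 target target target]

/-- compiled code placed at offset `o`, entered at `o`, left at `o + csize c` -/
def fcomp : Cmd → ℕ → Flat
  | .skip, _ => []
  | .push k b, o => [.push k b (o + 1)]
  | .pop k, o => [.pop k (o + 1) (o + 1) (o + 1)]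
  | .seq c d, o => fcomp c o ++ fcomp d (o + csize c)
  | .ite k e c d, o =>
      [.pop k (o + 3) (o + 1) (o + 2),
        .push k true (o + 3 + csize e + 2),
        .push k false (o + 3 + csize e + 2 + csize c + 2)] ++
      (fcomp e (o + 3) ++ (jmp (o + 3 + csize e) (o + 3 + csize e + 2 + csize c + 2 + csize d) ++
      (fcomp c (o + 3 + csize e + 2) ++
        (jmp (o + 3 + csize e + 2 + csize c) (o + 3 + csize e + 2 + csize c + 2 + csize d) ++
      fcomp d (o + 3 + csize e + 2 + csize c + 2)))))
  | .loop k c, o =>
      [.pop k (o + 3 + csize c + 2) (o + 1) (o + 2), .push k true (o + 3), .push k false (o + 3)] ++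
      (fcomp c (o + 3) ++ jmp (o + 3 + csize c) o)

theorem length_jmp (o t : ℕ) : (jmp o t).length = 2 := rfl

theorem length_fcomp (c : Cmd) (o : ℕ) : (fcomp c o).length = csize c := by
  induction c generalizing o with
  | skip => rfl
  | push => rfl
  | pop => rfl
  | seq c d ih1 ih2 => simp only [fcomp, csize, List.length_append, ih1, ih2]
  | ite k e c d ih1 ih2 ih3 =>
    simp only [fcomp, csize, List.length_append, List.length_cons, List.length_nil, ih1, ih2, ih3,
      length_jmp]
  | loop k c ih =>
    simp only [fcomp, csize, List.length_append, List.length_cons, List.length_nil, ih, length_jmp]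

/-- the code `q` sits in `p` at offset `o` -/
def At (p : Flat) (o : ℕ) (q : Flat) : Prop := ∀ i, i < q.length → p[o + i]? = q[i]?

theorem At.left {p : Flat} {o : ℕ} {q r : Flat} (h : At p o (q ++ r)) : At p o q := by
  intro i hi
  rw [h i (by rw [List.length_append]; omega), List.getElem?_append_left hi]

theorem At.right {p : Flat} {o : ℕ} {q r : Flat} (h : At p o (q ++ r)) :
    At p (o + q.length) r := by
  intro i hi
  have := h (q.length + i) (by rw [List.length_append]; omega)
  rw [← add_assoc] at this
  rw [this, List.getElem?_append_right (by omega)]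
  congr 1
  omega

theorem At.head {p : Flat} {o : ℕ} {i : FInstr} {r : Flat} (h : At p o (i :: r)) :
    p[o]? = some i := by
  have := h 0 (by simp)
  simpa using this

theorem At.tail {p : Flat} {o : ℕ} {i : FInstr} {r : Flat} (h : At p o (i :: r)) :
    At p (o + 1) r := by
  have : At p o ([i] ++ r) := h
  exact this.right

theorem At.self (a q b : Flat) : At (a ++ (q ++ b)) a.length q := by
  intro i hi
  rw [List.getElem?_append_right (by omega), Nat.add_sub_cancel_left, List.getElem?_append_left hi]

/-- reachable in at most `N` steps -/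
def FReach (p : Flat) (c c' : FCfg) (N : ℕ) : Prop := ∃ n, n ≤ N ∧ (fstep p)^[n] c = c'

theorem FReach.refl (p : Flat) (c : FCfg) (N : ℕ) : FReach p c c N := ⟨0, Nat.zero_le _, rfl⟩

theorem FReach.trans {p : Flat} {a b c : FCfg} {N M : ℕ} (h : FReach p a b N) (h' : FReach p b c M) :
    FReach p a c (N + M) := by
  obtain ⟨n, hn, h⟩ := h
  obtain ⟨m, hm, h'⟩ := h'
  refine ⟨m + n, by omega, ?_⟩
  rw [iterate_add_apply, h, h']

theorem FReach.mono {p : Flat} {a b : FCfg} {N M : ℕ} (h : FReach p a b N) (hM : N ≤ M) :
    FReach p a b M := by
  obtain ⟨n, hn, h⟩ := h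
  exact ⟨n, by omega, h⟩

theorem FReach.step {p : Flat} {o : ℕ} {s : Store} {i : FInstr} (h : p[o]? = some i) :
    FReach p ⟨o, s⟩ (i.exec s) 1 :=
  ⟨1, le_rfl, by rw [iterate_one, fstep_getElem (c := ⟨o, s⟩) h]⟩

theorem reach_jmp {p : Flat} {o t : ℕ} (h : At p o (jmp o t)) (s : Store) :
    FReach p ⟨o, s⟩ ⟨t, s⟩ 2 := by
  have h1 := FReach.step (s := s) h.head
  have h2 := FReach.step (s := update s 0 (true :: s 0)) h.tail.head
  refine (h1.trans (b := ⟨o + 1, update s 0 (true :: s 0)⟩) h2).mono le_rfl |> fun h => ?_
  have e : (FInstr.pop 0 t t t).exec (update s 0 (true :: s 0)) = ⟨t, s⟩ := by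
    simp [FInstr.exec]
  rwa [e] at h

theorem fcomp_sim {c : Cmd} {s s' : Store} {t : ℕ} (h : Exec c s s' t) :
    ∀ (p : Flat) (o : ℕ), At p o (fcomp c o) → FReach p ⟨o, s⟩ ⟨o + csize c, s'⟩ (4 * t) := by
  induction h with
  | skip s => intro p o _; exact FReach.refl _ _ _
  | push k b s =>
    intro p o hp
    exact (FReach.step (s := s) hp.head).mono (by omega)
  | pop k s =>
    intro p o hp
    have h1 := FReach.step (s := s) hp.head
    have e : (FInstr.pop k (o + 1) (o + 1) (o + 1)).exec s = ⟨o + 1, update s k (s k).tail⟩ := by
      rcases hk : s k with _ | ⟨b, l⟩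
      · simp only [FInstr.exec, hk, List.tail_nil, FCfg.mk.injEq, true_and]
        rw [← hk, update_eq_self]
      · cases b <;> simp only [FInstr.exec, hk, List.tail_cons]
    rw [e] at h1
    exact h1.mono (by omega)
  | @seq c d s s' s'' t t' _ _ ih1 ih2 =>
    intro p o hp
    have h1 := ih1 p o hp.left
    have h2 := ih2 p (o + csize c) (by have := hp.right; rwa [length_fcomp] at this)
    have := h1.trans h2
    rw [add_assoc] at this
    exact this.mono (by omega)
  | @ite_nil k e c d s s' t hk _ ih =>
    intro p o hp
    have h1 := FReach.step (s := s) hp.left.head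
    have e1 : (FInstr.pop k (o + 3) (o + 1) (o + 2)).exec s = ⟨o + 3, s⟩ := by
      simp only [FInstr.exec, hk]
    rw [e1] at h1
    have hp2 : At p (o + 3) _ := hp.right
    have h2 := ih p (o + 3) hp2.left
    have hp3 := hp2.right
    rw [length_fcomp] at hp3
    have h3 := reach_jmp hp3.left s'
    refine ((h1.trans (h2.trans h3)).mono (M := 4 * (1 + t)) (by omega)) |> fun h => ?_
    have e2 : o + 3 + csize e + 2 + csize c + 2 + csize d = o + csize (Cmd.ite k e c d) := by
      simp only [csize]; omega
    rwa [e2] at h
  | @ite_true k e c d s s' t l hk _ ih =>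
    intro p o hp
    have h1 := FReach.step (s := s) hp.left.head
    have e1 : (FInstr.pop k (o + 3) (o + 1) (o + 2)).exec s = ⟨o + 1, update s k l⟩ := by
      simp only [FInstr.exec, hk]
    rw [e1] at h1
    have h1' := FReach.step (s := update s k l) hp.left.tail.head
    have e1' : (FInstr.push k true (o + 3 + csize e + 2)).exec (update s k l) =
        ⟨o + 3 + csize e + 2, s⟩ := by
      simp only [FInstr.exec, update_self, update_idem]
      rw [← hk, update_eq_self]
    rw [e1'] at h1'
    have hp2 : At p (o + 3) _ := hp.right
    have hp3 := hp2.right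
    rw [length_fcomp] at hp3
    have hp4 : At p (o + 3 + csize e + 2) _ := hp3.right
    have h2 := ih p _ hp4.left
    have hp5 := hp4.right
    rw [length_fcomp] at hp5
    have h3 := reach_jmp hp5.left s'
    refine ((h1.trans (h1'.trans (h2.trans h3))).mono (M := 4 * (1 + t)) (by omega)) |> fun h => ?_
    have e2 : o + 3 + csize e + 2 + csize c + 2 + csize d = o + csize (Cmd.ite k e c d) := by
      simp only [csize]; omega
    rwa [e2] at h
  | @ite_false k e c d s s' t l hk _ ih =>
    intro p o hp
    have h1 := FReach.step (s := s) hp.left.head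
    have e1 : (FInstr.pop k (o + 3) (o + 1) (o + 2)).exec s = ⟨o + 2, update s k l⟩ := by
      simp only [FInstr.exec, hk]
    rw [e1] at h1
    have h1' := FReach.step (s := update s k l) (o := o + 2) hp.left.tail.tail.head
    have e1' : (FInstr.push k false (o + 3 + csize e + 2 + csize c + 2)).exec (update s k l) =
        ⟨o + 3 + csize e + 2 + csize c + 2, s⟩ := by
      simp only [FInstr.exec, update_self, update_idem]
      rw [← hk, update_eq_self]
    rw [e1'] at h1'
    have hp2 : At p (o + 3) _ := hp.right
    have hp3 := hp2.right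
    rw [length_fcomp] at hp3
    have hp4 : At p (o + 3 + csize e + 2) _ := hp3.right
    have hp5 := hp4.right
    rw [length_fcomp] at hp5
    have hp6 : At p (o + 3 + csize e + 2 + csize c + 2) _ := hp5.right
    have h2 := ih p _ hp6
    refine ((h1.trans (h1'.trans h2)).mono (M := 4 * (1 + t)) (by omega)) |> fun h => ?_
    have e2 : o + 3 + csize e + 2 + csize c + 2 + csize d = o + csize (Cmd.ite k e c d) := by
      simp only [csize]; omega
    rwa [e2] at h
  | @loop_nil k c s hk =>
    intro p o hp
    have h1 := FReach.step (s := s) hp.left.head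
    have e1 : (FInstr.pop k (o + 3 + csize c + 2) (o + 1) (o + 2)).exec s =
        ⟨o + csize (Cmd.loop k c), s⟩ := by
      simp only [FInstr.exec, hk, csize, FCfg.mk.injEq, and_true]
      omega
    rw [e1] at h1
    exact h1.mono (by omega)
  | @loop_cons k c s s' s'' t t' hk _ _ ih1 ih2 =>
    intro p o hp
    have h1 := FReach.step (s := s) hp.left.head
    have hp2 : At p (o + 3) _ := hp.right
    have h2 := ih1 p (o + 3) hp2.left
    have hp3 := hp2.right
    rw [length_fcomp] at hp3
    have h3 := reach_jmp hp3 s'
    have h4 := ih2 p o hp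
    have h5 : FReach p ⟨o, s⟩ ⟨o + 3, s⟩ 2 := by
      obtain ⟨b, l, hbl⟩ : ∃ b l, s k = b :: l := List.exists_cons_of_ne_nil hk
      cases b with
      | true =>
        have e1 : (FInstr.pop k (o + 3 + csize c + 2) (o + 1) (o + 2)).exec s =
            ⟨o + 1, update s k l⟩ := by
          simp only [FInstr.exec, hbl]
        rw [e1] at h1
        have h1' := FReach.step (s := update s k l) hp.left.tail.head
        have e1' : (FInstr.push k true (o + 3)).exec (update s k l) = ⟨o + 3, s⟩ := by
          simp only [FInstr.exec, update_self, update_idem]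
          rw [← hbl, update_eq_self]
        rw [e1'] at h1'
        exact h1.trans h1'
      | false =>
        have e1 : (FInstr.pop k (o + 3 + csize c + 2) (o + 1) (o + 2)).exec s =
            ⟨o + 2, update s k l⟩ := by
          simp only [FInstr.exec, hbl]
        rw [e1] at h1
        have h1' := FReach.step (s := update s k l) (o := o + 2) hp.left.tail.tail.head
        have e1' : (FInstr.push k false (o + 3)).exec (update s k l) = ⟨o + 3, s⟩ := by
          simp only [FInstr.exec, update_self, update_idem]
          rw [← hbl, update_eq_self]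
        rw [e1'] at h1'
        exact h1.trans h1'
    exact (h5.trans (h2.trans (h3.trans h4))).mono (by omega)

/-! ### loading a string and running a program -/

/-- push the symbols of `l` (first symbol first) on stack `0` -/
def pushes (l : List Bool) (o : ℕ) : Flat :=
  match l with
  | [] => []
  | b :: l => .push 0 b (o + 1) :: pushes l (o + 1)

theorem length_pushes (l : List Bool) (o : ℕ) : (pushes l o).length = l.length := by
  induction l generalizing o with
  | nil => rfl
  | cons b l ih => simp [pushes, ih]

theorem pushes_sim (l : List Bool) : ∀ (p : Flat) (o : ℕ) (s : Store), At p o (pushes l o) →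
    FReach p ⟨o, s⟩ ⟨o + l.length, update s 0 (l.reverse ++ s 0)⟩ l.length := by
  induction l with
  | nil =>
    intro p o s _
    have : update s 0 (([] : List Bool).reverse ++ s 0) = s := by simp
    rw [this]
    exact FReach.refl _ _ _
  | cons b l ih =>
    intro p o s hp
    have h1 := FReach.step (s := s) hp.head
    have h2 := ih p (o + 1) (update s 0 (b :: s 0)) hp.tail
    have h3 := FReach.trans (b := ⟨o + 1, update s 0 (b :: s 0)⟩) h1 h2
    have e1 : update (update s 0 (b :: s 0)) 0 (l.reverse ++ update s 0 (b :: s 0) 0) =
        update s 0 ((b :: l).reverse ++ s 0) := by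
      simp
    have e2 : o + 1 + l.length = o + (b :: l).length := by
      simp only [List.length_cons]; omega
    rw [e1, e2] at h3
    refine h3.mono ?_
    simp only [List.length_cons]; omega

/-- The fixed part: run `c` (placed at offset `o`), then halt if the top of stack `0` is `true` and
loop forever otherwise. -/
def runPart (c : Cmd) (o : ℕ) : Flat :=
  fcomp c o ++ [.pop 0 (o + csize c + 1) (o + csize c + 2) (o + csize c + 1),
    .push 0 true (o + csize c + 1)]

/-- load `w` on stack `0`, run `c`, halt iff the top of stack `0` is then `true` -/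
def loadRun (w : List Bool) (c : Cmd) : Flat := pushes w.reverse 0 ++ runPart c w.length

theorem length_runPart (c : Cmd) (o : ℕ) : (runPart c o).length = csize c + 2 := by
  simp [runPart, length_fcomp]

theorem length_loadRun (w : List Bool) (c : Cmd) : (loadRun w c).length = w.length + csize c + 2 := by
  simp [loadRun, length_pushes, length_runPart]; omega

theorem loadRun_reach {w : List Bool} {c : Cmd} {s' : Store} {N : ℕ} (h : Run c (init w) s' N) :
    FReach (loadRun w c) finit ⟨w.length + csize c, s'⟩ (w.length + 4 * N) := by
  obtain ⟨t, ht, h⟩ := h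
  have hp1 : At (loadRun w c) 0 (pushes w.reverse 0) := At.self [] _ _
  have hp2 : At (loadRun w c) w.length (runPart c w.length) := by
    have : At (loadRun w c) (pushes w.reverse 0).length (runPart c w.length ++ []) := by
      have := At.self (pushes w.reverse 0) (runPart c w.length) []
      simpa [loadRun] using this
    rw [length_pushes, List.length_reverse] at this
    exact this.left
  have h1 := pushes_sim w.reverse (loadRun w c) 0 (fun _ => []) hp1
  have e1 : update (fun _ => [] : Store) 0 (w.reverse.reverse ++ (fun _ => [] : Store) 0) = init w := by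
    funext j
    by_cases hj : j = 0
    · subst hj; simp
    · simp [init, hj]
  rw [e1, List.length_reverse, Nat.zero_add] at h1
  have h2 := fcomp_sim h (loadRun w c) w.length hp2.left
  exact (h1.trans h2).mono (by omega)

/-- accepting runs halt quickly -/
theorem loadRun_halts {w : List Bool} {c : Cmd} {s' : Store} {N : ℕ} {l : List Bool}
    (h : Run c (init w) s' N) (hl : s' 0 = true :: l) :
    FHalts (loadRun w c) (w.length + 4 * N + 1) := by
  have h1 := loadRun_reach h
  have hp2 : At (loadRun w c) w.length (runPart c w.length) := by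
    have : At (loadRun w c) (pushes w.reverse 0).length (runPart c w.length ++ []) := by
      have := At.self (pushes w.reverse 0) (runPart c w.length) []
      simpa [loadRun] using this
    rw [length_pushes, List.length_reverse] at this
    exact this.left
  have hp3 := hp2.right
  rw [length_fcomp] at hp3
  have h2 := FReach.step (s := s') hp3.head
  obtain ⟨n, hn, h3⟩ := h1.trans h2
  have : FHalts (loadRun w c) n := by
    unfold FHalts frun
    rw [h3, length_loadRun]
    simp only [FInstr.exec, hl]
    omega
  exact this.mono hn

/-- rejecting runs never halt -/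
theorem loadRun_loops {w : List Bool} {c : Cmd} {s' : Store} {N : ℕ}
    (h : Run c (init w) s' N) (hl : (s' 0).head? ≠ some true) (T : ℕ) :
    ¬ FHalts (loadRun w c) T := by
  have h1 := loadRun_reach h
  have hp2 : At (loadRun w c) w.length (runPart c w.length) := by
    have : At (loadRun w c) (pushes w.reverse 0).length (runPart c w.length ++ []) := by
      have := At.self (pushes w.reverse 0) (runPart c w.length) []
      simpa [loadRun] using this
    rw [length_pushes, List.length_reverse] at this
    exact this.left
  have hp3 := hp2.right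
  rw [length_fcomp] at hp3
  have h2 := FReach.step (s := s') hp3.head
  obtain ⟨n, hn, h3⟩ := h1.trans h2
  have h4 : ((FInstr.pop 0 (w.length + csize c + 1) (w.length + csize c + 2)
      (w.length + csize c + 1)).exec s').pc = w.length + csize c + 1 := by
    rcases hs : s' 0 with _ | ⟨b, l⟩
    · simp only [FInstr.exec, hs]
    · cases b
      · simp only [FInstr.exec, hs]
      · rw [hs] at hl; simp at hl
  have h5 : ∀ j (d : FCfg), d.pc = w.length + csize c + 1 →
      ((fstep (loadRun w c))^[j] d).pc = w.length + csize c + 1 := by
    intro j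
    induction j with
    | zero => intro d hd; exact hd
    | succ j ih =>
      intro d hd
      rw [iterate_succ_apply]
      apply ih
      have h6 : (loadRun w c)[d.pc]? = some (.push 0 true (w.length + csize c + 1)) := by
        rw [hd]
        exact hp3.tail.head
      rw [fstep_getElem h6]
      rfl
  intro hT
  have hT2 : FHalts (loadRun w c) (n + T) := hT.mono (by omega)
  unfold FHalts at hT2
  rw [frun_add] at hT2
  unfold frun at hT2
  rw [h3, h5 _ _ h4, length_loadRun] at hT2
  omega

/-! ### while loops -/

/-- loop on a flag (stack `0`) while the data on stack `1` do not start with `true` -/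
def whileBody (c : Cmd) : Cmd := .seq (c.shift 1) (.ite 1 .skip (.pop 0) .skip)

theorem run_while_loop {c : Cmd} {f : List Bool → List Bool} {N : ℕ} (n : ℕ) (y : List Bool)
    (h : ∀ i < n, Run c (init (f^[i] y)) (init (f^[i + 1] y)) N)
    (h0 : ∀ i, 0 < i → i < n → (f^[i] y).head? ≠ some true)
    (h1 : (f^[n] y).head? = some true) (hn : 0 < n) :
    Run (.loop 0 (whileBody c)) (st4 [true] y [] []) (st4 [] (f^[n] y) [] []) (n * (N + 3) + 1) := by
  induction n generalizing y with
  | zero => omega
  | succ n ih =>
    have ha : Run (c.shift 1) (st4 [true] y [] []) (st4 [true] (f y) [] []) N :=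
      call_one (h 0 (by omega)) [true]
    rcases Nat.eq_zero_or_pos n with rfl | hn'
    · have h1' : (f y).head? = some true := by simpa using h1
      obtain ⟨l, hl⟩ : ∃ l, f y = true :: l := by
        rcases hfy : f y with _ | ⟨b, l⟩
        · rw [hfy] at h1'; simp at h1'
        · rw [hfy] at h1'; simp at h1'; exact ⟨l, by rw [h1']⟩
      have hb : Run (.ite 1 .skip (.pop 0) .skip) (st4 [true] (f y) [] [])
          (st4 [] (f y) [] []) 2 :=
        Run.ite_true (n := 1) (l := l) (by simp [st4, hl]) ((run_pop 0 _).of_eq (by simp) le_rfl)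
      refine (Run.loop_cons (k := 0) (by simp) (ha.seq hb) (Run.loop_nil (k := 0) rfl)).of_eq
        (by simp) (by omega)
    · have h1' : (f y).head? ≠ some true := by simpa using h0 1 (by omega) (by omega)
      have hb : Run (.ite 1 .skip (.pop 0) .skip) (st4 [true] (f y) [] [])
          (st4 [true] (f y) [] []) 2 := by
        rcases hfy : f y with _ | ⟨b, l⟩
        · exact Run.ite_nil (n := 1) (by simp [st4]) (run_skip _)
        · cases b
          · exact Run.ite_false (n := 1) (l := l) (by simp [st4]) (run_skip _)
          · rw [hfy] at h1'; simp at h1'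
      have hc := ih (f y) (fun i hi => by
          have := h (i + 1) (by omega)
          simpa only [iterate_succ, comp_apply] using this)
        (fun i hi hi' => by
          have := h0 (i + 1) (by omega) (by omega)
          simpa only [iterate_succ, comp_apply] using this)
        (by simpa only [iterate_succ, comp_apply] using h1) hn'
      refine (Run.loop_cons (k := 0) (by simp) (ha.seq hb) hc).of_eq (by simp) ?_
      ring_nf
      omega

/-- While loops: iterate `f` (at least once) until the string starts with `true`. -/
theorem while_run {f : List Bool → List Bool} (hf : PT f) :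
    ∃ (c : Cmd) (p : Polynomial ℕ), ∀ (x : List Bool) (n B : ℕ), 0 < n →
      (∀ i, 0 < i → i < n → (f^[i] x).head? ≠ some true) → (f^[n] x).head? = some true →
      (∀ i ≤ n, (f^[i] x).length ≤ B) →
      Run c (init x) (init (f^[n] x)) (n * p.eval B) := by
  obtain ⟨cf, p, hcf⟩ := hf
  refine ⟨.seq (mv 0 3) (.seq (mv 3 1) (.seq (.push 0 true)
    (.seq (.loop 0 (whileBody cf)) (.seq (mv 1 2) (mv 2 0))))),
    p + 16 * Polynomial.X + 20, fun x n B hn h0 h1 hB => ?_⟩
  have e1 : Run (mv 0 3) (init x) (st4 [] [] [] x.reverse) (4 * x.length + 1) :=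
    (run_mv (by decide) _).of_eq (by simp [init_eq_st4]) (by simp)
  have e2 : Run (mv 3 1) (st4 [] [] [] x.reverse) (st4 [] x [] []) (4 * x.length + 1) :=
    (run_mv (by decide) _).of_eq (by simp) (by simp)
  have e3 : Run (.push 0 true) (st4 [] x [] []) (st4 [true] x [] []) 1 :=
    (run_push 0 true _).of_eq (by simp) le_rfl
  have e4 : Run (.loop 0 (whileBody cf)) (st4 [true] x [] []) (st4 [] (f^[n] x) [] [])
      (n * (p.eval B + 3) + 1) := by
    refine run_while_loop n x (fun i hi => ?_) h0 h1 hn
    have := (hcf (f^[i] x)).mono (polyEval_mono p (hB i hi.le))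
    rwa [← iterate_succ_apply' f i x] at this
  have e5 : Run (mv 1 2) (st4 [] (f^[n] x) [] []) (st4 [] [] (f^[n] x).reverse [])
      (4 * (f^[n] x).length + 1) := (run_mv (by decide) _).of_eq (by simp) (by simp)
  have e6 : Run (mv 2 0) (st4 [] [] (f^[n] x).reverse []) (init (f^[n] x))
      (4 * (f^[n] x).length + 1) :=
    (run_mv (by decide) _).of_eq (by simp [init_eq_st4]) (by simp)
  refine (e1.seq (e2.seq (e3.seq (e4.seq (e5.seq e6))))).mono ?_
  have b1 := hB 0 (by omega)
  have b2 := hB n le_rfl
  simp only [iterate_zero, id_eq] at b1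
  simp only [Polynomial.eval_add, Polynomial.eval_mul, Polynomial.eval_ofNat, Polynomial.eval_X]
  have b3 : 16 * B + 17 ≤ n * (16 * B + 17) := Nat.le_mul_of_pos_left _ hn
  have b4 : n * (p.eval B + 16 * B + 20) = n * (p.eval B + 3) + n * (16 * B + 17) := by ring
  omega

/-- Start with `g`, iterate `f` until the string starts with `true`, then apply `h`. -/
theorem while_program {g f h : List Bool → List Bool} (hg : PT g) (hf : PT f) (hh : PT h) :
    ∃ (c : Cmd) (p : Polynomial ℕ), ∀ (x : List Bool) (n B : ℕ), 0 < n →
      (∀ i, 0 < i → i < n → (f^[i] (g x)).head? ≠ some true) → (f^[n] (g x)).head? = some true →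
      (∀ i ≤ n, (f^[i] (g x)).length ≤ B) →
      Run c (init x) (init (h (f^[n] (g x)))) (n * p.eval (x.length + B)) := by
  obtain ⟨cw, q, hw⟩ := while_run hf
  obtain ⟨cg, p, hcg⟩ := hg
  obtain ⟨ch, r, hch⟩ := hh
  refine ⟨.seq cg (.seq cw ch), p + q + r, fun x n B hn h0 h1 hB => ?_⟩
  refine ((hcg x).seq ((hw (g x) n B hn h0 h1 hB).seq (hch _))).mono ?_
  have b1 : p.eval x.length ≤ p.eval (x.length + B) := polyEval_mono p (by omega)
  have b2 : q.eval B ≤ q.eval (x.length + B) := polyEval_mono q (by omega)
  have b3 : r.eval (f^[n] (g x)).length ≤ r.eval (x.length + B) :=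
    polyEval_mono r (by have := hB n le_rfl; omega)
  simp only [Polynomial.eval_add]
  have b4 : p.eval (x.length + B) ≤ n * p.eval (x.length + B) := Nat.le_mul_of_pos_left _ hn
  have b5 : r.eval (x.length + B) ≤ n * r.eval (x.length + B) := Nat.le_mul_of_pos_left _ hn
  have b6 : n * q.eval B ≤ n * q.eval (x.length + B) := Nat.mul_le_mul_left _ b2
  have b7 : n * (p.eval (x.length + B) + q.eval (x.length + B) + r.eval (x.length + B)) =
    n * p.eval (x.length + B) + n * q.eval (x.length + B) + n * r.eval (x.length + B) := by ring
  omega

end Crest.Agent.R290
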