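import Crest.Prelude.Def_ParityLift

/-! The equation lemmas of some Prelude definitions, generated once (so that several modules which
use them do not each generate them). -/

set_option autoImplicit false

namespace Crest.Agent.R290.PreEqns

theorem eqns : True := by
  have := @Crest.WLRefine.ParityLift.unionAdj.eq_1
  have := @Crest.WLRefine.ParityLift.unionAdj.eq_2
  have := @Crest.WLRefine.ParityLift.unionAdj.eq_3
  have := @Crest.WLRefine.ParityLift.tAdj.eq_1
  have := @Crest.WLRefine.ParityLift.tAdj.eq_2
  have := @Crest.WLRefine.ParityLift.tAdj.eq_3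
  have := @Crest.WLRefine.ParityLift.tAdj.eq_4
  have := @Crest.WLRefine.ParityLift.bAdj.eq_1
  have := @Crest.WLRefine.ParityLift.bAdj.eq_2
  have := @Crest.WLRefine.ParityLift.bAdj.eq_3
  have := @Crest.WLRefine.ParityLift.bAdj.eq_4
  have := @Crest.WLRefine.ParityLift.typeOf.eq_1
  have := @Crest.WLRefine.ParityLift.typeOf.eq_2
  have := @Crest.WLRefine.ParityLift.asMatrix.eq_1
  have := @Crest.WLRefine.ParityLift.helperAgree.eq_1
  have := @Crest.WLRefine.ParityLift.mainAgree.eq_1
  have := @Crest.WLRefine.ParityLift.lift0Parity.eq_1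
  have := @Crest.WLRefine.ParityLift.liftStarParity.eq_1
  have := @Crest.WLRefine.atomicType.eq_1
  trivial

end Crest.Agent.R290.PreEqns
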