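import Mathlib
import Crest.Prelude.Def_WL
import Crest.Agent.R290.PreEqns

/-!
# Row 290, module WL: pebble systems and Weisfeiler-Leman equivalence

* `PSys A B K R`: `R` is a bijective `K`-pebble system between the adjacency functions `A`, `B`.
* `PEquiv K A B`: some pebble system exists.
* `jequiv_iff`: `JEquiv k G H ↔ PEquiv (k+1) G H` (`2 ≤ k`), `sequiv_iff`: `SEquiv k G H ↔ PEquiv k G H`.
* `PEquiv` is reflexive, symmetric, transitive, antitone in `K`, invariant under isomorphisms.
* `PEquiv.pureJEquiv`, `PEquiv.pureSEquiv`: the pure-tuple comparisons in the disjoint union.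
* `PEquiv.crequiv`: colour refinement.
-/

set_option autoImplicit false

namespace Crest.Agent.R290.WL

open Finset Crest.WLRefine Crest.WLRefine.ParityLift

/-! ## Multisets over finite types -/

theorem map_eq_of_equiv {α β γ : Type} [Fintype α] [Fintype β] (f : α → γ) (g : β → γ)
    (e : α ≃ β) (h : ∀ a, f a = g (e a)) :
    (univ : Finset α).val.map f = (univ : Finset β).val.map g := by
  have h1 : f = g ∘ e := funext h
  subst h1
  have h2 : (univ : Finset β) = (univ : Finset α).map e.toEmbedding := by simp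
  rw [h2, Finset.map_val, Multiset.map_map]
  rfl

theorem exists_equiv_of_map_eq {α β γ : Type} [Fintype α] [Fintype β] (f : α → γ) (g : β → γ)
    (h : (univ : Finset α).val.map f = (univ : Finset β).val.map g) :
    ∃ e : α ≃ β, ∀ a, f a = g (e a) := by
  classical
  have key : ∀ c, Nonempty ({a // f a = c} ≃ {b // g b = c}) := by
    intro c
    rw [← Fintype.card_eq]
    have h1 : ((univ : Finset α).val.map f).count c = ((univ : Finset β).val.map g).count c := by
      rw [h]
    rw [Multiset.count_map, Multiset.count_map] at h1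
    rw [Fintype.card_subtype, Fintype.card_subtype]
    simp only [Finset.card_def, Finset.filter_val]
    rw [Multiset.filter_congr (q := fun a => c = f a) (fun x _ => eq_comm),
      Multiset.filter_congr (q := fun b => c = g b) (fun x _ => eq_comm)]
    exact h1
  refine ⟨Equiv.ofFiberEquiv fun c => (key c).some, fun a => ?_⟩
  exact (Equiv.ofFiberEquiv_map (fun c => (key c).some) a).symm

theorem map_eq_iff {α β γ : Type} [Fintype α] [Fintype β] (f : α → γ) (g : β → γ) :
    (univ : Finset α).val.map f = (univ : Finset β).val.map g ↔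
      ∃ e : α ≃ β, ∀ a, f a = g (e a) :=
  ⟨exists_equiv_of_map_eq f g, fun ⟨e, h⟩ => map_eq_of_equiv f g e h⟩

/-- König's lemma for a decreasing sequence of properties on a finite type. -/
theorem exists_forall_of_finite {α : Type} [Finite α] (P : ℕ → α → Prop)
    (hP : ∀ s a, P (s + 1) a → P s a) (h : ∀ s, ∃ a, P s a) : ∃ a, ∀ s, P s a := by
  classical
  by_contra hc
  push Not at hc
  choose s hs using hc
  have := Fintype.ofFinite α
  obtain ⟨a, ha⟩ := h ((univ : Finset α).sup s)
  have hmono : ∀ t s, s ≤ t → P t a → P s a := by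
    intro t s hst
    induction hst with
    | refl => exact id
    | step _ ih => exact fun h => ih (hP _ _ h)
  exact hs a (hmono _ _ (Finset.le_sup (mem_univ a)) ha)

/-! ## Pebble systems -/

/-- A bijective `K`-pebble system between `A` and `B`. -/
structure PSys {V W : Type} (A : V → V → Bool) (B : W → W → Bool) (K : ℕ)
    (R : Finset (V × W) → Prop) : Prop where
  empty : R ∅
  mono : ∀ {P Q : Finset (V × W)}, P ⊆ Q → R Q → R P
  eqv : ∀ {P : Finset (V × W)}, R P → ∀ a ∈ P, ∀ b ∈ P, (a.1 = b.1 ↔ a.2 = b.2)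
  adj : ∀ {P : Finset (V × W)}, R P → ∀ a ∈ P, ∀ b ∈ P, A a.1 b.1 = B a.2 b.2
  ext' : ∀ {P : Finset (V × W)}, R P → P.card < K → ∃ f : V ≃ W, ∀ (z : V) (Q : Finset (V × W)),
    (∀ x ∈ Q, x = (z, f z) ∨ x ∈ P) → R Q

/-- `A` and `B` are equivalent for the bijective `K`-pebble game. -/
def PEquiv {V W : Type} (K : ℕ) (A : V → V → Bool) (B : W → W → Bool) : Prop :=
  ∃ R : Finset (V × W) → Prop, PSys A B K R

section basic

variable {V W X : Type} {A : V → V → Bool} {B : W → W → Bool} {C : X → X → Bool} {K : ℕ}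
  {R : Finset (V × W) → Prop}

/-- Constructor with `insert`. -/
theorem PSys.mk' [DecidableEq V] [DecidableEq W] (empty : R ∅)
    (mono : ∀ {P Q : Finset (V × W)}, P ⊆ Q → R Q → R P)
    (eqv : ∀ {P : Finset (V × W)}, R P → ∀ a ∈ P, ∀ b ∈ P, (a.1 = b.1 ↔ a.2 = b.2))
    (adj : ∀ {P : Finset (V × W)}, R P → ∀ a ∈ P, ∀ b ∈ P, A a.1 b.1 = B a.2 b.2)
    (ext : ∀ {P : Finset (V × W)}, R P → P.card < K →
      ∃ f : V ≃ W, ∀ z : V, R (insert (z, f z) P)) : PSys A B K R where
  empty := empty
  mono := mono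
  eqv := eqv
  adj := adj
  ext' {P} hP hc := by
    obtain ⟨f, hf⟩ := ext hP hc
    refine ⟨f, fun z Q hQ => mono (fun x hx => ?_) (hf z)⟩
    rcases hQ x hx with h | h
    · subst h; exact mem_insert_self _ _
    · exact mem_insert_of_mem h

theorem PSys.ext [DecidableEq V] [DecidableEq W] (h : PSys A B K R) {P : Finset (V × W)}
    (hP : R P) (hc : P.card < K) : ∃ f : V ≃ W, ∀ z : V, R (insert (z, f z) P) := by
  obtain ⟨f, hf⟩ := h.ext' hP hc
  exact ⟨f, fun z => hf z _ fun x hx => mem_insert.mp hx⟩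

theorem PSys.anti (h : PSys A B K R) {L : ℕ} (hL : L ≤ K) : PSys A B L R :=
  { h with ext' := fun hP hc => h.ext' hP (hc.trans_le hL) }

theorem PEquiv.anti {L : ℕ} (hL : L ≤ K) (h : PEquiv K A B) : PEquiv L A B :=
  let ⟨R, hR⟩ := h; ⟨R, hR.anti hL⟩

/-- Swapping the two sides. -/
theorem PSys.symm (h : PSys A B K R) :
    PSys B A K (fun P => R (P.map (Equiv.prodComm W V).toEmbedding)) where
  empty := by simpa using h.empty
  mono hPQ hQ := h.mono (Finset.map_subset_map.mpr hPQ) hQ
  eqv {P} hP a ha b hb := (h.eqv hP a.swap (by simpa using ha) b.swap (by simpa using hb)).symm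
  adj {P} hP a ha b hb := (h.adj hP a.swap (by simpa using ha) b.swap (by simpa using hb)).symm
  ext' {P} hP hc := by
    obtain ⟨f, hf⟩ := h.ext' hP (by simpa using hc)
    refine ⟨f.symm, fun z Q hQ => hf (f.symm z) _ fun x hx => ?_⟩
    rw [Finset.mem_map_equiv] at hx
    rcases hQ _ hx with h | h
    · left
      have h1 : x.2 = z := congrArg Prod.fst h
      have h2 : x.1 = f.symm z := congrArg Prod.snd h
      rw [← h2, h2, Equiv.apply_symm_apply]
      exact Prod.ext h2 h1
    · right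
      rw [Finset.mem_map_equiv]
      exact h

theorem PEquiv.symm (h : PEquiv K A B) : PEquiv K B A :=
  let ⟨_, hR⟩ := h; ⟨_, hR.symm⟩

/-- Isomorphic structures are equivalent. -/
theorem PEquiv.of_equiv (K : ℕ) (e : V ≃ W) (he : ∀ v w, B (e v) (e w) = A v w) :
    PEquiv K A B :=
  ⟨fun P => ∀ x ∈ P, x.2 = e x.1,
    { empty := fun x hx => absurd hx (notMem_empty x)
      mono := fun h1 h2 x hx => h2 x (h1 hx)
      eqv := fun hP a ha b hb => by rw [hP a ha, hP b hb, e.apply_eq_iff_eq]
      adj := fun hP a ha b hb => by rw [hP a ha, hP b hb, he]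
      ext' := fun {P} hP _ => ⟨e, fun z Q hQ x hx => by
        rcases hQ x hx with h | h
        · rw [h]
        · exact hP x h⟩ }⟩

theorem PEquiv.refl (K : ℕ) (A : V → V → Bool) : PEquiv K A A :=
  PEquiv.of_equiv K (Equiv.refl V) fun _ _ => rfl

theorem PEquiv.zero : PEquiv 0 A B :=
  ⟨fun P => P = ∅,
    { empty := rfl
      mono := fun h1 h2 => subset_empty.mp (h2 ▸ h1)
      eqv := fun hP a ha => absurd ha (by rw [hP]; exact notMem_empty a)
      adj := fun hP a ha => absurd ha (by rw [hP]; exact notMem_empty a)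
      ext' := fun _ h => absurd h (Nat.not_lt_zero _) }⟩

open Classical in
/-- Composition of pebble systems. -/
theorem PSys.trans [Nonempty W] {S : Finset (W × X) → Prop} (h : PSys A B K R)
    (h' : PSys B C K S) :
    PSys A C K (fun P => ∃ m : V × X → W, R (P.image fun p => (p.1, m p)) ∧
      S (P.image fun p => (m p, p.2))) where
  empty := ⟨fun _ => Classical.arbitrary W, by simpa using h.empty, by simpa using h'.empty⟩
  mono := fun hPQ ⟨m, h1, h2⟩ =>
    ⟨m, h.mono (image_subset_image hPQ) h1, h'.mono (image_subset_image hPQ) h2⟩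
  eqv := by
    rintro P ⟨m, h1, h2⟩ a ha b hb
    exact (h.eqv h1 (a.1, m a) (mem_image_of_mem _ ha) (b.1, m b) (mem_image_of_mem _ hb)).trans
      (h'.eqv h2 (m a, a.2) (mem_image_of_mem (fun p => (m p, p.2)) ha) (m b, b.2)
        (mem_image_of_mem (fun p => (m p, p.2)) hb))
  adj := by
    rintro P ⟨m, h1, h2⟩ a ha b hb
    exact (h.adj h1 (a.1, m a) (mem_image_of_mem _ ha) (b.1, m b) (mem_image_of_mem _ hb)).trans
      (h'.adj h2 (m a, a.2) (mem_image_of_mem (fun p => (m p, p.2)) ha) (m b, b.2)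
        (mem_image_of_mem (fun p => (m p, p.2)) hb))
  ext' := by
    rintro P ⟨m, h1, h2⟩ hc
    obtain ⟨f, hf⟩ := h.ext' h1 (card_image_le.trans_lt hc)
    obtain ⟨g, hg⟩ := h'.ext' h2 (card_image_le.trans_lt hc)
    refine ⟨f.trans g, fun z Q hQ => ⟨fun p => if p ∈ P then m p else f z, hf z _ ?_,
      hg (f z) _ ?_⟩⟩
    · intro x hx
      obtain ⟨q, hq, rfl⟩ := mem_image.mp hx
      by_cases hqP : q ∈ P
      · right; simp only [if_pos hqP]; exact mem_image_of_mem (fun p => (p.1, m p)) hqP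
      · left; simp only [if_neg hqP]
        rcases hQ q hq with h3 | h3
        · rw [h3]
        · exact absurd h3 hqP
    · intro x hx
      obtain ⟨q, hq, rfl⟩ := mem_image.mp hx
      by_cases hqP : q ∈ P
      · right; simp only [if_pos hqP]; exact mem_image_of_mem (fun p => (m p, p.2)) hqP
      · left; simp only [if_neg hqP]
        rcases hQ q hq with h3 | h3
        · rw [h3]; rfl
        · exact absurd h3 hqP

theorem PSys.exists_equiv (h : PSys A B K R) (hK : 0 < K) : Nonempty (V ≃ W) := by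
  obtain ⟨f, _⟩ := h.ext' h.empty (by simpa using hK)
  exact ⟨f⟩

theorem PEquiv.exists_equiv (h : PEquiv K A B) (hK : 0 < K) : Nonempty (V ≃ W) :=
  let ⟨_, hR⟩ := h; hR.exists_equiv hK

theorem PEquiv.trans (h : PEquiv K A B) (h' : PEquiv K B C) : PEquiv K A C := by
  rcases Nat.eq_zero_or_pos K with rfl | hK
  · exact PEquiv.zero
  · obtain ⟨e⟩ := h.exists_equiv hK
    obtain ⟨e'⟩ := h'.exists_equiv hK
    rcases isEmpty_or_nonempty W with hW | hW
    · have : IsEmpty V := e.isEmpty
      exact PEquiv.of_equiv K (e.trans e') fun v => (IsEmpty.false v).elim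
    · obtain ⟨R, hR⟩ := h
      obtain ⟨S, hS⟩ := h'
      exact ⟨_, hR.trans hS⟩

end basic

/-! ## From pebble systems to colours -/

section tocolour

variable {n m k K : ℕ} {G : Fin n → Fin n → Bool} {H : Fin m → Fin m → Bool}
  {R : Finset (Fin n × Fin m) → Prop}

/-- The set of pairs of two tuples. -/
def pairs {V W ι : Type} [Fintype ι] [DecidableEq V] [DecidableEq W] (v : ι → V) (w : ι → W) :
    Finset (V × W) := univ.image fun i => (v i, w i)

theorem mem_pairs {V W ι : Type} [Fintype ι] [DecidableEq V] [DecidableEq W] {v : ι → V}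
    {w : ι → W} {x : V × W} : x ∈ pairs v w ↔ ∃ i, (v i, w i) = x := by
  simp [pairs]

theorem PSys.atomicType_eq (h : PSys G H K R) {v : Fin k → Fin n} {w : Fin k → Fin m}
    (hR : R (pairs v w)) : atomicType G v = atomicType H w := by
  have hm : ∀ i, (v i, w i) ∈ pairs v w := fun i => mem_pairs.mpr ⟨i, rfl⟩
  refine Prod.ext ?_ ?_
  · funext i j
    exact decide_eq_decide.mpr (h.eqv hR _ (hm i) _ (hm j))
  · funext i j
    exact h.adj hR _ (hm i) _ (hm j)

theorem PSys.jcolor_eq (h : PSys G H (k + 1) R) : ∀ (s : ℕ) (v : Fin k → Fin n)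
    (w : Fin k → Fin m), R (pairs v w) → jcolor G k s v = jcolor H k s w
  | 0, v, w, hR => h.atomicType_eq hR
  | s + 1, v, w, hR => by
    refine Prod.ext (h.jcolor_eq s v w hR) ?_
    have hc : (pairs v w).card < k + 1 :=
      Nat.lt_succ_of_le (card_image_le.trans (by simp))
    obtain ⟨f, hf⟩ := h.ext' hR hc
    refine map_eq_of_equiv _ _ f fun z => funext fun i => h.jcolor_eq s _ _ (hf z _ fun x hx => ?_)
    obtain ⟨j, rfl⟩ := mem_pairs.mp hx
    by_cases hj : j = i
    · left; subst hj; simp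
    · right; rw [Function.update_of_ne hj, Function.update_of_ne hj]
      exact mem_pairs.mpr ⟨j, rfl⟩

theorem PSys.scolor_eq (h : PSys G H k R) : ∀ (s : ℕ) (v : Fin k → Fin n)
    (w : Fin k → Fin m), R (pairs v w) → scolor G k s v = scolor H k s w
  | 0, v, w, hR => h.atomicType_eq hR
  | s + 1, v, w, hR => by
    refine Prod.ext (h.scolor_eq s v w hR) (funext fun i => ?_)
    set P := (univ.erase i).image fun i => (v i, w i) with hP
    have hPR : R P := h.mono (image_subset_image (erase_subset _ _)) hR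
    have hc : P.card < k := by
      refine card_image_le.trans_lt ?_
      rw [card_erase_of_mem (mem_univ i), card_univ, Fintype.card_fin]
      have := i.2
      omega
    obtain ⟨f, hf⟩ := h.ext' hPR hc
    refine map_eq_of_equiv _ _ f fun z => h.scolor_eq s _ _ (hf z _ fun x hx => ?_)
    obtain ⟨j, rfl⟩ := mem_pairs.mp hx
    by_cases hj : j = i
    · left; subst hj; simp
    · right; rw [Function.update_of_ne hj, Function.update_of_ne hj]
      exact mem_image.mpr ⟨j, mem_erase.mpr ⟨hj, mem_univ j⟩, rfl⟩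

/-- A bijection of `j`-tuples all of whose pairs are in the system (`j ≤ K`). -/
theorem PSys.exists_tuple_equiv {V W : Type} [DecidableEq V] [DecidableEq W]
    {A : V → V → Bool} {B : W → W → Bool} {R : Finset (V × W) → Prop}
    (h : PSys A B K R) : ∀ j : ℕ, j ≤ K →
    ∃ e : (Fin j → V) ≃ (Fin j → W), ∀ v, R (pairs v (e v))
  | 0, _ => ⟨Equiv.ofUnique _ _, fun v => by
      have : pairs v ((Equiv.ofUnique (Fin 0 → V) (Fin 0 → W)) v) = ∅ := by simp [pairs]
      rw [this]; exact h.empty⟩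
  | j + 1, hj => by
    obtain ⟨e, he⟩ := h.exists_tuple_equiv j (Nat.le_of_succ_le hj)
    have hc : ∀ v, (pairs v (e v)).card < K := fun v =>
      (card_image_le.trans (by simp)).trans_lt hj
    choose f hf using fun v => h.ext' (he v) (hc v)
    let E : V × (Fin j → V) ≃ W × (Fin j → W) :=
      (Equiv.prodComm _ _).trans (((Equiv.sigmaEquivProd _ _).symm.trans
        (Equiv.sigmaCongr e f)).trans ((Equiv.sigmaEquivProd _ _).trans (Equiv.prodComm _ _)))
    have hE : ∀ z v, E (z, v) = (f v z, e v) := fun z v => rfl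
    refine ⟨((Fin.consEquiv fun _ => V).symm.trans E).trans (Fin.consEquiv fun _ => W),
      fun v => hf (Fin.tail v) (v 0) _ fun x hx => ?_⟩
    obtain ⟨i, rfl⟩ := mem_pairs.mp hx
    have h2 : (((Fin.consEquiv fun _ => V).symm.trans E).trans (Fin.consEquiv fun _ => W)) v
        = Fin.cons (f (Fin.tail v) (v 0)) (e (Fin.tail v)) := rfl
    rw [h2]
    refine Fin.cases ?_ (fun i => ?_) i
    · left; simp
    · right
      simp only [Fin.cons_succ]
      exact mem_pairs.mpr ⟨i, rfl⟩

theorem PEquiv.jequiv (h : PEquiv (k + 1) G H) : JEquiv k G H := by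
  obtain ⟨R, hR⟩ := h
  obtain ⟨e, he⟩ := hR.exists_tuple_equiv k (Nat.le_succ k)
  exact fun s => map_eq_of_equiv _ _ e fun v => hR.jcolor_eq s _ _ (he v)

theorem PEquiv.sequiv (h : PEquiv k G H) : SEquiv k G H := by
  obtain ⟨R, hR⟩ := h
  obtain ⟨e, he⟩ := hR.exists_tuple_equiv k le_rfl
  exact fun s => map_eq_of_equiv _ _ e fun v => hR.scolor_eq s _ _ (he v)

end tocolour

/-! ## From colours to pebble systems -/

section fromcolour

variable {n m k : ℕ} {G : Fin n → Fin n → Bool} {H : Fin m → Fin m → Bool}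

theorem atomicType_comp {v : Fin k → Fin n} {w : Fin k → Fin m}
    (h : atomicType G v = atomicType H w) (σ : Fin k → Fin k) :
    atomicType G (v ∘ σ) = atomicType H (w ∘ σ) := by
  have h1 := congrArg Prod.fst h
  have h2 := congrArg Prod.snd h
  refine Prod.ext ?_ ?_
  · funext i j
    exact congrFun (congrFun h1 (σ i)) (σ j)
  · funext i j
    exact congrFun (congrFun h2 (σ i)) (σ j)

theorem exists_subst (σ : Fin k → Fin k) (i : Fin k) : ∃ (j : Fin k) (τ : Fin k → Fin k),
    ∀ (N : ℕ) (v : Fin k → Fin N) (z : Fin N),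
      Function.update (v ∘ σ) i z = Function.update v j z ∘ τ := by
  obtain ⟨j, hj⟩ : ∃ j, j ∉ (univ.erase i).image σ := by
    by_contra hc
    push Not at hc
    have h1 : (univ : Finset (Fin k)) ⊆ (univ.erase i).image σ := fun j _ => hc j
    have h2 := (card_le_card h1).trans card_image_le
    rw [card_erase_of_mem (mem_univ i), card_univ, Fintype.card_fin] at h2
    have := i.2
    omega
  refine ⟨j, Function.update σ i j, fun N v z => funext fun l => ?_⟩
  by_cases hl : l = i
  · subst hl; simp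
  · have h3 : σ l ≠ j := fun h => hj (mem_image.mpr ⟨l, mem_erase.mpr ⟨hl, mem_univ l⟩, h⟩)
    simp [Function.update_of_ne hl, Function.update_of_ne h3]

theorem jcolor_succ_iff {s : ℕ} {v : Fin k → Fin n} {w : Fin k → Fin m} :
    jcolor G k (s + 1) v = jcolor H k (s + 1) w ↔ jcolor G k s v = jcolor H k s w ∧
      ∃ e : Fin n ≃ Fin m, ∀ z i, jcolor G k s (Function.update v i z) =
        jcolor H k s (Function.update w i (e z)) := by
  constructor
  · intro h
    refine ⟨congrArg Prod.fst h, ?_⟩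
    have h2 : ((univ : Finset (Fin n)).val.map fun z => fun i =>
        jcolor G k s (Function.update v i z)) = (univ : Finset (Fin m)).val.map fun z => fun i =>
        jcolor H k s (Function.update w i z) := congrArg Prod.snd h
    obtain ⟨e, he⟩ := exists_equiv_of_map_eq _ _ h2
    exact ⟨e, fun z i => congrFun (he z) i⟩
  · rintro ⟨h1, e, he⟩
    exact Prod.ext h1 (map_eq_of_equiv _ _ e fun z => funext fun i => he z i)

theorem scolor_succ_iff {s : ℕ} {v : Fin k → Fin n} {w : Fin k → Fin m} :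
    scolor G k (s + 1) v = scolor H k (s + 1) w ↔ scolor G k s v = scolor H k s w ∧
      ∀ i, ∃ e : Fin n ≃ Fin m, ∀ z, scolor G k s (Function.update v i z) =
        scolor H k s (Function.update w i (e z)) := by
  constructor
  · intro h
    refine ⟨congrArg Prod.fst h, fun i => ?_⟩
    have h2 : ((univ : Finset (Fin n)).val.map fun z =>
        scolor G k s (Function.update v i z)) = (univ : Finset (Fin m)).val.map fun z =>
        scolor H k s (Function.update w i z) := congrFun (congrArg Prod.snd h) i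
    exact exists_equiv_of_map_eq _ _ h2
  · rintro ⟨h1, h2⟩
    refine Prod.ext h1 (funext fun i => ?_)
    obtain ⟨e, he⟩ := h2 i
    exact map_eq_of_equiv _ _ e fun z => he z

theorem jcolor_comp : ∀ (s : ℕ) (v : Fin k → Fin n) (w : Fin k → Fin m),
    jcolor G k s v = jcolor H k s w → ∀ σ : Fin k → Fin k,
      jcolor G k s (v ∘ σ) = jcolor H k s (w ∘ σ)
  | 0, _, _, h, σ => atomicType_comp h σ
  | s + 1, v, w, h, σ => by
    obtain ⟨h1, e, he⟩ := jcolor_succ_iff.mp h
    refine jcolor_succ_iff.mpr ⟨jcolor_comp s v w h1 σ, e, fun z i => ?_⟩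
    obtain ⟨j, τ, hτ⟩ := exists_subst σ i
    rw [hτ, hτ]
    exact jcolor_comp s _ _ (he z j) τ

theorem scolor_comp : ∀ (s : ℕ) (v : Fin k → Fin n) (w : Fin k → Fin m),
    scolor G k s v = scolor H k s w → ∀ σ : Fin k → Fin k,
      scolor G k s (v ∘ σ) = scolor H k s (w ∘ σ)
  | 0, _, _, h, σ => atomicType_comp h σ
  | s + 1, v, w, h, σ => by
    obtain ⟨h1, h2⟩ := scolor_succ_iff.mp h
    refine scolor_succ_iff.mpr ⟨scolor_comp s v w h1 σ, fun i => ?_⟩
    obtain ⟨j, τ, hτ⟩ := exists_subst σ i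
    obtain ⟨e, he⟩ := h2 j
    refine ⟨e, fun z => ?_⟩
    rw [hτ, hτ]
    exact scolor_comp s _ _ (he z) τ

/-- Equal joint colours at every round. -/
def JSt (G : Fin n → Fin n → Bool) (H : Fin m → Fin m → Bool) (v : Fin k → Fin n)
    (w : Fin k → Fin m) : Prop := ∀ s, jcolor G k s v = jcolor H k s w

/-- Equal separate colours at every round. -/
def SSt (G : Fin n → Fin n → Bool) (H : Fin m → Fin m → Bool) (v : Fin k → Fin n)
    (w : Fin k → Fin m) : Prop := ∀ s, scolor G k s v = scolor H k s w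

theorem JSt.comp {v : Fin k → Fin n} {w : Fin k → Fin m} (h : JSt G H v w)
    (σ : Fin k → Fin k) : JSt G H (v ∘ σ) (w ∘ σ) := fun s => jcolor_comp s v w (h s) σ

theorem SSt.comp {v : Fin k → Fin n} {w : Fin k → Fin m} (h : SSt G H v w)
    (σ : Fin k → Fin k) : SSt G H (v ∘ σ) (w ∘ σ) := fun s => scolor_comp s v w (h s) σ

theorem JSt.ext {v : Fin k → Fin n} {w : Fin k → Fin m} (h : JSt G H v w) :
    ∃ f : Fin n ≃ Fin m, ∀ z i, JSt G H (Function.update v i z) (Function.update w i (f z)) := by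
  obtain ⟨f, hf⟩ := exists_forall_of_finite
    (fun s (f : Fin n ≃ Fin m) => ∀ z i, jcolor G k s (Function.update v i z) =
      jcolor H k s (Function.update w i (f z)))
    (fun s f hf z i => (jcolor_succ_iff.mp (hf z i)).1)
    (fun s => (jcolor_succ_iff.mp (h (s + 1))).2)
  exact ⟨f, fun z i s => hf s z i⟩

theorem SSt.ext {v : Fin k → Fin n} {w : Fin k → Fin m} (h : SSt G H v w) (i : Fin k) :
    ∃ f : Fin n ≃ Fin m, ∀ z, SSt G H (Function.update v i z) (Function.update w i (f z)) := by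
  obtain ⟨f, hf⟩ := exists_forall_of_finite
    (fun s (f : Fin n ≃ Fin m) => ∀ z, scolor G k s (Function.update v i z) =
      scolor H k s (Function.update w i (f z)))
    (fun s f hf z => (scolor_succ_iff.mp (hf z)).1)
    (fun s => (scolor_succ_iff.mp (h (s + 1))).2 i)
  exact ⟨f, fun z s => hf s z⟩

theorem JEquiv.exists_equiv (h : JEquiv k G H) :
    ∃ e : (Fin k → Fin n) ≃ (Fin k → Fin m), ∀ v, JSt G H v (e v) := by
  obtain ⟨e, he⟩ := exists_forall_of_finite
    (fun s (e : (Fin k → Fin n) ≃ (Fin k → Fin m)) => ∀ v, jcolor G k s v = jcolor H k s (e v))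
    (fun s e he v => congrArg Prod.fst (he v)) (fun s => exists_equiv_of_map_eq _ _ (h s))
  exact ⟨e, fun v s => he s v⟩

theorem SEquiv.exists_equiv (h : SEquiv k G H) :
    ∃ e : (Fin k → Fin n) ≃ (Fin k → Fin m), ∀ v, SSt G H v (e v) := by
  obtain ⟨e, he⟩ := exists_forall_of_finite
    (fun s (e : (Fin k → Fin n) ≃ (Fin k → Fin m)) => ∀ v, scolor G k s v = scolor H k s (e v))
    (fun s e he v => congrArg Prod.fst (he v)) (fun s => exists_equiv_of_map_eq _ _ (h s))
  exact ⟨e, fun v s => he s v⟩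

/-- A bijection of vertices from a bijection of tuples preserving the atomic type. -/
theorem exists_equiv_const (hk : 0 < k) (e : (Fin k → Fin n) ≃ (Fin k → Fin m))
    (he : ∀ v, atomicType G v = atomicType H (e v)) :
    ∃ f : Fin n ≃ Fin m, ∀ z, e (fun _ => z) = fun _ => f z := by
  have hc : ∀ z, ∀ i, e (fun _ => z) i = e (fun _ => z) ⟨0, hk⟩ := by
    intro z i
    have h1 := congrFun (congrFun (congrArg Prod.fst (he fun _ => z)) i) ⟨0, hk⟩
    simpa [atomicType] using h1
  have hnm : n = m := by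
    have h1 := Fintype.card_congr e
    simp only [Fintype.card_fun, Fintype.card_fin] at h1
    exact Nat.pow_left_injective hk.ne' h1
  have hinj : Function.Injective fun z => e (fun _ => z) ⟨0, hk⟩ := by
    intro z z' hz
    have h1 : e (fun _ => z) = e (fun _ => z') := by
      funext i
      rw [hc z i, hc z' i]
      exact hz
    exact congrFun (e.injective h1) ⟨0, hk⟩
  have hbij : Function.Bijective fun z => e (fun _ => z) ⟨0, hk⟩ := by
    rw [Fintype.bijective_iff_injective_and_card]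
    exact ⟨hinj, by simp [hnm]⟩
  exact ⟨Equiv.ofBijective _ hbij, fun z => funext fun i => hc z i⟩

/-- Tuples enumerating a nonempty finite set of pairs. -/
theorem exists_enum {V W : Type} {P : Finset (V × W)} (hP : P.Nonempty) (hk : P.card ≤ k) :
    ∃ (v : Fin k → V) (w : Fin k → W), (∀ i, (v i, w i) ∈ P) ∧ ∀ x ∈ P, ∃ i, x = (v i, w i) := by
  have : Nonempty P := hP.to_subtype
  obtain ⟨g⟩ : Nonempty (P ↪ Fin k) :=
    Function.Embedding.nonempty_of_card_le (by simpa using hk)
  have hs := Function.invFun_surjective g.injective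
  refine ⟨fun i => (Function.invFun g i).1.1, fun i => (Function.invFun g i).1.2,
    fun i => (Function.invFun g i).2, fun x hx => ?_⟩
  obtain ⟨i, hi⟩ := hs ⟨x, hx⟩
  exact ⟨i, by simp only [hi]⟩

theorem pair_tuple {V W : Type} {Q : Finset (V × W)} {a b : V × W} (ha : a ∈ Q) (hb : b ∈ Q)
    (i0 : Fin k) : ∀ i : Fin k, ((fun i => if i = i0 then a.1 else b.1 : Fin k → V) i,
      (fun i => if i = i0 then a.2 else b.2 : Fin k → W) i) ∈ Q := by
  intro i
  by_cases h : i = i0
  · simpa [h] using ha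
  · simpa [h] using hb

theorem atomic_of_forall {T : (Fin k → Fin n) → (Fin k → Fin m) → Prop} (hk : 2 ≤ k)
    (hT : ∀ v w, T v w → atomicType G v = atomicType H w) {P : Finset (Fin n × Fin m)}
    (hP : ∀ v w, (∀ i, (v i, w i) ∈ P) → T v w) :
    ∀ a ∈ P, ∀ b ∈ P, (a.1 = b.1 ↔ a.2 = b.2) ∧ G a.1 b.1 = H a.2 b.2 := by
  intro a ha b hb
  have h1 := hT _ _ (hP _ _ (pair_tuple ha hb (⟨0, by omega⟩ : Fin k)))
  have h2 := congrFun (congrFun (congrArg Prod.fst h1) ⟨0, by omega⟩) ⟨1, by omega⟩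
  have h3 := congrFun (congrFun (congrArg Prod.snd h1) ⟨0, by omega⟩) ⟨1, by omega⟩
  simp only [atomicType, Fin.mk.injEq, one_ne_zero, if_true, if_false, decide_eq_decide]
    at h2 h3
  exact ⟨h2, h3⟩

theorem JEquiv.pequiv (hk : 2 ≤ k) (h : JEquiv k G H) : PEquiv (k + 1) G H := by
  refine ⟨fun P => ∀ (v : Fin k → Fin n) (w : Fin k → Fin m), (∀ i, (v i, w i) ∈ P) →
    JSt G H v w, ⟨?_, ?_, ?_, ?_, ?_⟩⟩
  · intro v w hvw
    exact absurd (hvw ⟨0, by omega⟩) (notMem_empty _)
  · intro P Q hPQ hQ v w hvw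
    exact hQ v w fun i => hPQ (hvw i)
  · intro P hP a ha b hb
    exact (atomic_of_forall hk (fun v w h => h 0) hP a ha b hb).1
  · intro P hP a ha b hb
    exact (atomic_of_forall hk (fun v w h => h 0) hP a ha b hb).2
  · intro P hP hc
    rcases P.eq_empty_or_nonempty with rfl | hne
    · obtain ⟨e, he⟩ := JEquiv.exists_equiv h
      obtain ⟨f, hf⟩ := exists_equiv_const (G := G) (H := H) (by omega : 0 < k) e
        fun v => he v 0
      refine ⟨f, fun z Q hQ v w hvw => ?_⟩
      have h1 : ∀ i, (v i, w i) = (z, f z) := fun i => by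
        rcases hQ _ (hvw i) with h | h
        · exact h
        · exact absurd h (notMem_empty _)
      have hv : v = fun _ => z := funext fun i => congrArg Prod.fst (h1 i)
      have hw : w = e (fun _ => z) := by
        rw [hf]; exact funext fun i => congrArg Prod.snd (h1 i)
      rw [hv, hw]
      exact he _
    · obtain ⟨v, w, hvw, hsurj⟩ := exists_enum hne (Nat.lt_succ_iff.mp hc)
      obtain ⟨f, hf⟩ := (hP v w hvw).ext
      refine ⟨f, fun z Q hQ v' w' hvw' => ?_⟩
      have h1 : ∀ i, ∃ g : Option (Fin k), v' i = g.elim z v ∧ w' i = g.elim (f z) w := by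
        intro i
        rcases hQ _ (hvw' i) with h | h
        · exact ⟨none, congrArg Prod.fst h, congrArg Prod.snd h⟩
        · obtain ⟨j, hj⟩ := hsurj _ h
          exact ⟨some j, congrArg Prod.fst hj, congrArg Prod.snd hj⟩
      choose g hg1 hg2 using h1
      obtain ⟨o, ho⟩ : ∃ o, ∀ i, g i ≠ o := by
        by_contra hc'
        push Not at hc'
        have h2 : Function.Surjective g := fun o => hc' o
        have h3 := Fintype.card_le_of_surjective g h2
        simp at h3
      cases o with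
      | none =>
        have h2 : ∀ i, ∃ j, g i = some j := fun i => Option.ne_none_iff_exists'.mp (ho i)
        choose σ hσ using h2
        have h3 : v' = v ∘ σ := funext fun i => by rw [hg1, hσ]; rfl
        have h4 : w' = w ∘ σ := funext fun i => by rw [hg2, hσ]; rfl
        rw [h3, h4]
        exact (hP v w hvw).comp σ
      | some j =>
        have h3 : v' = Function.update v j z ∘ fun i => (g i).elim j id := by
          funext i
          rw [hg1, Function.comp_apply]
          cases hgi : g i with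
          | none => simp
          | some l =>
            have : l ≠ j := fun h => ho i (by rw [hgi, h])
            simp [Function.update_of_ne this]
        have h4 : w' = Function.update w j (f z) ∘ fun i => (g i).elim j id := by
          funext i
          rw [hg2, Function.comp_apply]
          cases hgi : g i with
          | none => simp
          | some l =>
            have : l ≠ j := fun h => ho i (by rw [hgi, h])
            simp [Function.update_of_ne this]
        rw [h3, h4]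
        exact (hf z j).comp _

theorem SEquiv.pequiv (hk : 2 ≤ k) (h : SEquiv k G H) : PEquiv k G H := by
  refine ⟨fun P => ∀ (v : Fin k → Fin n) (w : Fin k → Fin m), (∀ i, (v i, w i) ∈ P) →
    SSt G H v w, ⟨?_, ?_, ?_, ?_, ?_⟩⟩
  · intro v w hvw
    exact absurd (hvw ⟨0, by omega⟩) (notMem_empty _)
  · intro P Q hPQ hQ v w hvw
    exact hQ v w fun i => hPQ (hvw i)
  · intro P hP a ha b hb
    exact (atomic_of_forall hk (fun v w h => h 0) hP a ha b hb).1
  · intro P hP a ha b hb
    exact (atomic_of_forall hk (fun v w h => h 0) hP a ha b hb).2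
  · intro P hP hc
    rcases P.eq_empty_or_nonempty with rfl | hne
    · obtain ⟨e, he⟩ := SEquiv.exists_equiv h
      obtain ⟨f, hf⟩ := exists_equiv_const (G := G) (H := H) (by omega : 0 < k) e
        fun v => he v 0
      refine ⟨f, fun z Q hQ v w hvw => ?_⟩
      have h1 : ∀ i, (v i, w i) = (z, f z) := fun i => by
        rcases hQ _ (hvw i) with h | h
        · exact h
        · exact absurd h (notMem_empty _)
      have hv : v = fun _ => z := funext fun i => congrArg Prod.fst (h1 i)
      have hw : w = e (fun _ => z) := by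
        rw [hf]; exact funext fun i => congrArg Prod.snd (h1 i)
      rw [hv, hw]
      exact he _
    · obtain ⟨v, w, hvw, hsurj⟩ := exists_enum hne hc.le
      -- a redundant index
      obtain ⟨j, hj⟩ : ∃ j, ∀ x ∈ P, ∃ i, i ≠ j ∧ x = (v i, w i) := by
        have hni : ¬ Function.Injective fun i => (⟨(v i, w i), hvw i⟩ : P) := by
          intro hinj
          have h3 := Fintype.card_le_of_injective _ hinj
          simp only [Fintype.card_fin, Fintype.card_coe] at h3
          omega
        rw [Function.not_injective_iff] at hni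
        obtain ⟨a, b, hab, hne'⟩ := hni
        refine ⟨b, fun x hx => ?_⟩
        obtain ⟨i, hi⟩ := hsurj x hx
        by_cases hib : i = b
        · refine ⟨a, hne', ?_⟩
          rw [hi, hib]
          exact (congrArg Subtype.val hab).symm
        · exact ⟨i, hib, hi⟩
      obtain ⟨f, hf⟩ := (hP v w hvw).ext j
      refine ⟨f, fun z Q hQ v' w' hvw' => ?_⟩
      have h1 : ∀ i, ∃ l : Fin k, v' i = Function.update v j z l ∧
          w' i = Function.update w j (f z) l := by
        intro i
        rcases hQ _ (hvw' i) with h | h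
        · exact ⟨j, by simpa using congrArg Prod.fst h, by simpa using congrArg Prod.snd h⟩
        · obtain ⟨l, hl, hl'⟩ := hj _ h
          exact ⟨l, by simpa [Function.update_of_ne hl] using congrArg Prod.fst hl',
            by simpa [Function.update_of_ne hl] using congrArg Prod.snd hl'⟩
      choose τ hτ1 hτ2 using h1
      have h3 : v' = Function.update v j z ∘ τ := funext hτ1
      have h4 : w' = Function.update w j (f z) ∘ τ := funext hτ2
      rw [h3, h4]
      exact (hf z).comp _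

theorem jequiv_iff (hk : 2 ≤ k) : JEquiv k G H ↔ PEquiv (k + 1) G H :=
  ⟨JEquiv.pequiv hk, PEquiv.jequiv⟩

theorem sequiv_iff (hk : 2 ≤ k) : SEquiv k G H ↔ PEquiv k G H :=
  ⟨SEquiv.pequiv hk, PEquiv.sequiv⟩

end fromcolour

/-! ## Transport along bijections, `asMatrix` -/

section transport

variable {V W V' W' : Type} {A : V → V → Bool} {B : W → W → Bool} {K : ℕ}
  {R : Finset (V × W) → Prop}

theorem PSys.transport (h : PSys A B K R) (e₁ : V' ≃ V) (e₂ : W' ≃ W) :
    PSys (fun a b => A (e₁ a) (e₁ b)) (fun a b => B (e₂ a) (e₂ b)) K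
      (fun P => R (P.map (e₁.prodCongr e₂).toEmbedding)) where
  empty := by simpa using h.empty
  mono hPQ hQ := h.mono (Finset.map_subset_map.mpr hPQ) hQ
  eqv {P} hP a ha b hb := by
    have h1 := h.eqv hP _ (mem_map_of_mem _ ha) _ (mem_map_of_mem _ hb)
    simpa using h1
  adj {P} hP a ha b hb := by
    have h1 := h.adj hP _ (mem_map_of_mem _ ha) _ (mem_map_of_mem _ hb)
    simpa using h1
  ext' {P} hP hc := by
    obtain ⟨f, hf⟩ := h.ext' hP (by simpa using hc)
    refine ⟨(e₁.trans f).trans e₂.symm, fun z Q hQ => hf (e₁ z) _ fun x hx => ?_⟩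
    obtain ⟨q, hq, rfl⟩ := mem_map.mp hx
    rcases hQ q hq with h | h
    · left; rw [h]; simp
    · right; exact mem_map_of_mem _ h

theorem asMatrix_apply {V : Type} [Fintype V] (A : V → V → Bool) (v w : V) :
    asMatrix A (Fintype.equivFin V v) (Fintype.equivFin V w) = A v w := by
  simp [asMatrix]

theorem PSys.asMatrix [Fintype V] [Fintype W] (h : PSys A B K R) :
    PSys (asMatrix A) (asMatrix B) K (fun P => R (P.map
      ((Fintype.equivFin V).symm.prodCongr (Fintype.equivFin W).symm).toEmbedding)) :=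
  h.transport (Fintype.equivFin V).symm (Fintype.equivFin W).symm

theorem pequiv_asMatrix_iff [Fintype V] [Fintype W] :
    PEquiv K (asMatrix A) (asMatrix B) ↔ PEquiv K A B := by
  constructor
  · intro h
    refine (PEquiv.of_equiv K (Fintype.equivFin V) fun v w => asMatrix_apply A v w).trans
      (h.trans ?_)
    exact (PEquiv.of_equiv K (Fintype.equivFin W) fun v w => asMatrix_apply B v w).symm
  · rintro ⟨R, hR⟩
    exact ⟨_, hR.asMatrix⟩

theorem jequiv_asMatrix_iff [Fintype V] [Fintype W] {k : ℕ} (hk : 2 ≤ k) :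
    JEquiv k (asMatrix A) (asMatrix B) ↔ PEquiv (k + 1) A B :=
  (jequiv_iff hk).trans pequiv_asMatrix_iff

theorem sequiv_asMatrix_iff [Fintype V] [Fintype W] {k : ℕ} (hk : 2 ≤ k) :
    SEquiv k (asMatrix A) (asMatrix B) ↔ PEquiv k A B :=
  (sequiv_iff hk).trans pequiv_asMatrix_iff

end transport

/-! ## Pure-tuple comparison in the disjoint union -/

section pure

variable {n m k K : ℕ} {G : Fin n → Fin n → Bool} {H : Fin m → Fin m → Bool}
  {R : Finset (Fin n × Fin m) → Prop}

/-- The swapping pebble system on the disjoint union. -/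
def swapR (R : Finset (Fin n × Fin m) → Prop)
    (P : Finset ((Fin n ⊕ Fin m) × (Fin n ⊕ Fin m))) : Prop :=
  (∀ x ∈ P, (∃ v w, x = (Sum.inl v, Sum.inr w)) ∨ ∃ v w, x = (Sum.inr w, Sum.inl v)) ∧
  (∀ Q : Finset (Fin n × Fin m), (∀ q ∈ Q, (Sum.inl q.1, Sum.inr q.2) ∈ P) → R Q) ∧
  ∀ Q : Finset (Fin n × Fin m), (∀ q ∈ Q, (Sum.inr q.2, Sum.inl q.1) ∈ P) → R Q

theorem PSys.swap (h : PSys G H K R) :
    PSys (unionAdj G H) (unionAdj G H) K (swapR R) where
  empty := by
    refine ⟨fun x hx => absurd hx (notMem_empty x), fun Q hQ => ?_, fun Q hQ => ?_⟩ <;>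
    · have : Q = ∅ := Finset.eq_empty_of_forall_notMem fun q hq => notMem_empty _ (hQ q hq)
      rw [this]; exact h.empty
  mono := fun hPQ hQ => ⟨fun x hx => hQ.1 x (hPQ hx), fun Q hQ' => hQ.2.1 Q fun q hq => hPQ (hQ' q hq),
    fun Q hQ' => hQ.2.2 Q fun q hq => hPQ (hQ' q hq)⟩
  eqv := by
    rintro P ⟨h1, h2, h3⟩ a ha b hb
    rcases h1 a ha with ⟨v, w, rfl⟩ | ⟨v, w, rfl⟩ <;> rcases h1 b hb with ⟨v', w', rfl⟩ | ⟨v', w', rfl⟩
    · have h4 := h.eqv (h2 {(v, w), (v', w')} (by simp [ha, hb])) (v, w) (by simp) (v', w') (by simp)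
      simpa using h4
    · simp
    · simp
    · have h4 := h.eqv (h3 {(v, w), (v', w')} (by simp [ha, hb])) (v, w) (by simp) (v', w') (by simp)
      simpa using h4.symm
  adj := by
    rintro P ⟨h1, h2, h3⟩ a ha b hb
    rcases h1 a ha with ⟨v, w, rfl⟩ | ⟨v, w, rfl⟩ <;> rcases h1 b hb with ⟨v', w', rfl⟩ | ⟨v', w', rfl⟩
    · have h4 := h.adj (h2 {(v, w), (v', w')} (by simp [ha, hb])) (v, w) (by simp) (v', w') (by simp)
      simpa [unionAdj] using h4
    · simp [unionAdj]
    · simp [unionAdj]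
    · have h4 := h.adj (h3 {(v, w), (v', w')} (by simp [ha, hb])) (v, w) (by simp) (v', w') (by simp)
      simpa [unionAdj] using h4.symm
  ext' := by
    rintro P ⟨h1, h2, h3⟩ hc
    classical
    let Q₁ : Finset (Fin n × Fin m) := univ.filter fun q => (Sum.inl q.1, Sum.inr q.2) ∈ P
    let Q₂ : Finset (Fin n × Fin m) := univ.filter fun q => (Sum.inr q.2, Sum.inl q.1) ∈ P
    have hQ₁ : R Q₁ := h2 Q₁ fun q hq => (mem_filter.mp hq).2
    have hQ₂ : R Q₂ := h3 Q₂ fun q hq => (mem_filter.mp hq).2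
    have hc₁ : Q₁.card < K := by
      refine (card_le_card_of_injOn (fun q : Fin n × Fin m => (Sum.inl q.1, Sum.inr q.2))
        (fun q hq => (mem_filter.mp hq).2) ?_).trans_lt hc
      rintro ⟨a, b⟩ _ ⟨c, d⟩ _ h
      simpa using h
    have hc₂ : Q₂.card < K := by
      refine (card_le_card_of_injOn (fun q : Fin n × Fin m => (Sum.inr q.2, Sum.inl q.1))
        (fun q hq => (mem_filter.mp hq).2) ?_).trans_lt hc
      rintro ⟨a, b⟩ _ ⟨c, d⟩ _ h
      simp only [Prod.mk.injEq, Sum.inr.injEq, Sum.inl.injEq] at h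
      exact Prod.ext h.2 h.1
    obtain ⟨f, hf⟩ := h.ext' hQ₁ hc₁
    obtain ⟨g, hg⟩ := h.ext' hQ₂ hc₂
    refine ⟨(Equiv.sumCongr f g.symm).trans (Equiv.sumComm _ _), fun z Q hQ => ?_⟩
    cases z with
    | inl v =>
      refine ⟨fun x hx => ?_, fun Q' hQ' => hf v Q' fun q hq => ?_, fun Q' hQ' => h.mono ?_ hQ₂⟩
      · rcases hQ x hx with h | h
        · left; exact ⟨v, f v, by rw [h]; rfl⟩
        · exact h1 x h
      · rcases hQ _ (hQ' q hq) with h | h
        · left
          simp only [Equiv.trans_apply, Equiv.sumCongr_apply, Sum.map_inl, Equiv.sumComm_apply,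
            Sum.swap_inl, Prod.mk.injEq, Sum.inl.injEq, Sum.inr.injEq] at h
          exact Prod.ext h.1 h.2
        · right; exact mem_filter.mpr ⟨mem_univ q, h⟩
      · intro q hq
        rcases hQ _ (hQ' q hq) with h | h
        · simp at h
        · exact mem_filter.mpr ⟨mem_univ q, h⟩
    | inr w =>
      refine ⟨fun x hx => ?_, fun Q' hQ' => h.mono ?_ hQ₁,
        fun Q' hQ' => hg (g.symm w) Q' fun q hq => ?_⟩
      · rcases hQ x hx with h | h
        · right; exact ⟨g.symm w, w, by rw [h]; rfl⟩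
        · exact h1 x h
      · intro q hq
        rcases hQ _ (hQ' q hq) with h | h
        · simp at h
        · exact mem_filter.mpr ⟨mem_univ q, h⟩
      · rcases hQ _ (hQ' q hq) with h | h
        · left
          simp only [Equiv.trans_apply, Equiv.sumCongr_apply, Sum.map_inr, Equiv.sumComm_apply,
            Sum.swap_inr, Prod.mk.injEq, Sum.inl.injEq, Sum.inr.injEq] at h
          rw [Equiv.apply_symm_apply]
          exact Prod.ext h.2 h.1
        · right; exact mem_filter.mpr ⟨mem_univ q, h⟩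

theorem swapR_pairs (h : PSys G H K R) {v : Fin k → Fin n} {w : Fin k → Fin m}
    (hvw : R (pairs v w)) : swapR R (pairs (Sum.inl ∘ v) (Sum.inr ∘ w)) := by
  refine ⟨fun x hx => ?_, fun Q hQ => h.mono (fun q hq => ?_) hvw, fun Q hQ => ?_⟩
  · obtain ⟨i, rfl⟩ := mem_pairs.mp hx
    left; exact ⟨v i, w i, rfl⟩
  · obtain ⟨i, hi⟩ := mem_pairs.mp (hQ q hq)
    simp only [Function.comp_apply, Prod.mk.injEq, Sum.inl.injEq, Sum.inr.injEq] at hi
    exact mem_pairs.mpr ⟨i, Prod.ext hi.1 hi.2⟩
  · have : Q = ∅ := by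
      refine Finset.eq_empty_of_forall_notMem fun q hq => ?_
      obtain ⟨i, hi⟩ := mem_pairs.mp (hQ q hq)
      simp at hi
    rw [this]; exact h.empty

theorem swap_asMatrix_pairs (h : PSys G H K R) {v : Fin k → Fin n} {w : Fin k → Fin m}
    (hvw : R (pairs v w)) : swapR R ((pairs (Fintype.equivFin (Fin n ⊕ Fin m) ∘ Sum.inl ∘ v)
      (Fintype.equivFin (Fin n ⊕ Fin m) ∘ Sum.inr ∘ w)).map
      ((Fintype.equivFin (Fin n ⊕ Fin m)).symm.prodCongr
        (Fintype.equivFin (Fin n ⊕ Fin m)).symm).toEmbedding) := by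
  refine h.swap.mono (fun x hx => ?_) (swapR_pairs h hvw)
  obtain ⟨y, hy, rfl⟩ := mem_map.mp hx
  obtain ⟨i, rfl⟩ := mem_pairs.mp hy
  refine mem_pairs.mpr ⟨i, ?_⟩
  simp

theorem PEquiv.pureJEquiv (h : PEquiv (k + 1) G H) : PureJEquiv k G H := by
  obtain ⟨R, hR⟩ := h
  obtain ⟨e, he⟩ := hR.exists_tuple_equiv k (Nat.le_succ k)
  refine fun s => map_eq_of_equiv _ _ e fun v => hR.swap.asMatrix.jcolor_eq s _ _ ?_
  exact swap_asMatrix_pairs hR (he v)

theorem PEquiv.pureSEquiv (h : PEquiv k G H) : PureSEquiv k G H := by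
  obtain ⟨R, hR⟩ := h
  obtain ⟨e, he⟩ := hR.exists_tuple_equiv k le_rfl
  refine fun s => map_eq_of_equiv _ _ e fun v => hR.swap.asMatrix.scolor_eq s _ _ ?_
  exact swap_asMatrix_pairs hR (he v)

end pure

/-! ## Colour refinement -/

section cr

variable {n m K : ℕ} {G : Fin n → Fin n → Bool} {H : Fin m → Fin m → Bool}
  {R : Finset (Fin n × Fin m) → Prop}

theorem map_filter_eq_of_equiv {α β γ : Type} [Fintype α] [Fintype β] (f : α → γ) (g : β → γ)
    (p : α → Prop) (q : β → Prop) [DecidablePred p] [DecidablePred q]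
    (e : α ≃ β) (hpq : ∀ a, p a ↔ q (e a)) (h : ∀ a, p a → f a = g (e a)) :
    (univ.filter p).val.map f = (univ.filter q).val.map g := by
  have h1 : univ.filter q = (univ.filter p).map e.toEmbedding := by
    ext b
    simp only [mem_filter, mem_univ, true_and, mem_map_equiv]
    rw [hpq, Equiv.apply_symm_apply]
  rw [h1, Finset.map_val, Multiset.map_map]
  exact Multiset.map_congr rfl fun a ha => h a (mem_filter.mp ha).2

theorem PSys.crcolor_eq (h : PSys G H K R) (hK : 2 ≤ K) : ∀ (s : ℕ) (v : Fin n) (w : Fin m),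
    R {(v, w)} → crcolor G s v = crcolor H s w
  | 0, _, _, _ => rfl
  | s + 1, v, w, hR => by
    refine Prod.ext (h.crcolor_eq hK s v w hR) ?_
    obtain ⟨f, hf⟩ := h.ext hR (by rw [card_singleton]; omega)
    refine map_filter_eq_of_equiv _ _ _ _ f (fun z => ?_) fun z _ =>
      h.crcolor_eq hK s z (f z) (h.mono (singleton_subset_iff.mpr (mem_insert_self _ _)) (hf z))
    have h1 := h.adj (hf z) (v, w) (mem_insert_of_mem (mem_singleton_self _)) (z, f z)
      (mem_insert_self _ _)
    simp only at h1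
    rw [h1]

theorem PEquiv.crequiv (hK : 2 ≤ K) (h : PEquiv K G H) : CREquiv G H := by
  obtain ⟨R, hR⟩ := h
  obtain ⟨f, hf⟩ := hR.ext hR.empty (by rw [card_empty]; omega)
  exact fun s => map_eq_of_equiv _ _ f fun v => hR.crcolor_eq hK s v _ (hf v)

theorem PEquiv.wlEquiv {k k' : ℕ} (_hk : 1 ≤ k') (hkk : k' ≤ k) (h : PEquiv (k + 1) G H) :
    WLEquiv k' G H := by
  unfold WLEquiv
  split_ifs with h1
  · exact h.crequiv (by omega)
  · exact (h.anti (by omega : k' + 1 ≤ k + 1)).jequiv

/-- With at least as many pebbles as vertices the graphs are isomorphic. -/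
theorem PEquiv.adjIso (hK : n ≤ K) (hK0 : 0 < K) (h : PEquiv K G H) : AdjIso G H := by
  obtain ⟨e⟩ := h.exists_equiv hK0
  obtain ⟨R, hR⟩ := h
  obtain ⟨E, hE⟩ := hR.exists_tuple_equiv n hK
  have hinj : Function.Injective (E id) := fun i j hij => by
    exact ((hR.eqv (hE id) _ (mem_pairs.mpr ⟨i, rfl⟩) _ (mem_pairs.mpr ⟨j, rfl⟩)).mpr hij)
  have hbij : Function.Bijective (E id) := by
    rw [Fintype.bijective_iff_injective_and_card]
    exact ⟨hinj, Fintype.card_congr e⟩
  refine ⟨Equiv.ofBijective _ hbij, fun v w => ?_⟩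
  exact (hR.adj (hE id) _ (mem_pairs.mpr ⟨v, rfl⟩) _ (mem_pairs.mpr ⟨w, rfl⟩)).symm

theorem AdjIso.pequiv (K : ℕ) (h : AdjIso G H) : PEquiv K G H :=
  let ⟨e, he⟩ := h; PEquiv.of_equiv K e he

theorem JEquiv.adjIso {k : ℕ} (hk : 2 ≤ k) (hn : n ≤ k + 1) (h : JEquiv k G H) : AdjIso G H :=
  (JEquiv.pequiv hk h).adjIso hn (by omega)

theorem AdjIso.jequiv (k : ℕ) (h : AdjIso G H) : JEquiv k G H := (AdjIso.pequiv (k + 1) h).jequiv

end cr

/-! ## Preserved relations -/

section pres

variable {V W : Type} {A : V → V → Bool} {B : W → W → Bool} {K : ℕ}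
  {R : Finset (V × W) → Prop}

/-- A pair of binary relations preserved by all positions of the system. -/
def Pres (R : Finset (V × W) → Prop) (P : V → V → Prop) (Q : W → W → Prop) : Prop :=
  ∀ S, R S → ∀ a ∈ S, ∀ b ∈ S, (P a.1 b.1 ↔ Q a.2 b.2)

variable {P P' : V → V → Prop} {Q Q' : W → W → Prop}

theorem PSys.pres_eq (h : PSys A B K R) : Pres R (fun v w => v = w) (fun v w => v = w) :=
  fun _ hS a ha b hb => h.eqv hS a ha b hb

theorem PSys.pres_adj (h : PSys A B K R) :
    Pres R (fun v w => A v w = true) (fun v w => B v w = true) :=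
  fun _ hS a ha b hb => by simp only [h.adj hS a ha b hb]

theorem Pres.const (c : Prop) : Pres R (fun _ _ => c) (fun _ _ => c) :=
  fun _ _ _ _ _ _ => Iff.rfl

theorem Pres.not (h : Pres R P Q) : Pres R (fun v w => ¬ P v w) (fun v w => ¬ Q v w) :=
  fun S hS a ha b hb => not_congr (h S hS a ha b hb)

theorem Pres.and (h : Pres R P Q) (h' : Pres R P' Q') :
    Pres R (fun v w => P v w ∧ P' v w) (fun v w => Q v w ∧ Q' v w) :=
  fun S hS a ha b hb => and_congr (h S hS a ha b hb) (h' S hS a ha b hb)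

theorem Pres.or (h : Pres R P Q) (h' : Pres R P' Q') :
    Pres R (fun v w => P v w ∨ P' v w) (fun v w => Q v w ∨ Q' v w) :=
  fun S hS a ha b hb => or_congr (h S hS a ha b hb) (h' S hS a ha b hb)

theorem Pres.imp (h : Pres R P Q) (h' : Pres R P' Q') :
    Pres R (fun v w => P v w → P' v w) (fun v w => Q v w → Q' v w) :=
  fun S hS a ha b hb => imp_congr (h S hS a ha b hb) (h' S hS a ha b hb)

theorem Pres.iff (h : Pres R P Q) (h' : Pres R P' Q') :
    Pres R (fun v w => P v w ↔ P' v w) (fun v w => Q v w ↔ Q' v w) :=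
  fun S hS a ha b hb => iff_congr (h S hS a ha b hb) (h' S hS a ha b hb)

theorem Pres.swap (h : Pres R P Q) : Pres R (fun v w => P w v) (fun v w => Q w v) :=
  fun S hS a ha b hb => h S hS b hb a ha

theorem Pres.fst (h : Pres R P Q) : Pres R (fun v _ => P v v) (fun v _ => Q v v) :=
  fun S hS a ha _ _ => h S hS a ha a ha

theorem Pres.snd (h : Pres R P Q) : Pres R (fun _ v => P v v) (fun _ v => Q v v) :=
  fun S hS _ _ b hb => h S hS b hb b hb

theorem Pres.forall_nat {P : ℕ → V → V → Prop} {Q : ℕ → W → W → Prop}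
    (h : ∀ t, Pres R (P t) (Q t)) : Pres R (fun v w => ∀ t, P t v w) (fun v w => ∀ t, Q t v w) :=
  fun S hS a ha b hb => forall_congr' fun t => h t S hS a ha b hb

theorem Pres.exists_nat {P : ℕ → V → V → Prop} {Q : ℕ → W → W → Prop}
    (h : ∀ t, Pres R (P t) (Q t)) : Pres R (fun v w => ∃ t, P t v w) (fun v w => ∃ t, Q t v w) :=
  fun S hS a ha b hb => exists_congr fun t => h t S hS a ha b hb

/-- The extension bijection on (at most) two pebbles. -/
theorem PSys.ext₂ (h : PSys A B K R) (hK : 3 ≤ K) {S : Finset (V × W)} (hS : R S)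
    {a b : V × W} (ha : a ∈ S) (hb : b ∈ S) : ∃ f : V ≃ W, ∀ z, ∃ T, R T ∧ a ∈ T ∧ b ∈ T ∧
      (z, f z) ∈ T := by
  classical
  have h1 : R {a, b} := h.mono (by
    intro x hx
    rcases mem_insert.mp hx with rfl | hx
    · exact ha
    · rw [mem_singleton.mp hx]; exact hb) hS
  obtain ⟨f, hf⟩ := h.ext h1 (lt_of_le_of_lt card_le_two (by omega))
  exact ⟨f, fun z => ⟨_, hf z, by simp, by simp, by simp⟩⟩

/-- The extension bijection on one pebble. -/
theorem PSys.ext₁ (h : PSys A B K R) (hK : 2 ≤ K) {S : Finset (V × W)} (hS : R S)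
    {a : V × W} (ha : a ∈ S) : ∃ f : V ≃ W, ∀ z, ∃ T, R T ∧ a ∈ T ∧ (z, f z) ∈ T := by
  classical
  have h1 : R {a} := h.mono (singleton_subset_iff.mpr ha) hS
  obtain ⟨f, hf⟩ := h.ext h1 (by rw [card_singleton]; omega)
  exact ⟨f, fun z => ⟨_, hf z, by simp, by simp⟩⟩

/-- The extension bijection on no pebble. -/
theorem PSys.ext₀ (h : PSys A B K R) (hK : 1 ≤ K) :
    ∃ f : V ≃ W, ∀ z, ∃ T, R T ∧ (z, f z) ∈ T := by
  classical
  obtain ⟨f, hf⟩ := h.ext h.empty (by rw [card_empty]; omega)
  exact ⟨f, fun z => ⟨_, hf z, by simp⟩⟩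

theorem Pres.exists_comp (hR : PSys A B K R) (hK : 3 ≤ K) (h : Pres R P Q) (h' : Pres R P' Q') :
    Pres R (fun v w => ∃ z, P v z ∧ P' z w) (fun v w => ∃ z, Q v z ∧ Q' z w) := by
  intro S hS a ha b hb
  obtain ⟨f, hf⟩ := hR.ext₂ hK hS ha hb
  constructor
  · rintro ⟨z, h1, h2⟩
    obtain ⟨T, hT, haT, hbT, hzT⟩ := hf z
    exact ⟨f z, (h T hT _ haT _ hzT).mp h1, (h' T hT _ hzT _ hbT).mp h2⟩
  · rintro ⟨z, h1, h2⟩
    obtain ⟨T, hT, haT, hbT, hzT⟩ := hf (f.symm z)
    rw [Equiv.apply_symm_apply] at hzT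
    exact ⟨f.symm z, (h T hT _ haT _ hzT).mpr h1, (h' T hT _ hzT _ hbT).mpr h2⟩

theorem Pres.forall_comp (hR : PSys A B K R) (hK : 3 ≤ K) (h : Pres R P Q) (h' : Pres R P' Q') :
    Pres R (fun v w => ∀ z, P v z → P' z w) (fun v w => ∀ z, Q v z → Q' z w) := by
  have h1 := (h.exists_comp hR hK h'.not).not
  simpa only [not_exists, not_and, not_not] using h1

theorem Pres.card_comp (hR : PSys A B K R) (hK : 3 ≤ K) (h : Pres R P Q) (h' : Pres R P' Q')
    (t : ℕ) : Pres R (fun v w => Nat.card {z // P v z ∧ P' z w} = t)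
      (fun v w => Nat.card {z // Q v z ∧ Q' z w} = t) := by
  intro S hS a ha b hb
  obtain ⟨f, hf⟩ := hR.ext₂ hK hS ha hb
  have h1 : Nat.card {z // P a.1 z ∧ P' z b.1} = Nat.card {z // Q a.2 z ∧ Q' z b.2} := by
    refine Nat.card_congr (f.subtypeEquiv fun z => ?_)
    obtain ⟨T, hT, haT, hbT, hzT⟩ := hf z
    exact and_congr (h T hT _ haT _ hzT) (h' T hT _ hzT _ hbT)
  simp only [h1]

theorem Pres.exists_unary (hR : PSys A B K R) (hK : 2 ≤ K) (h : Pres R P Q) :
    Pres R (fun v _ => ∃ z, P v z) (fun v _ => ∃ z, Q v z) := by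
  intro S hS a ha b hb
  obtain ⟨f, hf⟩ := hR.ext₁ hK hS ha
  constructor
  · rintro ⟨z, h1⟩
    obtain ⟨T, hT, haT, hzT⟩ := hf z
    exact ⟨f z, (h T hT _ haT _ hzT).mp h1⟩
  · rintro ⟨z, h1⟩
    obtain ⟨T, hT, haT, hzT⟩ := hf (f.symm z)
    rw [Equiv.apply_symm_apply] at hzT
    exact ⟨f.symm z, (h T hT _ haT _ hzT).mpr h1⟩

theorem Pres.forall_unary (hR : PSys A B K R) (hK : 2 ≤ K) (h : Pres R P Q) :
    Pres R (fun v _ => ∀ z, P v z) (fun v _ => ∀ z, Q v z) := by
  have h1 := (Pres.exists_unary hR hK h.not).not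
  simpa only [not_exists, not_not] using h1

theorem Pres.card_unary (hR : PSys A B K R) (hK : 2 ≤ K) (h : Pres R P Q) (t : ℕ) :
    Pres R (fun v _ => Nat.card {z // P v z} = t) (fun v _ => Nat.card {z // Q v z} = t) := by
  intro S hS a ha b hb
  obtain ⟨f, hf⟩ := hR.ext₁ hK hS ha
  have h1 : Nat.card {z // P a.1 z} = Nat.card {z // Q a.2 z} := by
    refine Nat.card_congr (f.subtypeEquiv fun z => ?_)
    obtain ⟨T, hT, haT, hzT⟩ := hf z
    exact h T hT _ haT _ hzT
  simp only [h1]

/-- Global sentences: unary preserved predicates have equally many solutions. -/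
theorem Pres.card_eq (hR : PSys A B K R) (hK : 1 ≤ K) (h : Pres R P Q) :
    Nat.card {v // P v v} = Nat.card {w // Q w w} := by
  obtain ⟨f, hf⟩ := hR.ext₀ hK
  refine Nat.card_congr (f.subtypeEquiv fun z => ?_)
  obtain ⟨T, hT, hzT⟩ := hf z
  exact h T hT _ hzT _ hzT

theorem Pres.exists_iff (hR : PSys A B K R) (hK : 1 ≤ K) (h : Pres R P Q) :
    (∃ v, P v v) ↔ ∃ w, Q w w := by
  obtain ⟨f, hf⟩ := hR.ext₀ hK
  constructor
  · rintro ⟨z, h1⟩
    obtain ⟨T, hT, hzT⟩ := hf z
    exact ⟨f z, (h T hT _ hzT _ hzT).mp h1⟩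
  · rintro ⟨z, h1⟩
    obtain ⟨T, hT, hzT⟩ := hf (f.symm z)
    rw [Equiv.apply_symm_apply] at hzT
    exact ⟨f.symm z, (h T hT _ hzT _ hzT).mpr h1⟩

theorem Pres.forall_iff (hR : PSys A B K R) (hK : 1 ≤ K) (h : Pres R P Q) :
    (∀ v, P v v) ↔ ∀ w, Q w w := by
  have h1 := not_congr (Pres.exists_iff hR hK h.not)
  simpa only [not_exists, not_not] using h1

/-- Global binary sentences. -/
theorem Pres.forall₂_iff (hR : PSys A B K R) (hK : 2 ≤ K) (h : Pres R P Q) :
    (∀ v w, P v w) ↔ ∀ v w, Q v w :=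
  Pres.forall_iff hR (by omega) (h.forall_unary hR hK)

theorem Pres.exists₂_iff (hR : PSys A B K R) (hK : 2 ≤ K) (h : Pres R P Q) :
    (∃ v w, P v w) ↔ ∃ v w, Q v w :=
  Pres.exists_iff hR (by omega) (h.exists_unary hR hK)

end pres

end Crest.Agent.R290.WL
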