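import Crest.Agent.R290.AG
import Crest.Agent.R290.Flat
import Crest.Agent.R290.WL
import Crest.Prelude.Def_BitEnc
import Crest.Agent.Lib.PT.ListFns2

/-!
# Row 290: shared definitions (FROZEN; captain helper432)

See `Crest/Agent/R290/Blueprint.lean` for the mathematics. `Bool` is used as the field with two
elements: Mathlib's `BooleanRing` structure on `Bool` gives `a + b = Bool.xor a b`, `0 = false`,
so `List.sum` of a list of Booleans is its parity.
-/

set_option autoImplicit false

namespace Crest.Agent.R290

open Crest.WLRefine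

/-! ## Pebble systems: see `WL.lean` (`WL.PSys`, `WL.PEquiv`). Shift systems: see `AG.lean`
(`ShiftSys`, over `Finset O` and `ZMod 2`). -/

/-- `Bool` to `ZMod 2` -/
def bz (b : Bool) : ZMod 2 := if b then 1 else 0

/-- Existence of a `K`-consistent shift system for the listed objects `objs` with ports `ports` and
parities `b`. -/
def ShiftEquiv {O X : Type} [DecidableEq O] [DecidableEq X] (objs : List O) (ports : O → List X)
    (b : O → Bool) (K : ℕ) : Prop :=
  ∃ S, ShiftSys (O := {u // u ∈ objs}) (fun u => (ports u.1).toFinset) (fun u => bz (b u.1)) K S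

/-- `s` is a global solution -/
def IsSol {O X : Type} (objs : List O) (ports : O → List X) (b : O → Bool) (s : X → Bool) : Prop :=
  ∀ u ∈ objs, ((ports u).map s).sum = b u

/-! ## Agreement graphs -/

/-- all bit lists of length `n` -/
def bools : ℕ → List (List Bool)
  | 0 => [[]]
  | n + 1 => (bools n).flatMap fun α => [false :: α, true :: α]

/-- An agreement graph: classes with variables; constrained classes carry a parity; `E` says which
classes are joined. -/
structure AG (C X : Type) where
  /-- the classes -/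
  cls : List C
  /-- the variables of a class -/
  vars : C → List X
  /-- is the class parity-constrained? -/
  con : C → Bool
  /-- adjacency of classes -/
  E : C → C → Bool

/-- the two partial assignments agree on common variables -/
def agree {X : Type} [DecidableEq X] (l : List X) (α : List Bool) (l' : List X)
    (α' : List Bool) : Bool :=
  (l.zip α).all fun p => (l'.zip α').all fun q => !(decide (p.1 = q.1)) || (p.2 == q.2)

namespace AG

variable {C X : Type} [DecidableEq X]

/-- the assignments of a class, for the parity function `b` -/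
def fibre (G : AG C X) (b : C → Bool) (c : C) : List (List Bool) :=
  (bools (G.vars c).length).filter fun α => !(G.con c) || (α.sum == b c)

/-- the vertices -/
def items (G : AG C X) (b : C → Bool) : List (C × List Bool) :=
  G.cls.flatMap fun c => (G.fibre b c).map fun α => (c, α)

/-- adjacency of vertices -/
def adj (G : AG C X) (p q : C × List Bool) : Bool :=
  G.E p.1 q.1 && agree (G.vars p.1) p.2 (G.vars q.1) q.2

/-- number of vertices -/
def order (G : AG C X) (b : C → Bool) : ℕ := (G.items b).length

/-- the adjacency matrix -/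
def mat (G : AG C X) (b : C → Bool) : Fin (G.order b) → Fin (G.order b) → Bool :=
  fun i j => G.adj ((G.items b).get i) ((G.items b).get j)

/-- the code of the adjacency matrix as a list function -/
def code (G : AG C X) (b : C → Bool) : List Bool :=
  Crest.Enc.natCode (G.items b).length ++
    (G.items b).flatMap fun v => (G.items b).map fun w => G.adj v w

end AG

/-! ## XOR instances and their two encodings -/

/-- A XOR instance: objects (constraints) with ports (variables), list of all variables. -/
structure XI (O X : Type) where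
  /-- objects -/
  objs : List O
  /-- ports of an object -/
  ports : O → List X
  /-- variables -/
  vl : List X

/-- well-formedness -/
structure XI.OK {O X : Type} (I : XI O X) : Prop where
  objs_nodup : I.objs.Nodup
  objs_ne : I.objs ≠ []
  ports_nodup : ∀ u ∈ I.objs, (I.ports u).Nodup
  two_le : ∀ u ∈ I.objs, 2 ≤ (I.ports u).length
  vl_nodup : I.vl.Nodup
  mem_vl : ∀ x, x ∈ I.vl ↔ ∃ u ∈ I.objs, x ∈ I.ports u

/-- classes of the anchor encoding: objects, variables, anchors, dummies -/
abbrev CA (O X : Type) : Type := (O ⊕ X) ⊕ (ℕ ⊕ ℕ)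

section encA
variable {O X : Type} [DecidableEq O] [DecidableEq X]

/-- objects and variables, in order -/
def XI.base (I : XI O X) : List (O ⊕ X) := I.objs.map Sum.inl ++ I.vl.map Sum.inr

/-- class adjacency of the anchor encoding (symmetric): object - variable if the variable is a port;
object or variable number `j` - anchor `i` iff `i ≤ j`; anchors pairwise; anchor - dummy always. -/
def XI.EA (I : XI O X) : CA O X → CA O X → Bool
  | .inl (.inl u), .inl (.inr x) => decide (x ∈ I.ports u)
  | .inl (.inr x), .inl (.inl u) => decide (x ∈ I.ports u)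
  | .inl c, .inr (.inl i) => decide (i ≤ I.base.idxOf c)
  | .inr (.inl i), .inl c => decide (i ≤ I.base.idxOf c)
  | .inr (.inl i), .inr (.inl j) => decide (i ≠ j)
  | .inr (.inl _), .inr (.inr _) => true
  | .inr (.inr _), .inr (.inl _) => true
  | _, _ => false

/-- the anchor encoding with `D` dummies -/
def encA (I : XI O X) (D : ℕ) : AG (CA O X) X where
  cls := I.base.map Sum.inl ++ (List.range (I.base.length + 1)).map (fun i => Sum.inr (Sum.inl i)) ++
    (List.range D).map (fun i => Sum.inr (Sum.inr i))
  vars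
    | .inl (.inl u) => I.ports u
    | .inl (.inr x) => [x]
    | _ => []
  con
    | .inl (.inl _) => true
    | _ => false
  E := I.EA

/-- parities on the classes of the anchor encoding -/
def bA (b : O → Bool) : CA O X → Bool
  | .inl (.inl u) => b u
  | _ => false

end encA

/-- A base graph with oriented edges `(c, c')`, `vars c' ⊆ vars c`. -/
structure BG (C X : Type) where
  /-- classes -/
  cls : List C
  /-- variables -/
  vars : C → List X
  /-- parity-constrained? -/
  con : C → Bool
  /-- oriented edges -/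
  es : List (C × C)

section subdiv
variable {C X : Type} [DecidableEq C] [DecidableEq X]

/-- class adjacency of the subdivision: `inr (k, 0)` subdivides edge number `k`, `inr (k, j)`,
`1 ≤ j ≤ k + 1`, form a pendant path at it. -/
def BG.ES (G : BG C X) : C ⊕ (ℕ × ℕ) → C ⊕ (ℕ × ℕ) → Bool
  | .inl c, .inr (k, j) => decide (j = 0 ∧ ∃ e ∈ G.es[k]?, e.1 = c ∨ e.2 = c)
  | .inr (k, j), .inl c => decide (j = 0 ∧ ∃ e ∈ G.es[k]?, e.1 = c ∨ e.2 = c)
  | .inr (k, j), .inr (k', j') => decide (k = k' ∧ (j' = j + 1 ∨ j = j' + 1))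
  | _, _ => false

/-- the subdivision with pendant paths -/
def subdiv (G : BG C X) : AG (C ⊕ (ℕ × ℕ)) X where
  cls := G.cls.map Sum.inl ++
    (List.range G.es.length).flatMap fun k => (List.range (k + 2)).map fun j => Sum.inr (k, j)
  vars
    | .inl c => G.vars c
    | .inr (k, _) => match G.es[k]? with
      | some e => G.vars e.1
      | none => []
  con
    | .inl c => G.con c
    | .inr (k, _) => match G.es[k]? with
      | some e => G.con e.1
      | none => false
  E := G.ES

/-- parities on the classes of a subdivision -/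
def bSub (G : BG C X) (b : C → Bool) : C ⊕ (ℕ × ℕ) → Bool
  | .inl c => b c
  | .inr (k, _) => match G.es[k]? with
    | some e => b e.1
    | none => false

end subdiv

/-- classes of the base graph of the subcubic encoding: `inl (u, i, 0)` full assignments of `u`
(copy for port `i`), `inl (u, i, l)` level `l` of the merging tree of port `i`;
`inr (inl (u, i))` chain vertex of port `i` of `u`; `inr (inr (inl x))` join of the two values of `x`;
`inr (inr (inr x))` bus. -/
abbrev CB (O X : Type) : Type := (O × ℕ × ℕ) ⊕ ((O × ℕ) ⊕ (X ⊕ X))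

section encS
variable {O X : Type} [DecidableEq O] [DecidableEq X]

/-- occurrences of the variable `x` -/
def XI.occ (I : XI O X) (x : X) : List (O × ℕ) :=
  I.objs.flatMap fun u => ((List.range (I.ports u).length).filter
    fun i => decide ((I.ports u)[i]? = some x)).map fun i => (u, i)

/-- variables at level `l` of the merging tree of port `i` of `u` (`l ≥ 1`) -/
def XI.mvars (I : XI O X) (u : O) (i l : ℕ) : List X :=
  match (I.ports u)[i]? with
  | some x => x :: ((I.ports u).eraseIdx i).drop l
  | none => []

/-- base graph of the subcubic encoding -/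
def baseS (I : XI O X) : BG (CB O X) X where
  cls := (I.objs.flatMap fun u => (List.range (I.ports u).length).flatMap fun i =>
      (List.range (I.ports u).length).map fun l => Sum.inl (u, i, l)) ++
    (I.objs.flatMap fun u => (List.range (I.ports u).length).map fun i => Sum.inr (Sum.inl (u, i))) ++
    (I.vl.map fun x => Sum.inr (Sum.inr (Sum.inl x))) ++
    (I.vl.map fun x => Sum.inr (Sum.inr (Sum.inr x)))
  vars
    | .inl (u, i, l) => if l = 0 then I.ports u else I.mvars u i l
    | .inr (.inl (u, i)) => match (I.ports u)[i]? with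
      | some x => [x]
      | none => []
    | _ => []
  con
    | .inl (_, _, l) => decide (l = 0)
    | _ => false
  es :=
    (I.objs.flatMap fun u => (List.range ((I.ports u).length - 1)).map fun i =>
      (Sum.inl (u, i, 0), Sum.inl (u, i + 1, 0))) ++
    (I.objs.flatMap fun u => (List.range (I.ports u).length).flatMap fun i =>
      (List.range ((I.ports u).length - 1)).map fun l => (Sum.inl (u, i, l), Sum.inl (u, i, l + 1))) ++
    (I.objs.flatMap fun u => (List.range (I.ports u).length).map fun i =>
      (Sum.inl (u, i, (I.ports u).length - 1), Sum.inr (Sum.inl (u, i)))) ++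
    (I.vl.flatMap fun x => ((I.occ x).zip (I.occ x).tail).map fun o =>
      (Sum.inr (Sum.inl o.1), Sum.inr (Sum.inl o.2))) ++
    (I.vl.flatMap fun x => ((I.occ x).take 1).map fun o =>
      (Sum.inr (Sum.inl o), Sum.inr (Sum.inr (Sum.inl x)))) ++
    (I.vl.map fun x => (Sum.inr (Sum.inr (Sum.inl x)), Sum.inr (Sum.inr (Sum.inr x)))) ++
    ((I.vl.zip I.vl.tail).map fun p =>
      (Sum.inr (Sum.inr (Sum.inr p.1)), Sum.inr (Sum.inr (Sum.inr p.2))))

/-- parities on the base classes of the subcubic encoding -/
def bB (b : O → Bool) : CB O X → Bool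
  | .inl (u, _, _) => b u
  | _ => false

/-- the subcubic encoding -/
def encS (I : XI O X) : AG (CB O X ⊕ (ℕ × ℕ)) X := subdiv (baseS I)

/-- parities on the classes of the subcubic encoding -/
def bS (I : XI O X) (b : O → Bool) : CB O X ⊕ (ℕ × ℕ) → Bool := bSub (baseS I) (bB b)

end encS

/-! ## Networks -/

/-- columns `(g, a, p)`; the centre of gadget `g` is `(g, 0, 0)` -/
abbrev Col : Type := ℕ × ℕ × ℕ
/-- edges: hub edges and internal edges `(g, a, p)` (joining positions `p - 1` and `p` of arm `a`) -/
abbrev Edge (H : Type) : Type := H ⊕ (ℕ × ℕ × ℕ)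
/-- variables: `Y (e, i, x, y)` and `U (κ, j, x)` -/
abbrev NVar (H Λ : Type) : Type := (Edge H × ℕ × Λ × Λ) ⊕ (Col × ℕ × Λ)
/-- objects `(κ, i, x, y)` -/
abbrev NObj (Λ : Type) : Type := Col × ℕ × Λ × Λ

set_option synthInstance.maxSize 2000 in
instance instDecEqNVar {H Λ : Type} [DecidableEq H] [DecidableEq Λ] : DecidableEq (NVar H Λ) :=
  inferInstance
set_option synthInstance.maxSize 2000 in
instance instDecEqNObj {Λ : Type} [DecidableEq Λ] : DecidableEq (NObj Λ) := inferInstance

/-- A network: `m` rows, gadgets `0, …, nG - 1`, the twisted gadget `gt`, number of arms, hub of an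
arm, projection of letters of an arm, letters of a gadget at a register. -/
structure Net (H Λ : Type) where
  /-- rows -/
  m : ℕ
  /-- number of gadgets -/
  nG : ℕ
  /-- twisted gadget -/
  gt : ℕ
  /-- number of arms -/
  narm : ℕ → ℕ
  /-- hub of an arm -/
  hub : ℕ → ℕ → H
  /-- projection of an arm -/
  proj : ℕ → ℕ → Λ → Λ
  /-- letters of gadget `g` at register `j` -/
  lett : ℕ → ℕ → List Λ
  /-- the trivial letter -/
  o : Λ

namespace Net
variable {H Λ : Type}

/-- length of the arms -/
def L (N : Net H Λ) : ℕ := N.m + 2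

/-- columns of a gadget -/
def cols (N : Net H Λ) (g : ℕ) : List Col :=
  (g, 0, 0) :: (List.range (N.narm g)).flatMap fun a => (List.range N.L).map fun p => (g, a, p + 1)

/-- edges of a column -/
def edges (N : Net H Λ) (κ : Col) : List (Edge H) :=
  if κ.2.2 = 0 then (List.range (N.narm κ.1)).map fun a => Sum.inr (κ.1, a, 1)
  else [Sum.inr κ, if κ.2.2 < N.L then Sum.inr (κ.1, κ.2.1, κ.2.2 + 1) else Sum.inl (N.hub κ.1 κ.2.1)]

/-- letter of column `κ` seen at the edge `e` -/
def psi (N : Net H Λ) (κ : Col) (e : Edge H) (x : Λ) : Λ :=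
  match e with
  | Sum.inl _ => N.proj κ.1 κ.2.1 x
  | Sum.inr _ => x

/-- the `Y` variable of row `i` at edge `e` -/
def Y (e : Edge H) (i : ℕ) (x y : Λ) : NVar H Λ := Sum.inl (e, i, x, y)
/-- the `U` variable of register `j` of the column `κ` -/
def U (κ : Col) (j : ℕ) (x : Λ) : NVar H Λ := Sum.inr (κ, j, x)

/-- ports of an object -/
def ports (N : Net H Λ) (u : NObj Λ) : List (NVar H Λ) :=
  ((N.edges u.1).map fun e => Y e u.2.1 (N.psi u.1 e u.2.2.1) (N.psi u.1 e u.2.2.2)) ++
    ((if 0 < u.2.1 then [U u.1 u.2.1 u.2.2.1] else []) ++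
      (if u.2.1 + 1 < N.m then [U u.1 (u.2.1 + 1) u.2.2.2] else []))

/-- the objects -/
def objs (N : Net H Λ) : List (NObj Λ) :=
  (List.range N.nG).flatMap fun g => (N.cols g).flatMap fun κ => (List.range N.m).flatMap fun i =>
    (N.lett g i).flatMap fun x => (N.lett g (i + 1)).map fun y => (κ, i, x, y)

/-- the twist: parity 1 at the bottom row of the centre of `gt` -/
def beta (N : Net H Λ) (u : NObj Λ) : Bool := decide (u.1 = (N.gt, 0, 0) ∧ u.2.1 + 1 = N.m)

/-- a content of gadget `g`: one letter for every register -/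
def Content (N : Net H Λ) (g : ℕ) (x : ℕ → Λ) : Prop := ∀ j, x j ∈ N.lett g j

/-- well-formedness -/
structure OK (N : Net H Λ) : Prop where
  two_le : 2 ≤ N.m
  gt_lt : N.gt < N.nG
  narm_gt : N.narm N.gt = 1
  narm_odd : ∀ g < N.nG, Odd (N.narm g)
  lett_triv : ∀ g < N.nG, ∀ j, (j = 0 ∨ N.m ≤ j) → N.lett g j = [N.o]
  proj_o : ∀ g a, N.proj g a N.o = N.o
  lett_nodup : ∀ g j, (N.lett g j).Nodup
  lett_ne : ∀ g j, N.lett g j ≠ []

/-- A closed set `Kn` of facts with values `val`. -/
structure Closed (N : Net H Λ) (Kn : H → (ℕ → Λ) → Prop) (val : H → (ℕ → Λ) → Bool) : Prop where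
  ne_one : ∀ g < N.nG, ∀ x, N.Content g x → ∀ a < N.narm g,
    (∀ a' < N.narm g, a' ≠ a → Kn (N.hub g a') (fun j => N.proj g a' (x j))) →
      Kn (N.hub g a) (fun j => N.proj g a (x j))
  sum_eq : ∀ g < N.nG, ∀ x, N.Content g x →
    (∀ a < N.narm g, Kn (N.hub g a) (fun j => N.proj g a (x j))) →
      ((List.range (N.narm g)).map fun a => val (N.hub g a) (fun j => N.proj g a (x j))).sum =
        decide (g = N.gt)

/-- Unit propagation without the twisted gadget. -/
inductive Der (N : Net H Λ) : H → (ℕ → Λ) → Prop
  | mk (g : ℕ) (x : ℕ → Λ) (a : ℕ) (hg : g < N.nG) (hgt : g ≠ N.gt) (hx : N.Content g x)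
      (ha : a < N.narm g)
      (h : ∀ a' < N.narm g, a' ≠ a → Der N (N.hub g a') (fun j => N.proj g a' (x j))) :
      Der N (N.hub g a) (fun j => N.proj g a (x j))

/-- premises come doubled: all arms but the last are paired -/
def Doubled (N : Net H Λ) : Prop :=
  ∀ g < N.nG, ∀ a, 2 * a + 1 < N.narm g →
    N.hub g (2 * a) = N.hub g (2 * a + 1) ∧ N.proj g (2 * a) = N.proj g (2 * a + 1)

variable [DecidableEq H] [DecidableEq Λ]

/-- remove duplicates (keeps the last occurrences) -/
def dd {X : Type} [DecidableEq X] (l : List X) : List X :=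
  l.foldr (fun a acc => if a ∈ acc then acc else a :: acc) []

/-- the XOR instance of a network -/
def xi (N : Net H Λ) : XI (NObj Λ) (NVar H Λ) where
  objs := N.objs
  ports := N.ports
  vl := dd (N.objs.flatMap N.ports)

end Net

/-! ## Rules -/

/-- hubs (= predicates): `(0, i)` state `i`; `(1, k)` top pointer of stack `k`; `(2, a)` symbol `a`;
`(3, 0)` next pointer; `(4, 0)` target -/
abbrev Hub : Type := ℕ × ℕ
/-- letters `(t, t', s, s')` -/
abbrev Let : Type := ℕ × ℕ × ℕ × ℕ

instance instDecEqLet : DecidableEq Let := inferInstance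
instance instDecEqHub : DecidableEq Hub := inferInstance
instance instDecEqNVarHL : DecidableEq (NVar Hub Let) := instDecEqNVar
instance instDecEqNObjL : DecidableEq (NObj Let) := instDecEqNObj
/-- atoms: predicate and two selectors (`0` zero, `1` t, `2` t', `3` s, `4` s') -/
abbrev Atom : Type := Hub × ℕ × ℕ
/-- rules: premises and head -/
abbrev Rule : Type := List Atom × Atom

/-- value of a selector on a quadruple (used for letters and for numbers) -/
def sel (c : ℕ) (q : ℕ × ℕ × ℕ × ℕ) : ℕ :=
  if c = 1 then q.1 else if c = 2 then q.2.1 else if c = 3 then q.2.2.1 else if c = 4 then q.2.2.2 else 0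

/-- does the atom use `t'`? -/
def Atom.usesT (a : Atom) : Bool := decide (a.2.1 = 2 ∨ a.2.2 = 2)
/-- does the rule use `t'`? -/
def Rule.usesT (r : Rule) : Bool := r.1.any Atom.usesT || Atom.usesT r.2
/-- the arms: every premise twice, the head once -/
def Rule.arms (r : Rule) : List Atom := r.1.flatMap (fun a => [a, a]) ++ [r.2]

/-- the target rule of the twisted gadget -/
def tgtRule : Rule := ([], ((4, 0), 3, 4))

/-- the gadgets: a rule with `0`, or a rule using `t'` with `f + 1`, `f` the position of the
increment -/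
def gadgets (rs : List Rule) (D : ℕ) : List (Rule × ℕ) :=
  (rs.flatMap fun r => if Rule.usesT r then (List.range D).map (fun f => (r, f + 1)) else [(r, 0)]) ++
    [(tgtRule, 0)]

/-- letters at register `j` of a gadget with increment mark `f` -/
def letters (B D f j : ℕ) : List Let :=
  if j = 0 ∨ D < j then [(0, 0, 0, 0)]
  else (if f = 0 then (List.range B).map fun d => (d, 0)
      else if j < f then [(B - 1, 0)]
      else if j = f then (List.range (B - 1)).map fun d => (d, d + 1)
      else (List.range B).map fun d => (d, d)).flatMap fun p =>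
    (List.range B).flatMap fun a => (List.range B).map fun c => (p.1, p.2, a, c)

/-- arm `a` of gadget `g` -/
def armOf (rs : List Rule) (D g a : ℕ) : Atom :=
  (Rule.arms ((gadgets rs D).getD g (tgtRule, 0)).1).getD a ((4, 0), 3, 4)

/-- The network of a list of rules, base `B`, `D` digits; `m = D + 1` rows. -/
def ruleNet (rs : List Rule) (B D : ℕ) : Net Hub Let where
  m := D + 1
  nG := (gadgets rs D).length
  gt := (gadgets rs D).length - 1
  narm g := (Rule.arms ((gadgets rs D).getD g (tgtRule, 0)).1).length
  hub g a := (armOf rs D g a).1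
  proj g a q := (sel (armOf rs D g a).2.1 q, sel (armOf rs D g a).2.2 q, 0, 0)
  lett g j := letters B D ((gadgets rs D).getD g (tgtRule, 0)).2 j
  o := (0, 0, 0, 0)

/-- Horn derivability at the level of numbers below `M`. -/
inductive RDer (rs : List Rule) (M : ℕ) : Hub → ℕ → ℕ → Prop
  | mk (r : Rule) (t s s' : ℕ) (hr : r ∈ rs) (ht : t < M) (hs : s < M) (hs' : s' < M)
      (ht' : Rule.usesT r = true → t + 1 < M)
      (h : ∀ a ∈ r.1, RDer rs M a.1 (sel a.2.1 (t, if Rule.usesT r then t + 1 else 0, s, s'))
        (sel a.2.2 (t, if Rule.usesT r then t + 1 else 0, s, s'))) :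
      RDer rs M r.2.1 (sel r.2.2.1 (t, if Rule.usesT r then t + 1 else 0, s, s'))
        (sel r.2.2.2 (t, if Rule.usesT r then t + 1 else 0, s, s'))

/-- all hubs of a rule list -/
def hubsOf (rs : List Rule) : List Hub := rs.flatMap fun r => (r.1 ++ [r.2]).map fun a => a.1

/-- unlocking rules `acc(t) → h(s, s')` -/
def unlock (acc : Hub) (rs : List Rule) : List Rule :=
  (hubsOf rs ++ [acc, (4, 0)]).map fun h => ([(acc, 1, 0)], (h, 3, 4))

/-! ## Rules of flat programs (`Flat.lean`: `FInstr`, `Flat`, `frun`, `FHalts`) -/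

/-- stack index of an instruction -/
def FInstr.stack : FInstr → ℕ
  | .push k _ _ => k
  | .pop k _ _ _ => k

/-- instructions as a sum of products -/
def FInstr.toSum : FInstr → (ℕ × Bool × ℕ) ⊕ (ℕ × ℕ × ℕ × ℕ)
  | .push k b j => Sum.inl (k, b, j)
  | .pop k e t f => Sum.inr (k, e, t, f)

theorem FInstr.toSum_injective : Function.Injective FInstr.toSum := by
  rintro (⟨k, b, j⟩ | ⟨k, e, t, f⟩) (⟨k', b', j'⟩ | ⟨k', e', t', f'⟩) h <;>
    simp_all [FInstr.toSum]

instance : Crest.Agent.Lib.PT.PTCode FInstr :=
  Crest.Agent.Lib.PT.PTCode.ofInj FInstr.toSum FInstr.toSum_injective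

/-- pointer facts of all stacks but `k` persist -/
def persist (Ks i k : ℕ) : List Rule :=
  ((List.range Ks).filter fun k' => decide (k' ≠ k)).map fun k' =>
    ([((0, i), 1, 0), ((1, k'), 1, 3)], ((1, k'), 2, 3))

/-- rules of the instruction `c` at label `i`, `Ks` stacks, `n` the halting label -/
def instrRules (Ks n i : ℕ) : FInstr → List Rule
  | .push k b j =>
    [([((0, i), 1, 0)], ((0, min j n), 2, 0)),
     ([((0, i), 1, 0)], ((1, k), 2, 2)),
     ([((0, i), 1, 0), ((1, k), 1, 3)], ((3, 0), 2, 3)),
     ([((0, i), 1, 0)], ((2, b.toNat), 2, 0))] ++ persist Ks i k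
  | .pop k e t f =>
    [([((0, i), 1, 0), ((1, k), 1, 0)], ((0, min e n), 2, 0)),
     ([((0, i), 1, 0), ((1, k), 1, 0)], ((1, k), 2, 0)),
     ([((0, i), 1, 0), ((1, k), 1, 3), ((2, 1), 3, 0)], ((0, min t n), 2, 0)),
     ([((0, i), 1, 0), ((1, k), 1, 3), ((2, 0), 3, 0)], ((0, min f n), 2, 0)),
     ([((0, i), 1, 0), ((1, k), 1, 3), ((3, 0), 3, 4)], ((1, k), 2, 4))] ++ persist Ks i k

/-- rules of a flat program without the unlocking rules; the halting fact is `(0, p.length)` -/
def progRules (p : Flat) (Ks : ℕ) : List Rule :=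
  [([], ((0, 0), 0, 0))] ++ ((List.range Ks).map fun k => ([], ((1, k), 0, 0))) ++
    p.zipIdx.flatMap fun ci => instrRules Ks p.length ci.2 ci.1

/-- all rules -/
def allRules (p : Flat) (Ks : ℕ) : List Rule :=
  progRules p Ks ++ unlock (0, p.length) (progRules p Ks)

/-- the network of a flat program -/
def progNet (p : Flat) (Ks B D : ℕ) : Net Hub Let := ruleNet (allRules p Ks) B D

/-- the XOR instance of a flat program -/
def progXI (p : Flat) (Ks B D : ℕ) : XI (NObj Let) (NVar Hub Let) := (progNet p Ks B D).xi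

/-- the pair of graphs of the anchor encoding -/
def graphA (p : Flat) (Ks B D pad : ℕ) (tw : Bool) : List Bool :=
  (encA (progXI p Ks B D) pad).code (bA fun u => tw && (progNet p Ks B D).beta u)

/-- the pair of graphs of the subcubic encoding -/
def graphS (p : Flat) (Ks B D : ℕ) (tw : Bool) : List Bool :=
  (encS (progXI p Ks B D)).code (bS (progXI p Ks B D) fun u => tw && (progNet p Ks B D).beta u)

/-! ## Further notions used in the interfaces -/

/-- all stack indices are below `Ks` -/
def WF (p : Flat) (Ks : ℕ) : Prop := ∀ c ∈ p, FInstr.stack c < Ks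

/-- `p` started on empty stacks never stops -/
def RunsForever (p : Flat) : Prop := ∀ T, ¬ FHalts p T

/-- digit expansion of a pair of numbers as a content -/
def dig (B D a c : ℕ) : ℕ → Let := fun j =>
  if j = 0 ∨ D < j then (0, 0, 0, 0) else (a / B ^ (j - 1) % B, c / B ^ (j - 1) % B, 0, 0)

/-- a set of facts closed under the rules (numbers below `M`) -/
def HornClosed (rs : List Rule) (M : ℕ) (Tr : Hub → ℕ → ℕ → Prop) : Prop :=
  ∀ r ∈ rs, ∀ t s s' : ℕ, t < M → s < M → s' < M → (Rule.usesT r = true → t + 1 < M) →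
    (∀ a ∈ r.1, Tr a.1 (sel a.2.1 (t, if Rule.usesT r then t + 1 else 0, s, s'))
      (sel a.2.2 (t, if Rule.usesT r then t + 1 else 0, s, s'))) →
    Tr r.2.1 (sel r.2.2.1 (t, if Rule.usesT r then t + 1 else 0, s, s'))
      (sel r.2.2.2 (t, if Rule.usesT r then t + 1 else 0, s, s'))

/-- Every hub can be unlocked: for the hub `h` of any arm the gadget `ug h` has three arms, two
identical derivable ones and `h`, and `lift h j` lifts the letters of `h` at register `j`. -/
structure Net.Unlocked {H Λ : Type} (N : Net H Λ) (ug : H → ℕ) (lift : H → ℕ → Λ → Λ) : Prop where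
  lt : ∀ g < N.nG, ∀ a < N.narm g, ug (N.hub g a) < N.nG
  ne : ∀ g < N.nG, ∀ a < N.narm g, ug (N.hub g a) ≠ N.gt
  narm : ∀ g < N.nG, ∀ a < N.narm g, N.narm (ug (N.hub g a)) = 3
  hub2 : ∀ g < N.nG, ∀ a < N.narm g, N.hub (ug (N.hub g a)) 2 = N.hub g a
  hub01 : ∀ g < N.nG, ∀ a < N.narm g, N.hub (ug (N.hub g a)) 0 = N.hub (ug (N.hub g a)) 1
  proj01 : ∀ g < N.nG, ∀ a < N.narm g, N.proj (ug (N.hub g a)) 0 = N.proj (ug (N.hub g a)) 1
  mem : ∀ g < N.nG, ∀ a < N.narm g, ∀ j, ∀ x ∈ N.lett g j,
    lift (N.hub g a) j (N.proj g a x) ∈ N.lett (ug (N.hub g a)) j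
  proj_lift : ∀ g < N.nG, ∀ a < N.narm g, ∀ j, ∀ x ∈ N.lett g j,
    N.proj (ug (N.hub g a)) 2 (lift (N.hub g a) j (N.proj g a x)) = N.proj g a x
  der : ∀ g < N.nG, ∀ a < N.narm g, ∀ x, N.Content g x →
    N.Der (N.hub (ug (N.hub g a)) 0)
      (fun j => N.proj (ug (N.hub g a)) 0 (lift (N.hub g a) j (N.proj g a (x j))))

/-- order of the anchor encoding without dummies -/
def baseOrder (p : Flat) (Ks B D : ℕ) : ℕ :=
  (encA (progXI p Ks B D) 0).order (fun _ => false)

/-! equation lemmas, generated once here (so that the importing modules do not each generate them) -/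

theorem defs_eqns : True := by
  have := @bools.eq_1
  have := @bools.eq_2
  have := @bools.eq_def
  have := @bz.eq_1
  have := @XI.base.eq_1
  have := @XI.EA.eq_1
  have := @XI.EA.congr_simp
  have := @encA.eq_1
  have := @subdiv.eq_1
  have := @BG.ES.eq_1
  have := @BG.ES.congr_simp
  have := @XI.occ.eq_1
  have := @XI.occ.congr_simp
  have := @baseS.eq_1
  have := @sel.eq_1
  have := @Atom.usesT.eq_1
  have := @Rule.usesT.eq_1
  have := @Rule.arms.eq_1
  have := @tgtRule.eq_1
  have := @instrRules.eq_1
  have := @instrRules.eq_2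
  have := @Net.L.eq_1
  have := @Net.U.eq_1
  have := @Net.Y.eq_1
  have := @Net.beta.eq_1
  have := @Net.cols.eq_1
  have := @Net.edges.eq_1
  have := @Net.objs.eq_1
  have := @Net.ports.eq_1
  trivial

end Crest.Agent.R290
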