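import Crest.Agent.R290.SelfRef

/-!
# Row 290: the decision interface of the diagonalisation
-/

set_option autoImplicit false

namespace Crest.Agent.R290

open Crest.WLRefine

/-- `F` decides (by halting) the relation `E` on pairs of promise graphs; accepting runs take at most
`τ n` steps on graphs with `n` vertices. -/
def Decides (F : Flat)
    (E : ∀ n : ℕ, (Fin n → Fin n → Bool) → (Fin n → Fin n → Bool) → Prop) (τ : ℕ → ℕ) : Prop :=
  ∀ (n : ℕ) (G H : Fin n → Fin n → Bool), SimpleConnDiamTwo G → SimpleConnDiamTwo H →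
    (E n G H → FHaltsOn F (adjMatrixCode G ++ adjMatrixCode H) (τ n)) ∧
    (¬ E n G H → ∀ T, ¬ FHaltsOn F (adjMatrixCode G ++ adjMatrixCode H) T)

end Crest.Agent.R290
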