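import Mathlib

/-!
# Row 290: arithmetic of the diagonalisation
-/

set_option autoImplicit false

namespace Crest.Agent.R290

/-- integer `E`-th root with bounds -/
theorem exists_root (E N n : ℕ) (hE : 1 ≤ E) (hN : 2 ^ E ≤ N) (hn : N ^ E ≤ n) :
    ∃ ν, N ≤ ν ∧ ν ^ E ≤ n ∧ n ≤ ν ^ (E + 1) := by
  classical
  set ν := Nat.findGreatest (fun v => v ^ E ≤ n) n with hν
  have hNn : N ≤ n := (Nat.le_self_pow (by omega) N).trans hn
  have h1 : ν ^ E ≤ n := Nat.findGreatest_spec (P := fun v => v ^ E ≤ n) hNn hn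
  have h2 : N ≤ ν := Nat.le_findGreatest hNn hn
  refine ⟨ν, h2, h1, ?_⟩
  have h3 : n < (ν + 1) ^ E := by
    by_contra hc
    push Not at hc
    have h4 : ν + 1 ≤ n := (Nat.le_self_pow (by omega) _).trans hc
    have h5 : ν + 1 ≤ ν := Nat.le_findGreatest (P := fun v => v ^ E ≤ n) h4 hc
    omega
  have hν1 : 1 ≤ ν := by
    have : 1 ≤ 2 ^ E := Nat.one_le_two_pow
    omega
  calc n ≤ (ν + 1) ^ E := h3.le
    _ ≤ (2 * ν) ^ E := Nat.pow_le_pow_left (by omega) E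
    _ = 2 ^ E * ν ^ E := by rw [mul_pow]
    _ ≤ ν * ν ^ E := Nat.mul_le_mul_right _ (by omega)
    _ = ν ^ (E + 1) := by rw [pow_succ, mul_comm]

/-- from the real bound to a natural one -/
theorem pow_le_of_lt_rpow (T n N k : ℕ) (hN : 0 < N)
    (h : (T : ℝ) < (n : ℝ) ^ ((1 / (N : ℝ)) * k)) : T ^ N ≤ n ^ k := by
  have h1 : ((T : ℝ)) ^ N ≤ ((n : ℝ) ^ ((1 / (N : ℝ)) * k)) ^ N :=
    pow_le_pow_left₀ (Nat.cast_nonneg T) h.le N
  have h2 : ((n : ℝ) ^ ((1 / (N : ℝ)) * k)) ^ N = (n : ℝ) ^ k := by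
    rw [← Real.rpow_natCast, ← Real.rpow_mul (Nat.cast_nonneg n)]
    have hN' : (N : ℝ) ≠ 0 := by positivity
    have : (1 / (N : ℝ)) * k * N = k := by field_simp
    rw [this, Real.rpow_natCast]
  rw [h2] at h1
  exact_mod_cast h1

/-- The arithmetic of the diagonalisation: `E` size exponent, `d` exponent of the generator, `a`
exponent of the simulation. -/
theorem diag_arith (E d a : ℕ) (hE : 1 ≤ E) : ∃ c : ℝ, 0 < c ∧ ∃ k₀ : ℕ, ∀ k ≥ k₀, ∀ C : ℕ,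
    ∃ n₀ : ℕ, ∀ n ≥ n₀, ∃ ν : ℕ, 2 ≤ ν ∧ C ≤ ν ∧ ν ^ E ≤ n ∧ n ≤ ν ^ (E + 1) ∧
      ∀ T : ℕ, (T : ℝ) < (n : ℝ) ^ (c * k) → C * ν ^ d + C * (n + T + 1) ^ a < ν ^ (k - 2) := by
  set b := a + 1 with hb
  refine ⟨1 / ((2 * b * (E + 1) : ℕ) : ℝ), by positivity, 2 * (E + 1) * b + d + 14,
    fun k hk C => ?_⟩
  obtain ⟨N, hN0, hNC, hN4, hNE, hN2⟩ : ∃ N : ℕ, N = C + 4 ^ (2 * b) + 2 ^ E + 2 ∧ C ≤ N ∧
      4 ^ (2 * b) ≤ N ∧ 2 ^ E ≤ N ∧ 2 ≤ N := by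
    have h1 : 0 < 4 ^ (2 * b) := by positivity
    have h2 : 0 < 2 ^ E := by positivity
    exact ⟨_, rfl, by omega, by omega, by omega, by omega⟩
  refine ⟨N ^ E, fun n hn => ?_⟩
  obtain ⟨ν, h1, h2, h3⟩ := exists_root E N n hE (by omega) hn
  refine ⟨ν, by omega, by omega, h2, h3, fun T hT => ?_⟩
  have hν0 : 0 < ν := by omega
  have hν1 : 1 ≤ ν := hν0
  have hp2 : (2 : ℕ) ^ (2 * b) = 4 ^ b := by rw [pow_mul]; norm_num
  have hCν : C ≤ ν := hNC.trans h1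
  have h4ν : 4 ^ (2 * b) ≤ ν := hN4.trans h1
  -- T ^ (2 b) ≤ ν ^ k
  have hT1 : T ^ (2 * b) ≤ ν ^ k := by
    have h4 : T ^ (2 * b * (E + 1)) ≤ n ^ k := pow_le_of_lt_rpow T n _ k (by positivity) hT
    have h5 : (T ^ (2 * b)) ^ (E + 1) ≤ (ν ^ k) ^ (E + 1) := by
      calc (T ^ (2 * b)) ^ (E + 1) = T ^ (2 * b * (E + 1)) := (pow_mul _ _ _).symm
        _ ≤ n ^ k := h4
        _ ≤ (ν ^ (E + 1)) ^ k := Nat.pow_le_pow_left h3 k
        _ = (ν ^ k) ^ (E + 1) := by rw [← pow_mul, ← pow_mul, mul_comm]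
    exact (Nat.pow_le_pow_iff_left (by omega)).mp h5
  -- (n + 1) ^ (2 b) ≤ 4 ^ b * ν ^ k
  have hn1 : 1 ≤ n := (Nat.one_le_pow _ _ hν0).trans h2
  have hn2 : (n + 1) ^ (2 * b) ≤ 4 ^ b * ν ^ k := by
    calc (n + 1) ^ (2 * b) ≤ (2 * ν ^ (E + 1)) ^ (2 * b) := Nat.pow_le_pow_left (by omega) _
      _ = 4 ^ b * ν ^ ((E + 1) * (2 * b)) := by rw [mul_pow, hp2, ← pow_mul]
      _ ≤ 4 ^ b * ν ^ k := by
        refine Nat.mul_le_mul_left _ (Nat.pow_le_pow_right hν0 ?_)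
        have : (E + 1) * (2 * b) = 2 * (E + 1) * b := by ring
        omega
  have hX : (n + T + 1) ^ (2 * b) ≤ ν ^ (k + 1) := by
    have h6 : (n + T + 1) ^ (2 * b) ≤ 4 ^ (2 * b) * ν ^ k := by
      rcases le_total T (n + 1) with h | h
      · calc (n + T + 1) ^ (2 * b) ≤ (2 * (n + 1)) ^ (2 * b) := Nat.pow_le_pow_left (by omega) _
          _ = 4 ^ b * (n + 1) ^ (2 * b) := by rw [mul_pow, hp2]
          _ ≤ 4 ^ b * (4 ^ b * ν ^ k) := Nat.mul_le_mul_left _ hn2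
          _ = 4 ^ (2 * b) * ν ^ k := by rw [← mul_assoc, ← pow_add, two_mul]
      · calc (n + T + 1) ^ (2 * b) ≤ (2 * T) ^ (2 * b) := Nat.pow_le_pow_left (by omega) _
          _ = 4 ^ b * T ^ (2 * b) := by rw [mul_pow, hp2]
          _ ≤ 4 ^ b * ν ^ k := Nat.mul_le_mul_left _ hT1
          _ ≤ 4 ^ (2 * b) * ν ^ k := Nat.mul_le_mul_right _ (Nat.pow_le_pow_right (by omega) (by omega))
    calc (n + T + 1) ^ (2 * b) ≤ 4 ^ (2 * b) * ν ^ k := h6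
      _ ≤ ν * ν ^ k := Nat.mul_le_mul_right _ (by omega)
      _ = ν ^ (k + 1) := by rw [pow_succ, mul_comm]
  -- C * (n + T + 1) ^ a < ν ^ (k - 3)
  have hY : C * (n + T + 1) ^ a < ν ^ (k - 3) := by
    have h7 : C * (n + T + 1) ^ a ≤ ν * (n + T + 1) ^ b :=
      Nat.mul_le_mul (by omega) (Nat.pow_le_pow_right (by omega) (by omega))
    refine lt_of_le_of_lt h7 ?_
    have h8 : (ν * (n + T + 1) ^ b) ^ 2 < (ν ^ (k - 3)) ^ 2 := by
      calc (ν * (n + T + 1) ^ b) ^ 2 = ν ^ 2 * (n + T + 1) ^ (2 * b) := by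
            rw [mul_pow, ← pow_mul, mul_comm b 2]
        _ ≤ ν ^ 2 * ν ^ (k + 1) := Nat.mul_le_mul_left _ hX
        _ = ν ^ (k + 3) := by rw [← pow_add]; congr 1; omega
        _ < ν ^ ((k - 3) * 2) := Nat.pow_lt_pow_right (by omega) (by omega)
        _ = (ν ^ (k - 3)) ^ 2 := by rw [pow_mul]
    exact lt_of_pow_lt_pow_left₀ 2 (Nat.zero_le _) h8
  have hZ : C * ν ^ d ≤ ν ^ (k - 3) := by
    calc C * ν ^ d ≤ ν * ν ^ d := Nat.mul_le_mul_right _ (by omega)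
      _ = ν ^ (d + 1) := by rw [pow_succ, mul_comm]
      _ ≤ ν ^ (k - 3) := Nat.pow_le_pow_right hν0 (by omega)
  calc C * ν ^ d + C * (n + T + 1) ^ a < ν ^ (k - 3) + ν ^ (k - 3) := by omega
    _ = 2 * ν ^ (k - 3) := by ring
    _ ≤ ν * ν ^ (k - 3) := Nat.mul_le_mul_right _ (by omega)
    _ = ν ^ (k - 2) := by
      rw [← pow_succ']
      congr 1
      omega

end Crest.Agent.R290
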