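import Crest.Agent.R290.GenRules

/-!
# Row 290, module GEN: the generators are poly-time
-/

set_option autoImplicit false
set_option linter.dupNamespace false

namespace Crest.Agent.R290

open Crest.Agent.Lib.PT

/-! ### port lists have length at most 9 -/

theorem length_arms (r : Rule) : (Rule.arms r).length = 2 * r.1.length + 1 := by
  simp [Rule.arms, List.length_flatMap, mul_comm]

theorem gadgets_le {rs : List Rule} (h : ∀ r ∈ rs, r.1.length ≤ 3) (D : ℕ) :
    ∀ g ∈ gadgets rs D, g.1.1.length ≤ 3 := by
  intro g hg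
  simp only [gadgets, List.mem_append, List.mem_flatMap, List.mem_singleton] at hg
  rcases hg with ⟨r, hr, hg⟩ | hg
  · split_ifs at hg
    · simp only [List.mem_map] at hg
      obtain ⟨f, _, rfl⟩ := hg
      exact h r hr
    · simp only [List.mem_singleton] at hg
      subst hg
      exact h r hr
  · subst hg
    simp [tgtRule]

theorem narm_le {rs : List Rule} (h : ∀ r ∈ rs, r.1.length ≤ 3) (B D g : ℕ) :
    (ruleNet rs B D).narm g ≤ 7 := by
  show (Rule.arms ((gadgets rs D).getD g (tgtRule, 0)).1).length ≤ 7
  rw [length_arms]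
  have h1 : ((gadgets rs D).getD g (tgtRule, 0)).1.1.length ≤ 3 := by
    rw [List.getD_eq_getElem?_getD]
    cases hg : (gadgets rs D)[g]? with
    | none => simp [tgtRule]
    | some x => exact gadgets_le h D x (List.mem_of_getElem? hg)
  omega

theorem length_ports_le {rs : List Rule} (h : ∀ r ∈ rs, r.1.length ≤ 3) (B D : ℕ) (u : NObj Let) :
    ((ruleNet rs B D).ports u).length ≤ 9 := by
  have h1 : ((ruleNet rs B D).edges u.1).length ≤ 7 := by
    unfold Net.edges
    split_ifs
    · simpa using narm_le h B D u.1.1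
    · simp
    · simp
  unfold Net.ports
  simp only [List.length_append, List.length_map]
  have h2 : (if 0 < u.2.1 then [Net.U (H := Hub) u.1 u.2.1 u.2.2.1] else []).length ≤ 1 := by
    split_ifs <;> simp
  have h3 : (if u.2.1 + 1 < (ruleNet rs B D).m then
      [Net.U (H := Hub) u.1 (u.2.1 + 1) u.2.2.2] else []).length ≤ 1 := by
    split_ifs <;> simp
  omega

theorem progRules_le (p : Flat) (Ks : ℕ) : ∀ r ∈ progRules p Ks, r.1.length ≤ 3 := by
  have hper : ∀ i k, ∀ r ∈ persist Ks i k, r.1.length ≤ 3 := by
    intro i k r hr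
    simp only [persist, List.mem_map] at hr
    obtain ⟨_, _, rfl⟩ := hr
    simp
  intro r hr
  simp only [progRules, List.mem_append, List.mem_singleton, List.mem_map, List.mem_flatMap] at hr
  rcases hr with (rfl | ⟨_, _, rfl⟩) | ⟨⟨c, i⟩, _, hr⟩
  · simp
  · simp
  · cases c with
    | push k b j =>
      simp only [instrRules, List.mem_append, List.mem_cons, List.not_mem_nil, or_false] at hr
      rcases hr with (rfl | rfl | rfl | rfl) | hr
      · simp
      · simp
      · simp
      · simp
      · exact hper _ _ r hr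
    | pop k e t f =>
      simp only [instrRules, List.mem_append, List.mem_cons, List.not_mem_nil, or_false] at hr
      rcases hr with (rfl | rfl | rfl | rfl | rfl) | hr
      · simp
      · simp
      · simp
      · simp
      · simp
      · exact hper _ _ r hr

theorem allRules_le (p : Flat) (Ks : ℕ) : ∀ r ∈ allRules p Ks, r.1.length ≤ 3 := by
  intro r hr
  simp only [allRules, List.mem_append] at hr
  rcases hr with hr | hr
  · exact progRules_le p Ks r hr
  · simp only [unlock, List.mem_map] at hr
    obtain ⟨_, _, rfl⟩ := hr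
    simp

/-- port lists of program networks have length at most 9 -/
theorem progXI_ports_le (p : Flat) (Ks B D : ℕ) (u : NObj Let) :
    ((progXI p Ks B D).ports u).length ≤ 9 :=
  length_ports_le (allRules_le p Ks) B D u

/-! ### the generators -/

section gen

variable {γ : Type} [PTCode γ]

theorem ptf_graphA' {p : γ → Flat} {Ks B D pad : γ → ℕ} (hp : PTF p) (hKs : PTU Ks) (hB : PTU B)
    (hD : PTU D) (hpad : PTU pad) (tw : Bool) :
    PTF (fun d => graphA (p d) (Ks d) (B d) (D d) (pad d) tw) := by
  have hN := ptNet_progNet hp hKs hB hD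
  unfold graphA
  refine ptf_encA (I := fun d => progXI (p d) (Ks d) (B d) (D d)) 9 (by norm_num)
    (b := fun d u => tw && (progNet (p d) (Ks d) (B d) (D d)).beta u)
    (fun d u _ => progXI_ports_le _ _ _ _ u) hN.objs hN.vl hN.ports hpad ?_
  exact PTF.and (PTF.const tw) hN.beta

theorem ptf_graphS' {p : γ → Flat} {Ks B D : γ → ℕ} (hp : PTF p) (hKs : PTU Ks) (hB : PTU B)
    (hD : PTU D) (tw : Bool) :
    PTF (fun d => graphS (p d) (Ks d) (B d) (D d) tw) := by
  have hN := ptNet_progNet hp hKs hB hD
  unfold graphS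
  refine ptf_encS (I := fun d => progXI (p d) (Ks d) (B d) (D d)) hN.objs hN.vl hN.ports 9
    (by norm_num) (b := fun d u => tw && (progNet (p d) (Ks d) (B d) (D d)).beta u)
    (fun d u => progXI_ports_le _ _ _ _ u) ?_
  exact PTF.and (PTF.const tw) hN.beta

theorem ptu_baseOrder' {p : γ → Flat} {Ks B D : γ → ℕ} (hp : PTF p) (hKs : PTU Ks) (hB : PTU B)
    (hD : PTU D) : PTU (fun d => baseOrder (p d) (Ks d) (B d) (D d)) := by
  have hN := ptNet_progNet hp hKs hB hD
  have h1 : PTF (fun d => (encA (progXI (p d) (Ks d) (B d) (D d)) 0).items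
      (bA fun _ : NObj Let => false)) :=
    ptf_encA_items (I := fun d => progXI (p d) (Ks d) (B d) (D d)) 9 (by norm_num)
      (D := fun _ => 0) (b := fun _ _ => false) (fun d u _ => progXI_ports_le _ _ _ _ u)
      hN.objs hN.vl hN.ports (PTU.const 0) (PTF.const false)
  refine (PTU.length h1).of_eq fun d => ?_
  have h2 : (bA fun _ : NObj Let => false) = (fun _ : CA (NObj Let) (NVar Hub Let) => false) := by
    funext c
    rcases c with (c | c) | c <;> rfl
  rw [h2]
  rfl

theorem ptf_graphA (tw : Bool) : PTF (fun d : Flat × Un × Un × Un × Un =>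
    graphA d.1 d.2.1.val d.2.2.1.val d.2.2.2.1.val d.2.2.2.2.val tw) :=
  ptf_graphA' (by fun_prop) (PTU.val (by fun_prop)) (PTU.val (by fun_prop))
    (PTU.val (by fun_prop)) (PTU.val (by fun_prop)) tw

theorem ptf_graphS (tw : Bool) : PTF (fun d : Flat × Un × Un × Un =>
    graphS d.1 d.2.1.val d.2.2.1.val d.2.2.2.val tw) :=
  ptf_graphS' (by fun_prop) (PTU.val (by fun_prop)) (PTU.val (by fun_prop))
    (PTU.val (by fun_prop)) tw

theorem ptu_baseOrder : PTU (fun d : Flat × Un × Un × Un =>
    baseOrder d.1 d.2.1.val d.2.2.1.val d.2.2.2.val) :=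
  ptu_baseOrder' (by fun_prop) (PTU.val (by fun_prop)) (PTU.val (by fun_prop))
    (PTU.val (by fun_prop))

end gen

end Crest.Agent.R290
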