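import Crest.Agent.R290.RamDec
import Crest.Agent.R290.Diag0

/-!
# Row 290: word-RAM deciders are flat deciders (absolute exponent)
-/

set_option autoImplicit false

namespace Crest.Agent.R290

open Crest.WLRefine Crest.WordRAM Crest.Agent.Lib.PT Function

theorem length_adjMatrixCode' {n : ℕ} (G : Fin n → Fin n → Bool) :
    (adjMatrixCode G).length = 2 * n.size + 2 + n * n := by
  unfold adjMatrixCode
  rw [List.length_append, RAM.length_natCode, List.length_flatMap]
  congr 1
  simp

/-- word-RAM deciders -/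
theorem ram_decides : ∃ a : ℕ, ∀ (P : Program) (c₀ : ℕ), ∃ (F : Flat) (C : ℕ),
    ∀ (E : ∀ n : ℕ, (Fin n → Fin n → Bool) → (Fin n → Fin n → Bool) → Prop) (T : ℕ → ℕ),
    (∀ (n : ℕ) (G H : Fin n → Fin n → Bool), SimpleConnDiamTwo G →
      SimpleConnDiamTwo H → ∀ ρ : ℕ → ℕ,
        (run P (c₀ * Nat.clog 2 (n + 2)) ρ
          (((adjMatrixCode G ++ adjMatrixCode H).map fun b => if b then 1 else 0)) (T n)).halted
            = true ∧
        ((run P (c₀ * Nat.clog 2 (n + 2)) ρ
          (((adjMatrixCode G ++ adjMatrixCode H).map fun b => if b then 1 else 0)) (T n)).output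
            = [1] ↔ E n G H)) →
    Decides F E (fun n => C * (n + T n + 1) ^ a) := by
  obtain ⟨a, ha⟩ := RAM.ram_prog
  refine ⟨2 * a, fun P c₀ => ?_⟩
  obtain ⟨c, C, hc⟩ := ha P c₀
  refine ⟨runPart c 0, 4 * (C * 9 ^ a) + 1, fun E T h n G H hG hH => ?_⟩
  obtain ⟨hh, ho⟩ := h n G H hG hH (fun _ => 0)
  have hx : adjMatrixCode G ++ adjMatrixCode H = Crest.Enc.natCode n ++
      ((List.finRange n).flatMap (fun v => (List.finRange n).map fun w => G v w) ++
        adjMatrixCode H) := by
    unfold adjMatrixCode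
    rw [List.append_assoc]
  have hb : ((adjMatrixCode G ++ adjMatrixCode H).map fun b => if b then 1 else 0) =
      RAM.bitsNat (adjMatrixCode G ++ adjMatrixCode H) := rfl
  rw [hb, hx] at hh ho
  have h1 := hc n _ (T n) hh
  rw [← hx] at h1 ho
  have hlen : (adjMatrixCode G ++ adjMatrixCode H).length + T n + 1 ≤ 9 * (n + T n + 1) ^ 2 := by
    rw [List.length_append, length_adjMatrixCode', length_adjMatrixCode']
    have h2 : n.size ≤ n := by
      rw [Nat.size_le]
      exact Nat.lt_two_pow_self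
    nlinarith
  have hpow : ((adjMatrixCode G ++ adjMatrixCode H).length + T n + 1) ^ a ≤
      9 ^ a * (n + T n + 1) ^ (2 * a) := by
    calc ((adjMatrixCode G ++ adjMatrixCode H).length + T n + 1) ^ a
        ≤ (9 * (n + T n + 1) ^ 2) ^ a := Nat.pow_le_pow_left hlen _
      _ = 9 ^ a * (n + T n + 1) ^ (2 * a) := by rw [mul_pow, ← pow_mul]
  have hone : 1 ≤ (n + T n + 1) ^ (2 * a) := Nat.one_le_pow _ _ (by omega)
  refine ⟨fun hE => ?_, fun hE T' => ?_⟩
  · rw [decide_eq_true (ho.2 hE)] at h1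
    refine (runPart_haltsOn h1 (l := []) rfl).mono ?_
    have h3 := Nat.mul_le_mul_left C hpow
    have h4 : (4 * (C * 9 ^ a) + 1) * (n + T n + 1) ^ (2 * a) =
      4 * (C * (9 ^ a * (n + T n + 1) ^ (2 * a))) + (n + T n + 1) ^ (2 * a) := by ring
    simp only
    omega
  · rw [decide_eq_false (fun h => hE (ho.1 h))] at h1
    exact runPart_loopsOn h1 (by simp) T'

end Crest.Agent.R290
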