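import Crest.Agent.R290.Defs

/-!
# Row 290: size bound for the anchor encoding (`baseOrder_le`)
-/

set_option autoImplicit false

namespace Crest.Agent.R290

namespace Size

theorem length_flatMap_le {α β : Type} (l : List α) (f : α → List β) (k : ℕ)
    (h : ∀ a ∈ l, (f a).length ≤ k) : (l.flatMap f).length ≤ l.length * k := by
  induction l with
  | nil => simp
  | cons a l ih =>
    rw [List.flatMap_cons, List.length_append, List.length_cons]
    have h1 := h a (by simp)
    have h2 := ih (fun b hb => h b (by simp [hb]))
    nlinarith

theorem bools_length (n : ℕ) : (bools n).length = 2 ^ n := by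
  induction n with
  | zero => rfl
  | succ n ih =>
    rw [bools, List.length_flatMap]
    simp [ih, pow_succ]

theorem fibre_length_le {C X : Type} (G : AG C X) (b : C → Bool) (c : C) :
    (G.fibre b c).length ≤ 2 ^ (G.vars c).length := by
  rw [← bools_length]
  exact List.length_filter_le _ _

theorem dd_length_le {X : Type} [DecidableEq X] (l : List X) : (Net.dd l).length ≤ l.length := by
  unfold Net.dd
  induction l with
  | nil => simp
  | cons a l ih =>
    rw [List.foldr_cons]
    split
    · exact ih.trans (by simp)
    · simpa using ih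

/-- order of the anchor encoding, number of objects and ports known -/
theorem encA_order_le {O X : Type} [DecidableEq O] [DecidableEq X] (I : XI O X) (P N V : ℕ)
    (hP : ∀ u ∈ I.objs, (I.ports u).length ≤ P) (hN : I.objs.length ≤ N) (hV : I.vl.length ≤ V) :
    (encA I 0).order (fun _ => false) ≤ N * 2 ^ P + V * 2 + (N + V + 1) := by
  unfold AG.order AG.items
  have hcls : (encA I 0).cls = I.objs.map (fun u => Sum.inl (Sum.inl u)) ++
      I.vl.map (fun x => Sum.inl (Sum.inr x)) ++
      (List.range (I.base.length + 1)).map (fun i => Sum.inr (Sum.inl i)) := by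
    simp [encA, XI.base, Function.comp_def]
  rw [hcls, List.flatMap_append, List.flatMap_append, List.length_append, List.length_append]
  have h1 : ((I.objs.map (fun u => (Sum.inl (Sum.inl u) : CA O X))).flatMap fun c =>
      ((encA I 0).fibre (fun _ => false) c).map fun α => (c, α)).length ≤ N * 2 ^ P := by
    rw [List.flatMap_map]
    refine (length_flatMap_le _ _ (2 ^ P) ?_).trans (Nat.mul_le_mul_right _ hN)
    intro u hu
    rw [List.length_map]
    exact (fibre_length_le _ _ _).trans (Nat.pow_le_pow_right (by norm_num) (hP u hu))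
  have h2 : ((I.vl.map (fun x => (Sum.inl (Sum.inr x) : CA O X))).flatMap fun c =>
      ((encA I 0).fibre (fun _ => false) c).map fun α => (c, α)).length ≤ V * 2 := by
    rw [List.flatMap_map]
    refine (length_flatMap_le _ _ 2 ?_).trans (Nat.mul_le_mul_right _ hV)
    intro u hu
    rw [List.length_map]
    exact (fibre_length_le _ _ _).trans (le_of_eq (by simp [encA]))
  have h3 : (((List.range (I.base.length + 1)).map
      (fun i => (Sum.inr (Sum.inl i) : CA O X))).flatMap fun c =>
      ((encA I 0).fibre (fun _ => false) c).map fun α => (c, α)).length ≤ N + V + 1 := by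
    rw [List.flatMap_map]
    refine (length_flatMap_le _ _ 1 ?_).trans ?_
    · intro u hu
      rw [List.length_map]
      exact (fibre_length_le _ _ _).trans (le_of_eq (by simp [encA]))
    · simp only [List.length_range, mul_one, XI.base, List.length_append, List.length_map]
      omega
  omega

/-- number of premises at most `3` -/
def Small (rs : List Rule) : Prop := ∀ r ∈ rs, r.1.length ≤ 3

theorem arms_length (r : Rule) : (Rule.arms r).length = 2 * r.1.length + 1 := by
  unfold Rule.arms
  rw [List.length_append, List.length_flatMap]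
  simp [mul_comm]

theorem small_getD (rs : List Rule) (hs : Small rs) (D g : ℕ) :
    ((gadgets rs D).getD g (tgtRule, 0)).1.1.length ≤ 3 := by
  by_cases hg : g < (gadgets rs D).length
  · have hmem : (gadgets rs D).getD g (tgtRule, 0) ∈ gadgets rs D := by
      rw [List.getD_eq_getElem _ _ hg]
      exact List.getElem_mem _
    generalize (gadgets rs D).getD g (tgtRule, 0) = q at hmem ⊢
    unfold gadgets at hmem
    rw [List.mem_append, List.mem_flatMap] at hmem
    rcases hmem with ⟨r, hr, hq⟩ | hq
    · have : q.1 = r := by
        split at hq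
        · rw [List.mem_map] at hq
          obtain ⟨f, _, rfl⟩ := hq
          rfl
        · simp only [List.mem_singleton] at hq
          rw [hq]
      rw [this]
      exact hs r hr
    · simp only [List.mem_singleton] at hq
      rw [hq]
      simp [tgtRule]
  · rw [List.getD_eq_default _ _ (by omega)]
    simp [tgtRule]

theorem narm_le (rs : List Rule) (hs : Small rs) (B D g : ℕ) : (ruleNet rs B D).narm g ≤ 7 := by
  have := small_getD rs hs D g
  simp only [ruleNet, arms_length]
  omega

theorem gadgets_length_le (rs : List Rule) (D : ℕ) :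
    (gadgets rs D).length ≤ (rs.length) * (D + 1) + 1 := by
  unfold gadgets
  rw [List.length_append]
  have h1 := length_flatMap_le rs (fun r => if Rule.usesT r then
    (List.range D).map (fun f => (r, f + 1)) else [(r, 0)]) (D + 1) (by
      intro r _
      split <;> simp)
  simp only [List.length_singleton]
  omega

theorem letters_length_le (B D f j : ℕ) (hB : 2 ≤ B) : (letters B D f j).length ≤ B ^ 3 := by
  have hB1 : 1 ≤ B ^ 3 := Nat.one_le_pow _ _ (by omega)
  unfold letters
  split
  · simpa using hB1
  · have key : ∀ l : List (ℕ × ℕ), l.length ≤ B → (l.flatMap fun p =>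
        (List.range B).flatMap fun a => (List.range B).map fun c =>
          ((p.1, p.2, a, c) : Let)).length ≤ B ^ 3 := by
      intro l hl
      refine (length_flatMap_le _ _ (B * B) ?_).trans ?_
      · intro p _
        refine (length_flatMap_le _ _ B ?_).trans (by simp)
        intro a _
        simp
      · calc l.length * (B * B) ≤ B * (B * B) := Nat.mul_le_mul_right _ hl
          _ = B ^ 3 := by ring
    apply key
    split
    · simp
    · split
      · simp; omega
      · split
        · simp
        · simp

theorem cols_length_le (rs : List Rule) (hs : Small rs) (B D g : ℕ) :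
    ((ruleNet rs B D).cols g).length ≤ 7 * (D + 3) + 1 := by
  unfold Net.cols
  rw [List.length_cons]
  have h := length_flatMap_le (List.range ((ruleNet rs B D).narm g))
    (fun a => (List.range (ruleNet rs B D).L).map fun p => ((g, a, p + 1) : Col)) (D + 3) (by
      intro a _
      simp [Net.L, ruleNet])
  rw [List.length_range] at h
  have h7 := narm_le rs hs B D g
  have : (ruleNet rs B D).narm g * (D + 3) ≤ 7 * (D + 3) := Nat.mul_le_mul_right _ h7
  omega

theorem edges_length_le (rs : List Rule) (hs : Small rs) (B D : ℕ) (κ : Col) :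
    ((ruleNet rs B D).edges κ).length ≤ 7 := by
  unfold Net.edges
  split
  · rw [List.length_map, List.length_range]
    exact narm_le rs hs B D _
  · simp

theorem ports_length_le (rs : List Rule) (hs : Small rs) (B D : ℕ) (u : NObj Let) :
    ((ruleNet rs B D).ports u).length ≤ 9 := by
  unfold Net.ports
  have h := edges_length_le rs hs B D u.1
  rw [List.length_append, List.length_append, List.length_map]
  have h1 : (if 0 < u.2.1 then [Net.U (H := Hub) u.1 u.2.1 u.2.2.1] else []).length ≤ 1 := by
    split <;> simp
  have h2 : (if u.2.1 + 1 < (ruleNet rs B D).m then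
      [Net.U (H := Hub) u.1 (u.2.1 + 1) u.2.2.2] else []).length ≤ 1 := by
    split <;> simp
  omega

theorem objs_length_le (rs : List Rule) (hs : Small rs) (B D : ℕ) (hB : 2 ≤ B) :
    (ruleNet rs B D).objs.length ≤
      (rs.length * (D + 1) + 1) * ((7 * (D + 3) + 1) * ((D + 1) * B ^ 6)) := by
  unfold Net.objs
  refine (length_flatMap_le _ _ ((7 * (D + 3) + 1) * ((D + 1) * B ^ 6)) ?_).trans ?_
  · intro g _
    refine (length_flatMap_le _ _ ((D + 1) * B ^ 6) ?_).trans ?_
    · intro κ _
      refine (length_flatMap_le _ _ (B ^ 6) ?_).trans ?_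
      · intro i _
        refine (length_flatMap_le _ _ (B ^ 3) ?_).trans ?_
        · intro x _
          rw [List.length_map]
          exact letters_length_le B D _ _ hB
        · calc _ ≤ B ^ 3 * B ^ 3 := Nat.mul_le_mul_right _ (letters_length_le B D _ _ hB)
            _ = B ^ 6 := by ring
      · rw [List.length_range]
        exact le_of_eq rfl
    · exact Nat.mul_le_mul_right _ (cols_length_le rs hs B D g)
  · rw [List.length_range]
    exact Nat.mul_le_mul_right _ (gadgets_length_le rs D)

theorem vl_length_le (rs : List Rule) (hs : Small rs) (B D : ℕ) :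
    (ruleNet rs B D).xi.vl.length ≤ (ruleNet rs B D).objs.length * 9 :=
  (dd_length_le _).trans (length_flatMap_le _ _ 9 fun u _ => ports_length_le rs hs B D u)

theorem persist_small (Ks i k : ℕ) : Small (persist Ks i k) := by
  intro r hr
  unfold persist at hr
  rw [List.mem_map] at hr
  obtain ⟨k', _, rfl⟩ := hr
  simp

theorem persist_length_le (Ks i k : ℕ) : (persist Ks i k).length ≤ Ks := by
  unfold persist
  rw [List.length_map]
  exact (List.length_filter_le _ _).trans (by simp)

theorem instrRules_small (Ks n i : ℕ) (c : FInstr) : Small (instrRules Ks n i c) := by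
  intro r hr
  cases c with
  | push k b j =>
    simp only [instrRules, List.mem_append] at hr
    rcases hr with hr | hr
    · simp only [List.mem_cons, List.not_mem_nil, or_false] at hr
      rcases hr with rfl | rfl | rfl | rfl <;> simp
    · exact persist_small _ _ _ r hr
  | pop k e t f =>
    simp only [instrRules, List.mem_append] at hr
    rcases hr with hr | hr
    · simp only [List.mem_cons, List.not_mem_nil, or_false] at hr
      rcases hr with rfl | rfl | rfl | rfl | rfl <;> simp
    · exact persist_small _ _ _ r hr

theorem instrRules_length_le (Ks n i : ℕ) (c : FInstr) : (instrRules Ks n i c).length ≤ Ks + 5 := by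
  cases c with
  | push k b j =>
    have := persist_length_le Ks i k
    simp only [instrRules, List.length_append, List.length_cons, List.length_nil]
    omega
  | pop k e t f =>
    have := persist_length_le Ks i k
    simp only [instrRules, List.length_append, List.length_cons, List.length_nil]
    omega

theorem progRules_small (p : Flat) (Ks : ℕ) : Small (progRules p Ks) := by
  intro r hr
  unfold progRules at hr
  rw [List.mem_append, List.mem_append] at hr
  rcases hr with (hr | hr) | hr
  · simp only [List.mem_singleton] at hr
    rw [hr]; simp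
  · rw [List.mem_map] at hr
    obtain ⟨k, _, rfl⟩ := hr
    simp
  · rw [List.mem_flatMap] at hr
    obtain ⟨ci, _, hr⟩ := hr
    exact instrRules_small _ _ _ _ r hr

theorem progRules_length_le (p : Flat) (Ks : ℕ) :
    (progRules p Ks).length ≤ 1 + Ks + p.length * (Ks + 5) := by
  unfold progRules
  rw [List.length_append, List.length_append, List.length_map, List.length_range]
  have := length_flatMap_le p.zipIdx (fun ci => instrRules Ks p.length ci.2 ci.1) (Ks + 5)
    (fun ci _ => instrRules_length_le _ _ _ _)
  rw [List.length_zipIdx] at this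
  simp only [List.length_singleton]
  omega

theorem allRules_small (p : Flat) (Ks : ℕ) : Small (allRules p Ks) := by
  intro r hr
  unfold allRules unlock at hr
  rw [List.mem_append] at hr
  rcases hr with hr | hr
  · exact progRules_small p Ks r hr
  · rw [List.mem_map] at hr
    obtain ⟨h, _, rfl⟩ := hr
    simp

theorem hubsOf_length_le (rs : List Rule) (hs : Small rs) : (hubsOf rs).length ≤ rs.length * 4 := by
  unfold hubsOf
  refine length_flatMap_le _ _ 4 ?_
  intro r hr
  have := hs r hr
  simp only [List.length_map, List.length_append, List.length_singleton]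
  omega

theorem allRules_length_le (p : Flat) (Ks : ℕ) :
    (allRules p Ks).length ≤ 27 * ((p.length + 1) * (Ks + 1)) := by
  unfold allRules unlock
  rw [List.length_append, List.length_map, List.length_append]
  have h1 := hubsOf_length_le (progRules p Ks) (progRules_small p Ks)
  have h2 := progRules_length_le p Ks
  simp only [List.length_cons, List.length_nil]
  have h3 : (1 + Ks + p.length * (Ks + 5)) * 5 + 2 ≤ 27 * ((p.length + 1) * (Ks + 1)) := by
    nlinarith [Nat.zero_le (p.length * Ks), Nat.zero_le p.length, Nat.zero_le Ks]
  omega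

end Size

open Size in
theorem baseOrder_le : ∃ c e : ℕ, ∀ (p : Flat) (Ks B D : ℕ), 2 ≤ B → 1 ≤ D →
    baseOrder p Ks B D ≤ c * (p.length + 1) ^ e * (Ks + 1) ^ e * (D + 1) ^ e * B ^ 6 := by
  refine ⟨541 * (28 * 22), 3, ?_⟩
  intro p Ks B D hB hD
  have hs := allRules_small p Ks
  set rs := allRules p Ks with hrs
  set N := (ruleNet rs B D).objs.length with hN
  have h1 : baseOrder p Ks B D ≤ N * 2 ^ 9 + N * 9 * 2 + (N + N * 9 + 1) :=
    encA_order_le (progXI p Ks B D) 9 N (N * 9) (fun u _ => ports_length_le rs hs B D u)
      le_rfl (vl_length_le rs hs B D)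
  have h2 : N ≤ (rs.length * (D + 1) + 1) * ((7 * (D + 3) + 1) * ((D + 1) * B ^ 6)) :=
    objs_length_le rs hs B D hB
  have h3 : rs.length ≤ 27 * ((p.length + 1) * (Ks + 1)) := allRules_length_le p Ks
  set A := (p.length + 1) * (Ks + 1) with hA
  have hA1 : 1 ≤ A := Nat.succ_le_of_lt (Nat.mul_pos (by omega) (by omega))
  have h4 : rs.length * (D + 1) + 1 ≤ 28 * (A * (D + 1)) := by
    have h5 : rs.length * (D + 1) ≤ 27 * A * (D + 1) := Nat.mul_le_mul_right _ h3
    have h6 : 1 ≤ A * (D + 1) := Nat.mul_pos (by omega) (by omega)
    nlinarith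
  have h5 : 7 * (D + 3) + 1 ≤ 22 * (D + 1) := by omega
  have hB1 : 1 ≤ B ^ 6 := Nat.one_le_pow _ _ (by omega)
  have h6 : N ≤ 28 * 22 * (A * (D + 1) ^ 3 * B ^ 6) := by
    calc N ≤ _ := h2
      _ ≤ (28 * (A * (D + 1))) * ((22 * (D + 1)) * ((D + 1) * B ^ 6)) :=
        Nat.mul_le_mul h4 (Nat.mul_le_mul_right _ h5)
      _ = _ := by ring
  have hX1 : 1 ≤ A * (D + 1) ^ 3 * B ^ 6 :=
    Nat.mul_pos (Nat.mul_pos (by omega) (Nat.pow_pos (by omega))) hB1
  have h7 : baseOrder p Ks B D ≤ 541 * (28 * 22) * (A * (D + 1) ^ 3 * B ^ 6) := by
    nlinarith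
  have h8 : A ≤ (p.length + 1) ^ 3 * (Ks + 1) ^ 3 := by
    have e1 : p.length + 1 ≤ (p.length + 1) ^ 3 := Nat.le_self_pow (by norm_num) _
    have e2 : Ks + 1 ≤ (Ks + 1) ^ 3 := Nat.le_self_pow (by norm_num) _
    exact Nat.mul_le_mul e1 e2
  calc baseOrder p Ks B D ≤ _ := h7
    _ ≤ 541 * (28 * 22) * ((p.length + 1) ^ 3 * (Ks + 1) ^ 3 * (D + 1) ^ 3 * B ^ 6) := by
        gcongr
    _ = _ := by ring

end Crest.Agent.R290
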