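import Crest.Agent.R290.Hard
import Crest.Agent.R290.Diag0

/-!
# Row 290: multi-stack machines as flat deciders
-/

set_option autoImplicit false

namespace Crest.Agent.R290

open Crest.WLRefine Crest.Enc Crest.Agent.Lib.PT Function Turing

theorem length_natCode_le (n : ℕ) : (natCode n).length ≤ 2 * n + 2 := by
  have h1 : (natCode n).length = 2 * n.bits.length + 2 := by
    unfold natCode
    simp [List.length_flatten, Function.comp_def]
    omega
  have h2 : n.bits.length = n.size := Nat.size_eq_bits_len n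
  have h3 : n.size ≤ n := by
    rw [Nat.size_le]
    exact Nat.lt_two_pow_self
  omega

theorem length_pairCode {n : ℕ} (G H : Fin n → Fin n → Bool) :
    (adjMatrixCode G ++ adjMatrixCode H).length = 2 * ((natCode n).length + n * n) := by
  unfold adjMatrixCode
  simp [List.length_flatMap]
  ring

theorem mem_jointEquivLang_iff {k n : ℕ} {G H : Fin n → Fin n → Bool} (hG : IsSimple G)
    (hH : IsSimple H) : adjMatrixCode G ++ adjMatrixCode H ∈ jointEquivLang k ↔ JEquiv k G H := by
  constructor
  · rintro ⟨n', m', G', H', _, _, h, he⟩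
    obtain ⟨h1, h2, h3⟩ := adjMatrixCode_append_inj he
    subst h1
    have h2' : G = G' := h2
    subst h2'
    have h3' : adjMatrixCode H ++ [] = adjMatrixCode H' ++ [] := by
      rw [List.append_nil, List.append_nil, h3]
    obtain ⟨h4, h5, _⟩ := adjMatrixCode_append_inj h3'
    subst h4
    have h5' : H = H' := h5
    subst h5'
    exact h
  · intro h
    exact ⟨n, n, G, H, hG, hH, h, rfl⟩

theorem mem_sepEquivLang_iff {k n : ℕ} {G H : Fin n → Fin n → Bool} (hG : IsSimple G)
    (hH : IsSimple H) : adjMatrixCode G ++ adjMatrixCode H ∈ sepEquivLang k ↔ SEquiv k G H := by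
  constructor
  · rintro ⟨n', m', G', H', _, _, h, he⟩
    obtain ⟨h1, h2, h3⟩ := adjMatrixCode_append_inj he
    subst h1
    have h2' : G = G' := h2
    subst h2'
    have h3' : adjMatrixCode H ++ [] = adjMatrixCode H' ++ [] := by
      rw [List.append_nil, List.append_nil, h3]
    obtain ⟨h4, h5, _⟩ := adjMatrixCode_append_inj h3'
    subst h4
    have h5' : H = H' := h5
    subst h5'
    exact h
  · intro h
    exact ⟨n, n, G, H, hG, hH, h, rfl⟩

/-- A machine deciding a language on the promise set decides the relation by halting. -/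
theorem tm_decides (L : Set (List Bool))
    (E : ∀ n : ℕ, (Fin n → Fin n → Bool) → (Fin n → Fin n → Bool) → Prop)
    (hLE : ∀ (n : ℕ) (G H : Fin n → Fin n → Bool), IsSimple G → IsSimple H →
      (adjMatrixCode G ++ adjMatrixCode H ∈ L ↔ E n G H))
    (g : diamTwoPairCodes → Bool) (hg : ∀ x, x.1 ∈ L ↔ g x = true)
    (M : TM2ComputableInTime (fun x : diamTwoPairCodes => x.1) Computability.encodeBool g) :
    ∃ (F : Flat) (C : ℕ), Decides F E
      (fun n => C * (n + M.time (2 * ((natCode n).length + n * n)) + 1) ^ 2) := by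
  obtain ⟨c, C, hc⟩ := cmd_of_tm2 M false
  refine ⟨runPart c 0, 20 * C + 1, fun n G H hG hH => ?_⟩
  have ha := hc ⟨adjMatrixCode G ++ adjMatrixCode H, n, G, H, hG, hH, rfl⟩
  simp only [Bool.false_xor, length_pairCode] at ha
  have hiff := hg ⟨adjMatrixCode G ++ adjMatrixCode H, n, G, H, hG, hH, rfl⟩
  rw [hLE n G H hG.1 hH.1] at hiff
  refine ⟨fun hE => ?_, fun hE T => ?_⟩
  · rw [hiff.mp hE] at ha
    refine (runPart_haltsOn ha (l := []) rfl).mono ?_
    have h1 := length_natCode_le n
    set t := M.time (2 * ((natCode n).length + n * n))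
    have h2 : 2 * ((natCode n).length + n * n) + t + 1 ≤ 5 * (n + t + 1) ^ 2 := by nlinarith
    have h3 : 1 ≤ (n + t + 1) ^ 2 := Nat.one_le_pow _ _ (by omega)
    calc 4 * (C * (2 * ((natCode n).length + n * n) + t + 1)) + 1
        ≤ 4 * (C * (5 * (n + t + 1) ^ 2)) + (n + t + 1) ^ 2 := by gcongr
      _ = (20 * C + 1) * (n + t + 1) ^ 2 := by ring
  · have hf : g ⟨adjMatrixCode G ++ adjMatrixCode H, n, G, H, hG, hH, rfl⟩ = false := by
      rw [← Bool.not_eq_true]
      exact fun h => hE (hiff.mpr h)
    rw [hf] at ha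
    exact runPart_loopsOn ha (by simp) T

end Crest.Agent.R290
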