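import Crest.Agent.R290.DiagGen
import Crest.Agent.R290.Core
import Crest.Agent.R290.Gen
import Crest.Agent.R290.Size
import Crest.Agent.R290.TMDec
import Crest.Agent.R290.RamDecides

/-!
# Row 290: the diagonalisation, both conventions
-/

set_option autoImplicit false

namespace Crest.Agent.R290

open Crest.WLRefine

theorem diagJ_aux (a : ℕ) :
    ∃ c : ℝ, 0 < c ∧ ∃ k₀ : ℕ, ∀ k ≥ k₀, ∀ (F : Flat) (C : ℕ) (T : ℕ → ℕ),
      Decides F (fun n G H => JEquiv k G H) (fun n => C * (n + T n + 1) ^ a) →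
        ∃ n₀ : ℕ, ∀ n ≥ n₀, (n : ℝ) ^ (c * k) ≤ T n := by
  refine diag_gen baseOrder_le ptu_baseOrder ptf_graphA (fun k n G H => JEquiv k G H) 1 (by omega)
    ?_ a
  intro p Ks B D pad hp hB hD hpad
  obtain ⟨n, G0, G1, hn, h0, h1, e0, e1, hh, hr⟩ := coreA p Ks B D pad hp hB hD hpad
  exact ⟨n, G0, G1, hn, h0, h1, e0, e1, fun h => (hh h).1, fun h => (hr h).1⟩

theorem diagS_aux (a : ℕ) :
    ∃ c : ℝ, 0 < c ∧ ∃ k₀ : ℕ, ∀ k ≥ k₀, ∀ (F : Flat) (C : ℕ) (T : ℕ → ℕ),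
      Decides F (fun n G H => SEquiv k G H) (fun n => C * (n + T n + 1) ^ a) →
        ∃ n₀ : ℕ, ∀ n ≥ n₀, (n : ℝ) ^ (c * k) ≤ T n := by
  refine diag_gen baseOrder_le ptu_baseOrder ptf_graphA (fun k n G H => SEquiv k G H) 2 (by omega)
    ?_ a
  intro p Ks B D pad hp hB hD hpad
  obtain ⟨n, G0, G1, hn, h0, h1, e0, e1, hh, hr⟩ := coreA p Ks B D pad hp hB hD hpad
  exact ⟨n, G0, G1, hn, h0, h1, e0, e1, fun h => (hh h).2.1, fun h => (hr h).2.1⟩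

/-- both conventions with the same constants -/
theorem diag_both (a : ℕ) :
    ∃ c : ℝ, 0 < c ∧ ∃ k₀ : ℕ, ∀ k ≥ k₀,
      (∀ (F : Flat) (C : ℕ) (T : ℕ → ℕ),
        Decides F (fun n G H => JEquiv k G H) (fun n => C * (n + T n + 1) ^ a) →
          ∃ n₀ : ℕ, ∀ n ≥ n₀, (n : ℝ) ^ (c * k) ≤ T n) ∧
      (∀ (F : Flat) (C : ℕ) (T : ℕ → ℕ),
        Decides F (fun n G H => SEquiv k G H) (fun n => C * (n + T n + 1) ^ a) →
          ∃ n₀ : ℕ, ∀ n ≥ n₀, (n : ℝ) ^ (c * k) ≤ T n) := by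
  obtain ⟨c1, hc1, k1, h1⟩ := diagJ_aux a
  obtain ⟨c2, hc2, k2, h2⟩ := diagS_aux a
  have hmono : ∀ (c c' : ℝ) (k n : ℕ), c ≤ c' → 1 ≤ n →
      (n : ℝ) ^ (c * k) ≤ (n : ℝ) ^ (c' * k) := fun c c' k n hcc hn =>
    Real.rpow_le_rpow_of_exponent_le (by exact_mod_cast hn)
      (mul_le_mul_of_nonneg_right hcc (Nat.cast_nonneg k))
  refine ⟨min c1 c2, lt_min hc1 hc2, max k1 k2, fun k hk => ⟨fun F C T hF => ?_, fun F C T hF => ?_⟩⟩
  · obtain ⟨n₀, hn⟩ := h1 k (le_trans (le_max_left _ _) hk) F C T hF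
    exact ⟨max n₀ 1, fun n hn' => (hmono _ _ k n (min_le_left _ _)
      (le_trans (le_max_right _ _) hn')).trans (hn n (le_trans (le_max_left _ _) hn'))⟩
  · obtain ⟨n₀, hn⟩ := h2 k (le_trans (le_max_right _ _) hk) F C T hF
    exact ⟨max n₀ 1, fun n hn' => (hmono _ _ k n (min_le_right _ _)
      (le_trans (le_max_right _ _) hn')).trans (hn n (le_trans (le_max_left _ _) hn'))⟩

end Crest.Agent.R290
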