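import Crest.Agent.R290.Diag0
import Crest.Agent.R290.DiagArith
import Crest.Agent.Lib.PT.ArithMore

/-!
# Row 290: the diagonalisation, for generators given as hypotheses
-/

set_option autoImplicit false
set_option linter.dupNamespace false

namespace Crest.Agent.R290

open Crest.Agent.Lib.PT Crest.WLRefine Function

/-- data of the self-referential instance: number of stacks, base, digits, order -/
abbrev DData : Type := Un × Un × Un × ℕ

/-- number of dummies -/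
def padOf (E : ℕ) (p : Flat) (d : DData) : ℕ :=
  min d.2.2.2 (d.2.1.val ^ E) - baseOrder p d.1.val d.2.1.val d.2.2.1.val

/-- the code of the pair of graphs -/
def Rdiag (E : ℕ) (p : Flat) (d : DData) : List Bool :=
  graphA p d.1.val d.2.1.val d.2.2.1.val (padOf E p d) false ++
    graphA p d.1.val d.2.1.val d.2.2.1.val (padOf E p d) true

theorem ptu_padOf (hPB : PTU (fun d : Flat × Un × Un × Un =>
    baseOrder d.1 d.2.1.val d.2.2.1.val d.2.2.2.val)) (E : ℕ) : PTU (fun x : Flat × DData => padOf E x.1 x.2) := by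
  unfold padOf
  refine PTU.sub (PTF.natMinUn (by fun_prop) (PTU.pow (PTU.val (by fun_prop)) E)) ?_
  exact PTU.comp (n := fun d : Flat × Un × Un × Un => baseOrder d.1 d.2.1.val d.2.2.1.val d.2.2.2.val)
    (f := fun x : Flat × DData => (x.1, x.2.1, x.2.2.1, x.2.2.2.1)) hPB (by fun_prop)

theorem ptf_graphA_pad (hPB : PTU (fun d : Flat × Un × Un × Un =>
    baseOrder d.1 d.2.1.val d.2.2.1.val d.2.2.2.val))
    (hGA : ∀ tw : Bool, PTF (fun d : Flat × Un × Un × Un × Un =>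
      graphA d.1 d.2.1.val d.2.2.1.val d.2.2.2.1.val d.2.2.2.2.val tw)) (E : ℕ) (tw : Bool) : PTF (fun x : Flat × DData =>
    graphA x.1 x.2.1.val x.2.2.1.val x.2.2.2.1.val (padOf E x.1 x.2) tw) := by
  have h : PTF (fun x : Flat × DData => Un.mk (padOf E x.1 x.2)) := ptu_padOf hPB E
  exact PTF.comp (g := fun d : Flat × Un × Un × Un × Un =>
    graphA d.1 d.2.1.val d.2.2.1.val d.2.2.2.1.val d.2.2.2.2.val tw)
    (f := fun x : Flat × DData => (x.1, x.2.1, x.2.2.1, x.2.2.2.1, Un.mk (padOf E x.1 x.2)))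
    (hGA tw) (by fun_prop)

theorem ptf_Rdiag (hPB : PTU (fun d : Flat × Un × Un × Un =>
    baseOrder d.1 d.2.1.val d.2.2.1.val d.2.2.2.val))
    (hGA : ∀ tw : Bool, PTF (fun d : Flat × Un × Un × Un × Un =>
      graphA d.1 d.2.1.val d.2.2.1.val d.2.2.2.1.val d.2.2.2.2.val tw)) (E : ℕ) :
    PTF (fun x : Flat × DData => Bits.mk (Rdiag E x.1 x.2)) :=
  PTF.bitsMk (PTF.append (ptf_graphA_pad hPB hGA E false) (ptf_graphA_pad hPB hGA E true))

/-- polynomials over `ℕ` are bounded by a power -/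
theorem polyEval_le (q : Polynomial ℕ) (x : ℕ) :
    q.eval x ≤ q.eval 1 * (x + 1) ^ q.natDegree := by
  rw [Polynomial.eval_eq_sum_range, Polynomial.eval_eq_sum_range, Finset.sum_mul]
  refine Finset.sum_le_sum fun i hi => ?_
  rw [one_pow, mul_one]
  refine Nat.mul_le_mul_left _ ?_
  calc x ^ i ≤ (x + 1) ^ i := Nat.pow_le_pow_left (by omega) i
    _ ≤ (x + 1) ^ q.natDegree :=
      Nat.pow_le_pow_right (by omega) (Nat.lt_succ_iff.mp (Finset.mem_range.mp hi))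

theorem exists_stacksLe (F : Flat) : ∃ s, StacksLe s F := by
  refine ⟨(F.map FInstr.stack).sum, fun i hi => ?_⟩
  exact List.single_le_sum (by simp) _ (List.mem_map_of_mem hi)

theorem size_le_of_le_pow {n ν E : ℕ} (h : n ≤ ν ^ E) (hE : 1 ≤ E) : n.size ≤ E * ν := by
  rw [Nat.size_le]
  calc n ≤ ν ^ E := h
    _ < (2 ^ ν) ^ E := Nat.pow_lt_pow_left Nat.lt_two_pow_self (by omega)
    _ = 2 ^ (E * ν) := by rw [← pow_mul, mul_comm]

/-- The diagonalisation for a family `Rel` of relations controlled by the anchor encoding. -/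
theorem diag_gen (hSize : ∃ c e : ℕ, ∀ (p : Flat) (Ks B D : ℕ), 2 ≤ B → 1 ≤ D →
      baseOrder p Ks B D ≤ c * (p.length + 1) ^ e * (Ks + 1) ^ e * (D + 1) ^ e * B ^ 6)
    (hPB : PTU (fun d : Flat × Un × Un × Un =>
      baseOrder d.1 d.2.1.val d.2.2.1.val d.2.2.2.val))
    (hGA : ∀ tw : Bool, PTF (fun d : Flat × Un × Un × Un × Un =>
      graphA d.1 d.2.1.val d.2.2.1.val d.2.2.2.1.val d.2.2.2.2.val tw)) (Rel : ℕ → ∀ n : ℕ, (Fin n → Fin n → Bool) → (Fin n → Fin n → Bool) → Prop)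
    (s : ℕ) (hs : s ≤ 2)
    (hcore : ∀ (p : Flat) (Ks B D pad : ℕ), WF p Ks → 2 ≤ B → 1 ≤ D →
      baseOrder p Ks B D + 2 ≤ pad →
      ∃ (n : ℕ) (G0 G1 : Fin n → Fin n → Bool), n = baseOrder p Ks B D + pad ∧
      SimpleConnDiamTwo G0 ∧ SimpleConnDiamTwo G1 ∧
      adjMatrixCode G0 = graphA p Ks B D pad false ∧ adjMatrixCode G1 = graphA p Ks B D pad true ∧
      ((∃ t < B ^ D, FHalts p t) → ¬ Rel (D + s) n G0 G1) ∧
      (RunsForever p → Rel (D + s) n G0 G1)) (a : ℕ) :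
    ∃ c : ℝ, 0 < c ∧ ∃ k₀ : ℕ, ∀ k ≥ k₀, ∀ (F : Flat) (C : ℕ) (T : ℕ → ℕ),
      Decides F (Rel k) (fun n => C * (n + T n + 1) ^ a) →
        ∃ n₀ : ℕ, ∀ n ≥ n₀, (n : ℝ) ^ (c * k) ≤ T n := by
  obtain ⟨cb, eb, hb⟩ := hSize
  obtain ⟨q, A, hq⟩ := selfref (ptf_Rdiag hPB hGA (eb + 7 + 1))
  obtain ⟨c, hc, k₀, hk₀⟩ := diag_arith (eb + 7) q.natDegree a (by omega)
  refine ⟨c, hc, k₀ + s + 3, fun k hk F C T hF => ?_⟩
  obtain ⟨sF, hsF⟩ := exists_stacksLe F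
  obtain ⟨D, hD⟩ : ∃ D, k = D + s := ⟨k - s, by omega⟩
  obtain ⟨Ks, hKs⟩ : ∃ Ks, Ks = max sF A + 1 := ⟨_, rfl⟩
  obtain ⟨C1, hC1⟩ : ∃ C1, C1 = 2 * Ks + 2 * D + 5 + (eb + 7 + 1) := ⟨_, rfl⟩
  obtain ⟨C2, hC2⟩ : ∃ C2, C2 = 4 * sz F + C1 + A + 1 := ⟨_, rfl⟩
  obtain ⟨C3, hC3⟩ : ∃ C3, C3 = cb * C2 ^ eb * (Ks + 1) ^ eb * (D + 1) ^ eb := ⟨_, rfl⟩
  obtain ⟨C4, hC4⟩ : ∃ C4, C4 = q.eval 1 * (sz F + C1 + 1) ^ q.natDegree := ⟨_, rfl⟩
  obtain ⟨n₀, hn₀⟩ := hk₀ k (by omega) (C4 + C + (2 * C3 + 2))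
  refine ⟨n₀, fun n hn => ?_⟩
  by_contra hcon
  push Not at hcon
  obtain ⟨ν, hν2, hνC, hνn, hnν, hT⟩ := hn₀ n hn
  have hTn := hT (T n) hcon
  clear hT hn₀ hk₀
  obtain ⟨p, hlen, hst, -, hH, hN⟩ := hq F ((Un.mk Ks, Un.mk ν, Un.mk D, n) : DData)
  -- sizes
  have hszn : n.size ≤ (eb + 7 + 1) * ν := size_le_of_le_pow hnν (by omega)
  have hszd : sz ((Un.mk Ks, Un.mk ν, Un.mk D, n) : DData) ≤ C1 * ν := by
    have h1 : sz ((Un.mk Ks, Un.mk ν, Un.mk D, n) : DData) =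
        2 * Ks + 1 + (2 * ν + 1 + (2 * D + 1 + n.size)) := by
      simp [Nat.size_eq_bits_len, sz, enc, PTCode.enc]
    rw [h1, hC1]
    have h2 : (2 * Ks + 2 * D + 5 + (eb + 7 + 1)) * ν =
      (2 * Ks + 2 * D + 3) * ν + 2 * ν + (eb + 7 + 1) * ν := by ring
    have h3 : (2 * Ks + 2 * D + 3) * 1 ≤ (2 * Ks + 2 * D + 3) * ν := Nat.mul_le_mul_left _ (by omega)
    omega
  have hplen : p.length + 1 ≤ C2 * ν := by
    have h2 : C2 * ν = (4 * sz F + A + 1) * ν + C1 * ν := by rw [hC2]; ring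
    have h3 : (4 * sz F + A + 1) * 1 ≤ (4 * sz F + A + 1) * ν := Nat.mul_le_mul_left _ (by omega)
    omega
  have hD1 : 1 ≤ D := by omega
  have hbase : baseOrder p Ks ν D ≤ C3 * ν ^ (eb + 6) := by
    refine (hb p Ks ν D hν2 hD1).trans ?_
    calc cb * (p.length + 1) ^ eb * (Ks + 1) ^ eb * (D + 1) ^ eb * ν ^ 6
        ≤ cb * (C2 * ν) ^ eb * (Ks + 1) ^ eb * (D + 1) ^ eb * ν ^ 6 := by gcongr
      _ = C3 * ν ^ (eb + 6) := by rw [hC3]; ring
  have hsmall : 2 * baseOrder p Ks ν D + 2 ≤ n := by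
    have h1 : 1 ≤ ν ^ (eb + 6) := Nat.one_le_pow _ _ (by omega)
    calc 2 * baseOrder p Ks ν D + 2 ≤ 2 * (C3 * ν ^ (eb + 6)) + 2 * ν ^ (eb + 6) := by omega
      _ = (2 * C3 + 2) * ν ^ (eb + 6) := by ring
      _ ≤ ν * ν ^ (eb + 6) := Nat.mul_le_mul_right _ (by omega)
      _ = ν ^ (eb + 7) := by rw [← pow_succ']
      _ ≤ n := hνn
  have hpad : padOf (eb + 7 + 1) p ((Un.mk Ks, Un.mk ν, Un.mk D, n) : DData) =
      n - baseOrder p Ks ν D := by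
    unfold padOf
    rw [min_eq_left hnν]
  have hWF : WF p Ks := fun i hi => by
    have := hst sF hsF i hi
    omega
  obtain ⟨n', G0, G1, hn', hG0, hG1, hc0, hc1, hacc, hrej⟩ :=
    hcore p Ks ν D (n - baseOrder p Ks ν D) hWF hν2 hD1 (by omega)
  have hnn : n' = n := by omega
  subst hnn
  have hcode : adjMatrixCode G0 ++ adjMatrixCode G1 =
      Rdiag (eb + 7 + 1) p ((Un.mk Ks, Un.mk ν, Un.mk D, n') : DData) := by
    unfold Rdiag
    rw [hpad, hc0, hc1]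
  have hdec := hF n' G0 G1 hG0 hG1
  rw [hcode] at hdec
  rw [hD] at hdec hTn
  by_cases hrel : Rel (D + s) n' G0 G1
  · have h1 := hH _ (hdec.1 hrel)
    refine hacc ⟨_, ?_, h1⟩ hrel
    have h2 : q.eval (sz F + sz ((Un.mk Ks, Un.mk ν, Un.mk D, n') : DData)) ≤
        C4 * ν ^ q.natDegree := by
      refine (polyEval_le q _).trans ?_
      rw [hC4, mul_assoc, ← mul_pow]
      refine Nat.mul_le_mul_left _ (Nat.pow_le_pow_left ?_ _)
      have h3 : (sz F + C1 + 1) * ν = (sz F + 1) * ν + C1 * ν := by ring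
      have h4 : (sz F + 1) * 1 ≤ (sz F + 1) * ν := Nat.mul_le_mul_left _ (by omega)
      omega
    have h5 : C4 * ν ^ q.natDegree ≤ (C4 + C + (2 * C3 + 2)) * ν ^ q.natDegree :=
      Nat.mul_le_mul_right _ (by omega)
    have h6 : C * (n' + T n' + 1) ^ a ≤ (C4 + C + (2 * C3 + 2)) * (n' + T n' + 1) ^ a :=
      Nat.mul_le_mul_right _ (by omega)
    have h7 : ν ^ (D + s - 2) ≤ ν ^ D := Nat.pow_le_pow_right (by omega) (by omega)
    have h8 : q.eval (sz F + sz ((Un.mk Ks, Un.mk ν, Un.mk D, n') : DData)) +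
        C * (n' + T n' + 1) ^ a < ν ^ D := by omega
    exact h8
  · exact hrel (hrej (hN (hdec.2 hrel)))

end Crest.Agent.R290
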