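import Mathlib
import Crest.Prelude.Def_ExpTime
import Crest.Agent.Lib.PT.Alphabet

/-!
# Row 290: from a poly-time test on an exponentially long unary pad to `InEXP`

`inEXP_of_pad`: if `V x N` is poly-time decidable in `(x, 1^N)` and `x ∈ L ↔ V x (2 ^ p |x|)`, then
`L` is in EXPTIME.
-/

set_option autoImplicit false
set_option linter.dupNamespace false

namespace Crest.Agent.R290.EX

open Crest.Agent.Lib.PT Function

/-! ### a program with a general step bound gives `TimeBoundPred` -/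

theorem timeBoundPred_of_run {f : List Bool → Bool} (c : Cmd) (T : ℕ → ℕ)
    (h : ∀ x, Run c (init x) (init [f x]) (T x.length)) :
    Crest.DTime.TimeBoundPred f (fun n => T n + 1) := by
  refine ⟨{ tm := Cmd.toTM c
            inputAlphabet := Equiv.refl _
            outputAlphabet := Equiv.refl _
            time := fun n => T n + 1
            outputsFun := fun x => ?_ }, fun n => le_rfl⟩
  have e1 : ∀ y : List Bool, (List.map (id : Bool → Bool) y) = y := fun y => List.map_id y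
  have h1 : ∀ y z : List Bool, y = x → z = [f x] →
      (flip bind (Cmd.toTM c).step)^[(h x).choose + 1] (some (Turing.initList (Cmd.toTM c) y)) =
      some (Turing.haltList (Cmd.toTM c) z) := by
    rintro y z rfl rfl
    exact outputs_of_exec (h y).choose_spec.2
  exact
    { steps := (h x).choose + 1
      evals_in_steps := h1 _ _ (e1 x) (e1 [f x])
      steps_le_m := Nat.add_le_add_right (h x).choose_spec.1 1 }

/-! ### exponential time functions -/

/-- `f` is computed by a program within `2 ^ p |x|` steps. -/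
def ET (f : List Bool → List Bool) : Prop :=
  ∃ (c : Cmd) (p : Polynomial ℕ), ∀ x, Run c (init x) (init (f x)) (2 ^ p.eval x.length)

theorem polyEval_lt_two_pow (q : Polynomial ℕ) : ∀ n, q.eval n < 2 ^ q.eval n := fun _ =>
  Nat.lt_two_pow_self

/-- a polynomial of an exponential is an exponential -/
theorem eval_two_pow_le (q : Polynomial ℕ) :
    ∃ a d : ℕ, ∀ m : ℕ, q.eval (2 ^ m) ≤ 2 ^ (a + d * m) := by
  induction q using Polynomial.induction_on' with
  | add p q hp hq =>
    obtain ⟨a, d, h⟩ := hp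
    obtain ⟨a', d', h'⟩ := hq
    refine ⟨a + a' + 1, d + d', fun m => ?_⟩
    rw [Polynomial.eval_add]
    have h1 : 2 ^ (a + d * m) ≤ 2 ^ (a + a' + (d + d') * m) :=
      Nat.pow_le_pow_right (by norm_num) (by nlinarith [Nat.zero_le (d' * m)])
    have h2 : 2 ^ (a' + d' * m) ≤ 2 ^ (a + a' + (d + d') * m) :=
      Nat.pow_le_pow_right (by norm_num) (by nlinarith [Nat.zero_le (d * m)])
    calc p.eval (2 ^ m) + q.eval (2 ^ m) ≤ 2 ^ (a + d * m) + 2 ^ (a' + d' * m) :=
          Nat.add_le_add (h m) (h' m)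
      _ ≤ 2 ^ (a + a' + (d + d') * m) + 2 ^ (a + a' + (d + d') * m) := Nat.add_le_add h1 h2
      _ = 2 ^ (a + a' + 1 + (d + d') * m) := by
          rw [show a + a' + 1 + (d + d') * m = (a + a' + (d + d') * m) + 1 by ring, pow_succ]
          ring
  | monomial k b =>
    refine ⟨b, k, fun m => ?_⟩
    rw [Polynomial.eval_monomial, pow_add]
    have h1 : b ≤ 2 ^ b := Nat.lt_two_pow_self.le
    have h2 : (2 ^ m) ^ k = 2 ^ (k * m) := by rw [← pow_mul, mul_comm]
    rw [h2]
    exact Nat.mul_le_mul_right _ h1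

/-- `q (2 ^ r n) ≤ 2 ^ s n` for a polynomial `s` -/
theorem exists_poly_two_pow (q r : Polynomial ℕ) :
    ∃ s : Polynomial ℕ, ∀ n : ℕ, q.eval (2 ^ r.eval n) ≤ 2 ^ s.eval n := by
  obtain ⟨a, d, h⟩ := eval_two_pow_le q
  refine ⟨Polynomial.C a + Polynomial.C d * r, fun n => ?_⟩
  simpa using h (r.eval n)

theorem ET.length_bound {f : List Bool → List Bool} (hf : ET f) :
    ∃ p : Polynomial ℕ, ∀ x, (f x).length ≤ 2 ^ p.eval x.length := by
  obtain ⟨c, p, h⟩ := hf
  refine ⟨p + Polynomial.X + 1, fun x => ?_⟩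
  obtain ⟨t, ht, h⟩ := h x
  have h1 := h.length_le 0
  simp only [init_zero] at h1
  simp only [Polynomial.eval_add, Polynomial.eval_X, Polynomial.eval_one]
  have h2 : x.length < 2 ^ x.length := Nat.lt_two_pow_self
  have h3 : 2 ^ p.eval x.length ≤ 2 ^ (p.eval x.length + x.length) :=
    Nat.pow_le_pow_right (by norm_num) (by omega)
  have h4 : 2 ^ x.length ≤ 2 ^ (p.eval x.length + x.length) :=
    Nat.pow_le_pow_right (by norm_num) (by omega)
  rw [pow_succ]
  omega

/-- a poly-time function after an exponential-time one -/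
theorem ET.comp {f g : List Bool → List Bool} (hg : PT g) (hf : ET f) :
    ET (fun x => g (f x)) := by
  obtain ⟨b, hb⟩ := hf.length_bound
  obtain ⟨c, p, hc⟩ := hf
  obtain ⟨d, q, hd⟩ := hg
  obtain ⟨s, hs⟩ := exists_poly_two_pow q b
  refine ⟨.seq c d, p + s + 1, fun x => ?_⟩
  refine ((hc x).seq (hd (f x))).mono ?_
  have h1 : q.eval (f x).length ≤ 2 ^ s.eval x.length :=
    (polyEval_mono q (hb x)).trans (hs x.length)
  simp only [Polynomial.eval_add, Polynomial.eval_one]
  have h2 : 2 ^ p.eval x.length ≤ 2 ^ (p.eval x.length + s.eval x.length) :=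
    Nat.pow_le_pow_right (by norm_num) (by omega)
  have h3 : 2 ^ s.eval x.length ≤ 2 ^ (p.eval x.length + s.eval x.length) :=
    Nat.pow_le_pow_right (by norm_num) (by omega)
  rw [pow_succ]
  omega

/-- Iteration with exponentially bounded sizes: `u` supplies the number of rounds. -/
theorem ET.iter {f u s : List Bool → List Bool} (hf : PT f) (hu : PT u) (hs : PT s)
    (hb : ∃ p : Polynomial ℕ, ∀ x, ∀ i ≤ (u x).length,
      (f^[i] (s x)).length ≤ 2 ^ p.eval x.length) :
    ET (fun x => f^[(u x).length] (s x)) := by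
  obtain ⟨B, hB⟩ := hb
  obtain ⟨bu, hbu⟩ := hu.length_bound
  obtain ⟨cf, p, hcf⟩ := hf
  obtain ⟨cu, q, hcu⟩ := hu
  obtain ⟨cs, r, hcs⟩ := hs
  obtain ⟨S, hS⟩ := exists_poly_two_pow p B
  -- crude total bound
  let W : Polynomial ℕ := q + r + 21 * Polynomial.X + 4 * bu + bu + 11
  refine ⟨.seq (both cu cs) (.seq (mv 1 0) (.seq (mv 2 3) (.seq (mv 3 1)
    (.seq (.loop 0 (.seq (.pop 0) (cf.shift 1))) (.seq (mv 1 2) (mv 2 0)))))),
    W + S + B + 7, fun x => ?_⟩
  have h1 := run_both (hcu x) (hcs x)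
  have h2 : Run (mv 1 0) (st4 [] (u x) (s x) []) (st4 (u x).reverse [] (s x) [])
      (4 * (u x).length + 1) := (run_mv (by decide) _).of_eq (by simp) (by simp)
  have h3 : Run (mv 2 3) (st4 (u x).reverse [] (s x) [])
      (st4 (u x).reverse [] [] (s x).reverse) (4 * (s x).length + 1) :=
    (run_mv (by decide) _).of_eq (by simp) (by simp)
  have h4 : Run (mv 3 1) (st4 (u x).reverse [] [] (s x).reverse)
      (st4 (u x).reverse (s x) [] []) (4 * (s x).length + 1) :=
    (run_mv (by decide) _).of_eq (by simp) (by simp)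
  have h5 : Run (.loop 0 (.seq (.pop 0) (cf.shift 1))) (st4 (u x).reverse (s x) [] [])
      (st4 [] (f^[(u x).length] (s x)) [] [])
      ((u x).length * (2 ^ S.eval x.length + 2) + 1) := by
    have := run_iter_loop (c := cf) (f := f) (n := 2 ^ S.eval x.length) (u x).reverse (s x)
      (fun i hi => (hcf _).mono
        ((polyEval_mono p (hB x i (by simpa using hi.le))).trans (hS x.length)))
    simpa using this
  have h6 : Run (mv 1 2) (st4 [] (f^[(u x).length] (s x)) [] [])
      (st4 [] [] (f^[(u x).length] (s x)).reverse [])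
      (4 * (f^[(u x).length] (s x)).length + 1) :=
    (run_mv (by decide) _).of_eq (by simp) (by simp)
  have h7 : Run (mv 2 0) (st4 [] [] (f^[(u x).length] (s x)).reverse [])
      (init (f^[(u x).length] (s x)))
      (4 * (f^[(u x).length] (s x)).length + 1) :=
    (run_mv (by decide) _).of_eq (by simp [init_eq_st4]) (by simp)
  refine (h1.seq (h2.seq (h3.seq (h4.seq (h5.seq (h6.seq h7)))))).mono ?_
  have b1 := hbu x
  have b2 := hB x 0 (by simp)
  have b3 := hB x (u x).length le_rfl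
  simp only [iterate_zero, id_eq] at b2
  have hW : W.eval x.length = q.eval x.length + r.eval x.length + 21 * x.length +
      4 * bu.eval x.length + bu.eval x.length + 11 := by
    simp [W]
  simp only [Polynomial.eval_add, Polynomial.eval_ofNat]
  generalize hw : W.eval x.length = w at *
  generalize hSv : S.eval x.length = σ at *
  generalize hBv : B.eval x.length = β at *
  have hw2 : w < 2 ^ w := Nat.lt_two_pow_self
  have hone : 1 ≤ 2 ^ w := Nat.one_le_two_pow
  have hσ : 1 ≤ 2 ^ σ := Nat.one_le_two_pow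
  have hβ : 1 ≤ 2 ^ β := Nat.one_le_two_pow
  have e : 2 ^ (w + σ + β + 7) = 2 ^ w * 2 ^ σ * 2 ^ β * 128 := by
    rw [pow_add, pow_add, pow_add]; norm_num
  have b4 : (u x).length * (2 ^ σ + 2) ≤ 2 ^ w * (3 * 2 ^ σ) :=
    Nat.mul_le_mul (by omega) (by omega)
  have e1 : 2 ^ w ≤ 2 ^ w * 2 ^ σ * 2 ^ β := by
    calc 2 ^ w = 2 ^ w * 1 * 1 := by ring
      _ ≤ 2 ^ w * 2 ^ σ * 2 ^ β := Nat.mul_le_mul (Nat.mul_le_mul_left _ hσ) hβ
  have e2 : 2 ^ w * (3 * 2 ^ σ) ≤ 3 * (2 ^ w * 2 ^ σ * 2 ^ β) := by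
    calc 2 ^ w * (3 * 2 ^ σ) = 3 * (2 ^ w * 2 ^ σ) * 1 := by ring
      _ ≤ 3 * (2 ^ w * 2 ^ σ) * 2 ^ β := Nat.mul_le_mul_left _ hβ
      _ = 3 * (2 ^ w * 2 ^ σ * 2 ^ β) := by ring
  have e3 : 2 ^ β ≤ 2 ^ w * 2 ^ σ * 2 ^ β := by
    calc 2 ^ β = 1 * 1 * 2 ^ β := by ring
      _ ≤ 2 ^ w * 2 ^ σ * 2 ^ β := Nat.mul_le_mul_right _ (Nat.mul_le_mul hone hσ)
  rw [e]
  omega

/-! ### `InEXP` -/

theorem poly_le_pow (r : Polynomial ℕ) : ∃ k A : ℕ, ∀ n : ℕ, r.eval n ≤ n ^ k + A := by
  induction r using Polynomial.induction_on' with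
  | add p q hp hq =>
    obtain ⟨k, A, h⟩ := hp
    obtain ⟨k', A', h'⟩ := hq
    refine ⟨k + k' + 1, A + A' + 2, fun n => ?_⟩
    rw [Polynomial.eval_add]
    have h1 := h n
    have h2 := h' n
    rcases Nat.lt_or_ge n 2 with hn | hn
    · have h3 : n ^ k ≤ 1 := (Nat.pow_le_pow_left (show n ≤ 1 by omega) k).trans (one_pow k).le
      have h4 : n ^ k' ≤ 1 := (Nat.pow_le_pow_left (show n ≤ 1 by omega) k').trans (one_pow k').le
      omega
    · have h3 : n ^ k ≤ n ^ (k + k') := Nat.pow_le_pow_right (by omega) (by omega)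
      have h4 : n ^ k' ≤ n ^ (k + k') := Nat.pow_le_pow_right (by omega) (by omega)
      have h5 : n ^ (k + k') * 2 ≤ n ^ (k + k' + 1) := by
        rw [pow_succ]; exact Nat.mul_le_mul_left _ hn
      omega
  | monomial j b =>
    refine ⟨j + 1, b * b ^ j, fun n => ?_⟩
    rw [Polynomial.eval_monomial]
    rcases Nat.lt_or_ge n b with hn | hn
    · have h1 : n ^ j ≤ b ^ j := Nat.pow_le_pow_left hn.le _
      have h2 : b * n ^ j ≤ b * b ^ j := Nat.mul_le_mul_left _ h1
      omega
    · have h1 : b * n ^ j ≤ n * n ^ j := Nat.mul_le_mul_right _ hn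
      have h2 : n ^ (j + 1) = n * n ^ j := by rw [pow_succ]; ring
      omega

theorem inEXP_of_et {L : Set (List Bool)} {f : List Bool → List Bool} (hf : ET f)
    (b : List Bool → Bool) (h1 : ∀ x, f x = [b x]) (h2 : ∀ x, x ∈ L ↔ b x = true) :
    Crest.ExpTime.InEXP L := by
  obtain ⟨c, p, hc⟩ := hf
  obtain ⟨k, A, hk⟩ := poly_le_pow p
  have h3 := timeBoundPred_of_run (f := b) c (fun n => 2 ^ p.eval n) (fun x => by
    have := hc x
    rwa [h1 x] at this)
  refine ⟨k, b, 2 ^ A, ?_, h2⟩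
  obtain ⟨M, hM⟩ := h3
  refine ⟨M, fun n => (hM n).trans ?_⟩
  have h4 : 2 ^ p.eval n ≤ 2 ^ (n ^ k + A) := Nat.pow_le_pow_right (by norm_num) (hk n)
  have h5 : 2 ^ (n ^ k + A) = 2 ^ A * 2 ^ (n ^ k) := by rw [pow_add]; ring
  have h6 : 1 ≤ 2 ^ A := Nat.one_le_two_pow
  show 2 ^ p.eval n + 1 ≤ 2 ^ A * 2 ^ (n ^ k) + 2 ^ A
  omega

/-- the pad: `x ↦ pair x (1 ^ (2 ^ p |x|))` is exponential time -/
theorem et_pad (p : Polynomial ℕ) :
    ET (fun x => pair x (List.replicate (2 ^ p.eval x.length) true)) := by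
  have hf : PT (fun z => pair (Crest.Agent.Lib.PT.fst z)
      (Crest.Agent.Lib.PT.snd z ++ Crest.Agent.Lib.PT.snd z)) :=
    PT.fst.pair (PT.append PT.snd PT.snd)
  have hu : PT (fun x => List.replicate (p.eval x.length) true) := PT.clock p
  have hs : PT (fun x => pair x [true]) := PT.id.pair (PT.const [true])
  have key : ∀ (x : List Bool) (i : ℕ), (fun z => pair (Crest.Agent.Lib.PT.fst z)
      (Crest.Agent.Lib.PT.snd z ++ Crest.Agent.Lib.PT.snd z))^[i] (pair x [true]) =
      pair x (List.replicate (2 ^ i) true) := by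
    intro x i
    induction i with
    | zero => simp
    | succ i ih =>
      rw [iterate_succ_apply', ih]
      simp only [core_fst_pair, core_snd_pair, List.replicate_append_replicate]
      congr 2
      rw [pow_succ]; ring
  have h := ET.iter hf hu hs ⟨2 * Polynomial.X + p + 2, fun x i hi => by
    rw [key, core_length_pair]
    simp only [List.length_replicate] at hi ⊢
    simp only [Polynomial.eval_add, Polynomial.eval_mul, Polynomial.eval_ofNat, Polynomial.eval_X]
    have h1 : 2 * x.length < 2 ^ (2 * x.length) := Nat.lt_two_pow_self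
    have h2 : 2 ^ i ≤ 2 ^ p.eval x.length := Nat.pow_le_pow_right (by norm_num) hi
    have h3 : 2 ^ (2 * x.length + p.eval x.length + 2) =
      2 ^ (2 * x.length) * 2 ^ p.eval x.length * 4 := by rw [pow_add, pow_add]; norm_num
    have h4 : 1 ≤ 2 ^ (2 * x.length) := Nat.one_le_two_pow
    have h5 : 1 ≤ 2 ^ p.eval x.length := Nat.one_le_two_pow
    have h6 : 2 ^ (2 * x.length) * 1 ≤ 2 ^ (2 * x.length) * 2 ^ p.eval x.length :=
      Nat.mul_le_mul_left _ h5
    have h7 : 1 * 2 ^ p.eval x.length ≤ 2 ^ (2 * x.length) * 2 ^ p.eval x.length :=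
      Nat.mul_le_mul_right _ h4
    rw [h3]
    omega⟩
  obtain ⟨c, q, hc⟩ := h
  refine ⟨c, q, fun x => ?_⟩
  have := hc x
  beta_reduce at this ⊢
  rw [key] at this
  simpa using this

/-- A test that is poly-time in `(x, 1 ^ N)`, used with `N = 2 ^ p |x|`, decides a language in
EXPTIME. -/
theorem inEXP_of_pad {L : Set (List Bool)} {V : List Bool → ℕ → Prop}
    (hV : PTPred (fun q : List Bool × Un => V q.1 q.2.val)) (p : Polynomial ℕ)
    (h : ∀ x, x ∈ L ↔ V x (2 ^ p.eval x.length)) : Crest.ExpTime.InEXP L := by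
  obtain ⟨f, hf, hfV⟩ := hV
  -- as a raw function
  have h1 : PTF (fun q : Bits × Un => f (q.1.val, q.2)) :=
    PTF.comp (g := f) (f := fun q : Bits × Un => (q.1.val, q.2)) hf (by fun_prop)
  obtain ⟨g, hg, hg'⟩ := h1
  refine inEXP_of_et (ET.comp hg (et_pad p)) (fun x => f (x, ⟨2 ^ p.eval x.length⟩)) ?_ ?_
  · intro x
    have := hg' (⟨x⟩, ⟨2 ^ p.eval x.length⟩)
    simpa using this
  · intro x
    rw [h x]
    exact hfV (x, ⟨2 ^ p.eval x.length⟩)

end Crest.Agent.R290.EX
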