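import Mathlib
import Crest.Agent.Lib.PT.Alphabet
import Crest.Agent.Lib.PT.ListFns2

/-!
# Row 290: generic partition refinement: semantics and polynomial time

`rtab nodes moves ini r`: the table of colours (numbers) after `r` rounds.
-/

set_option autoImplicit false
set_option linter.dupNamespace false

namespace Crest.Agent.R290.EX

open Crest.Agent.Lib.PT

/-! ### the algorithm -/

section alg

variable {α β : Type} [DecidableEq α] [DecidableEq β]

/-- multiset equality of lists by counting -/
def permB (l l' : List β) : Bool :=
  (l ++ l').all fun v => decide (l.countP (fun w => decide (w = v)) =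
    l'.countP (fun w => decide (w = v)))

theorem permB_iff (l l' : List β) : permB l l' = true ↔ l.Perm l' := by
  have hc : ∀ (l : List β) (v : β), l.countP (fun w => decide (w = v)) = l.count v := by
    intro l v
    rw [List.count_eq_countP]
    rfl
  rw [List.perm_iff_count]
  unfold permB
  rw [List.all_eq_true]
  constructor
  · intro h v
    by_cases hv : v ∈ l ++ l'
    · have := h v hv
      simpa only [hc, decide_eq_true_eq] using this
    · rw [List.mem_append, not_or] at hv
      rw [List.count_eq_zero_of_not_mem hv.1, List.count_eq_zero_of_not_mem hv.2]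
  · intro h v _
    simp only [hc, decide_eq_true_eq]
    exact h v

/-- colour table lookup -/
def look (tab : List (α × ℕ)) (x : α) : ℕ :=
  ((tab.find? fun q => decide (q.1 = x)).map Prod.snd).getD 0

/-- the relation deciding the next colour -/
def simB (moves : α → List (List α)) (tab : List (α × ℕ)) (x y : α) : Bool :=
  decide (look tab x = look tab y) &&
    permB ((moves x).map (List.map (look tab))) ((moves y).map (List.map (look tab)))

/-- index of the first element satisfying a test -/
def fidx (p : α → Bool) (l : List α) : ℕ := (l.takeWhile (fun a => !p a)).length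

/-- one round of refinement -/
def rstep (nodes : List α) (moves : α → List (List α)) (tab : List (α × ℕ)) : List (α × ℕ) :=
  nodes.map fun x => (x, fidx (fun y => simB moves tab x y) nodes)

/-- the initial table -/
def rinit (nodes : List α) (ini : α → β) : List (α × ℕ) :=
  nodes.map fun x => (x, fidx (fun y => decide (ini x = ini y)) nodes)

/-- the table after `r` rounds -/
def rtab (nodes : List α) (moves : α → List (List α)) (ini : α → β) (r : ℕ) : List (α × ℕ) :=
  (rstep nodes moves)^[r] (rinit nodes ini)

omit [DecidableEq β] in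
theorem look_map (nodes : List α) (c : α → ℕ) {x : α} (hx : x ∈ nodes) :
    look (nodes.map fun y => (y, c y)) x = c x := by
  unfold look
  induction nodes with
  | nil => simp at hx
  | cons a l ih =>
    by_cases h : a = x
    · subst h; simp
    · have hx' : x ∈ l := by
        rcases List.mem_cons.1 hx with h' | h'
        · exact absurd h'.symm h
        · exact h'
      simp only [List.map_cons, List.find?_cons, h, decide_false]
      exact ih hx'

omit [DecidableEq α] in
theorem fidx_le (p : α → Bool) (l : List α) : fidx p l ≤ l.length := by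
  unfold fidx
  exact (List.takeWhile_prefix _).length_le

omit [DecidableEq α] in
/-- if some element satisfies the test the index is the index of such an element -/
theorem fidx_spec (p : α → Bool) (l : List α) (h : ∃ a ∈ l, p a = true) :
    ∃ a, l[fidx p l]? = some a ∧ p a = true := by
  unfold fidx
  induction l with
  | nil => simp at h
  | cons a l ih =>
    by_cases hp : p a = true
    · exact ⟨a, by simp [hp], hp⟩
    · have h' : ∃ a ∈ l, p a = true := by
        obtain ⟨b, hb, hb'⟩ := h
        rcases List.mem_cons.1 hb with rfl | hb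
        · exact absurd hb' hp
        · exact ⟨b, hb, hb'⟩
      obtain ⟨b, hb, hb'⟩ := ih h'
      refine ⟨b, ?_, hb'⟩
      simp only [Bool.not_eq_true] at hp
      simpa [hp] using hb

omit [DecidableEq α] in
theorem fidx_eq_iff (r : α → α → Bool) (hr : Equivalence fun x y => r x y = true) (l : List α)
    {x y : α} (hx : x ∈ l) (hy : y ∈ l) : fidx (r x) l = fidx (r y) l ↔ r x y = true := by
  constructor
  · intro h
    obtain ⟨a, ha, ha'⟩ := fidx_spec (r x) l ⟨x, hx, hr.refl x⟩
    obtain ⟨b, hb, hb'⟩ := fidx_spec (r y) l ⟨y, hy, hr.refl y⟩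
    rw [h, hb] at ha
    have : b = a := Option.some.inj ha
    subst this
    exact hr.trans ha' (hr.symm hb')
  · intro h
    have : r x = r y := by
      funext z
      have h1 : r x z = true ↔ r y z = true :=
        ⟨fun h2 => hr.trans (hr.symm h) h2, fun h2 => hr.trans h h2⟩
      cases hxz : r x z <;> cases hyz : r y z <;> simp_all
    rw [this]

end alg

/-! ### transfer of multiset equalities -/

theorem perm_transfer {X A B : Type} {g : X → A} {h : X → B} (hgh : ∀ x y, g x = g y → h x = h y)
    {L L' : List X} (hp : (L.map g).Perm (L'.map g)) : (L.map h).Perm (L'.map h) := by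
  classical
  let φ : A → Option B := fun a => if ha : ∃ x, g x = a then some (h ha.choose) else none
  have hφ : ∀ x, φ (g x) = some (h x) := by
    intro x
    have hx : ∃ y, g y = g x := ⟨x, rfl⟩
    simp only [φ, dif_pos hx]
    rw [hgh _ _ hx.choose_spec]
  have h1 := hp.map φ
  rw [List.map_map, List.map_map] at h1
  have e : φ ∘ g = some ∘ h := funext hφ
  rw [e, ← List.map_map, ← List.map_map] at h1
  exact (List.map_perm_map_iff (Option.some_injective B)).1 h1

theorem perm_transfer_iff {X A B : Type} {g : X → A} {h : X → B}
    (hgh : ∀ x y, g x = g y ↔ h x = h y) (L L' : List X) :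
    (L.map g).Perm (L'.map g) ↔ (L.map h).Perm (L'.map h) :=
  ⟨perm_transfer fun x y => (hgh x y).1, perm_transfer fun x y => (hgh x y).2⟩

theorem map_eq_transfer {X A B : Type} {g : X → A} {h : X → B}
    (hgh : ∀ x y, g x = g y → h x = h y) : ∀ v w : List X, v.map g = w.map g → v.map h = w.map h
  | [], [], _ => rfl
  | [], _ :: _, e => by simp at e
  | _ :: _, [], e => by simp at e
  | x :: v, y :: w, e => by
    simp only [List.map_cons, List.cons.injEq] at e ⊢
    exact ⟨hgh x y e.1, map_eq_transfer hgh v w e.2⟩

/-! ### semantics of the table -/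

section sem

variable {α β N : Type} [DecidableEq α] [DecidableEq β]

theorem look_rstep (nodes : List α) (moves : α → List (List α)) (tab : List (α × ℕ)) {x : α}
    (hx : x ∈ nodes) :
    look (rstep nodes moves tab) x = fidx (fun y => simB moves tab x y) nodes :=
  look_map nodes (fun x => fidx (fun y => simB moves tab x y) nodes) hx

theorem look_rinit (nodes : List α) (ini : α → β) {x : α} (hx : x ∈ nodes) :
    look (rinit nodes ini) x = fidx (fun y => decide (ini x = ini y)) nodes :=
  look_map nodes (fun x => fidx (fun y => decide (ini x = ini y)) nodes) hx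

omit [DecidableEq β] in
theorem simB_iff (moves : α → List (List α)) (tab : List (α × ℕ)) (x y : α) :
    simB moves tab x y = true ↔ look tab x = look tab y ∧
      ((moves x).map (List.map (look tab))).Perm ((moves y).map (List.map (look tab))) := by
  simp [simB, permB_iff]

/-- The colours of the table represent the true colours `f s`. -/
theorem rtab_spec (κ : N → α) (nodes : List α) (hn : ∀ x, κ x ∈ nodes)
    (moves : α → List (List α)) (mvN : N → List (List N))
    (hmv : ∀ x, moves (κ x) = (mvN x).map (List.map κ)) (ini : α → β)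
    {C : ℕ → Type} (f : (s : ℕ) → N → C s)
    (h0 : ∀ x y, f 0 x = f 0 y ↔ ini (κ x) = ini (κ y))
    (hs : ∀ s x y, f (s + 1) x = f (s + 1) y ↔ f s x = f s y ∧
      ((mvN x).map (List.map (f s))).Perm ((mvN y).map (List.map (f s))))
    (s : ℕ) (x y : N) :
    look (rtab nodes moves ini s) (κ x) = look (rtab nodes moves ini s) (κ y) ↔
      f s x = f s y := by
  induction s generalizing x y with
  | zero =>
    rw [h0]
    simp only [rtab, Function.iterate_zero, id_eq]
    rw [look_rinit nodes ini (hn x), look_rinit nodes ini (hn y)]
    have := fidx_eq_iff (fun x y => decide (ini x = ini y))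
      ⟨fun _ => by simp, fun h => by simpa [eq_comm] using h, fun h h' => by
        simp only [decide_eq_true_eq] at h h' ⊢; exact h.trans h'⟩ nodes (hn x) (hn y)
    simpa using this
  | succ s ih =>
    rw [hs]
    simp only [rtab, Function.iterate_succ_apply']
    rw [look_rstep nodes moves _ (hn x), look_rstep nodes moves _ (hn y)]
    have h1 := fidx_eq_iff (fun x y => simB moves (rtab nodes moves ini s) x y)
      ⟨fun _ => by simp [simB_iff], fun h => by
        simp only [simB_iff] at h ⊢
        exact ⟨h.1.symm, h.2.symm⟩, fun h h' => by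
        simp only [simB_iff] at h h' ⊢
        exact ⟨h.1.trans h'.1, h.2.trans h'.2⟩⟩ nodes (hn x) (hn y)
    have h2 : (fidx (fun z => simB moves ((rstep nodes moves)^[s] (rinit nodes ini)) (κ x) z) nodes
      = fidx (fun z => simB moves ((rstep nodes moves)^[s] (rinit nodes ini)) (κ y) z) nodes) ↔
      simB moves (rtab nodes moves ini s) (κ x) (κ y) = true := h1
    rw [h2, simB_iff, ih, hmv, hmv, List.map_map, List.map_map]
    refine and_congr_right fun _ => ?_
    refine perm_transfer_iff (fun v w => ?_) _ _
    simp only [Function.comp_apply, List.map_map]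
    exact ⟨map_eq_transfer (fun a b => (ih a b).1) v w, map_eq_transfer (fun a b => (ih a b).2) v w⟩

end sem

/-! ### stabilisation -/

section stab

variable {N : Type} {C : ℕ → Type} (f : (s : ℕ) → N → C s) (mvN : N → List (List N))
  (hs : ∀ s x y, f (s + 1) x = f (s + 1) y ↔ f s x = f s y ∧
      ((mvN x).map (List.map (f s))).Perm ((mvN y).map (List.map (f s))))

include hs in
theorem rel_antitone {s t : ℕ} (hst : s ≤ t) (x y : N) (h : f t x = f t y) : f s x = f s y := by
  induction t, hst using Nat.le_induction with
  | base => exact h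
  | succ t _ ih => exact ih (((hs t x y).1 h).1)

include hs in
theorem rel_stable {s : ℕ} (h : ∀ x y, f s x = f s y → f (s + 1) x = f (s + 1) y) {t : ℕ}
    (hst : s ≤ t) (x y : N) : f t x = f t y ↔ f s x = f s y := by
  refine ⟨rel_antitone f mvN hs hst x y, ?_⟩
  induction t, hst using Nat.le_induction generalizing x y with
  | base => exact id
  | succ t hst' ih =>
    intro hxy
    rw [hs]
    refine ⟨ih x y hxy, ?_⟩
    have h1 := ((hs s x y).1 (h x y hxy)).2
    refine perm_transfer (fun v w hvw => ?_) h1
    exact map_eq_transfer (fun a b => ih a b) v w hvw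

include hs in
theorem rel_bound [Fintype N] {R : ℕ} (hR : Fintype.card N * Fintype.card N ≤ R) {t : ℕ}
    (ht : R ≤ t) (x y : N) : f t x = f t y ↔ f R x = f R y := by
  classical
  obtain ⟨s, hsR, hst⟩ : ∃ s ≤ R, ∀ x y, f s x = f s y → f (s + 1) x = f (s + 1) y := by
    by_contra hcon
    push Not at hcon
    -- the number of equivalent pairs drops in each round
    let P : ℕ → Finset (N × N) := fun s => Finset.univ.filter fun q => f s q.1 = f s q.2
    have hdrop : ∀ s ≤ R, (P (s + 1)).card < (P s).card := by
      intro s hsR
      obtain ⟨x, y, h1, h2⟩ := hcon s hsR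
      apply Finset.card_lt_card
      rw [Finset.ssubset_iff_of_subset]
      · exact ⟨(x, y), by simpa [P] using h1, by simpa [P] using h2⟩
      · intro q hq
        simp only [P, Finset.mem_filter, Finset.mem_univ, true_and] at hq ⊢
        exact ((hs s _ _).1 hq).1
    have hbound : ∀ s ≤ R + 1, (P s).card + s ≤ (P 0).card := by
      intro s
      induction s with
      | zero => intro _; simp
      | succ s ih =>
        intro h
        have := ih (by omega)
        have := hdrop s (by omega)
        omega
    have h1 := hbound (R + 1) le_rfl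
    have h2 : (P 0).card ≤ Fintype.card N * Fintype.card N := by
      refine (Finset.card_le_univ _).trans ?_
      rw [Fintype.card_prod]
    omega
  rw [rel_stable f mvN hs hst (hsR.trans ht), rel_stable f mvN hs hst hsR]

include hs in
/-- histograms agree at every round iff they agree at a late round -/
theorem hist_iff [Fintype N] {R : ℕ} (hR : Fintype.card N * Fintype.card N ≤ R) (L L' : List N) :
    (∀ t, (L.map (f t)).Perm (L'.map (f t))) ↔ (L.map (f R)).Perm (L'.map (f R)) := by
  refine ⟨fun h => h R, fun h t => ?_⟩
  rcases le_total t R with ht | ht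
  · exact perm_transfer (fun x y => rel_antitone f mvN hs ht x y) h
  · exact perm_transfer (fun x y => (rel_bound f mvN hs hR ht x y).2) h

end stab

/-- The full correctness statement of the refinement test. -/
theorem rtab_hist {α β N : Type} [DecidableEq α] [DecidableEq β] [Fintype N] (κ : N → α)
    (nodes : List α) (hn : ∀ x, κ x ∈ nodes)
    (moves : α → List (List α)) (mvN : N → List (List N))
    (hmv : ∀ x, moves (κ x) = (mvN x).map (List.map κ)) (ini : α → β)
    {C : ℕ → Type} (f : (s : ℕ) → N → C s)
    (h0 : ∀ x y, f 0 x = f 0 y ↔ ini (κ x) = ini (κ y))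
    (hs : ∀ s x y, f (s + 1) x = f (s + 1) y ↔ f s x = f s y ∧
      ((mvN x).map (List.map (f s))).Perm ((mvN y).map (List.map (f s))))
    {R : ℕ} (hR : Fintype.card N * Fintype.card N ≤ R) (L L' : List N) :
    permB ((L.map κ).map (look (rtab nodes moves ini R)))
      ((L'.map κ).map (look (rtab nodes moves ini R))) = true ↔
      ∀ t, (L.map (f t)).Perm (L'.map (f t)) := by
  rw [hist_iff f mvN hs hR, permB_iff, List.map_map, List.map_map]
  exact perm_transfer_iff (fun x y => rtab_spec κ nodes hn moves mvN hmv ini f h0 hs R x y) _ _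

/-! ### polynomial time -/

section pt

variable {α β γ : Type} [PTCode α] [PTCode β] [PTCode γ] [DecidableEq α] [DecidableEq β]

theorem ptf_permB {l l' : γ → List β} (hl : PTF l) (hl' : PTF l') :
    PTF (fun c => permB (l c) (l' c)) := by
  unfold permB
  refine PTF.all (l := fun c => l c ++ l' c) (by fun_prop) ?_
  have h1 : ∀ m : γ → List β, PTF m →
      PTU (fun q : γ × β => (m q.1).countP (fun w => decide (w = q.2))) := by
    intro m hm
    exact PTU.countP (l := fun q : γ × β => m q.1) (p := fun (q : γ × β) (w : β) => decide (w = q.2))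
      (by fun_prop) (PTF.beq (by fun_prop) (by fun_prop))
  exact (PTU.eq (h1 l hl) (h1 l' hl')).toPTF

theorem ptf_look {tab : γ → List (α × ℕ)} {x : γ → α} (ht : PTF tab) (hx : PTF x) :
    PTF (fun c => look (tab c) (x c)) := by
  unfold look
  refine PTF.optionGetD ?_ (PTF.const 0)
  refine PTF.optionMap (s := fun c => (tab c).find? fun q => decide (q.1 = x c))
    (g := fun _ q => q.2) ?_ (PTF.comp (g := fun q : α × ℕ => q.2) PTF.snd PTF.snd)
  exact PTF.find? (p := fun c (q : α × ℕ) => decide (q.1 = x c)) ht
    (PTF.beq (by fun_prop) (by fun_prop))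

omit [DecidableEq α] in
theorem ptu_fidx {p : γ → α → Bool} {l : γ → List α} (hp : PTF₂ p) (hl : PTF l) :
    PTU (fun c => fidx (p c) (l c)) := by
  unfold fidx
  exact PTU.length (PTF.takeWhile (p := fun c a => !p c a) hl (PTF.not hp))

theorem ptf_simB {moves : γ → α → List (List α)} {tab : γ → List (α × ℕ)} {x y : γ → α}
    (hm : PTF₂ moves) (ht : PTF tab) (hx : PTF x) (hy : PTF y) :
    PTF (fun c => simB (moves c) (tab c) (x c) (y c)) := by
  unfold simB
  have h1 : PTF (fun c => decide (look (tab c) (x c) = look (tab c) (y c))) :=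
    PTF.beq (ptf_look ht hx) (ptf_look ht hy)
  have h2 : ∀ z : γ → α, PTF z →
      PTF (fun c => (moves c (z c)).map (List.map (look (tab c)))) := by
    intro z hz
    refine PTF.map (l := fun c => moves c (z c)) (f := fun c v => List.map (look (tab c)) v)
      (PTF.comp₂ hm PTF.id hz) ?_
    refine PTF.map (l := fun q : γ × List α => q.2) (f := fun (q : γ × List α) a => look (tab q.1) a)
      (by fun_prop) ?_
    exact ptf_look (by fun_prop) (by fun_prop)
  exact PTF.and h1 (ptf_permB (h2 x hx) (h2 y hy))

theorem ptf_rstep {nodes : γ → List α} {moves : γ → α → List (List α)} {tab : γ → List (α × ℕ)}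
    (hn : PTF nodes) (hm : PTF₂ moves) (ht : PTF tab) :
    PTF (fun c => rstep (nodes c) (moves c) (tab c)) := by
  unfold rstep
  refine PTF.map (f := fun c x => (x, fidx (fun y => simB (moves c) (tab c) x y) (nodes c))) hn ?_
  refine PTF.prodMk PTF.snd (PTU.toPTF ?_)
  refine ptu_fidx (p := fun (q : γ × α) (y : α) => simB (moves q.1) (tab q.1) q.2 y)
    (l := fun q => nodes q.1) ?_ (by fun_prop)
  refine ptf_simB (γ := (γ × α) × α) (moves := fun q => moves q.1.1) ?_ (by fun_prop)
    (by fun_prop) (by fun_prop)
  exact PTF.comp (g := fun q : γ × α => moves q.1 q.2)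
    (f := fun q : ((γ × α) × α) × α => (q.1.1.1, q.2)) hm (by fun_prop)

omit [DecidableEq α] in
theorem ptf_rinit {nodes : γ → List α} {ini : γ → α → β} (hn : PTF nodes) (hi : PTF₂ ini) :
    PTF (fun c => rinit (nodes c) (ini c)) := by
  unfold rinit
  refine PTF.map (f := fun c x => (x, fidx (fun y => decide (ini c x = ini c y)) (nodes c))) hn ?_
  refine PTF.prodMk PTF.snd (PTU.toPTF ?_)
  refine ptu_fidx (p := fun (q : γ × α) (y : α) => decide (ini q.1 q.2 = ini q.1 y))
    (l := fun q => nodes q.1) ?_ (by fun_prop)
  refine PTF.beq ?_ ?_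
  · exact PTF.comp (g := fun q : γ × α => ini q.1 q.2)
      (f := fun q : (γ × α) × α => q.1) hi (by fun_prop)
  · exact PTF.comp (g := fun q : γ × α => ini q.1 q.2)
      (f := fun q : (γ × α) × α => (q.1.1, q.2)) hi (by fun_prop)

omit [DecidableEq α] in
theorem sz_tab_le (nodes : List α) (g : α → ℕ) (hg : ∀ x, g x ≤ nodes.length) :
    sz (nodes.map fun x => (x, g x)) ≤ sz nodes * (2 * (2 * sz nodes + 1 + sz nodes) + 1) := by
  refine (sz_list_le (m := 2 * sz nodes + 1 + sz nodes) ?_).trans ?_
  · intro b hb
    obtain ⟨x, hx, rfl⟩ := List.mem_map.1 hb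
    have h1 := sz_mem_le hx
    have h2 := sz_nat_le (g x)
    have h3 := hg x
    have h4 := length_le_sz nodes
    simp only [sz_prod]
    omega
  · refine Nat.mul_le_mul_right _ ?_
    simpa using length_le_sz nodes

theorem ptf_rtab {nodes : γ → List α} {moves : γ → α → List (List α)} {ini : γ → α → β}
    {r : γ → ℕ} (hn : PTF nodes) (hm : PTF₂ moves) (hi : PTF₂ ini) (hr : PTU r) :
    PTF (fun c => rtab (nodes c) (moves c) (ini c) (r c)) := by
  unfold rtab
  refine PTF.iterate' (f := fun c tab => rstep (nodes c) (moves c) tab)
    (a := fun c => rinit (nodes c) (ini c)) hr ?_ (ptf_rinit hn hi)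
    (B := fun c => sz (nodes c) * (2 * (2 * sz (nodes c) + 1 + sz (nodes c)) + 1)) ?_ ?_
  · refine ptf_rstep (γ := γ × List (α × ℕ)) (nodes := fun q => nodes q.1)
      (moves := fun q => moves q.1) (by fun_prop) ?_ (by fun_prop)
    exact PTF.comp (g := fun q : γ × α => moves q.1 q.2)
      (f := fun q : (γ × List (α × ℕ)) × α => (q.1.1, q.2)) hm (by fun_prop)
  · have := hn.sz
    fun_prop
  · intro c i _
    cases i with
    | zero =>
      rw [Function.iterate_zero, id_eq]
      exact sz_tab_le _ _ (fun x => fidx_le _ _)
    | succ i =>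
      rw [Function.iterate_succ_apply']
      exact sz_tab_le _ _ (fun x => fidx_le _ _)

end pt

end Crest.Agent.R290.EX
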