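import Mathlib
import Crest.Prelude.Def_WL
import Crest.Agent.R290.EXRef

/-!
# Row 290: the refinement test decides `JEquiv` and `CREquiv`; capping the dimension; identification
-/

set_option autoImplicit false
set_option linter.dupNamespace false

namespace Crest.Agent.R290.EX

open Crest.WLRefine

/-! ### matrices as bit lists -/

/-- matrix read off a bit list -/
def adjOf (n : ℕ) (b : List Bool) : Fin n → Fin n → Bool := fun v w => b.getD (v * n + w) false

/-- the row-by-row bits of a matrix -/
def bitsOf {n : ℕ} (adj : Fin n → Fin n → Bool) : List Bool :=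
  (List.finRange n).flatMap fun v => (List.finRange n).map fun w => adj v w

theorem adjMatrixCode_eq {n : ℕ} (adj : Fin n → Fin n → Bool) :
    adjMatrixCode adj = Crest.Enc.natCode n ++ bitsOf adj := rfl

theorem bitsOf_eq_ofFn {n : ℕ} (adj : Fin n → Fin n → Bool) :
    bitsOf adj = List.ofFn (fun i : Fin (n * n) => adj i.divNat i.modNat) := by
  rw [List.ofFn_mul, bitsOf, List.flatMap, List.ofFn_eq_map]
  congr 1
  refine List.map_congr_left fun v _ => ?_
  rw [List.ofFn_eq_map]
  refine List.map_congr_left fun w _ => ?_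
  have hn : 0 < n := v.pos
  congr 1
  · apply Fin.ext
    simp only [Fin.coe_divNat]
    rw [Nat.mul_comm, Nat.mul_add_div hn, Nat.div_eq_of_lt w.2, add_zero]
  · apply Fin.ext
    simp only [Fin.coe_modNat]
    rw [Nat.mul_comm, Nat.mul_add_mod, Nat.mod_eq_of_lt w.2]

theorem length_bitsOf {n : ℕ} (adj : Fin n → Fin n → Bool) : (bitsOf adj).length = n * n := by
  rw [bitsOf_eq_ofFn, List.length_ofFn]

theorem idx_lt {n : ℕ} (v w : Fin n) : (v : ℕ) * n + w < n * n := by
  have h1 : (v : ℕ) + 1 ≤ n := v.2
  have h2 := Nat.mul_le_mul_right n h1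
  have h3 := w.2
  rw [Nat.add_mul] at h2
  omega

theorem adjOf_bitsOf {n : ℕ} (adj : Fin n → Fin n → Bool) : adjOf n (bitsOf adj) = adj := by
  funext v w
  have h := idx_lt v w
  have hn : 0 < n := v.pos
  unfold adjOf
  rw [List.getD_eq_getElem?_getD, bitsOf_eq_ofFn, List.getElem?_ofFn, dif_pos h]
  simp only [Option.getD_some]
  congr 1
  · apply Fin.ext
    simp only [Fin.coe_divNat]
    rw [Nat.mul_comm, Nat.mul_add_div hn, Nat.div_eq_of_lt w.2, add_zero]
  · apply Fin.ext
    simp only [Fin.coe_modNat]
    rw [Nat.mul_comm, Nat.mul_add_mod, Nat.mod_eq_of_lt w.2]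

theorem bitsOf_adjOf {n : ℕ} {b : List Bool} (h : b.length = n * n) :
    bitsOf (adjOf n b) = b := by
  rw [bitsOf_eq_ofFn]
  apply List.ext_getElem
  · simp [h]
  · intro i h1 h2
    rw [List.getElem_ofFn]
    unfold adjOf
    simp only [Fin.coe_divNat, Fin.coe_modNat]
    rw [Nat.mul_comm, Nat.div_add_mod, List.getD_eq_getElem?_getD, List.getElem?_eq_getElem h2]
    rfl

/-! ### the joint test -/

/-- all `k`-tuples of numbers below `n`, as lists -/
def tuples (n k cap : ℕ) : List (List ℕ) :=
  (List.range (min (n ^ k) cap)).map fun j => (List.range k).map fun i => j / n ^ i % n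

/-- the next tuples -/
def movesJ (n k : ℕ) (x : Bool × List ℕ) : List (List (Bool × List ℕ)) :=
  (List.range n).map fun z => (List.range k).map fun i => (x.1, x.2.set i z)

/-- the atomic type -/
def iniJ (n : ℕ) (gb hb : List Bool) (x : Bool × List ℕ) : List (List (Bool × Bool)) :=
  x.2.map fun a => x.2.map fun a' =>
    (decide (a = a'), (bif x.1 then hb else gb).getD (a * n + a') false)

/-- all nodes -/
def nodesJ (n k cap : ℕ) : List (Bool × List ℕ) :=
  (tuples n k cap).map (fun t => (false, t)) ++ (tuples n k cap).map (fun t => (true, t))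

/-- the colour table of the joint refinement -/
def tabJ (n k cap : ℕ) (gb hb : List Bool) : List ((Bool × List ℕ) × ℕ) :=
  rtab (nodesJ n k cap) (movesJ n k) (iniJ n gb hb)
    ((nodesJ n k cap).length * (nodesJ n k cap).length)

/-- the test for joint equivalence -/
def testJ (n k cap : ℕ) (gb hb : List Bool) : Bool :=
  permB (((tuples n k cap).map (fun t => (false, t))).map (look (tabJ n k cap gb hb)))
    (((tuples n k cap).map (fun t => (true, t))).map (look (tabJ n k cap gb hb)))

/-- list form of a tuple -/
def kap {n k : ℕ} (v : Fin k → Fin n) : List ℕ := List.ofFn fun i => (v i : ℕ)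

/-- all tuples -/
def allT (n k : ℕ) : List (Fin k → Fin n) :=
  (List.finRange (n ^ k)).map fun j => finFunctionFinEquiv.symm j

theorem mem_allT {n k : ℕ} (v : Fin k → Fin n) : v ∈ allT n k := by
  unfold allT
  rw [List.mem_map]
  exact ⟨finFunctionFinEquiv v, List.mem_finRange _, by simp⟩

theorem univ_val_eq_allT (n k : ℕ) :
    (Finset.univ : Finset (Fin k → Fin n)).val = (allT n k : Multiset (Fin k → Fin n)) := by
  classical
  have hnd : (allT n k).Nodup := by
    unfold allT
    exact (List.nodup_finRange _).map finFunctionFinEquiv.symm.injective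
  refine (Multiset.Nodup.ext (Finset.univ.nodup) (Multiset.coe_nodup.2 hnd)).2 fun v => ?_
  simp [mem_allT]

theorem tuples_eq {n k cap : ℕ} (hcap : n ^ k ≤ cap) :
    tuples n k cap = (allT n k).map kap := by
  unfold tuples allT
  rw [min_eq_left hcap, ← List.map_coe_finRange_eq_range (n := n ^ k), List.map_map, List.map_map]
  refine List.map_congr_left fun j _ => ?_
  simp only [Function.comp_apply, kap]
  rw [← List.map_coe_finRange_eq_range, List.map_map, List.ofFn_eq_map]
  refine List.map_congr_left fun i _ => ?_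
  simp only [Function.comp_apply]
  rfl

/-- the graph chosen by the flag -/
def Gr {n : ℕ} (G H : Fin n → Fin n → Bool) (b : Bool) : Fin n → Fin n → Bool :=
  bif b then H else G

/-- node of the algorithm -/
def kapJ {n k : ℕ} (x : Bool × (Fin k → Fin n)) : Bool × List ℕ := (x.1, kap x.2)

/-- moves on true tuples -/
def mvJ {n k : ℕ} (x : Bool × (Fin k → Fin n)) : List (List (Bool × (Fin k → Fin n))) :=
  (List.finRange n).map fun z => List.ofFn fun i => (x.1, Function.update x.2 i z)

theorem kap_update {n k : ℕ} (v : Fin k → Fin n) (i : Fin k) (z : Fin n) :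
    (kap v).set i z = kap (Function.update v i z) := by
  unfold kap
  apply List.ext_getElem
  · simp
  · intro j h1 h2
    rw [List.getElem_set, List.getElem_ofFn, List.getElem_ofFn]
    by_cases h : (i : ℕ) = j
    · rw [if_pos h]
      have : (⟨j, by simpa using h2⟩ : Fin k) = i := Fin.ext h.symm
      rw [this, Function.update_self]
    · rw [if_neg h, Function.update_of_ne]
      intro h'
      apply h
      rw [← h']

theorem movesJ_kapJ {n k : ℕ} (x : Bool × (Fin k → Fin n)) :
    movesJ n k (kapJ x) = (mvJ x).map (List.map kapJ) := by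
  unfold movesJ mvJ
  rw [← List.map_coe_finRange_eq_range (n := n), List.map_map, List.map_map]
  refine List.map_congr_left fun z _ => ?_
  simp only [Function.comp_apply]
  rw [← List.map_coe_finRange_eq_range, List.map_map, List.map_ofFn, List.ofFn_eq_map]
  refine List.map_congr_left fun i _ => ?_
  simp only [Function.comp_apply, kapJ, kap_update]

/-- the true colours -/
def fJ {n : ℕ} (G H : Fin n → Fin n → Bool) (k s : ℕ) (x : Bool × (Fin k → Fin n)) : JColor k s :=
  jcolor (Gr G H x.1) k s x.2

theorem fJ_zero {n k : ℕ} {gb hb : List Bool} (x y : Bool × (Fin k → Fin n)) :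
    fJ (adjOf n gb) (adjOf n hb) k 0 x = fJ (adjOf n gb) (adjOf n hb) k 0 y ↔
      iniJ n gb hb (kapJ x) = iniJ n gb hb (kapJ y) := by
  have hG : ∀ x : Bool × (Fin k → Fin n), iniJ n gb hb (kapJ x) = List.ofFn fun i =>
      List.ofFn fun j => (decide (x.2 i = x.2 j),
        Gr (adjOf n gb) (adjOf n hb) x.1 (x.2 i) (x.2 j)) := by
    intro x
    unfold iniJ kapJ kap
    simp only [List.map_ofFn]
    congr 1
    funext i
    simp only [Function.comp_apply]
    congr 1
    funext j
    simp only [Function.comp_apply, Fin.val_inj, Prod.mk.injEq, true_and]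
    unfold Gr adjOf
    cases x.1 <;> rfl
  rw [hG, hG]
  constructor
  · intro h
    have h1 : ∀ i j, decide (x.2 i = x.2 j) = decide (y.2 i = y.2 j) := fun i j =>
      congrFun (congrFun (congrArg Prod.fst h) i) j
    have h2 : ∀ i j, Gr (adjOf n gb) (adjOf n hb) x.1 (x.2 i) (x.2 j) =
        Gr (adjOf n gb) (adjOf n hb) y.1 (y.2 i) (y.2 j) := fun i j =>
      congrFun (congrFun (congrArg Prod.snd h) i) j
    congr 1
    funext i
    congr 1
    funext j
    rw [h1, h2]
  · intro h
    have h1 := List.ofFn_injective h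
    have h2 : ∀ i j, (decide (x.2 i = x.2 j), Gr (adjOf n gb) (adjOf n hb) x.1 (x.2 i) (x.2 j)) =
        (decide (y.2 i = y.2 j), Gr (adjOf n gb) (adjOf n hb) y.1 (y.2 i) (y.2 j)) := fun i j =>
      congrFun (List.ofFn_injective (congrFun h1 i)) j
    refine Prod.ext ?_ ?_
    · funext i j
      exact congrArg Prod.fst (h2 i j)
    · funext i j
      exact congrArg Prod.snd (h2 i j)

theorem fJ_succ {n : ℕ} (G H : Fin n → Fin n → Bool) (k s : ℕ) (x y : Bool × (Fin k → Fin n)) :
    fJ G H k (s + 1) x = fJ G H k (s + 1) y ↔ fJ G H k s x = fJ G H k s y ∧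
      ((mvJ x).map (List.map (fJ G H k s))).Perm ((mvJ y).map (List.map (fJ G H k s))) := by
  have hval : ∀ x : Bool × (Fin k → Fin n), (mvJ x).map (List.map (fJ G H k s)) =
      (List.ofFn fun z => fun i => jcolor (Gr G H x.1) k s (Function.update x.2 i z)).map
        List.ofFn := by
    intro x
    unfold mvJ
    rw [List.map_map, List.map_ofFn, List.ofFn_eq_map]
    refine List.map_congr_left fun z _ => ?_
    simp only [Function.comp_apply, List.map_ofFn]
    rfl
  rw [hval, hval, List.map_perm_map_iff List.ofFn_injective, ← Multiset.coe_eq_coe,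
    ← Fin.univ_val_map, ← Fin.univ_val_map]
  exact Prod.ext_iff

theorem map_fJ {n : ℕ} (G H : Fin n → Fin n → Bool) (k s : ℕ) (b : Bool) :
    ((allT n k).map (fun v => (b, v))).map (fJ G H k s) =
      (allT n k).map (jcolor (Gr G H b) k s) := by
  rw [List.map_map]
  rfl

/-- The test decides joint equivalence. -/
theorem testJ_iff {n k cap : ℕ} (hcap : n ^ k ≤ cap) (gb hb : List Bool) :
    testJ n k cap gb hb = true ↔ JEquiv k (adjOf n gb) (adjOf n hb) := by
  have htup := tuples_eq hcap
  have hnodes : nodesJ n k cap = ((allT n k).map (fun v => (false, v))).map kapJ ++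
      ((allT n k).map (fun v => (true, v))).map kapJ := by
    unfold nodesJ
    rw [htup, List.map_map, List.map_map, List.map_map, List.map_map]
    rfl
  have hmem : ∀ x : Bool × (Fin k → Fin n), kapJ x ∈ nodesJ n k cap := by
    rintro ⟨b, v⟩
    rw [hnodes, List.mem_append, List.map_map, List.map_map, List.mem_map, List.mem_map]
    cases b
    · exact Or.inl ⟨v, mem_allT v, rfl⟩
    · exact Or.inr ⟨v, mem_allT v, rfl⟩
  have hlen : (nodesJ n k cap).length = Fintype.card (Bool × (Fin k → Fin n)) := by
    rw [hnodes]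
    simp [allT]
    ring
  have key := rtab_hist (N := Bool × (Fin k → Fin n)) kapJ (nodesJ n k cap) hmem (movesJ n k) mvJ
    movesJ_kapJ (iniJ n gb hb) (fJ (adjOf n gb) (adjOf n hb) k) fJ_zero
    (fJ_succ (adjOf n gb) (adjOf n hb) k)
    (R := (nodesJ n k cap).length * (nodesJ n k cap).length) (by rw [hlen])
    ((allT n k).map (fun v => (false, v))) ((allT n k).map (fun v => (true, v)))
  have e : ∀ b : Bool, ((allT n k).map (fun v => (b, v))).map kapJ =
      (tuples n k cap).map (fun t => (b, t)) := by
    intro b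
    rw [htup, List.map_map, List.map_map]
    rfl
  rw [e, e] at key
  unfold testJ tabJ
  rw [key]
  unfold JEquiv
  refine forall_congr' fun s => ?_
  rw [map_fJ, map_fJ, ← Multiset.coe_eq_coe, ← Multiset.map_coe, ← Multiset.map_coe,
    ← univ_val_eq_allT]
  rfl

end Crest.Agent.R290.EX
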