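import Mathlib
import Crest.Agent.R290.EXWL

/-!
# Row 290: colour refinement test, isomorphism, capping the dimension, identification, graph classes
-/

set_option autoImplicit false
set_option linter.dupNamespace false

namespace Crest.Agent.R290.EX

open Crest.WLRefine

/-! ### colour refinement -/

/-- the moves of colour refinement -/
def movesC (n : ℕ) (gb hb : List Bool) (x : Bool × ℕ) : List (List (Bool × ℕ)) :=
  ((List.range n).filter fun w => (bif x.1 then hb else gb).getD (x.2 * n + w) false).map
    fun w => [(x.1, w)]

/-- all nodes -/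
def nodesC (n : ℕ) : List (Bool × ℕ) :=
  (List.range n).map (fun t => (false, t)) ++ (List.range n).map (fun t => (true, t))

/-- the colour table -/
def tabC (n : ℕ) (gb hb : List Bool) : List ((Bool × ℕ) × ℕ) :=
  rtab (nodesC n) (movesC n gb hb) (fun _ => true) ((nodesC n).length * (nodesC n).length)

/-- the test for colour refinement equivalence -/
def testC (n : ℕ) (gb hb : List Bool) : Bool :=
  permB (((List.range n).map (fun t => (false, t))).map (look (tabC n gb hb)))
    (((List.range n).map (fun t => (true, t))).map (look (tabC n gb hb)))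

/-- node of the algorithm -/
def kapC {n : ℕ} (x : Bool × Fin n) : Bool × ℕ := (x.1, x.2)

/-- moves on vertices -/
def mvC {n : ℕ} (G H : Fin n → Fin n → Bool) (x : Bool × Fin n) : List (List (Bool × Fin n)) :=
  ((List.finRange n).filter fun w => Gr G H x.1 x.2 w).map fun w => [(x.1, w)]

/-- the true colours -/
def fC {n : ℕ} (G H : Fin n → Fin n → Bool) (s : ℕ) (x : Bool × Fin n) : CRColor s :=
  crcolor (Gr G H x.1) s x.2

theorem movesC_kapC {n : ℕ} (gb hb : List Bool) (x : Bool × Fin n) :
    movesC n gb hb (kapC x) = (mvC (adjOf n gb) (adjOf n hb) x).map (List.map kapC) := by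
  unfold movesC mvC
  rw [← List.map_coe_finRange_eq_range (n := n), List.filter_map, List.map_map, List.map_map]
  have hp : (List.finRange n).filter ((fun w => (bif (kapC x).1 then hb else gb).getD
      ((kapC x).2 * n + w) false) ∘ fun i : Fin n => (i : ℕ)) =
      (List.finRange n).filter fun w => Gr (adjOf n gb) (adjOf n hb) x.1 x.2 w := by
    congr 1
    funext w
    unfold Gr adjOf kapC
    simp only [Function.comp_apply]
    cases x.1 <;> rfl
  rw [hp]
  refine List.map_congr_left fun z _ => ?_
  rfl

theorem fC_succ {n : ℕ} (G H : Fin n → Fin n → Bool) (s : ℕ) (x y : Bool × Fin n) :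
    fC G H (s + 1) x = fC G H (s + 1) y ↔ fC G H s x = fC G H s y ∧
      ((mvC G H x).map (List.map (fC G H s))).Perm ((mvC G H y).map (List.map (fC G H s))) := by
  have hval : ∀ x : Bool × Fin n, (mvC G H x).map (List.map (fC G H s)) =
      (((List.finRange n).filter fun w => Gr G H x.1 x.2 w).map
        (crcolor (Gr G H x.1) s)).map fun c => [c] := by
    intro x
    unfold mvC
    rw [List.map_map, List.map_map]
    refine List.map_congr_left fun z _ => ?_
    rfl
  have hinj : Function.Injective (fun c : CRColor s => [c]) := fun a b h => by simpa using h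
  have hms : ∀ x : Bool × Fin n,
      (((List.finRange n).filter fun w => Gr G H x.1 x.2 w).map (crcolor (Gr G H x.1) s) :
        Multiset (CRColor s)) =
      ((Finset.univ.filter fun w => Gr G H x.1 x.2 w = true).val.map
        (crcolor (Gr G H x.1) s)) := by
    intro x
    rw [Finset.filter_val, ← Multiset.map_coe]
    congr 1
    show _ = Multiset.filter _ ((List.finRange n : List (Fin n)) : Multiset (Fin n))
    rw [Multiset.filter_coe]
    congr 1
    congr 1
    funext w
    simp
  rw [hval, hval, List.map_perm_map_iff hinj, ← Multiset.coe_eq_coe, hms, hms]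
  exact Prod.ext_iff

theorem testC_iff (n : ℕ) (gb hb : List Bool) :
    testC n gb hb = true ↔ CREquiv (adjOf n gb) (adjOf n hb) := by
  have hr : ∀ b : Bool, ((List.finRange n).map (fun v => (b, v))).map kapC =
      (List.range n).map (fun t => (b, t)) := by
    intro b
    rw [← List.map_coe_finRange_eq_range (n := n), List.map_map, List.map_map]
    rfl
  have hnodes : nodesC n = ((List.finRange n).map (fun v => (false, v))).map kapC ++
      ((List.finRange n).map (fun v => (true, v))).map kapC := by
    rw [hr, hr]
    rfl
  have hmem : ∀ x : Bool × Fin n, kapC x ∈ nodesC n := by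
    rintro ⟨b, v⟩
    rw [hnodes, List.mem_append, List.map_map, List.map_map, List.mem_map, List.mem_map]
    cases b
    · exact Or.inl ⟨v, List.mem_finRange v, rfl⟩
    · exact Or.inr ⟨v, List.mem_finRange v, rfl⟩
  have hlen : (nodesC n).length = Fintype.card (Bool × Fin n) := by
    rw [hnodes]
    simp
    ring
  have key := rtab_hist (N := Bool × Fin n) kapC (nodesC n) hmem (movesC n gb hb)
    (mvC (adjOf n gb) (adjOf n hb)) (movesC_kapC gb hb) (fun _ => true)
    (fC (adjOf n gb) (adjOf n hb)) (fun x y => by simp [fC, crcolor])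
    (fC_succ (adjOf n gb) (adjOf n hb))
    (R := (nodesC n).length * (nodesC n).length) (by rw [hlen])
    ((List.finRange n).map (fun v => (false, v))) ((List.finRange n).map (fun v => (true, v)))
  rw [hr, hr] at key
  unfold testC tabC
  rw [key]
  unfold CREquiv
  refine forall_congr' fun s => ?_
  rw [List.map_map, List.map_map, ← Multiset.coe_eq_coe, ← Multiset.map_coe, ← Multiset.map_coe]
  rfl

/-! ### order and isomorphism -/

theorem jequiv_order {k n m : ℕ} (hk : 1 ≤ k) {G : Fin n → Fin n → Bool}
    {H : Fin m → Fin m → Bool} (h : JEquiv k G H) : n = m := by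
  have h1 := congrArg Multiset.card (h 0)
  rw [Multiset.card_map, Multiset.card_map] at h1
  have h2 : Fintype.card (Fin k → Fin n) = Fintype.card (Fin k → Fin m) := h1
  simp only [Fintype.card_fun, Fintype.card_fin] at h2
  exact Nat.pow_left_injective (by omega) h2

theorem crequiv_order {n m : ℕ} {G : Fin n → Fin n → Bool}
    {H : Fin m → Fin m → Bool} (h : CREquiv G H) : n = m := by
  have h1 := congrArg Multiset.card (h 0)
  rw [Multiset.card_map, Multiset.card_map] at h1
  have h2 : Fintype.card (Fin n) = Fintype.card (Fin m) := h1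
  simpa only [Fintype.card_fin] using h2

theorem wlequiv_order {k n m : ℕ} (hk : 1 ≤ k) {G : Fin n → Fin n → Bool}
    {H : Fin m → Fin m → Bool} (h : WLEquiv k G H) : n = m := by
  unfold WLEquiv at h
  split_ifs at h with h1
  · exact crequiv_order h
  · exact jequiv_order hk h

theorem jcolor_iso {k n m : ℕ} {G : Fin n → Fin n → Bool} {H : Fin m → Fin m → Bool}
    (e : Fin n ≃ Fin m) (he : ∀ v w, H (e v) (e w) = G v w) (s : ℕ) (v : Fin k → Fin n) :
    jcolor H k s (e ∘ v) = jcolor G k s v := by
  induction s generalizing v with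
  | zero =>
    simp only [jcolor, atomicType, Function.comp_apply, he]
    simp [e.injective.eq_iff]
  | succ s ih =>
    simp only [jcolor]
    rw [ih]
    congr 1
    rw [← Multiset.map_univ_val_equiv e, Multiset.map_map]
    refine Multiset.map_congr rfl fun z _ => ?_
    funext i
    simp only [Function.comp_apply]
    rw [← ih, Function.comp_update]

theorem jequiv_of_iso {k n m : ℕ} {G : Fin n → Fin n → Bool} {H : Fin m → Fin m → Bool}
    (h : AdjIso G H) : JEquiv k G H := by
  obtain ⟨e, he⟩ := h
  intro s
  rw [← Multiset.map_univ_val_equiv (Equiv.arrowCongr (Equiv.refl (Fin k)) e), Multiset.map_map]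
  refine Multiset.map_congr rfl fun v _ => ?_
  exact (jcolor_iso e he s v).symm

theorem iso_of_jequiv {k n : ℕ} (hnk : n ≤ k) {G H : Fin n → Fin n → Bool}
    (h : JEquiv k G H) : AdjIso G H := by
  rcases Nat.eq_zero_or_pos n with hn | hn
  · subst hn
    exact ⟨Equiv.refl _, fun v => v.elim0⟩
  · let v : Fin k → Fin n := fun i => ⟨min i (n - 1), by omega⟩
    have h0 := h 0
    have h1 : jcolor G k 0 v ∈ (Finset.univ : Finset (Fin k → Fin n)).val.map (jcolor G k 0) :=
      Multiset.mem_map_of_mem _ (Finset.mem_univ v)
    rw [h0, Multiset.mem_map] at h1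
    obtain ⟨u, -, hu⟩ := h1
    have hu1 : ∀ i j, decide (u i = u j) = decide (v i = v j) := fun i j =>
      congrFun (congrFun (congrArg Prod.fst hu) i) j
    have hu2 : ∀ i j, H (u i) (u j) = G (v i) (v j) := fun i j =>
      congrFun (congrFun (congrArg Prod.snd hu) i) j
    have hv : ∀ w : Fin n, v (Fin.castLE hnk w) = w := fun w => by
      apply Fin.ext
      simp only [v, Fin.val_castLE]
      omega
    let g : Fin n → Fin n := fun w => u (Fin.castLE hnk w)
    have hg : Function.Injective g := by
      intro w w' hw
      have := hu1 (Fin.castLE hnk w) (Fin.castLE hnk w')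
      rw [hv, hv] at this
      have h2 : u (Fin.castLE hnk w) = u (Fin.castLE hnk w') := hw
      rw [decide_eq_true h2] at this
      exact of_decide_eq_true this.symm
    refine ⟨Equiv.ofBijective g (Finite.injective_iff_bijective.1 hg), fun w w' => ?_⟩
    have := hu2 (Fin.castLE hnk w) (Fin.castLE hnk w')
    rw [hv, hv] at this
    exact this

theorem jequiv_cap {k n : ℕ} (G H : Fin n → Fin n → Bool) :
    JEquiv k G H ↔ JEquiv (min k (n + 1)) G H := by
  rcases le_total k (n + 1) with h | h
  · rw [min_eq_left h]
  · rw [min_eq_right h]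
    constructor
    · intro h1
      exact jequiv_of_iso (iso_of_jequiv (by omega) h1)
    · intro h1
      exact jequiv_of_iso (iso_of_jequiv (by omega) h1)

theorem jequiv_succ_iff_iso {n : ℕ} (G H : Fin n → Fin n → Bool) :
    JEquiv (n + 1) G H ↔ AdjIso G H :=
  ⟨fun h => iso_of_jequiv (by omega) h, fun h => jequiv_of_iso h⟩

/-! ### identification -/

theorem identifies_iff {n k : ℕ} (hk : 1 ≤ k) (G : Fin n → Fin n → Bool) :
    Identifies k G ↔ ∀ H : Fin n → Fin n → Bool, IsSimple H → WLEquiv k G H → AdjIso G H := by
  constructor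
  · intro h H hH hw
    exact h n H hH hw
  · intro h m H hH hw
    have := wlequiv_order hk hw
    subst this
    exact h H hH hw

theorem identifies_big {n k : ℕ} (hn : 0 < n) (hk : n + 1 ≤ k) (G : Fin n → Fin n → Bool) :
    Identifies k G := by
  rw [identifies_iff (by omega)]
  intro H _ hw
  unfold WLEquiv at hw
  rw [if_neg (by omega)] at hw
  exact iso_of_jequiv (by omega) hw

theorem wldim_cap {n k : ℕ} (hn : 0 < n) (G : Fin n → Fin n → Bool) :
    (∃ k', 1 ≤ k' ∧ k' ≤ k ∧ Identifies k' G) ↔
      ∃ k', 1 ≤ k' ∧ k' ≤ min k (n + 1) ∧ Identifies k' G := by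
  constructor
  · rintro ⟨k', h1, h2, h3⟩
    rcases le_total k' (n + 1) with h | h
    · exact ⟨k', h1, le_min h2 h, h3⟩
    · exact ⟨n + 1, by omega, le_min (h.trans h2) le_rfl, identifies_big hn le_rfl G⟩
  · rintro ⟨k', h1, h2, h3⟩
    exact ⟨k', h1, h2.trans (min_le_left _ _), h3⟩

/-! ### simple matrices -/

/-- the matrix test -/
def simpleB (n : ℕ) (gb : List Bool) : Bool :=
  (List.range n).all fun v => (List.range n).all fun w =>
    decide (gb.getD (v * n + w) false = gb.getD (w * n + v) false) &&
      !(gb.getD (v * n + v) false)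

theorem forall_range_iff {n : ℕ} {p : ℕ → Bool} :
    (List.range n).all p = true ↔ ∀ v : Fin n, p v = true := by
  rw [List.all_eq_true]
  constructor
  · intro h v
    exact h v (List.mem_range.2 v.2)
  · intro h v hv
    exact h ⟨v, List.mem_range.1 hv⟩

theorem simpleB_iff (n : ℕ) (gb : List Bool) :
    simpleB n gb = true ↔ IsSimple (adjOf n gb) := by
  unfold simpleB IsSimple adjOf
  simp only [forall_range_iff, Bool.and_eq_true, decide_eq_true_eq, Bool.not_eq_eq_eq_not,
    Bool.not_true]
  constructor
  · intro h
    exact ⟨fun v w => (h v w).1, fun v => (h v v).2⟩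
  · intro h v w
    exact ⟨h.1 v w, h.2 v⟩

/-! ### the identification test -/

/-- the `j`-th bit list of length `n²` -/
def bitsNum (n j : ℕ) : List Bool := (List.range (n * n)).map fun i => j.testBit i

theorem exists_bitsNum {n : ℕ} (H : Fin n → Fin n → Bool) :
    ∃ j < 2 ^ (n * n), adjOf n (bitsNum n j) = H := by
  refine ⟨Nat.ofBits (fun i : Fin (n * n) => H i.divNat i.modNat), Nat.ofBits_lt_two_pow _, ?_⟩
  have : bitsNum n (Nat.ofBits (fun i : Fin (n * n) => H i.divNat i.modNat)) = bitsOf H := by
    rw [bitsOf_eq_ofFn, bitsNum, ← List.map_coe_finRange_eq_range, List.map_map,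
      List.ofFn_eq_map]
    refine List.map_congr_left fun i _ => ?_
    simp only [Function.comp_apply]
    rw [Nat.testBit_ofBits_lt _ _ i.2]
  rw [this, adjOf_bitsOf]

/-- the test for equivalence at dimension `k` -/
def testWL (n k cap : ℕ) (gb hb : List Bool) : Bool :=
  bif decide (k = 1) then testC n gb hb else testJ n k cap gb hb

theorem testWL_iff {n k cap : ℕ} (hcap : n ^ k ≤ cap) (gb hb : List Bool) :
    testWL n k cap gb hb = true ↔ WLEquiv k (adjOf n gb) (adjOf n hb) := by
  unfold testWL WLEquiv
  by_cases hk : k = 1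
  · rw [if_pos hk, decide_eq_true hk]
    exact testC_iff n gb hb
  · rw [if_neg hk, decide_eq_false hk]
    exact testJ_iff hcap gb hb

/-- the identification test -/
def identB (n k cap : ℕ) (gb : List Bool) : Bool :=
  (List.range (min (2 ^ (n * n)) cap)).all fun j =>
    !(simpleB n (bitsNum n j)) || (!(testWL n k cap gb (bitsNum n j)) ||
      testJ n (n + 1) cap gb (bitsNum n j))

theorem identB_iff {n k cap : ℕ} (hk : 1 ≤ k) (hkn : k ≤ n + 1) (h1 : n ^ (n + 1) ≤ cap)
    (h2 : 2 ^ (n * n) ≤ cap) (h3 : 0 < n) (gb : List Bool) :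
    identB n k cap gb = true ↔ Identifies k (adjOf n gb) := by
  have hcap : n ^ k ≤ cap := (Nat.pow_le_pow_right h3 hkn).trans h1
  rw [identifies_iff hk]
  unfold identB
  rw [min_eq_left h2, List.all_eq_true]
  constructor
  · intro h H hH hw
    obtain ⟨j, hj, rfl⟩ := exists_bitsNum H
    have h4 := h j (List.mem_range.2 hj)
    rw [(simpleB_iff n _).2 hH, (testWL_iff hcap gb _).2 hw] at h4
    have h5 : testJ n (n + 1) cap gb (bitsNum n j) = true := by simpa using h4
    exact (jequiv_succ_iff_iso _ _).1 ((testJ_iff h1 gb _).1 h5)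
  · intro h j hj
    by_cases hs : simpleB n (bitsNum n j) = true
    · by_cases hw : testWL n k cap gb (bitsNum n j) = true
      · have h5 := h _ ((simpleB_iff n _).1 hs) ((testWL_iff hcap gb _).1 hw)
        have h6 := (testJ_iff h1 gb (bitsNum n j)).2 ((jequiv_succ_iff_iso _ _).2 h5)
        simp [h6]
      · simp [hw]
    · simp [hs]

/-- the dimension test -/
def dimB (n k cap : ℕ) (gb : List Bool) : Bool :=
  (List.range (min k (n + 1))).any fun k' => identB n (k' + 1) cap gb

theorem dimB_iff {n k cap : ℕ} (h1 : n ^ (n + 1) ≤ cap)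
    (h2 : 2 ^ (n * n) ≤ cap) (h3 : 0 < n) (gb : List Bool) :
    dimB n k cap gb = true ↔ ∃ k', 1 ≤ k' ∧ k' ≤ k ∧ Identifies k' (adjOf n gb) := by
  rw [wldim_cap h3, dimB, List.any_eq_true]
  constructor
  · rintro ⟨k', hk', h⟩
    have h4 := List.mem_range.1 hk'
    have h5 : k' + 1 ≤ n + 1 := by omega
    exact ⟨k' + 1, by omega, by omega, (identB_iff (by omega) h5 h1 h2 h3 gb).1 h⟩
  · rintro ⟨k', hk1, hk2, h⟩
    refine ⟨k' - 1, List.mem_range.2 (by omega), ?_⟩
    have e : k' - 1 + 1 = k' := by omega
    rw [e]
    exact (identB_iff hk1 (by omega) h1 h2 h3 gb).2 h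

/-! ### connectedness and degrees -/

/-- the set coded by `j` is closed under adjacency -/
def closedB (n : ℕ) (gb : List Bool) (j : ℕ) : Bool :=
  (List.range n).all fun v => (List.range n).all fun w =>
    !(j.testBit v && (gb.getD (v * n + w) false || gb.getD (w * n + v) false)) || j.testBit w

/-- the connectedness test: closed sets are trivial -/
def connB (n cap : ℕ) (gb : List Bool) : Bool :=
  decide (0 < n) && (List.range (min (2 ^ n) cap)).all fun j =>
    !(closedB n gb j) || (((List.range n).all fun v => !(j.testBit v)) ||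
      ((List.range n).all fun v => j.testBit v))

theorem connB_iff {n cap : ℕ} (hcap : 2 ^ n ≤ cap) (gb : List Bool) :
    connB n cap gb = true ↔ (adjGraph (adjOf n gb)).Connected := by
  have hcl : ∀ j, closedB n gb j = true ↔ ∀ v w : Fin n, j.testBit v = true →
      (adjOf n gb v w = true ∨ adjOf n gb w v = true) → j.testBit w = true := by
    intro j
    unfold closedB adjOf
    simp only [forall_range_iff]
    refine forall_congr' fun v => forall_congr' fun w => ?_
    cases j.testBit v <;> cases j.testBit w <;>
      cases gb.getD (v * n + w) false <;> cases gb.getD (w * n + v) false <;> simp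
  unfold connB
  rw [min_eq_left hcap, Bool.and_eq_true, decide_eq_true_eq, List.all_eq_true]
  constructor
  · rintro ⟨hn, h⟩
    have : Nonempty (Fin n) := ⟨⟨0, hn⟩⟩
    refine ⟨fun u v => ?_⟩
    classical
    -- the component of `u`
    let j := Nat.ofBits fun i : Fin n => decide ((adjGraph (adjOf n gb)).Reachable u i)
    have hj : ∀ i : Fin n, j.testBit i = decide ((adjGraph (adjOf n gb)).Reachable u i) :=
      fun i => Nat.testBit_ofBits_lt _ _ i.2
    have h1 := h j (List.mem_range.2 (Nat.ofBits_lt_two_pow _))
    have h2 : closedB n gb j = true := by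
      rw [hcl]
      intro a b ha hab
      rw [hj, decide_eq_true_eq] at ha ⊢
      by_cases hne : a = b
      · subst hne; exact ha
      · exact ha.trans (SimpleGraph.Adj.reachable ⟨hne, hab⟩)
    rw [h2] at h1
    simp only [Bool.not_true, Bool.false_or, Bool.or_eq_true, forall_range_iff] at h1
    rcases h1 with h1 | h1
    · have := h1 u
      rw [hj] at this
      simp at this
    · have := h1 v
      rw [hj, decide_eq_true_eq] at this
      exact this
  · intro hc
    have hne := hc.nonempty
    refine ⟨(hne.some).pos, fun j hj => ?_⟩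
    by_cases hcj : closedB n gb j = true
    · rw [hcj]
      simp only [Bool.not_true, Bool.false_or, Bool.or_eq_true, forall_range_iff]
      by_cases hall : ∀ v : Fin n, (!j.testBit v) = true
      · exact Or.inl hall
      · right
        push Not at hall
        obtain ⟨u, hu⟩ := hall
        have hu' : j.testBit u = true := by simpa using hu
        intro v
        obtain ⟨p⟩ := hc.preconnected u v
        rw [hcl] at hcj
        induction p with
        | nil => exact hu'
        | @cons a b c hab p ih =>
          have hab' : a ≠ b ∧ (adjOf n gb a b = true ∨ adjOf n gb b a = true) := hab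
          have hb := hcj a b hu' hab'.2
          exact ih (by simpa using hb) hb
    · simp only [Bool.not_eq_true] at hcj
      simp [hcj]

/-- the degree test -/
def degB (n : ℕ) (gb : List Bool) : Bool :=
  (List.range n).all fun v =>
    decide ((List.range n).countP (fun w => gb.getD (v * n + w) false) ≤ 3)

theorem degB_iff (n : ℕ) (gb : List Bool) : degB n gb = true ↔ MaxDegLeThree (adjOf n gb) := by
  unfold degB MaxDegLeThree
  simp only [forall_range_iff, decide_eq_true_eq]
  refine forall_congr' fun v => ?_
  have h : (List.range n).countP (fun w => gb.getD (v * n + w) false) =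
      (Finset.univ.filter fun w => adjOf n gb v w = true).card := by
    rw [← List.map_coe_finRange_eq_range, List.countP_map, Finset.card_def, Finset.filter_val]
    show _ = (Multiset.filter _ ((List.finRange n : List (Fin n)) : Multiset (Fin n))).card
    rw [Multiset.filter_coe, Multiset.coe_card, List.countP_eq_length_filter]
    congr 2
    funext w
    simp [adjOf]
  rw [h]

end Crest.Agent.R290.EX
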