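import Mathlib
import Crest.Agent.R290.EXWL2

/-!
# Row 290: the tests of `EXWL`, `EXWL2` are polynomial time (in a unary cap)
-/

set_option autoImplicit false
set_option linter.dupNamespace false

namespace Crest.Agent.R290.EX

open Crest.Agent.Lib.PT

section

variable {γ α : Type} [PTCode γ] [PTCode α]

/-- element access with a binary index -/
theorem ptf_getD {l : γ → List α} {i : γ → ℕ} {d : γ → α} (hl : PTF l) (hi : PTF i) (hd : PTF d) :
    PTF (fun c => (l c).getD (i c) (d c)) := by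
  refine PTF.of_eq (PTF.getD (PTF.natMinUn hi (PTU.length hl)) hl hd) (fun c => ?_)
  rcases le_total (i c) (l c).length with h | h
  · rw [min_eq_left h]
  · rw [min_eq_right h, List.getD_eq_getElem?_getD, List.getD_eq_getElem?_getD,
      List.getElem?_eq_none le_rfl, List.getElem?_eq_none h]

/-- list update with a binary index -/
theorem ptf_set {l : γ → List α} {i : γ → ℕ} {a : γ → α} (hl : PTF l) (hi : PTF i) (ha : PTF a) :
    PTF (fun c => (l c).set (i c) (a c)) := by
  refine PTF.of_eq (PTF.set hl (PTF.natMinUn hi (PTU.length hl)) ha) (fun c => ?_)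
  rcases le_total (i c) (l c).length with h | h
  · rw [min_eq_left h]
  · rw [min_eq_right h, List.set_eq_of_length_le le_rfl, List.set_eq_of_length_le h]

variable {n k cap : γ → ℕ} {gb hb : γ → List Bool}

theorem ptf_tuples (hn : PTU n) (hk : PTU k) (hcap : PTU cap) :
    PTF (fun c => tuples (n c) (k c) (cap c)) := by
  have h1 : PTU (fun c => min (n c ^ k c) (cap c)) :=
    PTF.natMinUn (PTF.natPow (PTU.toPTF hn) hk) hcap
  have h2 : PTF (fun c => (List.range (min (n c ^ k c) (cap c))).map fun j =>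
      (List.range (k c)).map fun i => j / n c ^ (min i (k c)) % n c) := by
    refine PTF.map (f := fun c j => (List.range (k c)).map fun i =>
      j / n c ^ (min i (k c)) % n c) (PTF.range h1) ?_
    refine PTF.map (l := fun q : γ × ℕ => List.range (k q.1))
      (f := fun (q : γ × ℕ) i => q.2 / n q.1 ^ (min i (k q.1)) % n q.1)
      (PTF.range (PTU.comp hk PTF.fst)) ?_
    refine PTF.natMod (f := fun q : (γ × ℕ) × ℕ => q.1.2 / n q.1.1 ^ (min q.2 (k q.1.1)))
      (g := fun q => n q.1.1) ?_ (PTU.toPTF (PTU.comp hn (by fun_prop)))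
    refine PTF.natDiv (by fun_prop) ?_
    refine PTF.natPow (f := fun q : (γ × ℕ) × ℕ => n q.1.1)
      (g := fun q => min q.2 (k q.1.1)) (PTU.toPTF (PTU.comp hn (by fun_prop))) ?_
    exact PTF.natMinUn PTF.snd (PTU.comp hk (by fun_prop))
  refine PTF.of_eq h2 (fun c => ?_)
  unfold tuples
  refine List.map_congr_left fun j _ => ?_
  refine List.map_congr_left fun i hi => ?_
  rw [min_eq_left (List.mem_range.1 hi).le]

theorem ptf_movesJ (hn : PTU n) (hk : PTU k) : PTF₂ (fun c x => movesJ (n c) (k c) x) := by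
  unfold movesJ
  refine PTF.map (l := fun q : γ × (Bool × List ℕ) => List.range (n q.1))
    (f := fun q z => (List.range (k q.1)).map fun i => (q.2.1, q.2.2.set i z))
    (PTF.range (PTU.comp hn PTF.fst)) ?_
  refine PTF.map (l := fun q : (γ × (Bool × List ℕ)) × ℕ => List.range (k q.1.1))
    (f := fun q i => (q.1.2.1, q.1.2.2.set i q.2)) (PTF.range (PTU.comp hk (by fun_prop))) ?_
  refine PTF.prodMk (by fun_prop) ?_
  exact ptf_set (l := fun q : ((γ × (Bool × List ℕ)) × ℕ) × ℕ => q.1.1.2.2)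
    (by fun_prop) (by fun_prop) (by fun_prop)

theorem ptf_bit {n : γ → ℕ} {b : γ → Bool} {gb hb : γ → List Bool} {v w : γ → ℕ} (hn : PTU n)
    (hb' : PTF b) (hg : PTF gb) (hh : PTF hb) (hv : PTF v) (hw : PTF w) :
    PTF (fun c => (bif b c then hb c else gb c).getD (v c * n c + w c) false) := by
  refine ptf_getD (PTF.cond hb' hh hg) ?_ (PTF.const false)
  exact PTF.natAdd (PTF.natMul hv (PTU.toPTF hn)) hw

theorem ptf_iniJ (hn : PTU n) (hg : PTF gb) (hh : PTF hb) :
    PTF₂ (fun c x => iniJ (n c) (gb c) (hb c) x) := by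
  unfold iniJ
  refine PTF.map (l := fun q : γ × (Bool × List ℕ) => q.2.2)
    (f := fun q a => q.2.2.map fun a' =>
      (decide (a = a'), (bif q.2.1 then hb q.1 else gb q.1).getD (a * n q.1 + a') false))
    (by fun_prop) ?_
  refine PTF.map (l := fun q : (γ × (Bool × List ℕ)) × ℕ => q.1.2.2)
    (f := fun q a' => (decide (q.2 = a'),
      (bif q.1.2.1 then hb q.1.1 else gb q.1.1).getD (q.2 * n q.1.1 + a') false))
    (by fun_prop) ?_
  refine PTF.prodMk ?_ ?_
  · exact PTF.beq (f := fun q : ((γ × (Bool × List ℕ)) × ℕ) × ℕ => q.1.2) (g := fun q => q.2)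
      (by fun_prop) (by fun_prop)
  · exact ptf_bit (γ := ((γ × (Bool × List ℕ)) × ℕ) × ℕ) (n := fun q => n q.1.1.1)
      (b := fun q => q.1.1.2.1) (gb := fun q => gb q.1.1.1) (hb := fun q => hb q.1.1.1)
      (v := fun q => q.1.2) (w := fun q => q.2) (PTU.comp hn (by fun_prop)) (by fun_prop)
      (PTF.comp hg (by fun_prop)) (PTF.comp hh (by fun_prop)) (by fun_prop) (by fun_prop)

theorem ptf_tag (b : Bool) {β : Type} [PTCode β] {l : γ → List β} (hl : PTF l) :
    PTF (fun c => (l c).map (fun t => (b, t))) :=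
  PTF.map (f := fun _ t => (b, t)) hl (by pt_prop)

theorem ptf_nodesJ (hn : PTU n) (hk : PTU k) (hcap : PTU cap) :
    PTF (fun c => nodesJ (n c) (k c) (cap c)) := by
  unfold nodesJ
  exact PTF.append (ptf_tag false (ptf_tuples hn hk hcap)) (ptf_tag true (ptf_tuples hn hk hcap))

theorem ptf_tabJ (hn : PTU n) (hk : PTU k) (hcap : PTU cap) (hg : PTF gb) (hh : PTF hb) :
    PTF (fun c => tabJ (n c) (k c) (cap c) (gb c) (hb c)) := by
  unfold tabJ
  have h := ptf_nodesJ hn hk hcap
  exact ptf_rtab h (moves := fun c x => movesJ (n c) (k c) x)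
    (ini := fun c x => iniJ (n c) (gb c) (hb c) x) (ptf_movesJ hn hk) (ptf_iniJ hn hg hh)
    (PTU.mul (PTU.length h) (PTU.length h))

theorem ptf_histPerm {β : Type} [PTCode β] [DecidableEq β] {l l' : γ → List β}
    {tab : γ → List (β × ℕ)} (hl : PTF l) (hl' : PTF l') (ht : PTF tab) :
    PTF (fun c => permB ((l c).map (look (tab c))) ((l' c).map (look (tab c)))) := by
  have h : ∀ m : γ → List β, PTF m → PTF (fun c => (m c).map (look (tab c))) := fun m hm =>
    PTF.map (f := fun c x => look (tab c) x) hm (ptf_look (by fun_prop) (by fun_prop))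
  exact ptf_permB (h l hl) (h l' hl')

theorem ptf_testJ (hn : PTU n) (hk : PTU k) (hcap : PTU cap) (hg : PTF gb) (hh : PTF hb) :
    PTF (fun c => testJ (n c) (k c) (cap c) (gb c) (hb c)) := by
  unfold testJ
  exact ptf_histPerm (ptf_tag false (ptf_tuples hn hk hcap)) (ptf_tag true (ptf_tuples hn hk hcap))
    (ptf_tabJ hn hk hcap hg hh)

theorem ptf_movesC (hn : PTU n) (hg : PTF gb) (hh : PTF hb) :
    PTF₂ (fun c x => movesC (n c) (gb c) (hb c) x) := by
  unfold movesC
  refine PTF.map (l := fun q : γ × (Bool × ℕ) => (List.range (n q.1)).filter fun w =>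
      (bif q.2.1 then hb q.1 else gb q.1).getD (q.2.2 * n q.1 + w) false)
    (f := fun q w => [(q.2.1, w)]) ?_ (by pt_prop)
  refine PTF.filter (p := fun (q : γ × (Bool × ℕ)) (w : ℕ) =>
    (bif q.2.1 then hb q.1 else gb q.1).getD (q.2.2 * n q.1 + w) false)
    (PTF.range (PTU.comp hn PTF.fst)) ?_
  exact ptf_bit (γ := (γ × (Bool × ℕ)) × ℕ) (n := fun q => n q.1.1)
      (b := fun q => q.1.2.1) (gb := fun q => gb q.1.1) (hb := fun q => hb q.1.1)
      (v := fun q => q.1.2.2) (w := fun q => q.2) (PTU.comp hn (by fun_prop)) (by fun_prop)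
      (PTF.comp hg (by fun_prop)) (PTF.comp hh (by fun_prop)) (by fun_prop) (by fun_prop)

theorem ptf_nodesC (hn : PTU n) : PTF (fun c => nodesC (n c)) := by
  unfold nodesC
  exact PTF.append (ptf_tag false (PTF.range hn)) (ptf_tag true (PTF.range hn))

theorem ptf_testC (hn : PTU n) (hg : PTF gb) (hh : PTF hb) :
    PTF (fun c => testC (n c) (gb c) (hb c)) := by
  unfold testC
  refine ptf_histPerm (ptf_tag false (PTF.range hn)) (ptf_tag true (PTF.range hn)) ?_
  unfold tabC
  have h := ptf_nodesC hn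
  exact ptf_rtab h (moves := fun c x => movesC (n c) (gb c) (hb c) x)
    (ini := fun _ _ => true) (ptf_movesC hn hg hh) (PTF.const _)
    (PTU.mul (PTU.length h) (PTU.length h))

theorem ptf_testWL (hn : PTU n) (hk : PTU k) (hcap : PTU cap) (hg : PTF gb) (hh : PTF hb) :
    PTF (fun c => testWL (n c) (k c) (cap c) (gb c) (hb c)) := by
  unfold testWL
  exact PTF.cond (PTU.eq hk (PTU.const 1)).toPTF (ptf_testC hn hg hh)
    (ptf_testJ hn hk hcap hg hh)

theorem ptf_bitv {n : γ → ℕ} {gb : γ → List Bool} {v w : γ → ℕ} (hn : PTU n)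
    (hg : PTF gb) (hv : PTF v) (hw : PTF w) :
    PTF (fun c => (gb c).getD (v c * n c + w c) false) :=
  ptf_getD hg (PTF.natAdd (PTF.natMul hv (PTU.toPTF hn)) hw) (PTF.const false)

/-- quantification over two indices -/
theorem ptf_all2 {p : γ → ℕ → ℕ → Bool} (hn : PTU n)
    (hp : PTF (fun q : (γ × ℕ) × ℕ => p q.1.1 q.1.2 q.2)) :
    PTF (fun c => (List.range (n c)).all fun v => (List.range (n c)).all fun w => p c v w) := by
  refine PTF.all (p := fun c v => (List.range (n c)).all fun w => p c v w) (PTF.range hn) ?_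
  exact PTF.all (l := fun q : γ × ℕ => List.range (n q.1)) (p := fun q w => p q.1 q.2 w)
    (PTF.range (PTU.comp hn PTF.fst)) hp

theorem ptf_simpleB (hn : PTU n) (hg : PTF gb) : PTF (fun c => simpleB (n c) (gb c)) := by
  unfold simpleB
  have hn' : PTU (fun q : (γ × ℕ) × ℕ => n q.1.1) := PTU.comp hn (by fun_prop)
  have hg' : PTF (fun q : (γ × ℕ) × ℕ => gb q.1.1) := PTF.comp hg (by fun_prop)
  refine ptf_all2 (p := fun c v w => decide ((gb c).getD (v * n c + w) false =
    (gb c).getD (w * n c + v) false) && !((gb c).getD (v * n c + v) false)) hn ?_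
  refine PTF.and (PTF.beq ?_ ?_) (PTF.not ?_)
  · exact ptf_bitv hn' hg' (v := fun q : (γ × ℕ) × ℕ => q.1.2) (w := fun q => q.2)
      (by fun_prop) (by fun_prop)
  · exact ptf_bitv hn' hg' (v := fun q : (γ × ℕ) × ℕ => q.2) (w := fun q => q.1.2)
      (by fun_prop) (by fun_prop)
  · exact ptf_bitv hn' hg' (v := fun q : (γ × ℕ) × ℕ => q.1.2) (w := fun q => q.1.2)
      (by fun_prop) (by fun_prop)

theorem ptf_bitsNum {j : γ → ℕ} (hn : PTU n) (hj : PTF j) :
    PTF (fun c => bitsNum (n c) (j c)) := by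
  unfold bitsNum
  exact PTF.map (f := fun c i => (j c).testBit i) (PTF.range (PTU.mul hn hn))
    (PTF.natTestBit (PTF.comp hj PTF.fst) PTF.snd)

theorem ptf_identB (hn : PTU n) (hk : PTU k) (hcap : PTU cap) (hg : PTF gb) :
    PTF (fun c => identB (n c) (k c) (cap c) (gb c)) := by
  unfold identB
  have hn' : PTU (fun q : γ × ℕ => n q.1) := PTU.comp hn (by fun_prop)
  have hk' : PTU (fun q : γ × ℕ => k q.1) := PTU.comp hk (by fun_prop)
  have hc' : PTU (fun q : γ × ℕ => cap q.1) := PTU.comp hcap (by fun_prop)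
  have hg' : PTF (fun q : γ × ℕ => gb q.1) := PTF.comp hg (by fun_prop)
  have hb' : PTF (fun q : γ × ℕ => bitsNum (n q.1) q.2) := ptf_bitsNum hn' PTF.snd
  refine PTF.all (p := fun c j => !(simpleB (n c) (bitsNum (n c) j)) ||
    (!(testWL (n c) (k c) (cap c) (gb c) (bitsNum (n c) j)) ||
      testJ (n c) (n c + 1) (cap c) (gb c) (bitsNum (n c) j)))
    (PTF.range (PTF.natMinUn (PTF.natTwoPow (PTU.mul hn hn)) hcap)) ?_
  refine PTF.or (PTF.not (ptf_simpleB hn' hb')) (PTF.or (PTF.not ?_) ?_)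
  · exact ptf_testWL hn' hk' hc' hg' hb'
  · exact ptf_testJ hn' (PTU.succ hn') hc' hg' hb'

theorem ptf_dimB {K : γ → ℕ} (hn : PTU n) (hK : PTF K) (hcap : PTU cap) (hg : PTF gb) :
    PTF (fun c => dimB (n c) (K c) (cap c) (gb c)) := by
  have hr : PTU (fun c => min (K c) (n c + 1)) := PTF.natMinUn hK (PTU.succ hn)
  have hn' : PTU (fun q : γ × ℕ => n q.1) := PTU.comp hn (by fun_prop)
  have hc' : PTU (fun q : γ × ℕ => cap q.1) := PTU.comp hcap (by fun_prop)
  have hg' : PTF (fun q : γ × ℕ => gb q.1) := PTF.comp hg (by fun_prop)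
  have h := PTF.any (p := fun c k' => identB (n c) (min k' (n c) + 1) (cap c) (gb c))
    (PTF.range hr) (ptf_identB hn' (PTU.succ (PTF.natMinUn PTF.snd hn')) hc' hg')
  refine PTF.of_eq h (fun c => ?_)
  unfold dimB
  rw [Bool.eq_iff_iff, List.any_eq_true, List.any_eq_true]
  refine exists_congr fun k' => and_congr_right fun hk' => ?_
  have : k' ≤ n c := by
    have := List.mem_range.1 hk'
    omega
  rw [min_eq_left this]

theorem ptf_connB (hn : PTU n) (hcap : PTU cap) (hg : PTF gb) :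
    PTF (fun c => connB (n c) (cap c) (gb c)) := by
  unfold connB
  refine PTF.and (PTU.lt (PTU.const 0) hn).toPTF ?_
  refine PTF.all (p := fun c j => !(closedB (n c) (gb c) j) ||
    (((List.range (n c)).all fun v => !(j.testBit v)) ||
      ((List.range (n c)).all fun v => j.testBit v)))
    (PTF.range (PTF.natMinUn (PTF.natTwoPow hn) hcap)) ?_
  have hn' : PTU (fun q : γ × ℕ => n q.1) := PTU.comp hn (by fun_prop)
  have hg' : PTF (fun q : γ × ℕ => gb q.1) := PTF.comp hg (by fun_prop)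
  refine PTF.or (PTF.not ?_) (PTF.or ?_ ?_)
  · unfold closedB
    have hn2 : PTU (fun q : ((γ × ℕ) × ℕ) × ℕ => n q.1.1.1) := PTU.comp hn (by fun_prop)
    have hg2 : PTF (fun q : ((γ × ℕ) × ℕ) × ℕ => gb q.1.1.1) := PTF.comp hg (by fun_prop)
    refine ptf_all2 (γ := γ × ℕ) (p := fun q v w => !(q.2.testBit v &&
      ((gb q.1).getD (v * n q.1 + w) false || (gb q.1).getD (w * n q.1 + v) false)) ||
        q.2.testBit w) hn' ?_
    refine PTF.or (PTF.not (PTF.and ?_ (PTF.or ?_ ?_))) ?_
    · exact PTF.natTestBit (f := fun q : ((γ × ℕ) × ℕ) × ℕ => q.1.1.2) (g := fun q => q.1.2)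
        (by fun_prop) (by fun_prop)
    · exact ptf_bitv hn2 hg2 (v := fun q : ((γ × ℕ) × ℕ) × ℕ => q.1.2) (w := fun q => q.2)
        (by fun_prop) (by fun_prop)
    · exact ptf_bitv hn2 hg2 (v := fun q : ((γ × ℕ) × ℕ) × ℕ => q.2) (w := fun q => q.1.2)
        (by fun_prop) (by fun_prop)
    · exact PTF.natTestBit (f := fun q : ((γ × ℕ) × ℕ) × ℕ => q.1.1.2) (g := fun q => q.2)
        (by fun_prop) (by fun_prop)
  · exact PTF.all (l := fun q : γ × ℕ => List.range (n q.1)) (p := fun q v => !(q.2.testBit v))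
      (PTF.range hn') (PTF.not (PTF.natTestBit (by fun_prop) (by fun_prop)))
  · exact PTF.all (l := fun q : γ × ℕ => List.range (n q.1)) (p := fun q v => q.2.testBit v)
      (PTF.range hn') (PTF.natTestBit (by fun_prop) (by fun_prop))

theorem ptf_degB (hn : PTU n) (hg : PTF gb) : PTF (fun c => degB (n c) (gb c)) := by
  unfold degB
  have hn' : PTU (fun q : γ × ℕ => n q.1) := PTU.comp hn (by fun_prop)
  refine PTF.all (p := fun c v => decide ((List.range (n c)).countP
    (fun w => (gb c).getD (v * n c + w) false) ≤ 3)) (PTF.range hn) ?_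
  refine (PTU.le (n := fun _ => 3) ?_ (PTU.const 3)).toPTF
  refine PTU.countP (l := fun q : γ × ℕ => List.range (n q.1))
    (p := fun q w => (gb q.1).getD (q.2 * n q.1 + w) false) (PTF.range hn') ?_
  exact ptf_bitv (γ := (γ × ℕ) × ℕ) (n := fun q => n q.1.1) (gb := fun q => gb q.1.1)
    (v := fun q => q.1.2) (w := fun q => q.2) (PTU.comp hn (by fun_prop))
    (PTF.comp hg (by fun_prop)) (by fun_prop) (by fun_prop)

end

end Crest.Agent.R290.EX
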