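import Mathlib
import Crest.Agent.R290.EXPad
import Crest.Agent.R290.EXPt

/-!
# Row 290: EXPTIME membership of the three Weisfeiler-Leman languages

`inEXP_varDimEquivLang`, `inEXP_subcubicVarDimEquivLang`, `inEXP_wlDimLeLang`.
-/

set_option autoImplicit false
set_option linter.dupNamespace false

namespace Crest.Agent.R290.EX

open Crest.Agent.Lib.PT Crest.WLRefine

/-! ### parsing `natCode` -/

/-- value of a bit list -/
def val (x : List Bool) : ℕ := x.foldr (fun b n => Nat.bit b n) 0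

theorem val_bits (n : ℕ) : val n.bits = n := by
  unfold val
  induction n using Nat.binaryRec' with
  | zero => simp
  | bit b n h ih => rw [Nat.bits_append_bit n b h]; simp [ih]

/-- read one number -/
def rd (w : List Bool) : ℕ := val (fst w)

/-- what remains after one number -/
def rs (w : List Bool) : List Bool := (snd w).tail

theorem natCode_append (n : ℕ) (r : List Bool) :
    Crest.Enc.natCode n ++ r = pair n.bits (false :: r) := by
  unfold Crest.Enc.natCode pair
  rw [List.flatMap]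
  simp

theorem rd_natCode (n : ℕ) (r : List Bool) : rd (Crest.Enc.natCode n ++ r) = n := by
  rw [rd, natCode_append, core_fst_pair, val_bits]

theorem rs_natCode (n : ℕ) (r : List Bool) : rs (Crest.Enc.natCode n ++ r) = r := by
  rw [rs, natCode_append, core_snd_pair]
  rfl

section ptf

variable {γ : Type} [PTCode γ]

theorem ptf_rd {w : γ → List Bool} (hw : PTF w) : PTF (fun c => rd (w c)) := by
  unfold rd val
  exact PTF.ofBits (PTF.comp (PT.toPTF_list PT.fst) hw)

theorem ptf_rs {w : γ → List Bool} (hw : PTF w) : PTF (fun c => rs (w c)) := by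
  unfold rs
  exact PTF.tail (PTF.comp (PT.toPTF_list PT.snd) hw)

theorem ptf_natCode {n : γ → ℕ} (hn : PTF n) : PTF (fun c => Crest.Enc.natCode (n c)) := by
  unfold Crest.Enc.natCode
  refine PTF.append (PTF.flatten ?_) (PTF.const _)
  exact PTF.map (f := fun _ b => [true, b]) (PTF.natBits hn) (by pt_prop)

end ptf

/-! ### reading one graph -/

/-- the order of the graph coded at the head of `w` (capped) -/
def gn (w : List Bool) : ℕ := min (rd w) w.length

/-- its matrix -/
def gbits (w : List Bool) : List Bool := (rs w).take (gn w * gn w)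

/-- what remains -/
def grest (w : List Bool) : List Bool := (rs w).drop (gn w * gn w)

theorem gn_eq {n : ℕ} {b r : List Bool} (hb : b.length = n * n) :
    gn (Crest.Enc.natCode n ++ (b ++ r)) = n := by
  unfold gn
  rw [rd_natCode]
  apply min_eq_left
  simp only [List.length_append, hb]
  nlinarith [Nat.zero_le n]

theorem gbits_eq {n : ℕ} {b r : List Bool} (hb : b.length = n * n) :
    gbits (Crest.Enc.natCode n ++ (b ++ r)) = b := by
  unfold gbits
  rw [gn_eq hb, rs_natCode, ← hb, List.take_left']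
  rfl

theorem grest_eq {n : ℕ} {b r : List Bool} (hb : b.length = n * n) :
    grest (Crest.Enc.natCode n ++ (b ++ r)) = r := by
  unfold grest
  rw [gn_eq hb, rs_natCode, ← hb, List.drop_left']
  rfl

section ptf

variable {γ : Type} [PTCode γ]

theorem ptu_gn {w : γ → List Bool} (hw : PTF w) : PTU (fun c => gn (w c)) :=
  PTF.natMinUn (ptf_rd hw) (PTU.length hw)

theorem ptf_gbits {w : γ → List Bool} (hw : PTF w) : PTF (fun c => gbits (w c)) :=
  PTF.take (PTU.mul (ptu_gn hw) (ptu_gn hw)) (ptf_rs hw)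

theorem ptf_grest {w : γ → List Bool} (hw : PTF w) : PTF (fun c => grest (w c)) :=
  PTF.drop (PTU.mul (ptu_gn hw) (ptu_gn hw)) (ptf_rs hw)

end ptf

/-! ### two graphs and a dimension -/

/-- well-formedness of `k, G, H` -/
def Wf2 (w : List Bool) : Prop :=
  w = Crest.Enc.natCode (rd w) ++ (Crest.Enc.natCode (gn (rs w)) ++ (gbits (rs w) ++
      (Crest.Enc.natCode (gn (grest (rs w))) ++ (gbits (grest (rs w)) ++ [])))) ∧
    (gbits (rs w)).length = gn (rs w) * gn (rs w) ∧
    (gbits (grest (rs w))).length = gn (grest (rs w)) * gn (grest (rs w))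

theorem ptp_wf2 : PTPred Wf2 := by
  have h0 : PTF (fun w : List Bool => w) := PTF.id
  have h1 := ptf_rs h0
  have h2 := ptf_grest h1
  have e1 : PTPred (fun w : List Bool => w = Crest.Enc.natCode (rd w) ++
      (Crest.Enc.natCode (gn (rs w)) ++ (gbits (rs w) ++
      (Crest.Enc.natCode (gn (grest (rs w))) ++ (gbits (grest (rs w)) ++ []))))) := by
    refine PTPred.eq h0 ?_
    exact PTF.append (ptf_natCode (ptf_rd h0)) (PTF.append (ptf_natCode (PTU.toPTF (ptu_gn h1)))
      (PTF.append (ptf_gbits h1) (PTF.append (ptf_natCode (PTU.toPTF (ptu_gn h2)))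
        (PTF.append (ptf_gbits h2) (PTF.const _)))))
  exact e1.and ((PTU.eq (PTU.length (ptf_gbits h1)) (PTU.mul (ptu_gn h1) (ptu_gn h1))).and
    (PTU.eq (PTU.length (ptf_gbits h2)) (PTU.mul (ptu_gn h2) (ptu_gn h2))))

theorem code2_eq {k n m : ℕ} (G : Fin n → Fin n → Bool) (H : Fin m → Fin m → Bool) :
    Crest.Enc.natCode k ++ adjMatrixCode G ++ adjMatrixCode H =
      Crest.Enc.natCode k ++ (Crest.Enc.natCode n ++ (bitsOf G ++
        (Crest.Enc.natCode m ++ (bitsOf H ++ [])))) := by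
  rw [adjMatrixCode_eq, adjMatrixCode_eq]
  simp only [List.append_assoc, List.append_nil]

/-- data of a well-formed word -/
theorem parse2 {k n m : ℕ} (G : Fin n → Fin n → Bool) (H : Fin m → Fin m → Bool) (w : List Bool)
    (hw : w = Crest.Enc.natCode k ++ adjMatrixCode G ++ adjMatrixCode H) :
    rd w = k ∧ gn (rs w) = n ∧ gbits (rs w) = bitsOf G ∧ gn (grest (rs w)) = m ∧
      gbits (grest (rs w)) = bitsOf H ∧ Wf2 w := by
  rw [code2_eq] at hw
  have h1 : rd w = k := by rw [hw, rd_natCode]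
  have h2 : rs w = Crest.Enc.natCode n ++ (bitsOf G ++
        (Crest.Enc.natCode m ++ (bitsOf H ++ []))) := by rw [hw, rs_natCode]
  have h3 : gn (rs w) = n := by rw [h2, gn_eq (length_bitsOf G)]
  have h4 : gbits (rs w) = bitsOf G := by rw [h2, gbits_eq (length_bitsOf G)]
  have h5 : grest (rs w) = Crest.Enc.natCode m ++ (bitsOf H ++ []) := by
    rw [h2, grest_eq (length_bitsOf G)]
  have h6 : gn (grest (rs w)) = m := by rw [h5, gn_eq (length_bitsOf H)]
  have h7 : gbits (grest (rs w)) = bitsOf H := by rw [h5, gbits_eq (length_bitsOf H)]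
  refine ⟨h1, h3, h4, h6, h7, ?_, ?_, ?_⟩
  · rw [h1, h3, h4, h6, h7]; exact hw
  · rw [h3, h4, length_bitsOf]
  · rw [h6, h7, length_bitsOf]

theorem unparse2 {w : List Bool} (hw : Wf2 w) :
    w = Crest.Enc.natCode (rd w) ++ adjMatrixCode (adjOf (gn (rs w)) (gbits (rs w))) ++
      adjMatrixCode (adjOf (gn (grest (rs w))) (gbits (grest (rs w)))) := by
  rw [code2_eq, bitsOf_adjOf hw.2.1, bitsOf_adjOf hw.2.2]
  exact hw.1

/-- the cap is large enough -/
theorem cap_ok {n l : ℕ} (h : n * n ≤ l) : n ^ (n + 1) ≤ 2 ^ (2 * l) ∧ 2 ^ (n * n) ≤ 2 ^ (2 * l) ∧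
    2 ^ n ≤ 2 ^ (2 * l) := by
  have h0 : n ≤ n * n := by nlinarith [Nat.zero_le n]
  refine ⟨?_, Nat.pow_le_pow_right (by norm_num) (by omega),
    Nat.pow_le_pow_right (by norm_num) (by omega)⟩
  calc n ^ (n + 1) ≤ (2 ^ n) ^ (n + 1) := Nat.pow_le_pow_left Nat.lt_two_pow_self.le _
    _ = 2 ^ (n * n + n) := by rw [← pow_mul, Nat.mul_succ]
    _ ≤ 2 ^ (2 * l) := Nat.pow_le_pow_right (by norm_num) (by omega)

theorem length_le_of_wf2 {w : List Bool} (hw : Wf2 w) : gn (rs w) * gn (rs w) ≤ w.length := by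
  have h := congrArg List.length hw.1
  simp only [List.length_append] at h
  rw [hw.2.1] at h
  omega

theorem pow_cap_ok {n k l : ℕ} (hn : n * n ≤ l) (hk : k ≤ n + 1) (hk1 : 1 ≤ k) :
    n ^ k ≤ 2 ^ (2 * l) := by
  rcases Nat.eq_zero_or_pos n with h0 | h0
  · subst h0
    rw [zero_pow (by omega)]
    exact Nat.zero_le _
  · exact (Nat.pow_le_pow_right h0 hk).trans (cap_ok hn).1

/-- the common test of the two equivalence languages -/
def V2 (w : List Bool) (cap : ℕ) : Prop :=
  Wf2 w ∧ 2 ≤ rd w ∧ simpleB (gn (rs w)) (gbits (rs w)) = true ∧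
    simpleB (gn (grest (rs w))) (gbits (grest (rs w))) = true ∧
    gn (rs w) = gn (grest (rs w)) ∧
    testJ (gn (rs w)) (min (rd w) (gn (rs w) + 1)) cap (gbits (rs w))
      (gbits (grest (rs w))) = true

theorem ptp_V2 : PTPred (fun q : List Bool × Un => V2 q.1 q.2.val) := by
  have h0 : PTF (fun q : List Bool × Un => q.1) := PTF.fst
  have h1 := ptf_rs h0
  have h2 := ptf_grest h1
  have hcap : PTU (fun q : List Bool × Un => q.2.val) := PTU.val PTF.snd
  have hn := ptu_gn h1
  have hm := ptu_gn h2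
  have hg := ptf_gbits h1
  have hh := ptf_gbits h2
  unfold V2
  refine (PTPred.comp ptp_wf2 h0).and (PTPred.and ?_ (PTPred.and ?_ (PTPred.and ?_
    (PTPred.and ?_ ?_))))
  · exact PTPred.natLe (PTF.const 2) (ptf_rd h0)
  · exact PTF.toPTPred (ptf_simpleB hn hg)
  · exact PTF.toPTPred (ptf_simpleB hm hh)
  · exact PTU.eq hn hm
  · exact PTF.toPTPred (ptf_testJ hn (PTF.natMinUn (ptf_rd h0) (PTU.succ hn)) hcap hg hh)

theorem V2_iff {w : List Bool} (hw : Wf2 w) :
    V2 w (2 ^ (2 * w.length)) ↔ 2 ≤ rd w ∧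
      IsSimple (adjOf (gn (rs w)) (gbits (rs w))) ∧
      IsSimple (adjOf (gn (grest (rs w))) (gbits (grest (rs w)))) ∧
      JEquiv (rd w) (adjOf (gn (rs w)) (gbits (rs w)))
        (adjOf (gn (grest (rs w))) (gbits (grest (rs w)))) := by
  have hlen := length_le_of_wf2 hw
  unfold V2
  rw [simpleB_iff, simpleB_iff]
  generalize gn (rs w) = n at *
  generalize gn (grest (rs w)) = m at *
  generalize gbits (rs w) = gb at *
  generalize gbits (grest (rs w)) = hb at *
  constructor
  · rintro ⟨-, h1, h2, h3, h4, h5⟩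
    subst h4
    refine ⟨h1, h2, h3, ?_⟩
    rw [jequiv_cap]
    exact (testJ_iff (pow_cap_ok hlen (min_le_right _ _) (by omega)) _ _).1 h5
  · rintro ⟨h1, h2, h3, h5⟩
    have h4 : n = m := jequiv_order (by omega) h5
    subst h4
    refine ⟨hw, h1, h2, h3, rfl, ?_⟩
    rw [jequiv_cap] at h5
    exact (testJ_iff (pow_cap_ok hlen (min_le_right _ _) (by omega)) _ _).2 h5

theorem mem_varDim_iff (w : List Bool) :
    w ∈ varDimEquivLang ↔ V2 w (2 ^ (2 * w.length)) := by
  constructor
  · rintro ⟨k, n, m, G, H, hk, hG, hH, hJ, hw⟩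
    obtain ⟨h1, h2, h3, h4, h5, h6⟩ := parse2 G H w hw
    rw [V2_iff h6]
    subst h2 h4
    rw [h1, h3, h5, adjOf_bitsOf, adjOf_bitsOf]
    exact ⟨hk, hG, hH, hJ⟩
  · intro h
    have hw := h.1
    rw [V2_iff hw] at h
    exact ⟨rd w, _, _, _, _, h.1, h.2.1, h.2.2.1, h.2.2.2, unparse2 hw⟩

theorem eval_two_mul_X (n : ℕ) : (2 * Polynomial.X : Polynomial ℕ).eval n = 2 * n := by simp

/-- S0436, first membership. -/
theorem inEXP_varDimEquivLang : Crest.ExpTime.InEXP varDimEquivLang :=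
  inEXP_of_pad ptp_V2 (2 * Polynomial.X) (fun x => by
    rw [eval_two_mul_X]; exact mem_varDim_iff x)

/-! ### the subcubic restriction -/

/-- the test of the subcubic language -/
def V3 (w : List Bool) (cap : ℕ) : Prop :=
  V2 w cap ∧ connB (gn (rs w)) cap (gbits (rs w)) = true ∧
    connB (gn (grest (rs w))) cap (gbits (grest (rs w))) = true ∧
    degB (gn (rs w)) (gbits (rs w)) = true ∧
    degB (gn (grest (rs w))) (gbits (grest (rs w))) = true

theorem ptp_V3 : PTPred (fun q : List Bool × Un => V3 q.1 q.2.val) := by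
  have h0 : PTF (fun q : List Bool × Un => q.1) := PTF.fst
  have h1 := ptf_rs h0
  have h2 := ptf_grest h1
  have hcap : PTU (fun q : List Bool × Un => q.2.val) := PTU.val PTF.snd
  have hn := ptu_gn h1
  have hm := ptu_gn h2
  have hg := ptf_gbits h1
  have hh := ptf_gbits h2
  unfold V3
  exact ptp_V2.and ((PTF.toPTPred (ptf_connB hn hcap hg)).and
    ((PTF.toPTPred (ptf_connB hm hcap hh)).and ((PTF.toPTPred (ptf_degB hn hg)).and
      (PTF.toPTPred (ptf_degB hm hh)))))

theorem V3_iff {w : List Bool} (hw : Wf2 w) :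
    V3 w (2 ^ (2 * w.length)) ↔ 2 ≤ rd w ∧
      SimpleConnSubcubic (adjOf (gn (rs w)) (gbits (rs w))) ∧
      SimpleConnSubcubic (adjOf (gn (grest (rs w))) (gbits (grest (rs w)))) ∧
      JEquiv (rd w) (adjOf (gn (rs w)) (gbits (rs w)))
        (adjOf (gn (grest (rs w))) (gbits (grest (rs w)))) := by
  have hlen := length_le_of_wf2 hw
  unfold V3
  rw [V2_iff hw]
  unfold SimpleConnSubcubic
  rw [degB_iff, degB_iff]
  generalize gn (rs w) = n at *
  generalize gn (grest (rs w)) = m at *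
  generalize gbits (rs w) = gb at *
  generalize gbits (grest (rs w)) = hb at *
  constructor
  · rintro ⟨⟨h1, h2, h3, h4⟩, h5, h6, h7, h8⟩
    have h9 : n = m := jequiv_order (by omega) h4
    subst h9
    exact ⟨h1, ⟨h2, (connB_iff (cap_ok hlen).2.2 _).1 h5, h7⟩,
      ⟨h3, (connB_iff (cap_ok hlen).2.2 _).1 h6, h8⟩, h4⟩
  · rintro ⟨h1, ⟨h2, h5, h7⟩, ⟨h3, h6, h8⟩, h4⟩
    have h9 : n = m := jequiv_order (by omega) h4
    subst h9
    exact ⟨⟨h1, h2, h3, h4⟩, (connB_iff (cap_ok hlen).2.2 _).2 h5,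
      (connB_iff (cap_ok hlen).2.2 _).2 h6, h7, h8⟩

theorem mem_subcubic_iff (w : List Bool) :
    w ∈ subcubicVarDimEquivLang ↔ V3 w (2 ^ (2 * w.length)) := by
  constructor
  · rintro ⟨k, n, G, H, hk, hn, hG, hH, hJ, hw⟩
    obtain ⟨h1, h2, h3, h4, h5, h6⟩ := parse2 G H w hw
    rw [V3_iff h6]
    subst h2
    rw [h1, h3, h5, adjOf_bitsOf]
    have e : SimpleConnSubcubic (adjOf (gn (grest (rs w))) (bitsOf H)) ∧
        JEquiv k G (adjOf (gn (grest (rs w))) (bitsOf H)) := by
      rw [h4, adjOf_bitsOf]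
      exact ⟨hH, hJ⟩
    exact ⟨hk, hG, e.1, e.2⟩
  · intro h
    have hw := h.1.1
    have hw' := unparse2 hw
    rw [V3_iff hw] at h
    obtain ⟨h1, h2, h3, h4⟩ := h
    have h9 : gn (rs w) = gn (grest (rs w)) := jequiv_order (by omega) h4
    generalize gn (rs w) = n at *
    generalize gn (grest (rs w)) = m at *
    subst h9
    obtain ⟨v⟩ := h2.2.1.nonempty
    exact ⟨rd w, n, _, _, h1, v.pos, h2, h3, h4, hw'⟩

/-- S0436, second membership. -/
theorem inEXP_subcubicVarDimEquivLang : Crest.ExpTime.InEXP subcubicVarDimEquivLang :=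
  inEXP_of_pad ptp_V3 (2 * Polynomial.X) (fun x => by
    rw [eval_two_mul_X]; exact mem_subcubic_iff x)

/-! ### identification -/

/-- well-formedness of `k, G` -/
def Wf1 (w : List Bool) : Prop :=
  w = Crest.Enc.natCode (rd w) ++ (Crest.Enc.natCode (gn (rs w)) ++ (gbits (rs w) ++ [])) ∧
    (gbits (rs w)).length = gn (rs w) * gn (rs w)

/-- the test of the identification language -/
def V1 (w : List Bool) (cap : ℕ) : Prop :=
  Wf1 w ∧ 1 ≤ rd w ∧ 1 ≤ gn (rs w) ∧ simpleB (gn (rs w)) (gbits (rs w)) = true ∧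
    dimB (gn (rs w)) (rd w) cap (gbits (rs w)) = true

theorem ptp_V1 : PTPred (fun q : List Bool × Un => V1 q.1 q.2.val) := by
  have h0 : PTF (fun q : List Bool × Un => q.1) := PTF.fst
  have h1 := ptf_rs h0
  have hcap : PTU (fun q : List Bool × Un => q.2.val) := PTU.val PTF.snd
  have hn := ptu_gn h1
  have hg := ptf_gbits h1
  unfold V1 Wf1
  refine PTPred.and (PTPred.and (PTPred.eq h0 ?_) ?_) (PTPred.and ?_ (PTPred.and ?_
    (PTPred.and ?_ ?_)))
  · exact PTF.append (ptf_natCode (ptf_rd h0)) (PTF.append (ptf_natCode (PTU.toPTF hn))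
      (PTF.append hg (PTF.const _)))
  · exact PTU.eq (PTU.length hg) (PTU.mul hn hn)
  · exact PTPred.natLe (PTF.const 1) (ptf_rd h0)
  · exact PTU.le (PTU.const 1) hn
  · exact PTF.toPTPred (ptf_simpleB hn hg)
  · exact PTF.toPTPred (ptf_dimB hn (ptf_rd h0) hcap hg)

theorem mem_wlDim_iff (w : List Bool) :
    w ∈ wlDimLeLang ↔ V1 w (2 ^ (2 * w.length)) := by
  have key : Wf1 w → 1 ≤ gn (rs w) → (dimB (gn (rs w)) (rd w) (2 ^ (2 * w.length))
      (gbits (rs w)) = true ↔ ∃ k', 1 ≤ k' ∧ k' ≤ rd w ∧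
        Identifies k' (adjOf (gn (rs w)) (gbits (rs w)))) := by
    intro hw hn
    have hlen : gn (rs w) * gn (rs w) ≤ w.length := by
      have h := congrArg List.length hw.1
      simp only [List.length_append] at h
      rw [hw.2] at h
      omega
    exact dimB_iff (cap_ok hlen).1 (cap_ok hlen).2.1 hn _
  constructor
  · rintro ⟨k, n, G, hk, hn, hG, hI, hw⟩
    have hw' : w = Crest.Enc.natCode k ++ (Crest.Enc.natCode n ++ (bitsOf G ++ [])) := by
      rw [hw, adjMatrixCode_eq, List.append_nil]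
    have h1 : rd w = k := by rw [hw', rd_natCode]
    have h2 : rs w = Crest.Enc.natCode n ++ (bitsOf G ++ []) := by rw [hw', rs_natCode]
    have h3 : gn (rs w) = n := by rw [h2, gn_eq (length_bitsOf G)]
    have h4 : gbits (rs w) = bitsOf G := by rw [h2, gbits_eq (length_bitsOf G)]
    have hwf : Wf1 w := ⟨by rw [h1, h3, h4]; exact hw', by rw [h3, h4, length_bitsOf]⟩
    have hn' : 1 ≤ gn (rs w) := by omega
    refine ⟨hwf, by omega, hn', ?_, ?_⟩
    · rw [simpleB_iff]
      subst h3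
      rw [h4, adjOf_bitsOf]
      exact hG
    · rw [key hwf hn']
      subst h3
      rw [h1, h4, adjOf_bitsOf]
      exact hI
  · rintro ⟨hwf, h1, h2, h3, h4⟩
    rw [key hwf h2] at h4
    refine ⟨rd w, gn (rs w), adjOf (gn (rs w)) (gbits (rs w)), h1, h2,
      (simpleB_iff _ _).1 h3, h4, ?_⟩
    rw [adjMatrixCode_eq, bitsOf_adjOf hwf.2]
    have := hwf.1
    rwa [List.append_nil] at this

/-- S0437, membership. -/
theorem inEXP_wlDimLeLang : Crest.ExpTime.InEXP wlDimLeLang :=
  inEXP_of_pad ptp_V1 (2 * Polynomial.X) (fun x => by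
    rw [eval_two_mul_X]; exact mem_wlDim_iff x)

end Crest.Agent.R290.EX
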