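import Crest.Agent.R290.WL

/-!
# Row 290: unary predicates preserved by pebble systems, and those used by the encoding `encA`.
-/

set_option autoImplicit false

namespace Crest.Agent.R290

open Finset

section general

variable {V W : Type} {A : V → V → Bool} {B : W → W → Bool} {K : ℕ}
  {R : Finset (V × W) → Prop}

/-- A unary predicate preserved by all positions of a pebble system. -/
def Pres1 (R : Finset (V × W) → Prop) (P : V → Prop) (Q : W → Prop) : Prop :=
  ∀ v w, R {(v, w)} → (P v ↔ Q w)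

theorem Pres1.not {P : V → Prop} {Q : W → Prop} (h : Pres1 R P Q) :
    Pres1 R (fun v => ¬ P v) (fun w => ¬ Q w) := fun v w hR => not_congr (h v w hR)

theorem Pres1.and {P P' : V → Prop} {Q Q' : W → Prop} (h : Pres1 R P Q) (h' : Pres1 R P' Q') :
    Pres1 R (fun v => P v ∧ P' v) (fun w => Q w ∧ Q' w) :=
  fun v w hR => and_congr (h v w hR) (h' v w hR)

/-- The response from a position with one pebble. -/
theorem resp1 (hR : WL.PSys A B K R) (hK : 2 ≤ K) {v : V} {w : W} (h : R {(v, w)}) :
    ∃ f : V ≃ W, ∀ z, R {(z, f z)} ∧ A v z = B w (f z) ∧ (z = v ↔ f z = w) := by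
  obtain ⟨f, hf⟩ := hR.ext' h (by rw [Finset.card_singleton]; omega)
  refine ⟨f, fun z => ⟨hf z _ fun x hx => Or.inl (by simpa using hx), ?_, ?_⟩⟩
  · classical
    have h2 : R {(v, w), (z, f z)} := hf z _ fun x hx => by
      rcases Finset.mem_insert.1 hx with e | e
      · exact Or.inr (by simp [e])
      · exact Or.inl (by simpa using e)
    exact hR.adj h2 (v, w) (by simp) (z, f z) (by simp)
  · classical
    have h2 : R {(v, w), (z, f z)} := hf z _ fun x hx => by
      rcases Finset.mem_insert.1 hx with e | e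
      · exact Or.inr (by simp [e])
      · exact Or.inl (by simpa using e)
    exact hR.eqv h2 (z, f z) (by simp) (v, w) (by simp)

/-- Counting neighbours with a preserved property. -/
theorem Pres1.card_nbr (hR : WL.PSys A B K R) (hK : 2 ≤ K) {P : V → Prop} {Q : W → Prop}
    (h : Pres1 R P Q) {v : V} {w : W} (hvw : R {(v, w)}) :
    Nat.card {z // A v z = true ∧ P z} = Nat.card {z // B w z = true ∧ Q z} := by
  obtain ⟨f, hf⟩ := resp1 hR hK hvw
  refine Nat.card_congr (f.subtypeEquiv fun z => ?_)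
  rw [(hf z).2.1, h z (f z) (hf z).1]

theorem Pres1.ex_nbr (hR : WL.PSys A B K R) (hK : 2 ≤ K) {P : V → Prop} {Q : W → Prop}
    (h : Pres1 R P Q) :
    Pres1 R (fun v => ∃ z, A v z = true ∧ P z) (fun w => ∃ z, B w z = true ∧ Q z) := by
  intro v w hvw
  obtain ⟨f, hf⟩ := resp1 hR hK hvw
  beta_reduce
  rw [← f.exists_congr_right]
  exact exists_congr fun z => by rw [(hf z).2.1, h z (f z) (hf z).1]

theorem pres1_true : Pres1 R (fun _ => True) (fun _ => True) := fun _ _ _ => Iff.rfl

end general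

section preds

variable {V : Type} (A : V → V → Bool)

/-- adjacent to all other vertices -/
def isU (v : V) : Prop := ∀ z, z ≠ v → A v z = true
/-- degree two -/
def isM (v : V) : Prop := Nat.card {z // A v z = true ∧ True} = 2
/-- first anchor -/
def isP0 (v : V) : Prop := (∃ z, A v z = true ∧ isM A z) ∧ ¬ isU A v
/-- centre of the anchors -/
def isA (v : V) : Prop :=
  ((∃ z, A v z = true ∧ isP0 A z) ∧ ¬ isU A v) ∧ ¬ isM A v ∧
    ¬ Nat.card {z // A v z = true ∧ True} = 4
/-- anchors -/
def isAnc (v : V) : Prop := (∃ z, A v z = true ∧ isA A z) ∧ ¬ isU A v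
/-- `j`-th anchor -/
def isP : ℕ → V → Prop
  | 0 => isP0 A
  | 1 => fun v => isAnc A v ∧ ∃ z, A v z = true ∧ isP0 A z
  | j + 2 => fun v => isAnc A v ∧ (∃ z, A v z = true ∧ isP (j + 1) z) ∧ ¬ isP j v
/-- vertex of the `i`-th class -/
def isC (i : ℕ) (v : V) : Prop :=
  ¬ isAnc A v ∧ ¬ isU A v ∧ ¬ isA A v ∧ ∃ z, A v z = true ∧ isP A (i + 3) z

end preds

section pres

variable {V W : Type} {A : V → V → Bool} {B : W → W → Bool} {K : ℕ}
  {R : Finset (V × W) → Prop} (hR : WL.PSys A B K R) (hK : 2 ≤ K)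

include hR hK

theorem pres_isU : Pres1 R (isU A) (isU B) := by
  intro v w hvw
  obtain ⟨f, hf⟩ := resp1 hR hK hvw
  unfold isU
  rw [← f.forall_congr_right]
  exact forall_congr' fun z => by rw [(hf z).2.1, ne_eq, ne_eq, (hf z).2.2]

theorem pres_deg (t : ℕ) : Pres1 R (fun v => Nat.card {z // A v z = true ∧ True} = t)
    (fun w => Nat.card {z // B w z = true ∧ True} = t) := by
  intro v w hvw
  beta_reduce
  rw [Pres1.card_nbr hR hK pres1_true hvw]

theorem pres_isM : Pres1 R (isM A) (isM B) := pres_deg hR hK 2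

theorem pres_isP0 : Pres1 R (isP0 A) (isP0 B) :=
  ((pres_isM hR hK).ex_nbr hR hK).and (pres_isU hR hK).not

theorem pres_isA : Pres1 R (isA A) (isA B) :=
  (((pres_isP0 hR hK).ex_nbr hR hK).and (pres_isU hR hK).not).and
    ((pres_isM hR hK).not.and (pres_deg hR hK 4).not)

theorem pres_isAnc : Pres1 R (isAnc A) (isAnc B) :=
  ((pres_isA hR hK).ex_nbr hR hK).and (pres_isU hR hK).not

theorem pres_isP : ∀ j, Pres1 R (isP A j) (isP B j)
  | 0 => pres_isP0 hR hK
  | 1 => (pres_isAnc hR hK).and ((pres_isP0 hR hK).ex_nbr hR hK)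
  | j + 2 => (pres_isAnc hR hK).and (((pres_isP (j + 1)).ex_nbr hR hK).and (pres_isP j).not)

theorem pres_isC (i : ℕ) : Pres1 R (isC A i) (isC B i) :=
  (pres_isAnc hR hK).not.and ((pres_isU hR hK).not.and ((pres_isA hR hK).not.and
    ((pres_isP hR hK (i + 3)).ex_nbr hR hK)))

end pres

end Crest.Agent.R290
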