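import Crest.Agent.R290.AG
import Crest.Agent.R290.EncADef

/-!
# Row 290: the encoding `encA` (anchors, diameter at most two).

Classes: objects `obj u` (parity constrained, variables `ports u`), variables `var x`, and special
one-vertex classes `U` (universal), `M` (marker), `A` (centre of the anchors), `p j` (`j < r`, anchors).
-/

set_option autoImplicit false

namespace Crest.Agent.R290

open Finset

/-- Classes of `encA`. -/
inductive ACl (O X : Type) (r : ℕ)
  | obj (u : O)
  | var (x : X)
  | U
  | M
  | A
  | p (j : Fin r)
  deriving DecidableEq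

namespace ACl

variable {O X : Type} {r : ℕ}

/-- The class of an object or a variable. -/
def base : O ⊕ X → ACl O X r
  | Sum.inl u => obj u
  | Sum.inr x => var x

/-- Special classes have one vertex. -/
def Special : ACl O X r → Prop
  | obj _ => False
  | var _ => False
  | _ => True

variable [DecidableEq X] (ports : O → Finset X) (ix : O ⊕ X → ℕ)

/-- Directed version of the class adjacency. -/
def rel : ACl O X r → ACl O X r → Bool
  | U, U => false
  | U, _ => true
  | M, p j => decide ((j : ℕ) = 0)
  | A, p _ => true
  | p j, p k => decide ((k : ℕ) = j + 1)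
  | p j, obj u => decide ((j : ℕ) = 2 ∨ (j : ℕ) = ix (Sum.inl u) + 3)
  | p j, var x => decide ((j : ℕ) = 2 ∨ (j : ℕ) = ix (Sum.inr x) + 3)
  | obj u, var x => decide (x ∈ ports u)
  | _, _ => false

/-- Class adjacency. -/
def adj (c c' : ACl O X r) : Bool := rel ports ix c c' || rel ports ix c' c

theorem adj_symm (c c' : ACl O X r) : adj ports ix c c' = adj ports ix c' c := Bool.or_comm _ _

theorem adj_self (c : ACl O X r) : adj ports ix c c = false := by
  cases c <;> simp [adj, rel]

end ACl

open ACl

section

variable {O X : Type} [DecidableEq X] (ports : O → Finset X) (ix : O ⊕ X → ℕ)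
  (r : ℕ)

/-- The template of `encA`. -/
def encT : Template (ACl O X r) X where
  vars c := match c with
    | obj u => ports u
    | var x => {x}
    | _ => ∅
  con c := match c with
    | obj _ => True
    | _ => False
  adj := ACl.adj ports ix
  adj_symm := ACl.adj_symm ports ix

variable {ports ix r}

theorem encT_vars_special {c : ACl O X r} (h : c.Special) : (encT ports ix r).vars c = ∅ := by
  cases c <;> first | rfl | exact absurd h id

theorem encT_con_special {c : ACl O X r} (h : c.Special) : ¬ (encT ports ix r).con c := by
  cases c <;> first | exact id | exact absurd h id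

variable {b : ACl O X r → ZMod 2}

/-- The vertex of a special class. -/
def sp (b : ACl O X r → ZMod 2) (c : ACl O X r) (h : c.Special) : (encT ports ix r).Vert b :=
  ⟨(c, 0), fun _ _ => rfl, fun h' => absurd h' (encT_con_special h)⟩

theorem sp_cl {c : ACl O X r} (h : c.Special) :
    (sp (ports := ports) (ix := ix) b c h).cl = c := rfl

theorem eq_sp {v : (encT ports ix r).Vert b} {c : ACl O X r} (h : c.Special) (hv : v.cl = c) :
    v = sp b c h := by
  apply Template.Vert.ext hv
  intro x hx
  rw [hv, encT_vars_special h] at hx
  exact absurd hx (Finset.notMem_empty x)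

theorem adj_left {v w : (encT ports ix r).Vert b} (h : v.cl.Special) :
    (encT ports ix r).agAdj b v w = ACl.adj ports ix v.cl w.cl := by
  rw [Bool.eq_iff_iff, Template.agAdj_iff]
  constructor
  · exact fun h => h.1
  · refine fun h' => ⟨h', fun x hx => ?_⟩
    rw [encT_vars_special h] at hx
    exact absurd hx (Finset.notMem_empty x)

theorem adj_right {v w : (encT ports ix r).Vert b} (h : w.cl.Special) :
    (encT ports ix r).agAdj b v w = ACl.adj ports ix v.cl w.cl := by
  rw [Template.agAdj_symm, adj_left h, ACl.adj_symm]

theorem adj_obj_var {v w : (encT ports ix r).Vert b} {u : O} {x : X} (hv : v.cl = obj u)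
    (hw : w.cl = var x) :
    (encT ports ix r).agAdj b v w = true ↔ x ∈ ports u ∧ v.as x = w.as x := by
  rw [Template.agAdj_iff, hv, hw]
  have h1 : (encT ports ix r).adj (obj u) (var x) = true ↔ x ∈ ports u := by
    change ACl.adj ports ix (obj u) (var x) = true ↔ _
    simp [ACl.adj, ACl.rel]
  rw [h1]
  refine and_congr_right fun hx => ?_
  constructor
  · intro h
    exact h x hx (Finset.mem_singleton_self x)
  · intro h y _ hy
    have : y = x := Finset.mem_singleton.1 hy
    rw [this]; exact h

theorem var_vertex (x : X) (a : ZMod 2) : ∃ v : (encT ports ix r).Vert b, v.cl = var x ∧ v.as x = a := by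
  refine ⟨⟨(var x, fun y => if y = x then a else 0), fun y hy => ?_, fun h => absurd h id⟩, rfl, ?_⟩
  · exact if_neg fun h => hy (Finset.mem_singleton.2 h)
  · exact if_pos rfl

theorem obj_vertex (hp : ∀ u, (ports u).Nonempty) (u : O) :
    ∃ v : (encT ports ix r).Vert b, v.cl = obj u := by
  obtain ⟨x, hx⟩ := hp u
  refine ⟨⟨(obj u, fun y => if y = x then b (obj u) else 0), fun y hy => ?_, fun _ => ?_⟩, rfl⟩
  · exact if_neg fun h => hy (by rw [h]; exact hx)
  · change ∑ y ∈ ports u, (if y = x then b (obj u) else 0) = b (obj u)
    rw [Finset.sum_ite_eq' (ports u) x, if_pos hx]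

end

end Crest.Agent.R290
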