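import Crest.Agent.R290.EncA

/-!
# Row 290: the classes of `encA` are preserved by every pebble system with at least two pebbles.
-/

set_option autoImplicit false

namespace Crest.Agent.R290

open Finset ACl

variable {O X : Type} [DecidableEq X] {ports : O → Finset X} {ix : O ⊕ X → ℕ} {r : ℕ}

/-- Conditions on the index and the number of anchors. -/
structure GoodIx (ports : O → Finset X) (ix : O ⊕ X → ℕ) (r : ℕ) : Prop where
  five : 5 ≤ r
  inj : Function.Injective ix
  lt : ∀ c, ix c + 3 < r
  ne : ∀ u, (ports u).Nonempty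

variable (H : GoodIx ports ix r) {b : ACl O X r → ZMod 2}

/-- anchors as classes -/
def GoodIx.anc (H : GoodIx ports ix r) (j : ℕ) (hj : j < 5) : ACl O X r :=
  p ⟨j, lt_of_lt_of_le hj H.five⟩

omit [DecidableEq X] in
theorem spec_U : (U : ACl O X r).Special := trivial
omit [DecidableEq X] in
theorem spec_M : (M : ACl O X r).Special := trivial
omit [DecidableEq X] in
theorem spec_A : (A : ACl O X r).Special := trivial
omit [DecidableEq X] in
theorem spec_p (j : Fin r) : (p j : ACl O X r).Special := trivial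

/-- a vertex in every class -/
theorem GoodIx.exists_vertex (H : GoodIx ports ix r) (c : ACl O X r) :
    ∃ v : (encT ports ix r).Vert b, v.cl = c := by
  cases c with
  | obj u => exact obj_vertex H.ne u
  | var x => obtain ⟨v, hv, -⟩ := var_vertex (ports := ports) (ix := ix) (r := r) (b := b) x 0; exact ⟨v, hv⟩
  | U => exact ⟨sp b U trivial, rfl⟩
  | M => exact ⟨sp b M trivial, rfl⟩
  | A => exact ⟨sp b A trivial, rfl⟩
  | p j => exact ⟨sp b (p j) trivial, rfl⟩

include H

theorem isU_iff (v : (encT ports ix r).Vert b) :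
    isU ((encT ports ix r).agAdj b) v ↔ v.cl = U := by
  constructor
  · intro h
    by_contra hv
    -- a non-neighbour
    have key : ∃ c : ACl O X r, c.Special ∧ c ≠ v.cl ∧ ACl.adj ports ix v.cl c = false := by
      have h5 := H.five
      match h' : v.cl with
      | obj u => exact ⟨M, trivial, by simp, by simp [ACl.adj, ACl.rel]⟩
      | var x => exact ⟨M, trivial, by simp, by simp [ACl.adj, ACl.rel]⟩
      | U => exact absurd h' hv
      | M => exact ⟨A, trivial, by simp, by simp [ACl.adj, ACl.rel]⟩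
      | A => exact ⟨M, trivial, by simp, by simp [ACl.adj, ACl.rel]⟩
      | p j =>
        by_cases hj : (j : ℕ) = 0
        · refine ⟨p ⟨2, by omega⟩, trivial, ?_, ?_⟩
          · intro e
            have := congrArg (fun c => match c with | p k => (k : ℕ) | _ => 0) e
            simp at this
            omega
          · simp [ACl.adj, ACl.rel, hj]
        · exact ⟨M, trivial, by simp, by simp [ACl.adj, ACl.rel, hj]⟩
    obtain ⟨c, hc, hne, hadj⟩ := key
    have h1 := h (sp b c hc) (fun e => hne (by rw [← e]; rfl))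
    rw [adj_right (w := sp b c hc) hc, sp_cl, hadj] at h1
    exact Bool.noConfusion h1
  · intro hv z hz
    rw [adj_left (by rw [hv]; trivial), hv]
    have hne : z.cl ≠ U := fun e => hz (by rw [eq_sp spec_U e, eq_sp spec_U hv])
    match h' : z.cl with
    | obj u => simp [ACl.adj, ACl.rel]
    | var x => simp [ACl.adj, ACl.rel]
    | U => exact absurd h' hne
    | M => simp [ACl.adj, ACl.rel]
    | A => simp [ACl.adj, ACl.rel]
    | p j => simp [ACl.adj, ACl.rel]

omit H in
/-- A type with three distinct elements does not have two elements. -/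
theorem card_ne_of_finset {V : Type} {P : V → Prop} (F : Finset V) (hF : ∀ z ∈ F, P z) (n : ℕ)
    (hn : 0 < n) (hc : n < F.card) : Nat.card {z // P z} ≠ n := by
  intro h
  have hfin : Finite {z // P z} := Nat.finite_of_card_ne_zero (by omega)
  have h1 : Nat.card {z // z ∈ F} ≤ Nat.card {z // P z} :=
    Nat.card_le_card_of_injective (fun z => ⟨z.1, hF z.1 z.2⟩) fun a b e => by
      apply Subtype.ext
      exact congrArg (fun t : {z // P z} => t.1) e
  simp at h1
  omega

open Classical in
omit H [DecidableEq X] in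
/-- lower bound for the number of neighbours from distinct special classes -/
theorem card_image_sp {C V : Type} (cl : V → C) (L : List V) (h : (L.map cl).Nodup) :
    (L.toFinset).card = L.length := by
  rw [List.toFinset_card_of_nodup]
  exact List.Nodup.of_map cl h

theorem isM_iff (v : (encT ports ix r).Vert b) :
    isM ((encT ports ix r).agAdj b) v ↔ v.cl = M := by
  classical
  have h5 := H.five
  constructor
  · intro h
    by_contra hv
    have key : ∃ c₁ c₂ c₃ : ACl O X r, (c₁.Special ∧ c₂.Special ∧ c₃.Special) ∧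
        (c₁ ≠ c₂ ∧ c₁ ≠ c₃ ∧ c₂ ≠ c₃) ∧ ACl.adj ports ix v.cl c₁ = true ∧
        ACl.adj ports ix v.cl c₂ = true ∧ ACl.adj ports ix v.cl c₃ = true := by
      match h' : v.cl with
      | obj u =>
        have hl := H.lt (Sum.inl u)
        refine ⟨U, p ⟨2, by omega⟩, p ⟨_, hl⟩, ⟨trivial, trivial, trivial⟩, ⟨by simp, by simp, ?_⟩,
          by simp [ACl.adj, ACl.rel], by simp [ACl.adj, ACl.rel], by simp [ACl.adj, ACl.rel]⟩
        simp
      | var x =>
        have hl := H.lt (Sum.inr x)
        refine ⟨U, p ⟨2, by omega⟩, p ⟨_, hl⟩, ⟨trivial, trivial, trivial⟩, ⟨by simp, by simp, ?_⟩,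
          by simp [ACl.adj, ACl.rel], by simp [ACl.adj, ACl.rel], by simp [ACl.adj, ACl.rel]⟩
        simp
      | U => exact ⟨M, A, p ⟨0, by omega⟩, ⟨trivial, trivial, trivial⟩, by simp,
          by simp [ACl.adj, ACl.rel], by simp [ACl.adj, ACl.rel], by simp [ACl.adj, ACl.rel]⟩
      | M => exact absurd h' hv
      | A => exact ⟨U, p ⟨0, by omega⟩, p ⟨1, by omega⟩, ⟨trivial, trivial, trivial⟩, by simp,
          by simp [ACl.adj, ACl.rel], by simp [ACl.adj, ACl.rel], by simp [ACl.adj, ACl.rel]⟩
      | p j =>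
        by_cases hj : (j : ℕ) + 1 < r
        · exact ⟨U, A, p ⟨j + 1, hj⟩, ⟨trivial, trivial, trivial⟩, by simp,
            by simp [ACl.adj, ACl.rel], by simp [ACl.adj, ACl.rel], by simp [ACl.adj, ACl.rel]⟩
        · refine ⟨U, A, p ⟨(j : ℕ) - 1, by omega⟩, ⟨trivial, trivial, trivial⟩, by simp,
            by simp [ACl.adj, ACl.rel], by simp [ACl.adj, ACl.rel], ?_⟩
          have : (j : ℕ) = (j : ℕ) - 1 + 1 := by omega
          simp only [ACl.adj, ACl.rel, Bool.or_eq_true, decide_eq_true_eq]
          right; exact this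
    obtain ⟨c₁, c₂, c₃, ⟨s₁, s₂, s₃⟩, ⟨n₁, n₂, n₃⟩, a₁, a₂, a₃⟩ := key
    refine card_ne_of_finset (P := fun z => (encT ports ix r).agAdj b v z = true ∧ True)
      ([sp b c₁ s₁, sp b c₂ s₂, sp b c₃ s₃].toFinset) ?_ 2 (by norm_num) ?_ h
    · intro z hz
      simp only [List.mem_toFinset, List.mem_cons, List.not_mem_nil, or_false] at hz
      rcases hz with rfl | rfl | rfl
      · exact ⟨by rw [adj_right (w := sp b c₁ s₁) s₁]; exact a₁, trivial⟩
      · exact ⟨by rw [adj_right (w := sp b c₂ s₂) s₂]; exact a₂, trivial⟩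
      · exact ⟨by rw [adj_right (w := sp b c₃ s₃) s₃]; exact a₃, trivial⟩
    · rw [card_image_sp (fun v => Template.Vert.cl v)]
      · simp
      · simp only [List.map_cons, List.map_nil, List.nodup_cons, List.mem_cons, List.not_mem_nil,
          or_false, not_or, not_false_eq_true, List.nodup_nil, and_true]
        exact ⟨⟨n₁, n₂⟩, n₃⟩
  · intro hv
    unfold isM
    rw [Nat.subtype_card ([sp b U spec_U, sp b (p ⟨0, by omega⟩) (spec_p _)].toFinset)]
    · rw [card_image_sp (fun v => Template.Vert.cl v)]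
      · simp
      · simp [sp_cl]
    · intro z
      simp only [List.mem_toFinset, List.mem_cons, List.not_mem_nil, or_false, and_true]
      rw [adj_left (by rw [hv]; trivial), hv]
      constructor
      · rintro (rfl | rfl)
        · rw [sp_cl]; simp [ACl.adj, ACl.rel]
        · rw [sp_cl]; simp [ACl.adj, ACl.rel]
      · intro h
        match h' : z.cl with
        | obj u => rw [h'] at h; simp [ACl.adj, ACl.rel] at h
        | var x => rw [h'] at h; simp [ACl.adj, ACl.rel] at h
        | U => exact Or.inl (eq_sp _ h')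
        | M => rw [h'] at h; simp [ACl.adj, ACl.rel] at h
        | A => rw [h'] at h; simp [ACl.adj, ACl.rel] at h
        | p j =>
          rw [h'] at h
          simp only [ACl.adj, ACl.rel, Bool.or_false, decide_eq_true_eq] at h
          right
          apply eq_sp
          rw [h']
          congr 1
          exact Fin.ext h

/-- neighbours in a special class -/
theorem ex_nbr_special {c : ACl O X r} (hc : c.Special) {Q : (encT ports ix r).Vert b → Prop}
    (hQ : ∀ v, Q v ↔ v.cl = c) (v : (encT ports ix r).Vert b) :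
    (∃ z, (encT ports ix r).agAdj b v z = true ∧ Q z) ↔ ACl.adj ports ix v.cl c = true := by
  constructor
  · rintro ⟨z, hz, hQz⟩
    rw [hQ] at hQz
    rw [adj_right (by rw [hQz]; exact hc), hQz] at hz
    exact hz
  · intro h
    refine ⟨sp b c hc, ?_, (hQ _).2 rfl⟩
    rw [adj_right (w := sp b c hc) hc, sp_cl]
    exact h

theorem isP0_iff (v : (encT ports ix r).Vert b) :
    isP0 ((encT ports ix r).agAdj b) v ↔ v.cl = p ⟨0, lt_of_lt_of_le (by norm_num) H.five⟩ := by
  unfold isP0
  rw [isU_iff H, ex_nbr_special H spec_M (isM_iff H)]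
  match h' : v.cl with
  | obj u => simp [ACl.adj, ACl.rel]
  | var x => simp [ACl.adj, ACl.rel]
  | U => simp [ACl.adj, ACl.rel]
  | M => simp [ACl.adj, ACl.rel]
  | A => simp [ACl.adj, ACl.rel]
  | p j => simp [ACl.adj, ACl.rel, Fin.ext_iff]

theorem deg4_p1 (v : (encT ports ix r).Vert b)
    (hv : v.cl = p ⟨1, lt_of_lt_of_le (by norm_num) H.five⟩) :
    Nat.card {z // (encT ports ix r).agAdj b v z = true ∧ True} = 4 := by
  classical
  have h5 := H.five
  rw [Nat.subtype_card ([sp b U spec_U, sp b A spec_A, sp b (p ⟨0, by omega⟩) (spec_p _),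
    sp b (p ⟨2, by omega⟩) (spec_p _)].toFinset)]
  · rw [card_image_sp (fun v => Template.Vert.cl v)]
    · simp
    · simp [sp_cl]
  · intro z
    simp only [List.mem_toFinset, List.mem_cons, List.not_mem_nil, or_false, and_true]
    rw [adj_left (by rw [hv]; trivial), hv]
    constructor
    · rintro (rfl | rfl | rfl | rfl)
      · rw [sp_cl]; simp [ACl.adj, ACl.rel]
      · rw [sp_cl]; simp [ACl.adj, ACl.rel]
      · rw [sp_cl]; simp [ACl.adj, ACl.rel]
      · rw [sp_cl]; simp [ACl.adj, ACl.rel]
    · intro h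
      match h' : z.cl with
      | obj u => rw [h'] at h; simp [ACl.adj, ACl.rel] at h
      | var x => rw [h'] at h; simp [ACl.adj, ACl.rel] at h
      | U => exact Or.inl (eq_sp _ h')
      | M => rw [h'] at h; simp [ACl.adj, ACl.rel] at h
      | A => exact Or.inr (Or.inl (eq_sp _ h'))
      | p j =>
        rw [h'] at h
        simp only [ACl.adj, ACl.rel, Bool.or_eq_true, decide_eq_true_eq] at h
        right; right
        rcases h with h | h
        · right
          apply eq_sp
          rw [h']
          congr 1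
          exact Fin.ext h
        · left
          apply eq_sp
          rw [h']
          congr 1
          apply Fin.ext
          change (j : ℕ) = 0
          omega

theorem deg_A (v : (encT ports ix r).Vert b) (hv : v.cl = A) :
    Nat.card {z // (encT ports ix r).agAdj b v z = true ∧ True} ≠ 4 := by
  classical
  have h5 := H.five
  refine card_ne_of_finset (P := fun z => (encT ports ix r).agAdj b v z = true ∧ True)
    ([sp b U spec_U, sp b (p ⟨0, by omega⟩) (spec_p _), sp b (p ⟨1, by omega⟩) (spec_p _),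
      sp b (p ⟨2, by omega⟩) (spec_p _), sp b (p ⟨3, by omega⟩) (spec_p _)].toFinset)
    ?_ 4 (by norm_num) ?_
  · intro z hz
    simp only [List.mem_toFinset, List.mem_cons, List.not_mem_nil, or_false] at hz
    refine ⟨?_, trivial⟩
    rw [adj_left (by rw [hv]; trivial), hv]
    rcases hz with rfl | rfl | rfl | rfl | rfl <;> · rw [sp_cl]; simp [ACl.adj, ACl.rel]
  · rw [card_image_sp (fun v => Template.Vert.cl v)]
    · simp
    · simp [sp_cl]

theorem isA_iff (v : (encT ports ix r).Vert b) :
    isA ((encT ports ix r).agAdj b) v ↔ v.cl = A := by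
  unfold isA
  rw [isU_iff H, isM_iff H, ex_nbr_special H (spec_p _) (isP0_iff H)]
  constructor
  · rintro ⟨⟨h1, h2⟩, h3, h4⟩
    match h' : v.cl with
    | obj u => rw [h'] at h1; simp [ACl.adj, ACl.rel] at h1
    | var x => rw [h'] at h1; simp [ACl.adj, ACl.rel] at h1
    | U => exact absurd h' h2
    | M => exact absurd h' h3
    | A => rfl
    | p j =>
      rw [h'] at h1
      simp only [ACl.adj, ACl.rel, Bool.or_eq_true, decide_eq_true_eq] at h1
      have hj : (j : ℕ) = 1 := by omega
      refine absurd (deg4_p1 H v ?_) h4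
      rw [h']
      congr 1
      exact Fin.ext hj
  · intro hv
    refine ⟨⟨?_, ?_⟩, ?_, deg_A H v hv⟩
    · rw [hv]; simp [ACl.adj, ACl.rel]
    · rw [hv]; simp
    · rw [hv]; simp

theorem isAnc_iff (v : (encT ports ix r).Vert b) :
    isAnc ((encT ports ix r).agAdj b) v ↔ ∃ j, v.cl = p j := by
  unfold isAnc
  rw [isU_iff H, ex_nbr_special H spec_A (isA_iff H)]
  match h' : v.cl with
  | obj u => simp [ACl.adj, ACl.rel]
  | var x => simp [ACl.adj, ACl.rel]
  | U => simp [ACl.adj, ACl.rel]
  | M => simp [ACl.adj, ACl.rel]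
  | A => simp [ACl.adj, ACl.rel]
  | p j => simp [ACl.adj, ACl.rel]

/-- the anchor with number `j` (`j < r`), as a predicate on classes -/
def IsPc (j : ℕ) (c : ACl O X r) : Prop := ∃ h : j < r, c = p ⟨j, h⟩

theorem ex_nbr_p (j : ℕ) {Q : (encT ports ix r).Vert b → Prop}
    (hQ : ∀ v, Q v ↔ IsPc j v.cl) (v : (encT ports ix r).Vert b) :
    (∃ z, (encT ports ix r).agAdj b v z = true ∧ Q z) ↔
      ∃ h : j < r, ACl.adj ports ix v.cl (p ⟨j, h⟩) = true := by
  constructor
  · rintro ⟨z, hz, hQz⟩
    obtain ⟨h, hz'⟩ := (hQ z).1 hQz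
    refine ⟨h, ?_⟩
    rw [adj_right (by rw [hz']; trivial), hz'] at hz
    exact hz
  · rintro ⟨h, ha⟩
    refine ⟨sp b (p ⟨j, h⟩) (spec_p _), ?_, (hQ _).2 ⟨h, rfl⟩⟩
    rw [adj_right (w := sp b (p ⟨j, h⟩) (spec_p _)) (spec_p _), sp_cl]
    exact ha

theorem isP_iff : ∀ (j : ℕ) (v : (encT ports ix r).Vert b),
    isP ((encT ports ix r).agAdj b) j v ↔ IsPc j v.cl
  | 0, v => by
    have h5 := H.five
    unfold isP
    rw [isP0_iff H]
    exact ⟨fun h => ⟨by omega, h⟩, fun ⟨_, h⟩ => h⟩
  | 1, v => by
    have h5 := H.five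
    unfold isP
    rw [isAnc_iff H, ex_nbr_special H (spec_p _) (isP0_iff H)]
    constructor
    · rintro ⟨⟨k, hk⟩, h⟩
      rw [hk] at h
      simp only [ACl.adj, ACl.rel, Bool.or_eq_true, decide_eq_true_eq] at h
      have : (k : ℕ) = 1 := by omega
      refine ⟨by omega, ?_⟩
      rw [hk]
      congr 1
      exact Fin.ext this
    · rintro ⟨h, hv⟩
      refine ⟨⟨_, hv⟩, ?_⟩
      rw [hv]
      simp [ACl.adj, ACl.rel]
  | j + 2, v => by
    have h5 := H.five
    unfold isP
    rw [isAnc_iff H, ex_nbr_p H (j + 1) (isP_iff (j + 1)), isP_iff j]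
    constructor
    · rintro ⟨⟨k, hk⟩, ⟨hj, h⟩, hn⟩
      rw [hk] at h
      simp only [ACl.adj, ACl.rel, Bool.or_eq_true, decide_eq_true_eq] at h
      have hne : (k : ℕ) ≠ j := by
        intro e
        apply hn
        refine ⟨by omega, ?_⟩
        rw [hk]
        congr 1
        exact Fin.ext e
      have hkj : (k : ℕ) = j + 2 := by omega
      refine ⟨by omega, ?_⟩
      rw [hk]
      congr 1
      exact Fin.ext hkj
    · rintro ⟨h, hv⟩
      refine ⟨⟨_, hv⟩, ⟨by omega, ?_⟩, ?_⟩
      · rw [hv]
        simp [ACl.adj, ACl.rel]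
      · rintro ⟨h', hv'⟩
        rw [hv] at hv'
        simp at hv'

theorem isC_iff (i : ℕ) (v : (encT ports ix r).Vert b) :
    isC ((encT ports ix r).agAdj b) i v ↔ ∃ c, ix c = i ∧ v.cl = base c := by
  unfold isC
  rw [isAnc_iff H, isU_iff H, isA_iff H, ex_nbr_p H (i + 3) (isP_iff H (i + 3))]
  constructor
  · rintro ⟨h1, h2, h3, h4, h5⟩
    match h' : v.cl with
    | obj u =>
      rw [h'] at h5
      simp only [ACl.adj, ACl.rel, Bool.or_eq_true, decide_eq_true_eq] at h5
      refine ⟨Sum.inl u, ?_, rfl⟩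
      simp at h5
      omega
    | var x =>
      rw [h'] at h5
      simp only [ACl.adj, ACl.rel, Bool.or_eq_true, decide_eq_true_eq] at h5
      refine ⟨Sum.inr x, ?_, rfl⟩
      simp at h5
      omega
    | U => exact absurd h' h2
    | M => rw [h'] at h5; simp [ACl.adj, ACl.rel] at h5
    | A => exact absurd h' h3
    | p j => exact absurd ⟨j, h'⟩ h1
  · rintro ⟨c, hc, hv⟩
    have hl := H.lt c
    rw [hv]
    refine ⟨?_, ?_, ?_, by omega, ?_⟩
    · rintro ⟨j, hj⟩
      cases c <;> simp [base] at hj
    · cases c <;> simp [base]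
    · cases c <;> simp [base]
    · cases c <;> simp [base, ACl.adj, ACl.rel, ← hc]

/-- **Class preservation**: every pebble system with at least two pebbles between two `encA`
graphs (for any parities) preserves classes. -/
theorem class_pres {b b' : ACl O X r → ZMod 2} {K : ℕ} (hK : 2 ≤ K)
    {R : Finset ((encT ports ix r).Vert b × (encT ports ix r).Vert b') → Prop}
    (hR : WL.PSys ((encT ports ix r).agAdj b) ((encT ports ix r).agAdj b') K R)
    {v : (encT ports ix r).Vert b} {w : (encT ports ix r).Vert b'} (h : R {(v, w)}) :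
    w.cl = v.cl := by
  match h' : v.cl with
  | obj u =>
    have h1 := (pres_isC hR hK (ix (Sum.inl u)) v w h).1
      ((isC_iff H _ v).2 ⟨Sum.inl u, rfl, h'⟩)
    obtain ⟨c, hc, hw⟩ := (isC_iff H _ w).1 h1
    rw [hw, H.inj hc]; rfl
  | var x =>
    have h1 := (pres_isC hR hK (ix (Sum.inr x)) v w h).1
      ((isC_iff H _ v).2 ⟨Sum.inr x, rfl, h'⟩)
    obtain ⟨c, hc, hw⟩ := (isC_iff H _ w).1 h1
    rw [hw, H.inj hc]; rfl
  | U => exact (isU_iff H w).1 ((pres_isU hR hK v w h).1 ((isU_iff H v).2 h'))
  | M => exact (isM_iff H w).1 ((pres_isM hR hK v w h).1 ((isM_iff H v).2 h'))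
  | A => exact (isA_iff H w).1 ((pres_isA hR hK v w h).1 ((isA_iff H v).2 h'))
  | p j =>
    obtain ⟨_, hw⟩ := (isP_iff H j w).1 ((pres_isP hR hK j v w h).1 ((isP_iff H j v).2 ⟨j.2, h'⟩))
    exact hw

end Crest.Agent.R290
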