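import Crest.Agent.R290.EncS

/-!
# Row 290, ENCS-3: connectivity of the subcubic encoding `encS`.
-/

set_option autoImplicit false

namespace Crest.Agent.R290.EncS3

open Crest.WLRefine

section abstract_

variable {C X : Type} [DecidableEq C] [DecidableEq X] {G : BG C X} {b : C → Bool} {n : ℕ}
  {A : Fin n → Fin n → Bool} {cl : Fin n → C ⊕ (ℕ × ℕ)} {as : Fin n → X → ZMod 2}

theorem reach_of_adj {v w : Fin n} (h : A v w = true) : (adjGraph A).Reachable v w := by
  by_cases hvw : v = w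
  · subst hvw
    exact SimpleGraph.Reachable.refl _
  · refine SimpleGraph.Adj.reachable ?_
    unfold adjGraph
    rw [SimpleGraph.fromRel_adj]
    exact ⟨hvw, Or.inl h⟩

/-- vertices at the two ends of a subdivided edge which agree are connected -/
theorem reach_edge (m : AGModel (subdiv G) (bSub G b) A cl as) {k : ℕ} {e : C × C}
    (he : G.es[k]? = some e) {v w : Fin n} (hv : cl v = Sum.inl e.1) (hw : cl w = Sum.inl e.2)
    (h : ∀ x ∈ G.vars e.2, as v x = as w x) : (adjGraph A).Reachable v w := by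
  have hk : k < G.es.length := (List.getElem?_eq_some_iff.1 he).1
  obtain ⟨z, hz, hza⟩ := m.exist (Sum.inr (k, 0)) (mem_subdiv_cls_inr.2 ⟨hk, by omega⟩) (as v) (by
    rw [subdiv_con_inr he, subdiv_vars_inr he, bSub_inr he]
    intro hc
    have := m.par v (by rw [hv]; exact hc)
    rw [hv] at this
    exact this)
  rw [subdiv_vars_inr he] at hza
  have h1 : A v z = true := by
    rw [m.adj_iff, hv, hz, ES_inl_inr]
    refine ⟨⟨rfl, e, he, Or.inl rfl⟩, fun x _ hx => ?_⟩
    rw [subdiv_vars_inr he] at hx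
    exact (hza x hx).symm
  have h2 : A z w = true := by
    rw [m.adj_iff, hw, hz, ES_inr_inl]
    refine ⟨⟨rfl, e, he, Or.inr rfl⟩, fun x hx hx' => ?_⟩
    rw [subdiv_vars_inr he] at hx
    rw [hza x hx]
    exact h x hx'
  exact (reach_of_adj h1).trans (reach_of_adj h2)

/-- from a vertex of the first end of an edge one reaches a vertex of the second end -/
theorem reach_down (hG : G.Good) (hp : G.ParOK b) (m : AGModel (subdiv G) (bSub G b) A cl as)
    {e : C × C} (he : e ∈ G.es) {v : Fin n} (hv : cl v = Sum.inl e.1) :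
    ∃ w, cl w = Sum.inl e.2 ∧ (adjGraph A).Reachable v w := by
  obtain ⟨k, hk⟩ := List.mem_iff_getElem?.1 he
  obtain ⟨w, hw, hwa⟩ := m.exist (Sum.inl e.2) (mem_subdiv_cls_inl.2 (hG.mem2 e he)) (as v) (by
    intro hc
    obtain ⟨h1, h2⟩ := hG.con e he hc
    have := m.par v (by rw [hv]; exact h1)
    rw [hv] at this
    change ((G.vars e.1).map (as v)).sum = bz (b e.1) at this
    change ((G.vars e.2).map (as v)).sum = bz (b e.2)
    rw [← h2, this, hp e he hc])
  exact ⟨w, hw, reach_edge m hk hv hw fun x hx => (hwa x hx).symm⟩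

/-- from a vertex of the second end of an edge with unconstrained first end one reaches a vertex of
the first end -/
theorem reach_up (hG : G.Good) (m : AGModel (subdiv G) (bSub G b) A cl as)
    {e : C × C} (he : e ∈ G.es) (hc : G.con e.1 = false) {w : Fin n} (hw : cl w = Sum.inl e.2) :
    ∃ v, cl v = Sum.inl e.1 ∧ (adjGraph A).Reachable w v := by
  obtain ⟨k, hk⟩ := List.mem_iff_getElem?.1 he
  obtain ⟨v, hv, hva⟩ := m.exist (Sum.inl e.1) (mem_subdiv_cls_inl.2 (hG.mem1 e he)) (as w) (by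
    intro hc'
    change G.con e.1 = true at hc'
    rw [hc] at hc'
    exact absurd hc' (by decide))
  exact ⟨v, hv, (reach_edge m hk hv hw fun x hx => hva x (hG.sub e he hx)).symm⟩

/-- from a vertex of a pendant path one reaches a base vertex -/
theorem reach_pendant (hG : G.Good) (m : AGModel (subdiv G) (bSub G b) A cl as) {k : ℕ}
    {e : C × C} (he : G.es[k]? = some e) (j : ℕ) (hj : j < k + 2) :
    ∀ v : Fin n, cl v = Sum.inr (k, j) → ∃ w, cl w = Sum.inl e.1 ∧ (adjGraph A).Reachable v w := by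
  have hk : k < G.es.length := (List.getElem?_eq_some_iff.1 he).1
  have hpar : ∀ v : Fin n, ∀ j, cl v = Sum.inr (k, j) → G.con e.1 = true →
      ((G.vars e.1).map (as v)).sum = bz (b e.1) := by
    intro v j hv hc
    have := m.par v (by rw [hv, subdiv_con_inr he]; exact hc)
    rw [hv, subdiv_vars_inr he, bSub_inr he] at this
    exact this
  induction j with
  | zero =>
    intro v hv
    obtain ⟨w, hw, hwa⟩ := m.exist (Sum.inl e.1)
      (mem_subdiv_cls_inl.2 (hG.mem1 e (List.mem_of_getElem? he))) (as v)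
      (fun hc => hpar v 0 hv hc)
    refine ⟨w, hw, reach_of_adj ?_⟩
    rw [m.adj_iff, hv, hw, ES_inr_inl]
    exact ⟨⟨rfl, e, he, Or.inl rfl⟩, fun x _ hx => (hwa x hx).symm⟩
  | succ j ih =>
    intro v hv
    obtain ⟨z, hz, hza⟩ := m.exist (Sum.inr (k, j))
      (mem_subdiv_cls_inr.2 ⟨hk, by omega⟩) (as v) (by
        rw [subdiv_con_inr he, subdiv_vars_inr he, bSub_inr he]
        exact fun hc => hpar v _ hv hc)
    obtain ⟨w, hw, hzw⟩ := ih (by omega) z hz
    refine ⟨w, hw, SimpleGraph.Reachable.trans (reach_of_adj ?_) hzw⟩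
    rw [m.adj_iff, hv, hz, ES_inr_inr]
    exact ⟨⟨rfl, Or.inr rfl⟩, fun x _ hx => (hza x hx).symm⟩

end abstract_

section concrete

variable {O X : Type} [DecidableEq O] [DecidableEq X] {I : XI O X} {b : O → Bool} {n : ℕ}
  {A : Fin n → Fin n → Bool} {cl : Fin n → CB O X ⊕ (ℕ × ℕ)} {as : Fin n → X → ZMod 2}

theorem reach_bus (hI : I.OK) (m : AGModel (subdiv (baseS I)) (bSub (baseS I) (bB b)) A cl as)
    {x0 : X} (h0 : I.vl[0]? = some x0) (j : ℕ) : ∀ (x : X), I.vl[j]? = some x → ∀ v : Fin n,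
      cl v = Sum.inl (Sum.inr (Sum.inr (Sum.inr x))) →
        ∃ w, cl w = Sum.inl (Sum.inr (Sum.inr (Sum.inr x0))) ∧ (adjGraph A).Reachable v w := by
  induction j with
  | zero =>
    intro x hx v hv
    rw [h0] at hx
    cases hx
    exact ⟨v, hv, SimpleGraph.Reachable.refl _⟩
  | succ j ih =>
    intro x hx v hv
    obtain ⟨y, hy⟩ : ∃ y, I.vl[j]? = some y := by
      have := (List.getElem?_eq_some_iff.1 hx).1
      exact ⟨I.vl[j], by simp⟩
    have he : ((Sum.inr (Sum.inr (Sum.inr y)), Sum.inr (Sum.inr (Sum.inr x))) : CB O X × CB O X) ∈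
        (baseS I).es := by
      rw [EncS2.mem_base_es]
      exact Or.inr (Or.inr (Or.inr (Or.inr (Or.inr (Or.inr ⟨(y, x),
        BaseGood.mem_zip_tail.2 ⟨j, hy, hx⟩, rfl⟩)))))
    obtain ⟨w, hw, hvw⟩ := reach_up (baseS_good I hI) m he rfl hv
    obtain ⟨w', hw', hww'⟩ := ih y hy w hw
    exact ⟨w', hw', hvw.trans hww'⟩

theorem reach_join (hI : I.OK) (m : AGModel (subdiv (baseS I)) (bSub (baseS I) (bB b)) A cl as)
    {x0 : X} (h0 : I.vl[0]? = some x0) {x : X} (hx : x ∈ I.vl) {v : Fin n}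
    (hv : cl v = Sum.inl (Sum.inr (Sum.inr (Sum.inl x)))) :
    ∃ w, cl w = Sum.inl (Sum.inr (Sum.inr (Sum.inr x0))) ∧ (adjGraph A).Reachable v w := by
  have he : ((Sum.inr (Sum.inr (Sum.inl x)), Sum.inr (Sum.inr (Sum.inr x))) : CB O X × CB O X) ∈
      (baseS I).es := by
    rw [EncS2.mem_base_es]
    exact Or.inr (Or.inr (Or.inr (Or.inr (Or.inr (Or.inl ⟨x, hx, rfl⟩)))))
  obtain ⟨w, hw, hvw⟩ := reach_down (baseS_good I hI) (BaseGood.baseS_parOK b) m he hv
  obtain ⟨j, hj⟩ := List.mem_iff_getElem?.1 hx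
  obtain ⟨w', hw', hww'⟩ := reach_bus hI m h0 j x hj w hw
  exact ⟨w', hw', hvw.trans hww'⟩

theorem reach_chain (hI : I.OK) (m : AGModel (subdiv (baseS I)) (bSub (baseS I) (bB b)) A cl as)
    {x0 : X} (h0 : I.vl[0]? = some x0) {x : X} (hx : x ∈ I.vl) (j : ℕ) :
    ∀ (o : O × ℕ), (I.occ x)[j]? = some o → ∀ v : Fin n,
      cl v = Sum.inl (Sum.inr (Sum.inl o)) →
        ∃ w, cl w = Sum.inl (Sum.inr (Sum.inr (Sum.inr x0))) ∧ (adjGraph A).Reachable v w := by
  induction j with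
  | zero =>
    intro o ho v hv
    have he : ((Sum.inr (Sum.inl o), Sum.inr (Sum.inr (Sum.inl x))) : CB O X × CB O X) ∈
        (baseS I).es := by
      rw [EncS2.mem_base_es]
      exact Or.inr (Or.inr (Or.inr (Or.inr (Or.inl ⟨x, hx, o, BaseGood.mem_take_one.2 ho, rfl⟩))))
    obtain ⟨w, hw, hvw⟩ := reach_down (baseS_good I hI) (BaseGood.baseS_parOK b) m he hv
    obtain ⟨w', hw', hww'⟩ := reach_join hI m h0 hx hw
    exact ⟨w', hw', hvw.trans hww'⟩
  | succ j ih =>
    intro o ho v hv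
    obtain ⟨o', ho'⟩ : ∃ o', (I.occ x)[j]? = some o' := by
      have := (List.getElem?_eq_some_iff.1 ho).1
      exact ⟨(I.occ x)[j], by simp⟩
    have he : ((Sum.inr (Sum.inl o'), Sum.inr (Sum.inl o)) : CB O X × CB O X) ∈
        (baseS I).es := by
      rw [EncS2.mem_base_es]
      exact Or.inr (Or.inr (Or.inr (Or.inl ⟨x, hx, (o', o),
        BaseGood.mem_zip_tail.2 ⟨j, ho', ho⟩, rfl⟩)))
    obtain ⟨w, hw, hvw⟩ := reach_up (baseS_good I hI) m he rfl hv
    obtain ⟨w', hw', hww'⟩ := ih o' ho' w hw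
    exact ⟨w', hw', hvw.trans hww'⟩

theorem reach_chain' (hI : I.OK) (m : AGModel (subdiv (baseS I)) (bSub (baseS I) (bB b)) A cl as)
    {x0 : X} (h0 : I.vl[0]? = some x0) {u : O} (hu : u ∈ I.objs) {i : ℕ}
    (hi : i < (I.ports u).length) {v : Fin n} (hv : cl v = Sum.inl (Sum.inr (Sum.inl (u, i)))) :
    ∃ w, cl w = Sum.inl (Sum.inr (Sum.inr (Sum.inr x0))) ∧ (adjGraph A).Reachable v w := by
  obtain ⟨x, hx⟩ : ∃ x, (I.ports u)[i]? = some x := ⟨(I.ports u)[i], by simp [hi]⟩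
  have hocc : (u, i) ∈ I.occ x := (EncS2.mem_occ I).2 ⟨hu, hx⟩
  obtain ⟨j, hj⟩ := List.mem_iff_getElem?.1 hocc
  exact reach_chain hI m h0 ((hI.mem_vl x).2 ⟨u, hu, List.mem_of_getElem? hx⟩) j (u, i) hj v hv

theorem reach_inl (hI : I.OK) (m : AGModel (subdiv (baseS I)) (bSub (baseS I) (bB b)) A cl as)
    {x0 : X} (h0 : I.vl[0]? = some x0) {u : O} (hu : u ∈ I.objs) {i : ℕ}
    (hi : i < (I.ports u).length) (d : ℕ) : ∀ (l : ℕ), l + d + 1 = (I.ports u).length →
    ∀ v : Fin n, cl v = Sum.inl (Sum.inl (u, i, l)) →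
    ∃ w, cl w = Sum.inl (Sum.inr (Sum.inr (Sum.inr x0))) ∧ (adjGraph A).Reachable v w := by
  induction d with
  | zero =>
    intro l hl v hv
    have he : ((Sum.inl (u, i, l), Sum.inr (Sum.inl (u, i))) : CB O X × CB O X) ∈
        (baseS I).es := by
      rw [EncS2.mem_base_es]
      refine Or.inr (Or.inr (Or.inl ⟨u, hu, i, hi, ?_⟩))
      rw [show (I.ports u).length - 1 = l by omega]
    obtain ⟨w, hw, hvw⟩ := reach_down (baseS_good I hI) (BaseGood.baseS_parOK b) m he hv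
    obtain ⟨w', hw', hww'⟩ := reach_chain' hI m h0 hu hi hw
    exact ⟨w', hw', hvw.trans hww'⟩
  | succ d ih =>
    intro l hl v hv
    have he : ((Sum.inl (u, i, l), Sum.inl (u, i, l + 1)) : CB O X × CB O X) ∈
        (baseS I).es := by
      rw [EncS2.mem_base_es]
      exact Or.inr (Or.inl ⟨u, hu, i, hi, l, by omega, rfl⟩)
    obtain ⟨w, hw, hvw⟩ := reach_down (baseS_good I hI) (BaseGood.baseS_parOK b) m he hv
    obtain ⟨w', hw', hww'⟩ := ih (l + 1) (by omega) w hw
    exact ⟨w', hw', hvw.trans hww'⟩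

theorem reach_base (hI : I.OK) (m : AGModel (subdiv (baseS I)) (bSub (baseS I) (bB b)) A cl as)
    {x0 : X} (h0 : I.vl[0]? = some x0) {c : CB O X} (hc : c ∈ (baseS I).cls) {v : Fin n}
    (hv : cl v = Sum.inl c) :
    ∃ w, cl w = Sum.inl (Sum.inr (Sum.inr (Sum.inr x0))) ∧ (adjGraph A).Reachable v w := by
  rcases (EncS2.mem_base_cls I).1 hc with ⟨u, hu, i, hi, l, hl, rfl⟩ | ⟨u, hu, i, hi, rfl⟩ |
    ⟨x, hx, rfl⟩ | ⟨x, hx, rfl⟩
  · exact reach_inl hI m h0 hu hi ((I.ports u).length - 1 - l) l (by omega) v hv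
  · exact reach_chain' hI m h0 hu hi hv
  · exact reach_join hI m h0 hx hv
  · obtain ⟨j, hj⟩ := List.mem_iff_getElem?.1 hx
    exact reach_bus hI m h0 j x hj v hv

/-- the graph of the subcubic encoding is connected -/
theorem conn_model (hI : I.OK)
    (m : AGModel (subdiv (baseS I)) (bSub (baseS I) (bB b)) A cl as) :
    (adjGraph A).Connected := by
  obtain ⟨x0, h0⟩ : ∃ x0, I.vl[0]? = some x0 := by
    obtain ⟨u0, hu0⟩ : ∃ u0, u0 ∈ I.objs := List.exists_mem_of_ne_nil _ hI.objs_ne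
    have h2 := hI.two_le u0 hu0
    have hx : (I.ports u0)[0] ∈ I.vl := (hI.mem_vl _).2 ⟨u0, hu0, List.getElem_mem _⟩
    have := List.length_pos_of_mem hx
    exact ⟨I.vl[0], by simp [this]⟩
  have hmem : (Sum.inr (Sum.inr (Sum.inr x0)) : CB O X) ∈ (baseS I).cls :=
    (EncS2.mem_base_cls I).2 (Or.inr (Or.inr (Or.inr ⟨x0, List.mem_of_getElem? h0, rfl⟩)))
  obtain ⟨t, ht, -⟩ := m.exist (Sum.inl (Sum.inr (Sum.inr (Sum.inr x0))))
    (mem_subdiv_cls_inl.2 hmem) (fun _ => 0) (fun h => absurd h Bool.false_ne_true)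
  have huniq : ∀ w, cl w = Sum.inl (Sum.inr (Sum.inr (Sum.inr x0))) → w = t := by
    intro w hw
    refine m.ext w t (hw.trans ht.symm) fun x hx => ?_
    rw [hw] at hx
    exact absurd hx (List.not_mem_nil)
  rw [SimpleGraph.connected_iff_exists_forall_reachable]
  refine ⟨t, fun v => ?_⟩
  have key : ∃ c ∈ (baseS I).cls, ∃ v', cl v' = Sum.inl c ∧ (adjGraph A).Reachable v v' := by
    have hv := m.cl_mem v
    rcases hcl : cl v with c | ⟨k, j⟩
    · rw [hcl] at hv
      exact ⟨c, mem_subdiv_cls_inl.1 hv, v, hcl, SimpleGraph.Reachable.refl _⟩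
    · rw [hcl] at hv
      obtain ⟨hk, hj⟩ := mem_subdiv_cls_inr.1 hv
      have he : (baseS I).es[k]? = some (baseS I).es[k] := by simp [hk]
      obtain ⟨w, hw, hvw⟩ := reach_pendant (baseS_good I hI) m he j hj v hcl
      exact ⟨_, (baseS_good I hI).mem1 _ (List.getElem_mem hk), w, hw, hvw⟩
  obtain ⟨c, hc, v', hv', hvv'⟩ := key
  obtain ⟨w, hw, hvw⟩ := reach_base hI m h0 hc hv'
  rw [huniq w hw] at hvw
  exact (hvv'.trans hvw).symm

end concrete

section final

variable {O X : Type} [DecidableEq O] [DecidableEq X]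

theorem model (I : XI O X) (hI : I.OK) (b : O → Bool) : ∃ cl as,
    AGModel (subdiv (baseS I)) (bSub (baseS I) (bB b)) ((encS I).mat (bS I b)) cl as := by
  have hG := baseS_good I hI
  have hnd : (encS I).cls.Nodup := EncS2.cls_nodup _ (EncS2.base_cls_nodup I hI)
  have hvn : ∀ c ∈ (encS I).cls, ((encS I).vars c).Nodup := subdiv_vars_nodup hG
  exact ⟨_, _, Model.toAGModel hvn (AG.model_mat (G := encS I) (b := bS I b) hnd hvn)⟩

theorem conn (I : XI O X) (hI : I.OK) (b : O → Bool) :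
    (adjGraph ((encS I).mat (bS I b))).Connected := by
  obtain ⟨cl, as, m⟩ := model I hI b
  exact conn_model hI m

end final

end Crest.Agent.R290.EncS3
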