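import Crest.Agent.R290.FlatPTF
import Crest.Agent.R290.Defs
import Crest.Agent.Lib.PT.ArithMore
import Crest.Agent.Lib.PT.ListFns2

/-!
# Row 290: codes of flat programs, relocation, self-reference

* poly-time constructors and cases for `FInstr` (`PTCode FInstr` of `Defs.lean`).
* `FInstr.shift`, `fcomp_shift`, `runPart_shift`: the compiled code is position independent.
* `selfProg w code = pushes w.reverse 0 ++ code.map (shift |w|)`; `selfProg_eq`; `ptf_selfProg`.
-/

set_option autoImplicit false
set_option linter.dupNamespace false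

namespace Crest.Agent.R290

open Crest.Agent.Lib.PT Function

theorem enc_finstr (i : FInstr) : enc i = enc i.toSum := rfl

theorem sz_finstr (i : FInstr) : sz i = sz i.toSum := rfl

section ptf

variable {α β : Type} [PTCode α] [PTCode β]

@[fun_prop]
theorem PTF.finstrToSum {f : α → FInstr} (hf : PTF f) : PTF (fun a => (f a).toSum) := by
  obtain ⟨g, hg, h⟩ := hf
  exact ⟨g, hg, h⟩

theorem PTF.of_toSum {f : α → FInstr} (hf : PTF (fun a => (f a).toSum)) : PTF f := by
  obtain ⟨g, hg, h⟩ := hf
  exact ⟨g, hg, h⟩

@[fun_prop]
theorem PTF.finstrPush {k j : α → ℕ} {b : α → Bool} (hk : PTF k) (hb : PTF b) (hj : PTF j) :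
    PTF (fun a => FInstr.push (k a) (b a) (j a)) := by
  refine PTF.of_toSum ?_
  exact PTF.inl (f := fun a => (k a, b a, j a)) (by fun_prop)

@[fun_prop]
theorem PTF.finstrPop {k e t f : α → ℕ} (hk : PTF k) (he : PTF e) (ht : PTF t) (hf : PTF f) :
    PTF (fun a => FInstr.pop (k a) (e a) (t a) (f a)) := by
  refine PTF.of_toSum ?_
  exact PTF.inr (f := fun a => (k a, e a, t a, f a)) (by fun_prop)

/-- case distinction on an instruction -/
theorem PTF.finstrCases {s : α → FInstr} {F : α → ℕ × Bool × ℕ → β} {G : α → ℕ × ℕ × ℕ × ℕ → β}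
    (hs : PTF s) (hF : PTF₂ F) (hG : PTF₂ G) {r : α → β}
    (h1 : ∀ a k b j, s a = .push k b j → r a = F a (k, b, j))
    (h2 : ∀ a k e t f, s a = .pop k e t f → r a = G a (k, e, t, f)) : PTF r := by
  have h := PTF.sumCasesOn (s := fun a => (s a).toSum) (f := F) (g := G) (by fun_prop) hF hG
  refine h.of_eq (fun a => ?_)
  cases hsa : s a with
  | push k b j => simp only [FInstr.toSum]; rw [h1 a k b j hsa]
  | pop k e t f => simp only [FInstr.toSum]; rw [h2 a k e t f hsa]

end ptf

/-! ### relocation -/

/-- add `d` to all jump targets -/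
def FInstr.shift (d : ℕ) : FInstr → FInstr
  | .push k b j => .push k b (j + d)
  | .pop k e t f => .pop k (e + d) (t + d) (f + d)

theorem FInstr.shift_zero (i : FInstr) : i.shift 0 = i := by
  cases i <;> rfl

theorem FInstr.shift_shift (i : FInstr) (a b : ℕ) : (i.shift a).shift b = i.shift (a + b) := by
  cases i <;> simp [shift, Nat.add_assoc]

theorem jmp_shift (o t d : ℕ) : (jmp o t).map (FInstr.shift d) = jmp (o + d) (t + d) := by
  simp only [jmp, List.map_cons, List.map_nil, FInstr.shift]
  have : o + 1 + d = o + d + 1 := by omega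
  rw [this]

theorem fcomp_shift (c : Cmd) (o d : ℕ) : fcomp c (o + d) = (fcomp c o).map (FInstr.shift d) := by
  induction c generalizing o with
  | skip => rfl
  | push k b =>
    simp only [fcomp, List.map_cons, List.map_nil, FInstr.shift, List.cons.injEq, and_true]
    congr 1; omega
  | pop k =>
    simp only [fcomp, List.map_cons, List.map_nil, FInstr.shift, List.cons.injEq, and_true]
    congr 1 <;> omega
  | seq c₁ c₂ ih1 ih2 =>
    simp only [fcomp, List.map_append]
    rw [← ih1, ← ih2]
    have : o + d + csize c₁ = o + csize c₁ + d := by omega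
    rw [this]
  | ite k e c₁ c₂ ih1 ih2 ih3 =>
    simp only [fcomp, List.map_append, List.map_cons, List.map_nil, FInstr.shift, jmp_shift]
    rw [← ih1, ← ih2, ← ih3]
    have e1 : o + 3 + d = o + d + 3 := by omega
    have e2 : o + 3 + csize e + d = o + d + 3 + csize e := by omega
    have e3 : o + 3 + csize e + 2 + d = o + d + 3 + csize e + 2 := by omega
    have e4 : o + 3 + csize e + 2 + csize c₁ + d = o + d + 3 + csize e + 2 + csize c₁ := by omega
    have e5 : o + 3 + csize e + 2 + csize c₁ + 2 + d = o + d + 3 + csize e + 2 + csize c₁ + 2 := by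
      omega
    have e6 : o + 3 + csize e + 2 + csize c₁ + 2 + csize c₂ + d =
      o + d + 3 + csize e + 2 + csize c₁ + 2 + csize c₂ := by omega
    have e7 : o + 1 + d = o + d + 1 := by omega
    have e8 : o + 2 + d = o + d + 2 := by omega
    rw [e1, e2, e3, e4, e5, e6, e7, e8]
  | loop k c ih =>
    simp only [fcomp, List.map_append, List.map_cons, List.map_nil, FInstr.shift, jmp_shift]
    rw [← ih]
    have e1 : o + 3 + d = o + d + 3 := by omega
    have e2 : o + 3 + csize c + d = o + d + 3 + csize c := by omega
    have e3 : o + 3 + csize c + 2 + d = o + d + 3 + csize c + 2 := by omega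
    have e7 : o + 1 + d = o + d + 1 := by omega
    have e8 : o + 2 + d = o + d + 2 := by omega
    rw [e1, e2, e3, e7, e8]

theorem runPart_shift (c : Cmd) (o : ℕ) : runPart c o = (runPart c 0).map (FInstr.shift o) := by
  unfold runPart
  rw [List.map_append, ← fcomp_shift, Nat.zero_add]
  simp only [List.map_cons, List.map_nil, FInstr.shift]
  congr 2
  · congr 1 <;> omega
  · congr 2; omega

/-- the flat program that loads `w` and then runs the position independent `code` -/
def selfProg (w : List Bool) (code : Flat) : Flat :=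
  pushes w.reverse 0 ++ code.map (FInstr.shift w.length)

theorem selfProg_eq (w : List Bool) (c : Cmd) : selfProg w (runPart c 0) = loadRun w c := by
  unfold selfProg loadRun
  rw [← runPart_shift]

theorem length_selfProg (w : List Bool) (code : Flat) :
    (selfProg w code).length = w.length + code.length := by
  simp [selfProg, length_pushes]

theorem pushes_eq_map (l : List Bool) (o : ℕ) :
    pushes l o = List.zipWith (fun b i => FInstr.push 0 b (o + i + 1)) l (List.range l.length) := by
  induction l generalizing o with
  | nil => rfl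
  | cons b l ih =>
    rw [pushes, ih]
    rw [List.length_cons, List.range_succ_eq_map, List.zipWith_cons_cons, Nat.add_zero,
      List.zipWith_map_right]
    congr 1
    congr 1
    funext b i
    congr 1
    omega

section ptf2

variable {α : Type} [PTCode α]

theorem ptf_finstrShift : PTF (fun q : ℕ × FInstr => q.2.shift q.1) := by
  refine PTF.finstrCases (s := fun q : ℕ × FInstr => q.2)
    (F := fun q x => FInstr.push x.1 x.2.1 (x.2.2 + q.1))
    (G := fun q x => FInstr.pop x.1 (x.2.1 + q.1) (x.2.2.1 + q.1) (x.2.2.2 + q.1))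
    (by fun_prop) (by pt_prop) (by pt_prop) ?_ ?_
  · intro a k b j h; rw [h]; rfl
  · intro a k e t f h; rw [h]; rfl

theorem ptf_pushes0 {w : α → List Bool} (hw : PTF w) : PTF (fun a => pushes (w a) 0) := by
  have h : PTF (fun a => List.zipWith (fun b i => FInstr.push 0 b (0 + i + 1)) (w a)
      (List.range (w a).length)) := by
    refine PTF.zipWith (f := fun (_ : α) (b : Bool) (i : ℕ) => FInstr.push 0 b (0 + i + 1)) hw
      (PTF.range (PTU.length hw)) ?_
    fun_prop
  exact h.of_eq (fun a => (pushes_eq_map (w a) 0).symm)

theorem ptf_selfProg {w : α → List Bool} {code : α → Flat} (hw : PTF w) (hc : PTF code) :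
    PTF (fun a => selfProg (w a) (code a)) := by
  unfold selfProg
  refine PTF.append (ptf_pushes0 (PTF.reverse hw)) ?_
  refine PTF.map (f := fun (a : α) (i : FInstr) => i.shift (w a).length) hc ?_
  have hl : PTF (fun p : α × FInstr => (w p.1).length) :=
    PTU.toPTF (PTU.length (by fun_prop))
  exact PTF.comp (g := fun q : ℕ × FInstr => q.2.shift q.1) (f := fun p : α × FInstr =>
    ((w p.1).length, p.2)) ptf_finstrShift (by fun_prop)

end ptf2

end Crest.Agent.R290
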