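import Crest.Agent.R290.FlatPTF
import Crest.Agent.R290.SelfRef

/-!
# Row 290: while programs as fixed flat programs with input on stack `0`
-/

set_option autoImplicit false

namespace Crest.Agent.R290

open Crest.Agent.Lib.PT Function

/-- One fixed flat program `F` which on input `enc a` halts iff `h (f^[n] (g a))` is true, `n` the first
index with `done (f^[n] (g a))`. -/
theorem flat_whileOn {α β : Type} [PTCode α] [PTCode β] {g : α → β} {f : β → β} {done h : β → Bool}
    (hg : PTF g) (hf : PTF f) (hd : PTF done) (hh : PTF h) :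
    ∃ (F : Flat) (q : Polynomial ℕ), LabsLe F.length F ∧ ∀ (a : α) (n B : ℕ),
      (∀ i < n, done (f^[i] (g a)) = false) → done (f^[n] (g a)) = true →
      (∀ i ≤ n, sz (f^[i] (g a)) ≤ B) →
      (h (f^[n] (g a)) = true → FHaltsOn F (enc a) ((n + 1) * q.eval (sz a + B))) ∧
      (h (f^[n] (g a)) = false → ∀ T, ¬ FHaltsOn F (enc a) T) := by
  obtain ⟨c, p, hc⟩ := ptf_while hg hf hd hh
  refine ⟨runPart c 0, 4 * p + 1, ?_, fun a n B h0 h1 hB => ⟨fun ht => ?_, fun ht T => ?_⟩⟩
  · have := labsLe_runPart c 0
    rw [length_runPart]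
    rwa [Nat.zero_add] at this
  · have h2 := hc a n B h0 h1 hB
    rw [ht] at h2
    refine (runPart_haltsOn h2 (l := []) rfl).mono ?_
    simp only [Polynomial.eval_add, Polynomial.eval_mul, Polynomial.eval_ofNat,
      Polynomial.eval_one]
    have e3 : (n + 1) * (4 * p.eval (sz a + B) + 1) =
      4 * ((n + 1) * p.eval (sz a + B)) + (n + 1) := by ring
    omega
  · have h2 := hc a n B h0 h1 hB
    rw [ht] at h2
    exact runPart_loopsOn h2 (by simp) T

end Crest.Agent.R290
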