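import Crest.Agent.R290.Flat
import Crest.Agent.Lib.PT.Typed

/-!
# Row 290: while programs over coded types

`ptf_while`: for PTF functions `g : α → β`, `f : β → β`, `done : β → Bool`, `h : β → Bool` one fixed
program `c` computes, from `enc a`, the bit `h (f^[n] (g a))`, `n` the first index with
`done (f^[n] (g a))`.  `flat_while`: the flat program `loadRun (enc a) c` halts (within the bound) iff
this bit is `true`.
-/

set_option autoImplicit false

namespace Crest.Agent.R290

open Crest.Agent.Lib.PT Function

theorem ptf_while {α β : Type} [PTCode α] [PTCode β] {g : α → β} {f : β → β} {done h : β → Bool}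
    (hg : PTF g) (hf : PTF f) (hd : PTF done) (hh : PTF h) :
    ∃ (c : Cmd) (p : Polynomial ℕ), ∀ (a : α) (n B : ℕ),
      (∀ i < n, done (f^[i] (g a)) = false) → done (f^[n] (g a)) = true →
      (∀ i ≤ n, sz (f^[i] (g a)) ≤ B) →
      Run c (init (enc a)) (init [h (f^[n] (g a))]) ((n + 1) * p.eval (sz a + B)) := by
  obtain ⟨G, hG, eG⟩ := hg
  obtain ⟨F, hF, eF⟩ := hf
  obtain ⟨D, hD, eD⟩ := hd
  obtain ⟨H, hH, eH⟩ := hh
  set F' : List Bool → List Bool := fun s => if s.head? = some true then s else
    (if (D s.tail).head? = some true then true :: s.tail else false :: F s.tail) with hF'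
  have pF' : PT F' :=
    PT.ite PT.id PT.id (PT.ite (PT.comp hD PT.tail) (PT.cons' true PT.tail)
      (PT.cons' false (PT.comp hF PT.tail)))
  have pG' : PT (fun x => false :: G x) := PT.cons' false hG
  have pH' : PT (fun x => H x.tail) := PT.comp hH PT.tail
  obtain ⟨c, p, hc⟩ := while_program pG' pF' pH'
  refine ⟨c, p.comp (Polynomial.X + 1), fun a n B h0 h1 hB => ?_⟩
  have e0 : ∀ b : β, done b = false → F' (false :: enc b) = false :: enc (f b) := by
    intro b hb
    have h1 : ¬ (false :: enc b).head? = some true := by simp
    have h2 : ¬ (D (false :: enc b).tail).head? = some true := by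
      rw [List.tail_cons, eD, hb]
      simp [enc, PTCode.enc]
    change (if (false :: enc b).head? = some true then (false :: enc b) else
      (if (D (false :: enc b).tail).head? = some true then true :: (false :: enc b).tail else
        false :: F (false :: enc b).tail)) = _
    rw [if_neg h1, if_neg h2, List.tail_cons, eF]
  have e1 : ∀ b : β, done b = true → F' (false :: enc b) = true :: enc b := by
    intro b hb
    have h1 : ¬ (false :: enc b).head? = some true := by simp
    have h2 : (D (false :: enc b).tail).head? = some true := by
      rw [List.tail_cons, eD, hb]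
      simp [enc, PTCode.enc]
    change (if (false :: enc b).head? = some true then (false :: enc b) else
      (if (D (false :: enc b).tail).head? = some true then true :: (false :: enc b).tail else
        false :: F (false :: enc b).tail)) = _
    rw [if_neg h1, if_pos h2, List.tail_cons]
  have e2 : ∀ i ≤ n, F'^[i] (false :: enc (g a)) = false :: enc (f^[i] (g a)) := by
    intro i
    induction i with
    | zero => intro _; rfl
    | succ i ih =>
      intro hi
      rw [iterate_succ_apply', ih (by omega), e0 _ (h0 i (by omega)), iterate_succ_apply']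
  have e3 : F'^[n + 1] (false :: enc (g a)) = true :: enc (f^[n] (g a)) := by
    rw [iterate_succ_apply', e2 n le_rfl, e1 _ h1]
  have key := hc (enc a) (n + 1) (B + 1) (by omega)
    (fun i _ hi => by
      simp only [eG]
      rw [e2 i (by omega)]
      simp)
    (by simp only [eG]; rw [e3]; simp)
    (fun i hi => by
      simp only [eG]
      rcases Nat.lt_or_ge n i with hni | hni
      · have : i = n + 1 := by omega
        subst this
        rw [e3]
        have := hB n le_rfl
        simp only [List.length_cons]
        unfold sz at this
        omega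
      · rw [e2 i hni]
        have := hB i hni
        simp only [List.length_cons]
        unfold sz at this
        omega)
  refine key.of_eq ?_ ?_
  · simp only [eG]
    rw [e3]
    simp only [List.tail_cons]
    rw [eH]
    rfl
  · simp only [Polynomial.eval_comp, Polynomial.eval_add, Polynomial.eval_X, Polynomial.eval_one]
    have : (enc a).length + (B + 1) = sz a + B + 1 := by unfold sz; omega
    rw [this]

/-- The flat program `loadRun (enc a) c` halts iff `h (f^[n] (g a))` is true. -/
theorem flat_while {α β : Type} [PTCode α] [PTCode β] {g : α → β} {f : β → β} {done h : β → Bool}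
    (hg : PTF g) (hf : PTF f) (hd : PTF done) (hh : PTF h) :
    ∃ (c : Cmd) (q : Polynomial ℕ), ∀ (a : α) (n B : ℕ),
      (∀ i < n, done (f^[i] (g a)) = false) → done (f^[n] (g a)) = true →
      (∀ i ≤ n, sz (f^[i] (g a)) ≤ B) →
      (h (f^[n] (g a)) = true → FHalts (loadRun (enc a) c) ((n + 1) * q.eval (sz a + B))) ∧
      (h (f^[n] (g a)) = false → ∀ T, ¬ FHalts (loadRun (enc a) c) T) := by
  obtain ⟨c, p, hc⟩ := ptf_while hg hf hd hh
  refine ⟨c, 4 * p + Polynomial.X + 1, fun a n B h0 h1 hB => ⟨fun ht => ?_, fun ht T => ?_⟩⟩
  · have h2 := hc a n B h0 h1 hB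
    rw [ht] at h2
    refine (loadRun_halts h2 (l := []) rfl).mono ?_
    simp only [Polynomial.eval_add, Polynomial.eval_mul, Polynomial.eval_ofNat, Polynomial.eval_X,
      Polynomial.eval_one]
    have e1 : (enc a).length ≤ sz a + B := by unfold sz; omega
    have e2 : sz a + B + 1 ≤ (n + 1) * (sz a + B + 1) := Nat.le_mul_of_pos_left _ (by omega)
    have e3 : (n + 1) * (4 * p.eval (sz a + B) + (sz a + B) + 1) =
      4 * ((n + 1) * p.eval (sz a + B)) + (n + 1) * (sz a + B + 1) := by ring
    omega
  · have h2 := hc a n B h0 h1 hB
    rw [ht] at h2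
    exact loadRun_loops h2 (by simp) T

end Crest.Agent.R290
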