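import Crest.Agent.R290.GenLib

/-!
# Row 290, module GEN: the code of an agreement graph is poly-time
-/

set_option autoImplicit false
set_option linter.dupNamespace false

namespace Crest.Agent.R290

open Crest.Agent.Lib.PT Crest.Enc

section ag

variable {γ C X : Type} [PTCode γ] [PTCode C] [PTCode X]

theorem ptf_natCode {f : γ → ℕ} (hf : PTF f) : PTF (fun c => natCode (f c)) := by
  have h1 : PTF (fun c => (f c).bits) := PTF.natBits hf
  have h2 : PTF (fun c => ((f c).bits.map (fun b => [true, b]))) :=
    PTF.map h1 (f := fun (_ : γ) (b : Bool) => [true, b])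
      (by show PTF (fun q : γ × Bool => [true, q.2]); fun_prop)
  have h3 := PTF.append (PTF.flatten h2) (PTF.const (α := γ) [false, false])
  exact h3.of_eq (fun c => rfl)

theorem ptf_agree [DecidableEq X] {vs vs' : γ → List X} {b b' : γ → List Bool} (hvs : PTF vs)
    (hvs' : PTF vs') (hb : PTF b) (hb' : PTF b') :
    PTF (fun c => agree (vs c) (b c) (vs' c) (b' c)) := by
  unfold agree
  refine PTF.all (PTF.zip hvs hb) ?_
  have h2 : PTF (fun q : γ × (X × Bool) => (vs' q.1).zip (b' q.1)) :=
    PTF.comp (PTF.zip hvs' hb') PTF.fst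
  refine PTF.all h2 ?_
  show PTF (fun r : (γ × (X × Bool)) × (X × Bool) =>
    (!decide (r.1.2.1 = r.2.1)) || (r.1.2.2 == r.2.2))
  refine PTF.or (PTF.not (PTPred.eq (by fun_prop) (by fun_prop)).toPTF) ?_
  exact PTF.beq (by fun_prop) (by fun_prop)

/-- the vertex list is poly-time when all port lists have length at most `K` -/
theorem ptf_items (K : ℕ) {G : γ → AG C X} {b : γ → C → Bool}
    (hK : ∀ d, ∀ c ∈ (G d).cls, ((G d).vars c).length ≤ K)
    (hcls : PTF (fun d => (G d).cls)) (hvars : PTF (fun p : γ × C => (G p.1).vars p.2))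
    (hcon : PTF (fun p : γ × C => (G p.1).con p.2)) (hb : PTF (fun p : γ × C => b p.1 p.2)) :
    PTF (fun d => (G d).items (b d)) := by
  have h1 : PTF (fun p : γ × C =>
      (if ((G p.1).vars p.2).length ≤ K then bools ((G p.1).vars p.2).length else []).filter
        (fun α => !((G p.1).con p.2) || (α.sum == b p.1 p.2))) := by
    refine PTF.filter (ptf_bools K (PTU.length hvars)) ?_
    show PTF (fun q : (γ × C) × List Bool =>
      !((G q.1.1).con q.1.2) || (q.2.sum == b q.1.1 q.1.2))
    refine PTF.or (PTF.not (PTF.comp hcon PTF.fst)) (PTF.beq (ptf_boolSum PTF.snd) ?_)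
    exact PTF.comp hb PTF.fst
  have h2 : PTF (fun p : γ × C =>
      ((if ((G p.1).vars p.2).length ≤ K then bools ((G p.1).vars p.2).length else []).filter
        (fun α => !((G p.1).con p.2) || (α.sum == b p.1 p.2))).map (fun α => (p.2, α))) := by
    refine PTF.map h1 ?_
    show PTF (fun q : (γ × C) × List Bool => (q.1.2, q.2))
    fun_prop
  refine (PTF.flatMap (f := fun (d : γ) (c : C) =>
      ((if ((G d).vars c).length ≤ K then bools ((G d).vars c).length else []).filter
        (fun α => !((G d).con c) || (α.sum == b d c))).map (fun α => (c, α))) hcls h2).of_eq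
    fun d => ?_
  unfold AG.items AG.fibre
  refine List.flatMap_congr fun c hc => ?_
  rw [if_pos (hK d c hc)]

theorem ptf_adj [DecidableEq X] {G : γ → AG C X}
    (hvars : PTF (fun p : γ × C => (G p.1).vars p.2))
    (hE : PTF (fun p : γ × C × C => (G p.1).E p.2.1 p.2.2)) :
    PTF (fun p : γ × (C × List Bool) × (C × List Bool) => (G p.1).adj p.2.1 p.2.2) := by
  unfold AG.adj
  have h1 : PTF (fun p : γ × (C × List Bool) × (C × List Bool) => (p.1, p.2.1.1, p.2.2.1)) := by
    fun_prop
  have h2 : PTF (fun p : γ × (C × List Bool) × (C × List Bool) => (p.1, p.2.1.1)) := by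
    fun_prop
  have h3 : PTF (fun p : γ × (C × List Bool) × (C × List Bool) => (p.1, p.2.2.1)) := by
    fun_prop
  refine PTF.and (PTF.comp hE h1) (ptf_agree ?_ ?_ (by fun_prop) (by fun_prop))
  · exact PTF.comp hvars h2
  · exact PTF.comp hvars h3

/-- **The code of an agreement graph is a poly-time function of its description.** -/
theorem ptf_agCode [DecidableEq X] (K : ℕ) {G : γ → AG C X} {b : γ → C → Bool}
    (hK : ∀ d, ∀ c ∈ (G d).cls, ((G d).vars c).length ≤ K)
    (hcls : PTF (fun d => (G d).cls)) (hvars : PTF (fun p : γ × C => (G p.1).vars p.2))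
    (hcon : PTF (fun p : γ × C => (G p.1).con p.2))
    (hE : PTF (fun p : γ × C × C => (G p.1).E p.2.1 p.2.2))
    (hb : PTF (fun p : γ × C => b p.1 p.2)) :
    PTF (fun d => (G d).code (b d)) := by
  unfold AG.code
  have hi := ptf_items K hK hcls hvars hcon hb
  refine PTF.append (ptf_natCode (PTU.toPTF (PTU.length hi))) (PTF.flatMap hi ?_)
  have hj : PTF (fun p : γ × (C × List Bool) => (G p.1).items (b p.1)) :=
    PTF.comp (g := fun d => (G d).items (b d)) hi PTF.fst
  refine PTF.map hj ?_
  show PTF (fun q : (γ × (C × List Bool)) × (C × List Bool) => (G q.1.1).adj q.1.2 q.2)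
  have h4 : PTF (fun q : (γ × (C × List Bool)) × (C × List Bool) => (q.1.1, q.1.2, q.2)) := by
    fun_prop
  exact PTF.comp (ptf_adj hvars hE) h4

end ag

end Crest.Agent.R290
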