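import Crest.Agent.R290.GenAG

/-!
# Row 290, module GEN: the two encodings are poly-time
-/

set_option autoImplicit false
set_option linter.dupNamespace false

namespace Crest.Agent.R290

open Crest.Agent.Lib.PT Crest.Enc

section elim

variable {γ α β α' β' δ : Type} [PTCode γ] [PTCode α] [PTCode β] [PTCode α'] [PTCode β']
  [PTCode δ]

/-- elimination of a sum argument -/
theorem ptf_sum {f : γ → α ⊕ β → δ} (h1 : PTF (fun p : γ × α => f p.1 (Sum.inl p.2)))
    (h2 : PTF (fun p : γ × β => f p.1 (Sum.inr p.2))) :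
    PTF (fun p : γ × (α ⊕ β) => f p.1 p.2) := by
  refine (PTF.sumCasesOn (s := fun p : γ × (α ⊕ β) => p.2)
    (f := fun p a => f p.1 (Sum.inl a)) (g := fun p b => f p.1 (Sum.inr b)) PTF.snd ?_ ?_).of_eq
    fun p => ?_
  · show PTF (fun q : (γ × (α ⊕ β)) × α => f q.1.1 (Sum.inl q.2))
    exact PTF.comp (g := fun p : γ × α => f p.1 (Sum.inl p.2))
      (f := fun q : (γ × (α ⊕ β)) × α => (q.1.1, q.2)) h1 (by fun_prop)
  · show PTF (fun q : (γ × (α ⊕ β)) × β => f q.1.1 (Sum.inr q.2))
    exact PTF.comp (g := fun p : γ × β => f p.1 (Sum.inr p.2))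
      (f := fun q : (γ × (α ⊕ β)) × β => (q.1.1, q.2)) h2 (by fun_prop)
  · rcases p with ⟨c, a | b⟩ <;> rfl

/-- elimination of an option argument -/
theorem ptf_option {f : γ → Option α → δ} (h1 : PTF (fun c : γ => f c none))
    (h2 : PTF (fun p : γ × α => f p.1 (some p.2))) :
    PTF (fun p : γ × Option α => f p.1 p.2) := by
  refine (PTF.optionCasesOn (s := fun p : γ × Option α => p.2)
    (f := fun p => f p.1 none) (g := fun p b => f p.1 (some b)) PTF.snd ?_ ?_).of_eq
    fun p => ?_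
  · exact PTF.comp (g := fun c => f c none) h1 PTF.fst
  · show PTF (fun q : (γ × Option α) × α => f q.1.1 (some q.2))
    exact PTF.comp (g := fun p : γ × α => f p.1 (some p.2))
      (f := fun q : (γ × Option α) × α => (q.1.1, q.2)) h2 (by fun_prop)
  · rcases p with ⟨c, _ | b⟩ <;> rfl

/-- elimination of the second argument -/
theorem ptf_x_sum {f : γ → δ → α ⊕ β → α'}
    (h1 : PTF (fun p : γ × δ × α => f p.1 p.2.1 (Sum.inl p.2.2)))
    (h2 : PTF (fun p : γ × δ × β => f p.1 p.2.1 (Sum.inr p.2.2))) :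
    PTF (fun p : γ × δ × (α ⊕ β) => f p.1 p.2.1 p.2.2) := by
  have h : PTF (fun p : (γ × δ) × (α ⊕ β) => f p.1.1 p.1.2 p.2) := by
    refine ptf_sum (f := fun (q : γ × δ) (a : α ⊕ β) => f q.1 q.2 a) ?_ ?_
    · exact PTF.comp (g := fun p : γ × δ × α => f p.1 p.2.1 (Sum.inl p.2.2))
        (f := fun p : (γ × δ) × α => (p.1.1, p.1.2, p.2)) h1 (by fun_prop)
    · exact PTF.comp (g := fun p : γ × δ × β => f p.1 p.2.1 (Sum.inr p.2.2))
        (f := fun p : (γ × δ) × β => (p.1.1, p.1.2, p.2)) h2 (by fun_prop)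
  exact PTF.comp (g := fun p : (γ × δ) × (α ⊕ β) => f p.1.1 p.1.2 p.2)
    (f := fun p : γ × δ × (α ⊕ β) => ((p.1, p.2.1), p.2.2)) h (by fun_prop)

/-- elimination of the first argument -/
theorem ptf_sum_x {f : γ → α ⊕ β → δ → α'}
    (h1 : PTF (fun p : γ × α × δ => f p.1 (Sum.inl p.2.1) p.2.2))
    (h2 : PTF (fun p : γ × β × δ => f p.1 (Sum.inr p.2.1) p.2.2)) :
    PTF (fun p : γ × (α ⊕ β) × δ => f p.1 p.2.1 p.2.2) := by
  have h : PTF (fun p : (γ × δ) × (α ⊕ β) => f p.1.1 p.2 p.1.2) := by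
    refine ptf_sum (f := fun (q : γ × δ) (a : α ⊕ β) => f q.1 a q.2) ?_ ?_
    · exact PTF.comp (g := fun p : γ × α × δ => f p.1 (Sum.inl p.2.1) p.2.2)
        (f := fun p : (γ × δ) × α => (p.1.1, p.2, p.1.2)) h1 (by fun_prop)
    · exact PTF.comp (g := fun p : γ × β × δ => f p.1 (Sum.inr p.2.1) p.2.2)
        (f := fun p : (γ × δ) × β => (p.1.1, p.2, p.1.2)) h2 (by fun_prop)
  exact PTF.comp (g := fun p : (γ × δ) × (α ⊕ β) => f p.1.1 p.2 p.1.2)
    (f := fun p : γ × (α ⊕ β) × δ => ((p.1, p.2.2), p.2.1)) h (by fun_prop)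

end elim

section encA

variable {γ O X : Type} [PTCode γ] [PTCode O] [PTCode X] [DecidableEq O] [DecidableEq X]
  {I : γ → XI O X}

omit [DecidableEq O] [DecidableEq X] in
theorem ptf_base (hobjs : PTF (fun d => (I d).objs)) (hvl : PTF (fun d => (I d).vl)) :
    PTF (fun d => (I d).base) := by
  unfold XI.base
  refine PTF.append (PTF.map hobjs ?_) (PTF.map hvl ?_)
  · show PTF (fun q : γ × O => (Sum.inl q.2 : O ⊕ X))
    exact PTF.inl PTF.snd
  · show PTF (fun q : γ × X => (Sum.inr q.2 : O ⊕ X))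
    exact PTF.inr PTF.snd

theorem ptf_EA (hobjs : PTF (fun d => (I d).objs)) (hvl : PTF (fun d => (I d).vl))
    (hports : PTF (fun p : γ × O => (I p.1).ports p.2)) :
    PTF (fun p : γ × CA O X × CA O X => (I p.1).EA p.2.1 p.2.2) := by
  have hbase := ptf_base hobjs hvl
  have hmem : PTF (fun p : γ × O × X => decide (p.2.2 ∈ (I p.1).ports p.2.1)) := by
    refine ptf_decideMem (a := fun p : γ × O × X => p.2.2)
      (l := fun p : γ × O × X => (I p.1).ports p.2.1) (by fun_prop) ?_
    exact PTF.comp (g := fun p : γ × O => (I p.1).ports p.2)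
      (f := fun p : γ × O × X => (p.1, p.2.1)) hports
      (PTF.prodMk PTF.fst (PTF.comp PTF.fst PTF.snd))
  have hidx : PTF (fun p : γ × (O ⊕ X) × ℕ => decide (p.2.2 ≤ (I p.1).base.idxOf p.2.1)) := by
    have h1 : PTF (fun p : γ × (O ⊕ X) × ℕ => (I p.1).base) :=
      PTF.comp (g := fun d => (I d).base) hbase PTF.fst
    have h2 : PTF (fun p : γ × (O ⊕ X) × ℕ => (I p.1).base.idxOf p.2.1) :=
      ptf_idxOf (a := fun p : γ × (O ⊕ X) × ℕ => p.2.1) h1 (by fun_prop)
    exact (PTPred.natLe (by fun_prop) h2).toPTF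
  refine ptf_sum_x (f := fun (d : γ) (c c' : CA O X) => (I d).EA c c') ?_ ?_
  · refine ptf_x_sum (f := fun (d : γ) (c : O ⊕ X) (c' : CA O X) => (I d).EA (Sum.inl c) c') ?_ ?_
    · refine ptf_sum_x (f := fun (d : γ) (c c' : O ⊕ X) =>
        (I d).EA (Sum.inl c) (Sum.inl c')) ?_ ?_
      · refine ptf_x_sum (f := fun (d : γ) (u : O) (c' : O ⊕ X) =>
          (I d).EA (Sum.inl (Sum.inl u)) (Sum.inl c')) ?_ ?_
        · exact PTF.const false
        · exact hmem
      · refine ptf_x_sum (f := fun (d : γ) (x : X) (c' : O ⊕ X) =>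
          (I d).EA (Sum.inl (Sum.inr x)) (Sum.inl c')) ?_ ?_
        · exact PTF.comp (g := fun p : γ × O × X => decide (p.2.2 ∈ (I p.1).ports p.2.1))
            (f := fun p : γ × X × O => (p.1, p.2.2, p.2.1)) hmem (by fun_prop)
        · exact PTF.const false
    · refine ptf_x_sum (f := fun (d : γ) (c : O ⊕ X) (a : ℕ ⊕ ℕ) =>
        (I d).EA (Sum.inl c) (Sum.inr a)) ?_ ?_
      · refine hidx.of_eq fun p => ?_
        rcases p with ⟨d, c | c, i⟩ <;> rfl
      · refine (PTF.const false).of_eq fun p => ?_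
        rcases p with ⟨d, c | c, i⟩ <;> rfl
  · refine ptf_sum_x (f := fun (d : γ) (a : ℕ ⊕ ℕ) (c' : CA O X) => (I d).EA (Sum.inr a) c') ?_ ?_
    · refine ptf_x_sum (f := fun (d : γ) (i : ℕ) (c' : CA O X) =>
        (I d).EA (Sum.inr (Sum.inl i)) c') ?_ ?_
      · refine PTF.of_eq (PTF.comp
          (g := fun p : γ × (O ⊕ X) × ℕ => decide (p.2.2 ≤ (I p.1).base.idxOf p.2.1))
          (f := fun p : γ × ℕ × (O ⊕ X) => (p.1, p.2.2, p.2.1)) hidx (by fun_prop)) fun p => ?_
        rfl
      · refine ptf_x_sum (f := fun (d : γ) (i : ℕ) (a : ℕ ⊕ ℕ) =>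
          (I d).EA (Sum.inr (Sum.inl i)) (Sum.inr a)) ?_ ?_
        · show PTF (fun p : γ × ℕ × ℕ => decide (p.2.1 ≠ p.2.2))
          exact (PTPred.not (PTPred.natEq (by fun_prop) (by fun_prop))).toPTF
        · exact PTF.const true
    · refine ptf_x_sum (f := fun (d : γ) (i : ℕ) (c' : CA O X) =>
        (I d).EA (Sum.inr (Sum.inr i)) c') ?_ ?_
      · exact PTF.const false
      · refine ptf_x_sum (f := fun (d : γ) (i : ℕ) (a : ℕ ⊕ ℕ) =>
          (I d).EA (Sum.inr (Sum.inr i)) (Sum.inr a)) ?_ ?_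
        · exact PTF.const true
        · exact PTF.const false

/-- the vertex list of the anchor encoding -/
theorem ptf_encA_items (K : ℕ) (hK : 1 ≤ K) {D : γ → ℕ} {b : γ → O → Bool}
    (hb' : ∀ d, ∀ u ∈ (I d).objs, ((I d).ports u).length ≤ K)
    (hobjs : PTF (fun d => (I d).objs)) (hvl : PTF (fun d => (I d).vl))
    (hports : PTF (fun p : γ × O => (I p.1).ports p.2)) (hD : PTU D)
    (hb : PTF (fun p : γ × O => b p.1 p.2)) :
    PTF (fun d => (encA (I d) (D d)).items (bA (b d))) := by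
  have hbase := ptf_base hobjs hvl
  refine ptf_items K (G := fun d => encA (I d) (D d)) (b := fun d => bA (b d)) ?_ ?_ ?_ ?_ ?_
  · intro d c hc
    rcases c with (u | x) | (i | i)
    · simp only [encA, XI.base, List.map_append, List.map_map, List.mem_append, List.mem_map,
        Function.comp, Sum.inl.injEq, reduceCtorEq, and_false, exists_false, or_false,
        exists_eq_right] at hc ⊢
      exact hb' d u hc
    · exact hK
    · exact Nat.zero_le _
    · exact Nat.zero_le _
  · refine PTF.append (PTF.append (PTF.map hbase ?_) (PTF.map (PTF.range ?_) ?_))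
      (PTF.map (PTF.range hD) ?_)
    · show PTF (fun q : γ × (O ⊕ X) => (Sum.inl q.2 : CA O X))
      exact PTF.inl PTF.snd
    · exact PTU.add (PTU.length hbase) (PTU.const 1)
    · show PTF (fun q : γ × ℕ => (Sum.inr (Sum.inl q.2) : CA O X))
      exact PTF.inr (PTF.inl PTF.snd)
    · show PTF (fun q : γ × ℕ => (Sum.inr (Sum.inr q.2) : CA O X))
      exact PTF.inr (PTF.inr PTF.snd)
  · refine ptf_sum (f := fun (d : γ) (c : CA O X) => (encA (I d) (D d)).vars c) ?_ ?_
    · refine ptf_sum (f := fun (d : γ) (c : O ⊕ X) => (encA (I d) (D d)).vars (Sum.inl c)) ?_ ?_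
      · exact hports
      · show PTF (fun p : γ × X => [p.2])
        exact PTF.listCons PTF.snd (PTF.const [])
    · exact PTF.const []
  · refine ptf_sum (f := fun (d : γ) (c : CA O X) => (encA (I d) (D d)).con c) ?_ ?_
    · refine ptf_sum (f := fun (d : γ) (c : O ⊕ X) => (encA (I d) (D d)).con (Sum.inl c)) ?_ ?_
      · exact PTF.const true
      · exact PTF.const false
    · exact PTF.const false
  · refine ptf_sum (f := fun (d : γ) (c : CA O X) => bA (b d) c) ?_ ?_
    · refine ptf_sum (f := fun (d : γ) (c : O ⊕ X) => bA (b d) (Sum.inl c)) ?_ ?_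
      · exact hb
      · exact PTF.const false
    · exact PTF.const false


/-- the anchor encoding -/
theorem ptf_encA (K : ℕ) (hK : 1 ≤ K) {D : γ → ℕ} {b : γ → O → Bool}
    (hb' : ∀ d, ∀ u ∈ (I d).objs, ((I d).ports u).length ≤ K)
    (hobjs : PTF (fun d => (I d).objs)) (hvl : PTF (fun d => (I d).vl))
    (hports : PTF (fun p : γ × O => (I p.1).ports p.2)) (hD : PTU D)
    (hb : PTF (fun p : γ × O => b p.1 p.2)) :
    PTF (fun d => (encA (I d) (D d)).code (bA (b d))) := by
  have hbase := ptf_base hobjs hvl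
  refine ptf_agCode K (G := fun d => encA (I d) (D d)) (b := fun d => bA (b d)) ?_ ?_ ?_ ?_ ?_ ?_
  · intro d c hc
    rcases c with (u | x) | (i | i)
    · simp only [encA, XI.base, List.map_append, List.map_map, List.mem_append, List.mem_map,
        Function.comp, Sum.inl.injEq, reduceCtorEq, and_false, exists_false, or_false,
        exists_eq_right] at hc ⊢
      exact hb' d u hc
    · exact hK
    · exact Nat.zero_le _
    · exact Nat.zero_le _
  · refine PTF.append (PTF.append (PTF.map hbase ?_) (PTF.map (PTF.range ?_) ?_))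
      (PTF.map (PTF.range hD) ?_)
    · show PTF (fun q : γ × (O ⊕ X) => (Sum.inl q.2 : CA O X))
      exact PTF.inl PTF.snd
    · exact PTU.add (PTU.length hbase) (PTU.const 1)
    · show PTF (fun q : γ × ℕ => (Sum.inr (Sum.inl q.2) : CA O X))
      exact PTF.inr (PTF.inl PTF.snd)
    · show PTF (fun q : γ × ℕ => (Sum.inr (Sum.inr q.2) : CA O X))
      exact PTF.inr (PTF.inr PTF.snd)
  · refine ptf_sum (f := fun (d : γ) (c : CA O X) => (encA (I d) (D d)).vars c) ?_ ?_
    · refine ptf_sum (f := fun (d : γ) (c : O ⊕ X) => (encA (I d) (D d)).vars (Sum.inl c)) ?_ ?_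
      · exact hports
      · show PTF (fun p : γ × X => [p.2])
        exact PTF.listCons PTF.snd (PTF.const [])
    · exact PTF.const []
  · refine ptf_sum (f := fun (d : γ) (c : CA O X) => (encA (I d) (D d)).con c) ?_ ?_
    · refine ptf_sum (f := fun (d : γ) (c : O ⊕ X) => (encA (I d) (D d)).con (Sum.inl c)) ?_ ?_
      · exact PTF.const true
      · exact PTF.const false
    · exact PTF.const false
  · exact ptf_EA hobjs hvl hports
  · refine ptf_sum (f := fun (d : γ) (c : CA O X) => bA (b d) c) ?_ ?_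
    · refine ptf_sum (f := fun (d : γ) (c : O ⊕ X) => bA (b d) (Sum.inl c)) ?_ ?_
      · exact hb
      · exact PTF.const false
    · exact PTF.const false

end encA

end Crest.Agent.R290
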