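import Crest.Agent.R290.GenEnc

/-!
# Row 290, module GEN: the subcubic encoding is poly-time
-/

set_option autoImplicit false
set_option linter.dupNamespace false

namespace Crest.Agent.R290

open Crest.Agent.Lib.PT Crest.Enc

section subdiv

variable {γ C X : Type} [PTCode γ] [PTCode C] [DecidableEq C] {G : γ → BG C X}

theorem decide_exists_option {α : Type} (o : Option α) (p : Prop) (q : α → Prop) [Decidable p]
    [DecidablePred q] [Decidable (p ∧ ∃ e ∈ o, q e)] :
    decide (p ∧ ∃ e ∈ o, q e) = (decide p && (o.map fun e => decide (q e)).getD false) := by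
  rw [Bool.eq_iff_iff]
  cases o <;> simp

theorem ptf_ES (hes : PTF (fun d => (G d).es)) :
    PTF (fun p : γ × (C ⊕ (ℕ × ℕ)) × (C ⊕ (ℕ × ℕ)) => (G p.1).ES p.2.1 p.2.2) := by
  have h1 : PTF (fun p : γ × C × (ℕ × ℕ) =>
      decide (p.2.2.2 = 0 ∧ ∃ e ∈ (G p.1).es[p.2.2.1]?, e.1 = p.2.1 ∨ e.2 = p.2.1)) := by
    have h2 : PTF (fun p : γ × C × (ℕ × ℕ) => (G p.1).es[p.2.2.1]?) := by
      refine ptf_getElemB (n := fun p : γ × C × (ℕ × ℕ) => p.2.2.1)
        (l := fun p : γ × C × (ℕ × ℕ) => (G p.1).es) (by fun_prop) ?_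
      exact PTF.comp (g := fun d => (G d).es) hes PTF.fst
    have h3 : PTF (fun p : γ × C × (ℕ × ℕ) => (((G p.1).es[p.2.2.1]?).map
        fun e => decide (e.1 = p.2.1 ∨ e.2 = p.2.1)).getD false) := by
      refine PTF.optionGetD (PTF.optionMap h2 ?_) (PTF.const false)
      show PTF (fun q : (γ × C × (ℕ × ℕ)) × (C × C) =>
        decide (q.2.1 = q.1.2.1 ∨ q.2.2 = q.1.2.1))
      exact (PTPred.or (PTPred.eq (by fun_prop) (by fun_prop))
        (PTPred.eq (by fun_prop) (by fun_prop))).toPTF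
    have h4 : PTF (fun p : γ × C × (ℕ × ℕ) => decide (p.2.2.2 = 0)) :=
      (PTPred.natEq (by fun_prop) (by fun_prop)).toPTF
    refine (PTF.and h4 h3).of_eq fun p => ?_
    rw [decide_exists_option]
  refine ptf_sum_x (f := fun (d : γ) (c c' : C ⊕ (ℕ × ℕ)) => (G d).ES c c') ?_ ?_
  · refine ptf_x_sum (f := fun (d : γ) (c : C) (c' : C ⊕ (ℕ × ℕ)) =>
      (G d).ES (Sum.inl c) c') ?_ ?_
    · exact PTF.const false
    · exact h1
  · refine ptf_x_sum (f := fun (d : γ) (a : ℕ × ℕ) (c' : C ⊕ (ℕ × ℕ)) =>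
      (G d).ES (Sum.inr a) c') ?_ ?_
    · exact PTF.comp (g := fun p : γ × C × (ℕ × ℕ) =>
          decide (p.2.2.2 = 0 ∧ ∃ e ∈ (G p.1).es[p.2.2.1]?, e.1 = p.2.1 ∨ e.2 = p.2.1))
        (f := fun p : γ × (ℕ × ℕ) × C => (p.1, p.2.2, p.2.1)) h1 (by fun_prop)
    · show PTF (fun p : γ × (ℕ × ℕ) × (ℕ × ℕ) =>
        decide (p.2.1.1 = p.2.2.1 ∧ (p.2.2.2 = p.2.1.2 + 1 ∨ p.2.1.2 = p.2.2.2 + 1)))
      exact (PTPred.and (PTPred.natEq (by fun_prop) (by fun_prop))
        (PTPred.or (PTPred.natEq (by fun_prop) (by fun_prop))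
          (PTPred.natEq (by fun_prop) (by fun_prop)))).toPTF

theorem ptf_subdiv [PTCode X] [DecidableEq X] (K : ℕ) {b : γ → C → Bool}
    (hK : ∀ d c, ((G d).vars c).length ≤ K)
    (hcls : PTF (fun d => (G d).cls)) (hvars : PTF (fun p : γ × C => (G p.1).vars p.2))
    (hcon : PTF (fun p : γ × C => (G p.1).con p.2)) (hes : PTF (fun d => (G d).es))
    (hb : PTF (fun p : γ × C => b p.1 p.2)) :
    PTF (fun d => (subdiv (G d)).code (bSub (G d) (b d))) := by
  have hget : PTF (fun p : γ × (ℕ × ℕ) => (G p.1).es[p.2.1]?) := by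
    refine ptf_getElemB (n := fun p : γ × (ℕ × ℕ) => p.2.1)
      (l := fun p : γ × (ℕ × ℕ) => (G p.1).es) (by fun_prop) ?_
    exact PTF.comp (g := fun d => (G d).es) hes PTF.fst
  refine ptf_agCode K (G := fun d => subdiv (G d)) (b := fun d => bSub (G d) (b d)) ?_ ?_ ?_ ?_ ?_ ?_
  · rintro d (c | ⟨k, j⟩) _
    · exact hK d c
    · show List.length (match (G d).es[k]? with
        | some e => (G d).vars e.1
        | none => []) ≤ K
      cases (G d).es[k]? with
      | none => exact Nat.zero_le _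
      | some e => exact hK d e.1
  · refine PTF.append (PTF.map hcls ?_) ?_
    · show PTF (fun q : γ × C => (Sum.inl q.2 : C ⊕ (ℕ × ℕ)))
      exact PTF.inl PTF.snd
    · have h5 : PTU (fun q : γ × ℕ => (G q.1).es.length) :=
        PTU.comp (n := fun d => (G d).es.length) (PTU.length hes) PTF.fst
      have h6 : PTU (fun q : γ × ℕ => min q.2 (G q.1).es.length + 2) :=
        PTU.add (PTF.natMinUn PTF.snd h5) (PTU.const 2)
      have h7 : PTF (fun q : γ × ℕ => (List.range (min q.2 (G q.1).es.length + 2)).map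
          fun j => (Sum.inr (q.2, j) : C ⊕ (ℕ × ℕ))) := by
        refine PTF.map (PTF.range h6) ?_
        show PTF (fun r : (γ × ℕ) × ℕ => (Sum.inr (r.1.2, r.2) : C ⊕ (ℕ × ℕ)))
        exact PTF.inr (by fun_prop)
      refine (PTF.flatMap (f := fun (d : γ) (k : ℕ) =>
        (List.range (min k (G d).es.length + 2)).map fun j => (Sum.inr (k, j) : C ⊕ (ℕ × ℕ)))
        (PTF.range (PTU.length hes)) h7).of_eq fun d => ?_
      refine List.flatMap_congr fun k hk => ?_
      rw [min_eq_left (List.mem_range.mp hk).le]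
  · refine ptf_sum (f := fun (d : γ) (c : C ⊕ (ℕ × ℕ)) => (subdiv (G d)).vars c) hvars ?_
    refine (PTF.optionCasesOn (s := fun p : γ × (ℕ × ℕ) => (G p.1).es[p.2.1]?)
      (f := fun p => ([] : List X)) (g := fun p e => (G p.1).vars e.1) hget (PTF.const []) ?_).of_eq
      fun p => ?_
    · exact PTF.comp (g := fun p : γ × C => (G p.1).vars p.2)
        (f := fun p : (γ × (ℕ × ℕ)) × (C × C) => (p.1.1, p.2.1)) hvars (by fun_prop)
    · show _ = (match (G p.1).es[p.2.1]? with
        | some e => (G p.1).vars e.1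
        | none => [])
      cases (G p.1).es[p.2.1]? <;> rfl
  · refine ptf_sum (f := fun (d : γ) (c : C ⊕ (ℕ × ℕ)) => (subdiv (G d)).con c) hcon ?_
    refine (PTF.optionCasesOn (s := fun p : γ × (ℕ × ℕ) => (G p.1).es[p.2.1]?)
      (f := fun p => false) (g := fun p e => (G p.1).con e.1) hget (PTF.const false) ?_).of_eq
      fun p => ?_
    · exact PTF.comp (g := fun p : γ × C => (G p.1).con p.2)
        (f := fun p : (γ × (ℕ × ℕ)) × (C × C) => (p.1.1, p.2.1)) hcon (by fun_prop)
    · show _ = (match (G p.1).es[p.2.1]? with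
        | some e => (G p.1).con e.1
        | none => false)
      cases (G p.1).es[p.2.1]? <;> rfl
  · exact ptf_ES hes
  · refine ptf_sum (f := fun (d : γ) (c : C ⊕ (ℕ × ℕ)) => bSub (G d) (b d) c) hb ?_
    refine (PTF.optionCasesOn (s := fun p : γ × (ℕ × ℕ) => (G p.1).es[p.2.1]?)
      (f := fun p => false) (g := fun p e => b p.1 e.1) hget (PTF.const false) ?_).of_eq
      fun p => ?_
    · exact PTF.comp (g := fun p : γ × C => b p.1 p.2)
        (f := fun p : (γ × (ℕ × ℕ)) × (C × C) => (p.1.1, p.2.1)) hb (by fun_prop)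
    · show _ = (match (G p.1).es[p.2.1]? with
        | some e => b p.1 e.1
        | none => false)
      cases (G p.1).es[p.2.1]? <;> rfl

end subdiv

section encS

variable {γ O X : Type} [PTCode γ] [PTCode O] [PTCode X] [DecidableEq O] [DecidableEq X]
  {I : γ → XI O X}

omit [PTCode X] [DecidableEq O] [DecidableEq X] in
theorem ptf_objMap {β : Type} [PTCode β] (hobjs : PTF (fun d => (I d).objs)) {n : γ → O → ℕ}
    (hn : PTU (fun p : γ × O => n p.1 p.2)) {f : γ → O → ℕ → β}
    (hf : PTF (fun p : γ × O × ℕ => f p.1 p.2.1 p.2.2)) :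
    PTF (fun d => (I d).objs.flatMap fun u => (List.range (n d u)).map fun i => f d u i) := by
  refine PTF.flatMap hobjs ?_
  show PTF (fun q : γ × O => (List.range (n q.1 q.2)).map fun i => f q.1 q.2 i)
  refine PTF.map (PTF.range hn) ?_
  exact PTF.comp (g := fun p : γ × O × ℕ => f p.1 p.2.1 p.2.2)
    (f := fun p : (γ × O) × ℕ => (p.1.1, p.1.2, p.2)) hf (by fun_prop)

omit [PTCode X] [DecidableEq O] [DecidableEq X] in
theorem ptf_objMap2 {β : Type} [PTCode β] (hobjs : PTF (fun d => (I d).objs)) {n m : γ → O → ℕ}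
    (hn : PTU (fun p : γ × O => n p.1 p.2)) (hm : PTU (fun p : γ × O => m p.1 p.2))
    {f : γ → O → ℕ → ℕ → β} (hf : PTF (fun p : γ × O × ℕ × ℕ => f p.1 p.2.1 p.2.2.1 p.2.2.2)) :
    PTF (fun d => (I d).objs.flatMap fun u => (List.range (n d u)).flatMap fun i =>
      (List.range (m d u)).map fun l => f d u i l) := by
  refine PTF.flatMap hobjs ?_
  show PTF (fun q : γ × O => (List.range (n q.1 q.2)).flatMap fun i =>
      (List.range (m q.1 q.2)).map fun l => f q.1 q.2 i l)
  refine PTF.flatMap (PTF.range hn) ?_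
  show PTF (fun r : (γ × O) × ℕ => (List.range (m r.1.1 r.1.2)).map fun l => f r.1.1 r.1.2 r.2 l)
  refine PTF.map (PTF.range (PTU.comp (n := fun q : γ × O => m q.1 q.2) hm PTF.fst)) ?_
  exact PTF.comp (g := fun p : γ × O × ℕ × ℕ => f p.1 p.2.1 p.2.2.1 p.2.2.2)
    (f := fun p : ((γ × O) × ℕ) × ℕ => (p.1.1.1, p.1.1.2, p.1.2, p.2)) hf (by fun_prop)

omit [DecidableEq O] in
theorem ptf_occ (hobjs : PTF (fun d => (I d).objs))
    (hports : PTF (fun p : γ × O => (I p.1).ports p.2)) :
    PTF (fun p : γ × X => (I p.1).occ p.2) := by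
  unfold XI.occ
  have h1 : PTF (fun p : γ × X => (I p.1).objs) := PTF.comp (g := fun d => (I d).objs) hobjs PTF.fst
  refine PTF.flatMap h1 ?_
  have h2 : PTF (fun q : (γ × X) × O => (I q.1.1).ports q.2) :=
    PTF.comp (g := fun p : γ × O => (I p.1).ports p.2)
      (f := fun q : (γ × X) × O => (q.1.1, q.2)) hports (by fun_prop)
  have h3 : PTF (fun q : (γ × X) × O => ((List.range ((I q.1.1).ports q.2).length).filter
      fun i => decide (((I q.1.1).ports q.2)[i]? = some q.1.2))) := by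
    refine PTF.filter (PTF.range (PTU.length h2)) ?_
    show PTF (fun r : ((γ × X) × O) × ℕ =>
      decide (((I r.1.1.1).ports r.1.2)[r.2]? = some r.1.1.2))
    have h4 : PTF (fun r : ((γ × X) × O) × ℕ => ((I r.1.1.1).ports r.1.2)[r.2]?) := by
      refine ptf_getElemB (n := fun r : ((γ × X) × O) × ℕ => r.2)
        (l := fun r : ((γ × X) × O) × ℕ => (I r.1.1.1).ports r.1.2) PTF.snd ?_
      exact PTF.comp (g := fun q : (γ × X) × O => (I q.1.1).ports q.2) h2 PTF.fst
    exact (PTPred.eq h4 (PTF.optSome (by fun_prop))).toPTF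
  show PTF (fun q : (γ × X) × O => ((List.range ((I q.1.1).ports q.2).length).filter
      fun i => decide (((I q.1.1).ports q.2)[i]? = some q.1.2)).map fun i => (q.2, i))
  refine PTF.map h3 ?_
  show PTF (fun r : ((γ × X) × O) × ℕ => (r.1.2, r.2))
  fun_prop

omit [DecidableEq O] [DecidableEq X] in
theorem ptf_mvars (hports : PTF (fun p : γ × O => (I p.1).ports p.2)) :
    PTF (fun p : γ × O × ℕ × ℕ => (I p.1).mvars p.2.1 p.2.2.1 p.2.2.2) := by
  have h1 : PTF (fun p : γ × O × ℕ × ℕ => (I p.1).ports p.2.1) :=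
    PTF.comp (g := fun p : γ × O => (I p.1).ports p.2)
      (f := fun p : γ × O × ℕ × ℕ => (p.1, p.2.1)) hports (by fun_prop)
  have h2 : PTF (fun p : γ × O × ℕ × ℕ => ((I p.1).ports p.2.1)[p.2.2.1]?) :=
    ptf_getElemB (n := fun p : γ × O × ℕ × ℕ => p.2.2.1)
      (l := fun p : γ × O × ℕ × ℕ => (I p.1).ports p.2.1) (by fun_prop) h1
  have h3 : PTF (fun p : γ × O × ℕ × ℕ =>
      (((I p.1).ports p.2.1).eraseIdx p.2.2.1).drop p.2.2.2) :=
    ptf_dropB (n := fun p : γ × O × ℕ × ℕ => p.2.2.2) (by fun_prop)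
      (ptf_eraseIdxB (n := fun p : γ × O × ℕ × ℕ => p.2.2.1) (by fun_prop) h1)
  refine (PTF.optionCasesOn (s := fun p : γ × O × ℕ × ℕ => ((I p.1).ports p.2.1)[p.2.2.1]?)
    (f := fun p => ([] : List X))
    (g := fun p x => x :: (((I p.1).ports p.2.1).eraseIdx p.2.2.1).drop p.2.2.2) h2
    (PTF.const []) ?_).of_eq fun p => ?_
  · refine PTF.listCons PTF.snd ?_
    exact PTF.comp (g := fun p : γ × O × ℕ × ℕ =>
      (((I p.1).ports p.2.1).eraseIdx p.2.2.1).drop p.2.2.2) h3 PTF.fst
  · unfold XI.mvars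
    cases ((I p.1).ports p.2.1)[p.2.2.1]? <;> rfl

variable (hobjs : PTF (fun d => (I d).objs)) (hvl : PTF (fun d => (I d).vl))
    (hports : PTF (fun p : γ × O => (I p.1).ports p.2))

omit [DecidableEq O] in
include hobjs hvl hports in
theorem ptf_baseS_cls : PTF (fun d => (baseS (I d)).cls) := by
  have hlen : PTU (fun p : γ × O => ((I p.1).ports p.2).length) := PTU.length hports
  refine PTF.append (PTF.append (PTF.append ?_ ?_) ?_) ?_
  · refine ptf_objMap2 (n := fun d u => ((I d).ports u).length)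
      (m := fun d u => ((I d).ports u).length)
      (f := fun d u i l => (Sum.inl (u, i, l) : CB O X)) hobjs hlen hlen ?_
    exact PTF.inl PTF.snd
  · refine ptf_objMap (n := fun d u => ((I d).ports u).length)
      (f := fun d u i => (Sum.inr (Sum.inl (u, i)) : CB O X)) hobjs hlen ?_
    exact PTF.inr (PTF.inl PTF.snd)
  · refine PTF.map hvl ?_
    show PTF (fun q : γ × X => (Sum.inr (Sum.inr (Sum.inl q.2)) : CB O X))
    exact PTF.inr (PTF.inr (PTF.inl PTF.snd))
  · refine PTF.map hvl ?_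
    show PTF (fun q : γ × X => (Sum.inr (Sum.inr (Sum.inr q.2)) : CB O X))
    exact PTF.inr (PTF.inr (PTF.inr PTF.snd))

omit [DecidableEq O] in
include hobjs hvl hports in
theorem ptf_baseS_es : PTF (fun d => (baseS (I d)).es) := by
  have hlen : PTU (fun p : γ × O => ((I p.1).ports p.2).length) := PTU.length hports
  have hlen1 : PTU (fun p : γ × O => ((I p.1).ports p.2).length - 1) :=
    PTU.sub hlen (PTU.const 1)
  have hocc : PTF (fun p : γ × X => (I p.1).occ p.2) := ptf_occ hobjs hports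
  refine PTF.append (PTF.append (PTF.append (PTF.append (PTF.append (PTF.append ?_ ?_) ?_) ?_) ?_)
    ?_) ?_
  · refine ptf_objMap (n := fun d u => ((I d).ports u).length - 1)
      (f := fun d u i => ((Sum.inl (u, i, 0), Sum.inl (u, i + 1, 0)) : CB O X × CB O X))
      hobjs hlen1 ?_
    exact PTF.prodMk (PTF.inl (by fun_prop)) (PTF.inl (by fun_prop))
  · refine ptf_objMap2 (n := fun d u => ((I d).ports u).length)
      (m := fun d u => ((I d).ports u).length - 1)
      (f := fun d u i l => ((Sum.inl (u, i, l), Sum.inl (u, i, l + 1)) : CB O X × CB O X))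
      hobjs hlen hlen1 ?_
    exact PTF.prodMk (PTF.inl (by fun_prop)) (PTF.inl (by fun_prop))
  · refine ptf_objMap (n := fun d u => ((I d).ports u).length)
      (f := fun d u i => ((Sum.inl (u, i, ((I d).ports u).length - 1), Sum.inr (Sum.inl (u, i))) :
        CB O X × CB O X)) hobjs hlen ?_
    have h1 : PTF (fun p : γ × O × ℕ => ((I p.1).ports p.2.1).length - 1) :=
      PTF.comp (g := fun p : γ × O => ((I p.1).ports p.2).length - 1)
        (f := fun p : γ × O × ℕ => (p.1, p.2.1)) hlen1.toPTF (by fun_prop)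
    exact PTF.prodMk (PTF.inl (PTF.prodMk (by fun_prop) (PTF.prodMk (by fun_prop) h1)))
      (PTF.inr (PTF.inl (by fun_prop)))
  · refine PTF.flatMap hvl ?_
    show PTF (fun q : γ × X => (((I q.1).occ q.2).zip ((I q.1).occ q.2).tail).map fun o =>
      ((Sum.inr (Sum.inl o.1), Sum.inr (Sum.inl o.2)) : CB O X × CB O X))
    refine PTF.map (PTF.zip hocc (PTF.tail hocc)) ?_
    show PTF (fun q : (γ × X) × ((O × ℕ) × (O × ℕ)) =>
      ((Sum.inr (Sum.inl q.2.1), Sum.inr (Sum.inl q.2.2)) : CB O X × CB O X))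
    exact PTF.prodMk (PTF.inr (PTF.inl (by fun_prop))) (PTF.inr (PTF.inl (by fun_prop)))
  · refine PTF.flatMap hvl ?_
    show PTF (fun q : γ × X => (((I q.1).occ q.2).take 1).map fun o =>
      ((Sum.inr (Sum.inl o), Sum.inr (Sum.inr (Sum.inl q.2))) : CB O X × CB O X))
    refine PTF.map (PTF.take (PTU.const 1) hocc) ?_
    show PTF (fun q : (γ × X) × (O × ℕ) =>
      ((Sum.inr (Sum.inl q.2), Sum.inr (Sum.inr (Sum.inl q.1.2))) : CB O X × CB O X))
    exact PTF.prodMk (PTF.inr (PTF.inl (by fun_prop)))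
      (PTF.inr (PTF.inr (PTF.inl (by fun_prop))))
  · refine PTF.map hvl ?_
    show PTF (fun q : γ × X =>
      ((Sum.inr (Sum.inr (Sum.inl q.2)), Sum.inr (Sum.inr (Sum.inr q.2))) : CB O X × CB O X))
    exact PTF.prodMk (PTF.inr (PTF.inr (PTF.inl (by fun_prop))))
      (PTF.inr (PTF.inr (PTF.inr (by fun_prop))))
  · refine PTF.map (PTF.zip hvl (PTF.tail hvl)) ?_
    show PTF (fun q : γ × (X × X) =>
      ((Sum.inr (Sum.inr (Sum.inr q.2.1)), Sum.inr (Sum.inr (Sum.inr q.2.2))) :
        CB O X × CB O X))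
    exact PTF.prodMk (PTF.inr (PTF.inr (PTF.inr (by fun_prop))))
      (PTF.inr (PTF.inr (PTF.inr (by fun_prop))))

omit [DecidableEq O] in
include hports in
theorem ptf_baseS_vars : PTF (fun p : γ × CB O X => (baseS (I p.1)).vars p.2) := by
  refine ptf_sum (f := fun (d : γ) (c : CB O X) => (baseS (I d)).vars c) ?_ ?_
  · show PTF (fun p : γ × (O × ℕ × ℕ) =>
      if p.2.2.2 = 0 then (I p.1).ports p.2.1 else (I p.1).mvars p.2.1 p.2.2.1 p.2.2.2)
    refine PTF.ite (PTPred.natEq (by fun_prop) (by fun_prop)) ?_ (ptf_mvars hports)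
    exact PTF.comp (g := fun p : γ × O => (I p.1).ports p.2)
      (f := fun p : γ × O × ℕ × ℕ => (p.1, p.2.1)) hports (by fun_prop)
  · refine ptf_sum (f := fun (d : γ) (c : (O × ℕ) ⊕ (X ⊕ X)) =>
      (baseS (I d)).vars (Sum.inr c)) ?_ ?_
    · have h1 : PTF (fun p : γ × (O × ℕ) => ((I p.1).ports p.2.1)[p.2.2]?) := by
        refine ptf_getElemB (n := fun p : γ × (O × ℕ) => p.2.2)
          (l := fun p : γ × (O × ℕ) => (I p.1).ports p.2.1) (by fun_prop) ?_
        exact PTF.comp (g := fun p : γ × O => (I p.1).ports p.2)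
          (f := fun p : γ × (O × ℕ) => (p.1, p.2.1)) hports (by fun_prop)
      refine (PTF.optionCasesOn (s := fun p : γ × (O × ℕ) => ((I p.1).ports p.2.1)[p.2.2]?)
        (f := fun p => ([] : List X)) (g := fun p x => [x]) h1 (PTF.const []) ?_).of_eq fun p => ?_
      · exact PTF.listCons PTF.snd (PTF.const [])
      · show _ = (match ((I p.1).ports p.2.1)[p.2.2]? with
          | some x => [x]
          | none => [])
        cases ((I p.1).ports p.2.1)[p.2.2]? <;> rfl
    · exact PTF.const []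

omit [DecidableEq O] in
theorem ptf_baseS_con : PTF (fun p : γ × CB O X => (baseS (I p.1)).con p.2) := by
  refine ptf_sum (f := fun (d : γ) (c : CB O X) => (baseS (I d)).con c) ?_ ?_
  · show PTF (fun p : γ × (O × ℕ × ℕ) => decide (p.2.2.2 = 0))
    exact (PTPred.natEq (by fun_prop) (by fun_prop)).toPTF
  · exact PTF.const false

omit [PTCode O] [PTCode X] [DecidableEq O] in
theorem length_baseS_vars (K : ℕ) (hK : 1 ≤ K) (J : XI O X)
    (h : ∀ u, (J.ports u).length ≤ K) (c : CB O X) : ((baseS J).vars c).length ≤ K := by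
  rcases c with ⟨u, i, l⟩ | ⟨u, i⟩ | x | x
  · show (if l = 0 then J.ports u else J.mvars u i l).length ≤ K
    split_ifs
    · exact h u
    · unfold XI.mvars
      cases hx : (J.ports u)[i]? with
      | none => exact Nat.zero_le _
      | some x =>
        have h1 : i < (J.ports u).length := by
          by_contra hc
          rw [List.getElem?_eq_none (by omega)] at hx
          cases hx
        have h2 := h u
        simp only [List.length_cons, List.length_drop, List.length_eraseIdx, if_pos h1]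
        omega
  · show (match (J.ports u)[i]? with
      | some x => [x]
      | none => []).length ≤ K
    cases (J.ports u)[i]? with
    | none => exact Nat.zero_le _
    | some x => exact hK
  · exact Nat.zero_le _
  · exact Nat.zero_le _

include hobjs hvl hports in
/-- the subcubic encoding -/
theorem ptf_encS (K : ℕ) (hK : 1 ≤ K) {b : γ → O → Bool}
    (hb' : ∀ d u, ((I d).ports u).length ≤ K) (hb : PTF (fun p : γ × O => b p.1 p.2)) :
    PTF (fun d => (encS (I d)).code (bS (I d) (b d))) := by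
  refine ptf_subdiv (G := fun d => baseS (I d)) (b := fun d => bB (b d)) K
    (fun d c => length_baseS_vars K hK (I d) (hb' d) c) (ptf_baseS_cls hobjs hvl hports)
    (ptf_baseS_vars hports) ptf_baseS_con (ptf_baseS_es hobjs hvl hports) ?_
  refine ptf_sum (f := fun (d : γ) (c : CB O X) => bB (b d) c) ?_ ?_
  · show PTF (fun p : γ × (O × ℕ × ℕ) => b p.1 p.2.1)
    exact PTF.comp (g := fun p : γ × O => b p.1 p.2)
      (f := fun p : γ × O × ℕ × ℕ => (p.1, p.2.1)) hb (by fun_prop)
  · exact PTF.const false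

end encS

end Crest.Agent.R290
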