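import Crest.Agent.R290.Defs
import Crest.Agent.Lib.PT.ListFns2

/-!
# Row 290, module GEN: auxiliary poly-time list functions
-/

set_option autoImplicit false
set_option linter.dupNamespace false

namespace Crest.Agent.R290

open Crest.Agent.Lib.PT

instance lawfulBEqSum {O X : Type} [DecidableEq O] [DecidableEq X] : LawfulBEq (O ⊕ X) where
  eq_of_beq {a b} h := by
    rcases a with a | a <;> rcases b with b | b
    · have h' : (a == b) = true := h
      rw [eq_of_beq h']
    · exact absurd h (by intro h; cases h)
    · exact absurd h (by intro h; cases h)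
    · have h' : (a == b) = true := h
      rw [eq_of_beq h']
  rfl {a} := by
    rcases a with a | a
    · show (a == a) = true
      simp
    · show (a == a) = true
      simp

section lib

variable {γ α β δ : Type} [PTCode γ] [PTCode α] [PTCode β] [PTCode δ]

/-- element access, binary index -/
theorem ptf_getElemB {n : γ → ℕ} {l : γ → List α} (hn : PTF n) (hl : PTF l) :
    PTF (fun c => (l c)[n c]?) := by
  refine (PTF.getElem? (PTF.natMinUn hn (PTU.length hl)) hl).of_eq fun c => ?_
  rcases le_total (n c) (l c).length with h | h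
  · rw [min_eq_left h]
  · rw [min_eq_right h, List.getElem?_eq_none le_rfl, List.getElem?_eq_none h]

theorem ptf_getDB {n : γ → ℕ} {l : γ → List α} {d : γ → α} (hn : PTF n) (hl : PTF l)
    (hd : PTF d) : PTF (fun c => (l c).getD (n c) (d c)) := by
  refine PTF.of_eq (PTF.optionGetD (ptf_getElemB hn hl) hd) (fun c => ?_)
  rw [List.getD_eq_getElem?_getD]

theorem ptf_dropB {n : γ → ℕ} {l : γ → List α} (hn : PTF n) (hl : PTF l) :
    PTF (fun c => (l c).drop (n c)) := by
  refine (PTF.drop (PTF.natMinUn hn (PTU.length hl)) hl).of_eq fun c => ?_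
  rcases le_total (n c) (l c).length with h | h
  · rw [min_eq_left h]
  · rw [min_eq_right h, List.drop_of_length_le le_rfl, List.drop_of_length_le h]

theorem ptf_takeB {n : γ → ℕ} {l : γ → List α} (hn : PTF n) (hl : PTF l) :
    PTF (fun c => (l c).take (n c)) := by
  refine (PTF.take (PTF.natMinUn hn (PTU.length hl)) hl).of_eq fun c => ?_
  rcases le_total (n c) (l c).length with h | h
  · rw [min_eq_left h]
  · rw [min_eq_right h, List.take_of_length_le le_rfl, List.take_of_length_le h]

theorem ptf_eraseIdxB {n : γ → ℕ} {l : γ → List α} (hn : PTF n) (hl : PTF l) :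
    PTF (fun c => (l c).eraseIdx (n c)) := by
  refine (PTF.append (ptf_takeB hn hl)
    (ptf_dropB (PTF.natAdd hn (PTF.const 1)) hl)).of_eq fun c => ?_
  rw [List.eraseIdx_eq_take_drop_succ]

omit [PTCode α] in
theorem idxOf_eq_takeWhile [BEq α] (a : α) (l : List α) :
    l.idxOf a = (l.takeWhile (fun x => !(x == a))).length := by
  induction l with
  | nil => rfl
  | cons b l ih =>
    rw [List.idxOf_cons, List.takeWhile_cons]
    cases h : (b == a) <;> simp [ih]

theorem ptu_idxOf [BEq α] [LawfulBEq α] {l : γ → List α} {a : γ → α} (hl : PTF l) (ha : PTF a) :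
    PTU (fun c => (l c).idxOf (a c)) := by
  classical
  have h1 : PTF (fun c => (l c).takeWhile (fun x => !(decide (x = a c)))) := by
    refine PTF.takeWhile hl ?_
    show PTF (fun q : γ × α => !(decide (q.2 = a q.1)))
    exact PTF.not (PTPred.eq PTF.snd (PTF.comp ha PTF.fst)).toPTF
  refine (PTU.length h1).of_eq fun c => ?_
  rw [idxOf_eq_takeWhile]
  congr 2
  funext x
  rw [Bool.eq_iff_iff]
  simp

theorem ptf_idxOf [BEq α] [LawfulBEq α] {l : γ → List α} {a : γ → α} (hl : PTF l) (ha : PTF a) :
    PTF (fun c => (l c).idxOf (a c)) := (ptu_idxOf hl ha).toPTF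

theorem ptf_decideMem [DecidableEq α] {l : γ → List α} {a : γ → α} (ha : PTF a) (hl : PTF l) :
    PTF (fun c => decide (a c ∈ l c)) := (PTPred.mem ha hl).toPTF

theorem ptf_boolSum {l : γ → List Bool} (hl : PTF l) : PTF (fun c => (l c).sum) := by
  have h1 : PTF (fun c => (l c).foldl (fun b a => Bool.xor b a) false) := by
    refine PTF.foldl_bdd (f := fun _ a b => Bool.xor a b) (G := fun _ => 1) hl ?_ (PTF.const false)
      (PB.const 1) ?_ ?_
    · fun_prop
    · intro c b a _ _; simp
    · intro c; simp
  refine h1.of_eq fun c => ?_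
  have key : ∀ (l : List Bool) (b : Bool), l.foldl (fun b a => Bool.xor b a) b = b + l.sum := by
    intro l
    induction l with
    | nil => intro b; simp
    | cons a l ih => intro b; rw [List.foldl_cons, ih, List.sum_cons, ← add_assoc]; rfl
  rw [key, zero_add_bool]
where
  zero_add_bool {b : Bool} : false + b = b := by cases b <;> rfl

theorem ptf_dd [DecidableEq α] {l : γ → List α} (hl : PTF l) : PTF (fun c => Net.dd (l c)) := by
  unfold Net.dd
  refine PTF.foldr_add (f := fun (_ : γ) (a : α) (acc : List α) => if a ∈ acc then acc else a :: acc)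
    (b := fun _ => []) (G := fun c => 2 * sz (l c) + 1) hl ?_ (PTF.const []) ?_ ?_
  · show PTF (fun p : γ × α × List α => if p.2.1 ∈ p.2.2 then p.2.2 else p.2.1 :: p.2.2)
    exact PTF.ite (PTPred.mem (by fun_prop) (by fun_prop)) (by fun_prop) (by fun_prop)
  · have := hl.sz
    fun_prop
  · intro c b a ha
    have := sz_mem_le ha
    split_ifs
    · omega
    · rw [sz_cons]; omega

theorem ptf_zipIdx {l : γ → List α} (hl : PTF l) : PTF (fun c => (l c).zipIdx) := by
  refine (PTF.zip hl (PTF.range (PTU.length hl))).of_eq fun c => ?_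
  rw [List.zipIdx_eq_zip_range', List.range_eq_range']

/-- `bools` up to a constant length -/
theorem ptf_bools (K : ℕ) {n : γ → ℕ} (hn : PTU n) :
    PTF (fun c => if n c ≤ K then bools (n c) else []) := by
  refine (PTF.getD (n := n) (l := fun _ => (List.range (K + 1)).map bools) (d := fun _ => []) hn
    (PTF.const _) (PTF.const _)).of_eq fun c => ?_
  rw [List.getD_eq_getElem?_getD]
  split_ifs with h
  · simp [List.getElem?_range (Nat.lt_succ_of_le h)]
  · rw [List.getElem?_eq_none (by simp; omega)]
    rfl

end lib

end Crest.Agent.R290
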