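import Crest.Agent.R290.GenEncS

/-!
# Row 290, module GEN: objects, ports and variables of a network are poly-time
-/

set_option autoImplicit false
set_option linter.dupNamespace false

namespace Crest.Agent.R290

open Crest.Agent.Lib.PT

section net

variable {γ H Λ : Type} [PTCode γ] [PTCode H] [PTCode Λ]

/-- poly-time presented networks -/
structure PTNet (N : γ → Net H Λ) : Prop where
  m : PTU (fun d => (N d).m)
  nG : PTU (fun d => (N d).nG)
  gt : PTF (fun d => (N d).gt)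
  narm : PTU (fun p : γ × ℕ => (N p.1).narm p.2)
  hub : PTF (fun p : γ × ℕ × ℕ => (N p.1).hub p.2.1 p.2.2)
  proj : PTF (fun p : γ × ℕ × ℕ × Λ => (N p.1).proj p.2.1 p.2.2.1 p.2.2.2)
  lett : PTF (fun p : γ × ℕ × ℕ => (N p.1).lett p.2.1 p.2.2)

variable {N : γ → Net H Λ}

theorem PTNet.L (h : PTNet N) : PTU (fun d => (N d).L) := PTU.add h.m (PTU.const 2)

theorem PTNet.cols (h : PTNet N) : PTF (fun p : γ × ℕ => (N p.1).cols p.2) := by
  unfold Net.cols
  refine PTF.listCons (by fun_prop) ?_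
  refine PTF.flatMap (PTF.range h.narm) ?_
  show PTF (fun q : (γ × ℕ) × ℕ => (List.range (N q.1.1).L).map fun p => (q.1.2, q.2, p + 1))
  have hL : PTU (fun q : (γ × ℕ) × ℕ => (N q.1.1).L) :=
    PTU.comp (n := fun d => (N d).L) (f := fun q : (γ × ℕ) × ℕ => q.1.1) h.L (by fun_prop)
  refine PTF.map (PTF.range hL) ?_
  show PTF (fun r : ((γ × ℕ) × ℕ) × ℕ => (r.1.1.2, r.1.2, r.2 + 1))
  fun_prop

theorem PTNet.edges (h : PTNet N) : PTF (fun p : γ × Col => (N p.1).edges p.2) := by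
  unfold Net.edges
  refine PTF.ite (PTPred.natEq (by fun_prop) (by fun_prop)) ?_ ?_
  · have h1 : PTU (fun p : γ × Col => (N p.1).narm p.2.1) :=
      PTU.comp (n := fun p : γ × ℕ => (N p.1).narm p.2)
        (f := fun p : γ × Col => (p.1, p.2.1)) h.narm (by fun_prop)
    refine PTF.map (PTF.range h1) ?_
    show PTF (fun q : (γ × Col) × ℕ => (Sum.inr (q.1.2.1, q.2, 1) : Edge H))
    exact PTF.inr (by fun_prop)
  · refine PTF.listCons (PTF.inr (by fun_prop)) (PTF.listCons ?_ (PTF.const []))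
    have hL : PTF (fun q : γ × Col => (N q.1).L) :=
      (PTU.comp (n := fun d => (N d).L) (f := fun q : γ × Col => q.1) h.L (by fun_prop)).toPTF
    refine PTF.ite (PTPred.natLt (by fun_prop) hL) (PTF.inr (by fun_prop)) (PTF.inl ?_)
    exact PTF.comp (g := fun p : γ × ℕ × ℕ => (N p.1).hub p.2.1 p.2.2)
      (f := fun p : γ × Col => (p.1, p.2.1, p.2.2.1)) h.hub (by fun_prop)

theorem PTNet.psi (h : PTNet N) :
    PTF (fun p : γ × (Col × Edge H × Λ) => (N p.1).psi p.2.1 p.2.2.1 p.2.2.2) := by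
  refine (PTF.sumCasesOn (s := fun p : γ × (Col × Edge H × Λ) => p.2.2.1)
    (f := fun p _ => (N p.1).proj p.2.1.1 p.2.1.2.1 p.2.2.2) (g := fun p _ => p.2.2.2)
    (by fun_prop) ?_ ?_).of_eq fun p => ?_
  · exact PTF.comp (g := fun p : γ × ℕ × ℕ × Λ => (N p.1).proj p.2.1 p.2.2.1 p.2.2.2)
      (f := fun q : (γ × (Col × Edge H × Λ)) × H =>
        (q.1.1, q.1.2.1.1, q.1.2.1.2.1, q.1.2.2.2)) h.proj (by fun_prop)
  · show PTF (fun q : (γ × (Col × Edge H × Λ)) × (ℕ × ℕ × ℕ) => q.1.2.2.2)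
    fun_prop
  · rcases p with ⟨d, κ, e | e, x⟩ <;> rfl

theorem PTNet.ports (h : PTNet N) : PTF (fun p : γ × NObj Λ => (N p.1).ports p.2) := by
  unfold Net.ports
  have h1 : PTF (fun p : γ × NObj Λ => (N p.1).edges p.2.1) :=
    PTF.comp (g := fun p : γ × Col => (N p.1).edges p.2)
      (f := fun p : γ × NObj Λ => (p.1, p.2.1)) h.edges (by fun_prop)
  have hm : PTF (fun p : γ × NObj Λ => (N p.1).m) :=
    (PTU.comp (n := fun d => (N d).m) (f := fun q : γ × NObj Λ => q.1) h.m PTF.fst).toPTF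
  refine PTF.append (PTF.map h1 ?_) (PTF.append ?_ ?_)
  · show PTF (fun q : (γ × NObj Λ) × Edge H => (Sum.inl (q.2, q.1.2.2.1,
      (N q.1.1).psi q.1.2.1 q.2 q.1.2.2.2.1, (N q.1.1).psi q.1.2.1 q.2 q.1.2.2.2.2) : NVar H Λ))
    have h2 : PTF (fun q : (γ × NObj Λ) × Edge H =>
        (N q.1.1).psi q.1.2.1 q.2 q.1.2.2.2.1) :=
      PTF.comp (g := fun p : γ × (Col × Edge H × Λ) => (N p.1).psi p.2.1 p.2.2.1 p.2.2.2)
        (f := fun q : (γ × NObj Λ) × Edge H => (q.1.1, q.1.2.1, q.2, q.1.2.2.2.1)) h.psi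
        (by fun_prop)
    have h3 : PTF (fun q : (γ × NObj Λ) × Edge H =>
        (N q.1.1).psi q.1.2.1 q.2 q.1.2.2.2.2) :=
      PTF.comp (g := fun p : γ × (Col × Edge H × Λ) => (N p.1).psi p.2.1 p.2.2.1 p.2.2.2)
        (f := fun q : (γ × NObj Λ) × Edge H => (q.1.1, q.1.2.1, q.2, q.1.2.2.2.2)) h.psi
        (by fun_prop)
    exact PTF.inl (PTF.prodMk (by fun_prop) (PTF.prodMk (by fun_prop) (PTF.prodMk h2 h3)))
  · refine PTF.ite (PTPred.natLt (by fun_prop) (by fun_prop)) ?_ (PTF.const [])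
    exact PTF.listCons (PTF.inr (by fun_prop)) (PTF.const [])
  · refine PTF.ite (PTPred.natLt (by fun_prop) hm) ?_ (PTF.const [])
    exact PTF.listCons (PTF.inr (by fun_prop)) (PTF.const [])

theorem PTNet.objs (h : PTNet N) : PTF (fun d => (N d).objs) := by
  unfold Net.objs
  refine PTF.flatMap (PTF.range h.nG) ?_
  show PTF (fun q : γ × ℕ => ((N q.1).cols q.2).flatMap fun κ =>
    (List.range (N q.1).m).flatMap fun i => ((N q.1).lett q.2 i).flatMap fun x =>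
      ((N q.1).lett q.2 (i + 1)).map fun y => (κ, i, x, y))
  refine PTF.flatMap h.cols ?_
  show PTF (fun q : (γ × ℕ) × Col =>
    (List.range (N q.1.1).m).flatMap fun i => ((N q.1.1).lett q.1.2 i).flatMap fun x =>
      ((N q.1.1).lett q.1.2 (i + 1)).map fun y => (q.2, i, x, y))
  have hm : PTU (fun q : (γ × ℕ) × Col => (N q.1.1).m) :=
    PTU.comp (n := fun d => (N d).m) (f := fun q : (γ × ℕ) × Col => q.1.1) h.m (by fun_prop)
  refine PTF.flatMap (PTF.range hm) ?_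
  show PTF (fun r : ((γ × ℕ) × Col) × ℕ => ((N r.1.1.1).lett r.1.1.2 r.2).flatMap fun x =>
      ((N r.1.1.1).lett r.1.1.2 (r.2 + 1)).map fun y => (r.1.2, r.2, x, y))
  have hl1 : PTF (fun r : ((γ × ℕ) × Col) × ℕ => (N r.1.1.1).lett r.1.1.2 r.2) :=
    PTF.comp (g := fun p : γ × ℕ × ℕ => (N p.1).lett p.2.1 p.2.2)
      (f := fun r : ((γ × ℕ) × Col) × ℕ => (r.1.1.1, r.1.1.2, r.2)) h.lett (by fun_prop)
  refine PTF.flatMap hl1 ?_
  show PTF (fun s : (((γ × ℕ) × Col) × ℕ) × Λ =>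
      ((N s.1.1.1.1).lett s.1.1.1.2 (s.1.2 + 1)).map fun y => (s.1.1.2, s.1.2, s.2, y))
  have hl2 : PTF (fun s : (((γ × ℕ) × Col) × ℕ) × Λ =>
      (N s.1.1.1.1).lett s.1.1.1.2 (s.1.2 + 1)) :=
    PTF.comp (g := fun p : γ × ℕ × ℕ => (N p.1).lett p.2.1 p.2.2)
      (f := fun s : (((γ × ℕ) × Col) × ℕ) × Λ => (s.1.1.1.1, s.1.1.1.2, s.1.2 + 1)) h.lett
      (by fun_prop)
  refine PTF.map hl2 ?_
  show PTF (fun t : ((((γ × ℕ) × Col) × ℕ) × Λ) × Λ => (t.1.1.1.2, t.1.1.2, t.1.2, t.2))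
  fun_prop

theorem PTNet.vl [DecidableEq H] [DecidableEq Λ] (h : PTNet N) :
    PTF (fun d => (N d).xi.vl) := by
  show PTF (fun d => Net.dd ((N d).objs.flatMap (N d).ports))
  exact ptf_dd (PTF.flatMap h.objs h.ports)

theorem PTNet.beta [DecidableEq H] [DecidableEq Λ] (h : PTNet N) :
    PTF (fun p : γ × NObj Λ => (N p.1).beta p.2) := by
  unfold Net.beta
  have hgt : PTF (fun p : γ × NObj Λ => (N p.1).gt) :=
    PTF.comp (g := fun d => (N d).gt) h.gt PTF.fst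
  have hm : PTF (fun p : γ × NObj Λ => (N p.1).m) :=
    (PTU.comp (n := fun d => (N d).m) (f := fun q : γ × NObj Λ => q.1) h.m PTF.fst).toPTF
  refine (PTPred.and (PTPred.eq (by fun_prop) (PTF.prodMk hgt (PTF.const (0, 0))))
    (PTPred.natEq (by fun_prop) hm)).toPTF

end net

end Crest.Agent.R290
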