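import Crest.Agent.R290.GenNet

/-!
# Row 290, module GEN: rule networks and the rules of flat programs are poly-time
-/

set_option autoImplicit false
set_option linter.dupNamespace false

namespace Crest.Agent.R290

open Crest.Agent.Lib.PT

section rules

variable {γ : Type} [PTCode γ]

theorem ptf_sel {c : γ → ℕ} {q : γ → ℕ × ℕ × ℕ × ℕ} (hc : PTF c) (hq : PTF q) :
    PTF (fun d => sel (c d) (q d)) := by
  unfold sel
  refine PTF.ite (PTPred.natEq hc (PTF.const 1)) (by fun_prop) ?_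
  refine PTF.ite (PTPred.natEq hc (PTF.const 2)) (by fun_prop) ?_
  refine PTF.ite (PTPred.natEq hc (PTF.const 3)) (by fun_prop) ?_
  exact PTF.ite (PTPred.natEq hc (PTF.const 4)) (by fun_prop) (PTF.const 0)

theorem ptf_atomUsesT : PTF Atom.usesT := by
  unfold Atom.usesT
  exact (PTPred.or (PTPred.natEq (by fun_prop) (by fun_prop))
    (PTPred.natEq (by fun_prop) (by fun_prop))).toPTF

theorem ptf_ruleUsesT : PTF Rule.usesT := by
  unfold Rule.usesT
  refine PTF.or (PTF.any PTF.fst ?_) (PTF.comp ptf_atomUsesT PTF.snd)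
  exact PTF.comp ptf_atomUsesT PTF.snd

theorem ptf_arms : PTF Rule.arms := by
  unfold Rule.arms
  refine PTF.append (PTF.flatMap PTF.fst ?_) (PTF.listCons PTF.snd (PTF.const []))
  show PTF (fun q : Rule × Atom => [q.2, q.2])
  fun_prop

theorem ptf_gadgets {rs : γ → List Rule} {D : γ → ℕ} (hrs : PTF rs) (hD : PTU D) :
    PTF (fun d => gadgets (rs d) (D d)) := by
  unfold gadgets
  refine PTF.append (PTF.flatMap hrs ?_) (PTF.const _)
  show PTF (fun q : γ × Rule => if Rule.usesT q.2 = true then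
    (List.range (D q.1)).map (fun f => (q.2, f + 1)) else [(q.2, 0)])
  refine PTF.ite (PTF.toPTPred (PTF.comp ptf_ruleUsesT PTF.snd)) ?_ ?_
  · refine PTF.map (PTF.range (PTU.comp hD PTF.fst)) ?_
    show PTF (fun q : (γ × Rule) × ℕ => (q.1.2, q.2 + 1))
    fun_prop
  · exact PTF.listCons (PTF.prodMk PTF.snd (PTF.const 0)) (PTF.const [])

theorem ptf_letters {B D : γ → ℕ} {f j : γ → ℕ} (hB : PTU B) (hD : PTU D) (hf : PTF f)
    (hj : PTF j) : PTF (fun d => letters (B d) (D d) (f d) (j d)) := by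
  unfold letters
  refine PTF.ite (PTPred.or (PTPred.natEq hj (PTF.const 0)) (PTPred.natLt hD.toPTF hj))
    (PTF.const _) ?_
  have h1 : PTF (fun d => if f d = 0 then (List.range (B d)).map fun d => (d, 0)
      else if j d < f d then [(B d - 1, 0)]
      else if j d = f d then (List.range (B d - 1)).map fun d => (d, d + 1)
      else (List.range (B d)).map fun d => (d, d)) := by
    refine PTF.ite (PTPred.natEq hf (PTF.const 0)) (PTF.map (PTF.range hB) ?_) ?_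
    · show PTF (fun q : γ × ℕ => (q.2, 0))
      fun_prop
    refine PTF.ite (PTPred.natLt hj hf)
      (PTF.listCons (PTF.prodMk (PTF.natSub hB.toPTF (PTF.const 1)) (PTF.const 0)) (PTF.const []))
      ?_
    refine PTF.ite (PTPred.natEq hj hf)
      (PTF.map (PTF.range (PTU.sub hB (PTU.const 1))) ?_) (PTF.map (PTF.range hB) ?_)
    · show PTF (fun q : γ × ℕ => (q.2, q.2 + 1))
      fun_prop
    · show PTF (fun q : γ × ℕ => (q.2, q.2))
      fun_prop
  refine PTF.flatMap h1 ?_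
  show PTF (fun q : γ × (ℕ × ℕ) => (List.range (B q.1)).flatMap fun a =>
    (List.range (B q.1)).map fun c => (q.2.1, q.2.2, a, c))
  refine PTF.flatMap (PTF.range (PTU.comp hB PTF.fst)) ?_
  show PTF (fun r : (γ × (ℕ × ℕ)) × ℕ =>
    (List.range (B r.1.1)).map fun c => (r.1.2.1, r.1.2.2, r.2, c))
  have h2 : PTU (fun r : (γ × (ℕ × ℕ)) × ℕ => B r.1.1) :=
    PTU.comp (n := B) (f := fun r : (γ × (ℕ × ℕ)) × ℕ => r.1.1) hB (by fun_prop)
  refine PTF.map (PTF.range h2) ?_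
  show PTF (fun s : ((γ × (ℕ × ℕ)) × ℕ) × ℕ => (s.1.1.2.1, s.1.1.2.2, s.1.2, s.2))
  fun_prop

theorem ptNet_ruleNet {rs : γ → List Rule} {B D : γ → ℕ} (hrs : PTF rs) (hB : PTU B)
    (hD : PTU D) : PTNet (fun d => ruleNet (rs d) (B d) (D d)) := by
  have hg := ptf_gadgets hrs hD
  have hget : PTF (fun p : γ × ℕ => (gadgets (rs p.1) (D p.1)).getD p.2 (tgtRule, 0)) :=
    ptf_getDB PTF.snd (PTF.comp (g := fun d => gadgets (rs d) (D d)) hg PTF.fst) (PTF.const _)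
  have harms : PTF (fun p : γ × ℕ =>
      Rule.arms ((gadgets (rs p.1) (D p.1)).getD p.2 (tgtRule, 0)).1) :=
    PTF.comp ptf_arms (PTF.comp PTF.fst hget)
  have harm : PTF (fun p : γ × ℕ × ℕ => armOf (rs p.1) (D p.1) p.2.1 p.2.2) := by
    unfold armOf
    refine ptf_getDB (n := fun p : γ × ℕ × ℕ => p.2.2) (by fun_prop) ?_ (PTF.const _)
    exact PTF.comp (g := fun p : γ × ℕ =>
      Rule.arms ((gadgets (rs p.1) (D p.1)).getD p.2 (tgtRule, 0)).1)
      (f := fun p : γ × ℕ × ℕ => (p.1, p.2.1)) harms (by fun_prop)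
  refine ⟨PTU.add hD (PTU.const 1), PTU.length hg,
    PTF.natSub (PTU.length hg).toPTF (PTF.const 1), PTU.length harms, PTF.comp PTF.fst harm,
    ?_, ?_⟩
  · have h1 : PTF (fun p : γ × ℕ × ℕ × Let => armOf (rs p.1) (D p.1) p.2.1 p.2.2.1) :=
      PTF.comp (g := fun p : γ × ℕ × ℕ => armOf (rs p.1) (D p.1) p.2.1 p.2.2)
        (f := fun p : γ × ℕ × ℕ × Let => (p.1, p.2.1, p.2.2.1)) harm (by fun_prop)
    have h2 : PTF (fun p : γ × ℕ × ℕ × Let => (armOf (rs p.1) (D p.1) p.2.1 p.2.2.1).2.1) :=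
      PTF.comp (g := fun a : Atom => a.2.1) (by fun_prop) h1
    have h3 : PTF (fun p : γ × ℕ × ℕ × Let => (armOf (rs p.1) (D p.1) p.2.1 p.2.2.1).2.2) :=
      PTF.comp (g := fun a : Atom => a.2.2) (by fun_prop) h1
    exact PTF.prodMk (ptf_sel h2 (by fun_prop))
      (PTF.prodMk (ptf_sel h3 (by fun_prop)) (PTF.const (0, 0)))
  · have h1 : PTF (fun p : γ × ℕ × ℕ =>
        ((gadgets (rs p.1) (D p.1)).getD p.2.1 (tgtRule, 0)).2) :=
      PTF.comp (g := fun p : γ × ℕ => ((gadgets (rs p.1) (D p.1)).getD p.2 (tgtRule, 0)).2)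
        (f := fun p : γ × ℕ × ℕ => (p.1, p.2.1)) (PTF.comp PTF.snd hget) (by fun_prop)
    exact ptf_letters (PTU.comp hB PTF.fst) (PTU.comp hD PTF.fst) h1 (by fun_prop)

/-! ### rules of flat programs -/

theorem ptf_toSum : PTF FInstr.toSum := ⟨_, PT.id, fun _ => rfl⟩

theorem ptf_finstr {δ : Type} [PTCode δ] {F : γ → FInstr → δ}
    (h1 : PTF (fun p : γ × (ℕ × Bool × ℕ) => F p.1 (.push p.2.1 p.2.2.1 p.2.2.2)))
    (h2 : PTF (fun p : γ × (ℕ × ℕ × ℕ × ℕ) => F p.1 (.pop p.2.1 p.2.2.1 p.2.2.2.1 p.2.2.2.2))) :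
    PTF (fun p : γ × FInstr => F p.1 p.2) := by
  refine (PTF.sumCasesOn (s := fun p : γ × FInstr => p.2.toSum)
    (f := fun p t => F p.1 (.push t.1 t.2.1 t.2.2))
    (g := fun p t => F p.1 (.pop t.1 t.2.1 t.2.2.1 t.2.2.2)) (PTF.comp ptf_toSum PTF.snd)
    ?_ ?_).of_eq fun p => ?_
  · exact PTF.comp (g := fun p : γ × (ℕ × Bool × ℕ) => F p.1 (.push p.2.1 p.2.2.1 p.2.2.2))
      (f := fun q : (γ × FInstr) × (ℕ × Bool × ℕ) => (q.1.1, q.2)) h1 (by fun_prop)
  · exact PTF.comp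
      (g := fun p : γ × (ℕ × ℕ × ℕ × ℕ) => F p.1 (.pop p.2.1 p.2.2.1 p.2.2.2.1 p.2.2.2.2))
      (f := fun q : (γ × FInstr) × (ℕ × ℕ × ℕ × ℕ) => (q.1.1, q.2)) h2 (by fun_prop)
  · rcases p with ⟨d, _ | _⟩ <;> rfl

theorem ptf_persist {Ks i k : γ → ℕ} (hKs : PTU Ks) (hi : PTF i) (hk : PTF k) :
    PTF (fun d => persist (Ks d) (i d) (k d)) := by
  unfold persist
  have h1 : PTF (fun d => (List.range (Ks d)).filter fun k' => decide (k' ≠ k d)) := by
    refine PTF.filter (PTF.range hKs) ?_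
    show PTF (fun q : γ × ℕ => decide (q.2 ≠ k q.1))
    exact (PTPred.not (PTPred.natEq PTF.snd (PTF.comp hk PTF.fst))).toPTF
  refine PTF.map h1 ?_
  show PTF (fun q : γ × ℕ =>
    (([((0, i q.1), 1, 0), ((1, q.2), 1, 3)], ((1, q.2), 2, 3)) : Rule))
  have h2 : PTF (fun q : γ × ℕ => i q.1) := PTF.comp hi PTF.fst
  fun_prop

theorem ptf_instrRules {Ks n i : γ → ℕ} (hKs : PTU Ks) (hn : PTF n) (hi : PTF i) :
    PTF (fun p : γ × FInstr => instrRules (Ks p.1) (n p.1) (i p.1) p.2) := by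
  refine ptf_finstr (F := fun d c => instrRules (Ks d) (n d) (i d) c) ?_ ?_
  · show PTF (fun p : γ × (ℕ × Bool × ℕ) =>
      [([((0, i p.1), 1, 0)], ((0, min p.2.2.2 (n p.1)), 2, 0)),
        ([((0, i p.1), 1, 0)], ((1, p.2.1), 2, 2)),
        ([((0, i p.1), 1, 0), ((1, p.2.1), 1, 3)], ((3, 0), 2, 3)),
        ([((0, i p.1), 1, 0)], ((2, p.2.2.1.toNat), 2, 0))] ++ persist (Ks p.1) (i p.1) p.2.1)
    have h1 : PTF (fun p : γ × (ℕ × Bool × ℕ) => i p.1) := PTF.comp hi PTF.fst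
    have h2 : PTF (fun p : γ × (ℕ × Bool × ℕ) => n p.1) := PTF.comp hn PTF.fst
    have h3 : PTF (fun p : γ × (ℕ × Bool × ℕ) => p.2.2.1.toNat) :=
      PTF.comp (g := fun b : Bool => b.toNat) (PTF.of_finite _) (by fun_prop)
    have h4 : PTF (fun p : γ × (ℕ × Bool × ℕ) => min p.2.2.2 (n p.1)) :=
      PTF.natMin (by fun_prop) h2
    refine PTF.append ?_ (ptf_persist (PTU.comp hKs PTF.fst) h1 (by fun_prop))
    fun_prop
  · show PTF (fun p : γ × (ℕ × ℕ × ℕ × ℕ) =>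
      [([((0, i p.1), 1, 0), ((1, p.2.1), 1, 0)], ((0, min p.2.2.1 (n p.1)), 2, 0)),
     ([((0, i p.1), 1, 0), ((1, p.2.1), 1, 0)], ((1, p.2.1), 2, 0)),
     ([((0, i p.1), 1, 0), ((1, p.2.1), 1, 3), ((2, 1), 3, 0)],
        ((0, min p.2.2.2.1 (n p.1)), 2, 0)),
     ([((0, i p.1), 1, 0), ((1, p.2.1), 1, 3), ((2, 0), 3, 0)],
        ((0, min p.2.2.2.2 (n p.1)), 2, 0)),
     ([((0, i p.1), 1, 0), ((1, p.2.1), 1, 3), ((3, 0), 3, 4)], ((1, p.2.1), 2, 4))] ++
        persist (Ks p.1) (i p.1) p.2.1)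
    have h1 : PTF (fun p : γ × (ℕ × ℕ × ℕ × ℕ) => i p.1) := PTF.comp hi PTF.fst
    have h2 : PTF (fun p : γ × (ℕ × ℕ × ℕ × ℕ) => n p.1) := PTF.comp hn PTF.fst
    have h4 : PTF (fun p : γ × (ℕ × ℕ × ℕ × ℕ) => min p.2.2.1 (n p.1)) :=
      PTF.natMin (by fun_prop) h2
    have h5 : PTF (fun p : γ × (ℕ × ℕ × ℕ × ℕ) => min p.2.2.2.1 (n p.1)) :=
      PTF.natMin (by fun_prop) h2
    have h6 : PTF (fun p : γ × (ℕ × ℕ × ℕ × ℕ) => min p.2.2.2.2 (n p.1)) :=
      PTF.natMin (by fun_prop) h2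
    refine PTF.append ?_ (ptf_persist (PTU.comp hKs PTF.fst) h1 (by fun_prop))
    fun_prop

theorem ptf_progRules {p : γ → Flat} {Ks : γ → ℕ} (hp : PTF p) (hKs : PTU Ks) :
    PTF (fun d => progRules (p d) (Ks d)) := by
  unfold progRules
  refine PTF.append (PTF.append (PTF.const _) (PTF.map (PTF.range hKs) ?_))
    (PTF.flatMap (ptf_zipIdx hp) ?_)
  · show PTF (fun q : γ × ℕ => (([], ((1, q.2), 0, 0)) : Rule))
    fun_prop
  · show PTF (fun q : γ × (FInstr × ℕ) =>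
      instrRules (Ks q.1) (p q.1).length q.2.2 q.2.1)
    have h1 : PTF (fun r : (γ × (FInstr × ℕ)) × FInstr =>
        instrRules (Ks r.1.1) (p r.1.1).length r.1.2.2 r.2) :=
      ptf_instrRules (γ := γ × (FInstr × ℕ)) (Ks := fun q => Ks q.1)
        (n := fun q => (p q.1).length) (i := fun q => q.2.2) (PTU.comp hKs PTF.fst)
        (PTU.comp (n := fun d => (p d).length) (PTU.length hp) PTF.fst).toPTF (by fun_prop)
    exact PTF.comp (g := fun r : (γ × (FInstr × ℕ)) × FInstr =>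
        instrRules (Ks r.1.1) (p r.1.1).length r.1.2.2 r.2)
      (f := fun q : γ × (FInstr × ℕ) => (q, q.2.1)) h1 (by fun_prop)

theorem ptf_unlock {acc : γ → Hub} {rs : γ → List Rule} (ha : PTF acc) (hrs : PTF rs) :
    PTF (fun d => unlock (acc d) (rs d)) := by
  unfold unlock hubsOf
  refine PTF.map (PTF.append (PTF.flatMap hrs ?_)
    (PTF.listCons ha (PTF.listCons (PTF.const _) (PTF.const [])))) ?_
  · show PTF (fun q : γ × Rule => (q.2.1 ++ [q.2.2]).map fun a => a.1)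
    refine PTF.map (PTF.append (by fun_prop) (by fun_prop)) ?_
    show PTF (fun q : (γ × Rule) × Atom => q.2.1)
    fun_prop
  · show PTF (fun q : γ × Hub => (([(acc q.1, 1, 0)], (q.2, 3, 4)) : Rule))
    have h1 : PTF (fun q : γ × Hub => acc q.1) := PTF.comp ha PTF.fst
    fun_prop

theorem ptf_allRules {p : γ → Flat} {Ks : γ → ℕ} (hp : PTF p) (hKs : PTU Ks) :
    PTF (fun d => allRules (p d) (Ks d)) := by
  unfold allRules
  have h1 := ptf_progRules hp hKs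
  exact PTF.append h1 (ptf_unlock (PTF.prodMk (PTF.const 0) (PTU.length hp).toPTF) h1)

theorem ptNet_progNet {p : γ → Flat} {Ks B D : γ → ℕ} (hp : PTF p) (hKs : PTU Ks) (hB : PTU B)
    (hD : PTU D) : PTNet (fun d => progNet (p d) (Ks d) (B d) (D d)) :=
  ptNet_ruleNet (ptf_allRules hp hKs) hB hD

end rules

end Crest.Agent.R290
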