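import Crest.Agent.R290.TMFlat
import Crest.Agent.R290.Flat
import Crest.Prelude.Def_TimeBound

/-!
# Row 290: running `Turing.FinTM2` deciders inside flat programs

* `cmd_of_tm2`: a Boolean-valued `TM2ComputableInTime` as a `Cmd` with linear overhead.
* `flat_pt_tm2`: first a polynomial-time `R`, then the machine; halts iff the answer (xor `neg`) is
  `true`; the polynomial depends on `R` only, the constant `C` on the machine.
* `flat_of_inDTIME`: the same for `Crest.DTime.InDTIME`.
-/

set_option autoImplicit false

namespace Crest.Agent.R290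

open Turing Crest.Agent.Lib.PT Function

/-- negate the top of stack `0` -/
def notTop : Cmd := .ite 0 .skip (.seq (.pop 0) (.push 0 false)) (.seq (.pop 0) (.push 0 true))

theorem run_notTop (b : Bool) : Run notTop (init [b]) (init [!b]) 3 := by
  have e1 : update (init [b]) 0 [] = init [] := by
    funext j; cases j <;> simp [init]
  have e2 : ∀ b', update (init []) 0 [b'] = init [b'] := by
    intro b'; funext j; cases j <;> simp [init]
  have h1 : Run (.pop 0) (init [b]) (init []) 1 := by
    have := (Exec.pop 0 (init [b])).run
    rwa [init_zero, List.tail_cons, e1] at this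
  have h2 : ∀ b', Run (.push 0 b') (init []) (init [b']) 1 := by
    intro b'
    have := (Exec.push 0 b' (init [])).run
    rwa [init_zero, e2] at this
  cases b
  · exact Run.ite_false (l := []) rfl (h1.seq (h2 true))
  · exact Run.ite_true (l := []) rfl (h1.seq (h2 false))

/-- negate if `neg` -/
def negTop (neg : Bool) : Cmd := bif neg then notTop else .skip

theorem run_negTop (neg b : Bool) : Run (negTop neg) (init [b]) (init [xor neg b]) 3 := by
  cases neg
  · exact ((Exec.skip _).run.of_eq (by simp) (by omega))
  · have := run_notTop b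
    simpa [negTop] using this

/-- A Boolean-valued machine as a `Cmd` program with linear overhead. -/
theorem cmd_of_tm2 {α : Type} {ea : α → List Bool} {g : α → Bool}
    (M : TM2ComputableInTime ea Computability.encodeBool g) (neg : Bool) :
    ∃ (c : Cmd) (C : ℕ), ∀ a, Run c (init (ea a)) (init [xor neg (g a)])
      (C * ((ea a).length + M.time (ea a).length + 1)) := by
  obtain ⟨c, C, h⟩ := exists_cmd_of_finTM2 M.tm M.inputAlphabet M.outputAlphabet
  refine ⟨.seq c (negTop neg), C + 3, fun a => ?_⟩
  have h1 := h (ea a) [g a] (M.time (ea a).length) ⟨M.outputsFun a⟩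
  refine (h1.seq (run_negTop neg (g a))).mono ?_
  have : (C + 3) * ((ea a).length + M.time (ea a).length + 1) =
    C * ((ea a).length + M.time (ea a).length + 1) +
    3 * ((ea a).length + M.time (ea a).length + 1) := by ring
  omega

/-- First a polynomial-time function, then a machine. The flat program halts iff the answer of the
machine (negated if `neg`) is `true`. The polynomial `q` depends on `R` only. -/
theorem flat_pt_tm2 {R : List Bool → List Bool} (hR : PT R) :
    ∃ q : Polynomial ℕ, ∀ {α : Type} {ea : α → List Bool} {g : α → Bool}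
      (M : TM2ComputableInTime ea Computability.encodeBool g) (neg : Bool),
      ∃ (c : Cmd) (C : ℕ), ∀ (w : List Bool) (a : α), R w = ea a →
        (xor neg (g a) = true → FHalts (loadRun w c)
          (q.eval w.length + C * ((ea a).length + M.time (ea a).length + 1))) ∧
        (xor neg (g a) = false → ∀ T, ¬ FHalts (loadRun w c) T) := by
  obtain ⟨cR, p, hcR⟩ := hR
  refine ⟨Polynomial.X + 4 * p + 1, fun {α ea g} M neg => ?_⟩
  obtain ⟨c, C, h⟩ := cmd_of_tm2 M neg
  refine ⟨.seq cR c, 4 * C, fun w a hw => ?_⟩
  have h1 := hcR w
  rw [hw] at h1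
  have h2 := h1.seq (h a)
  refine ⟨fun ht => ?_, fun hf T => ?_⟩
  · rw [ht] at h2
    refine (loadRun_halts h2 (l := []) rfl).mono ?_
    simp only [Polynomial.eval_add, Polynomial.eval_mul, Polynomial.eval_ofNat, Polynomial.eval_X,
      Polynomial.eval_one]
    have : 4 * C * ((ea a).length + M.time (ea a).length + 1) =
      4 * (C * ((ea a).length + M.time (ea a).length + 1)) := by ring
    omega
  · rw [hf] at h2
    exact loadRun_loops h2 (by simp) T

/-- Deterministic time classes: a flat program on `loadRun x c` halts iff `x ∈ L` (`x ∉ L` if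
`neg`), within `C * (x.length + t x.length + 1)` steps. -/
theorem flat_of_inDTIME {L : Set (List Bool)} {t : ℕ → ℕ} (h : Crest.DTime.InDTIME L t) (neg : Bool) :
    ∃ (c : Cmd) (C : ℕ), ∀ x : List Bool,
      ((if neg = true then x ∉ L else x ∈ L) → FHalts (loadRun x c)
        (C * (x.length + t x.length + 1))) ∧
      (¬ (if neg = true then x ∉ L else x ∈ L) → ∀ T, ¬ FHalts (loadRun x c) T) := by
  obtain ⟨f, c0, ⟨M, hM⟩, hf⟩ := h
  obtain ⟨c, C, hc⟩ := cmd_of_tm2 M neg
  refine ⟨c, 4 * C * (c0 + 1) + 2, fun x => ?_⟩
  have h1 := hc x
  have e : (Computability.encodingList Bool).encode x = x := rfl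
  rw [e] at h1
  have key : (if neg = true then x ∉ L else x ∈ L) ↔ xor neg (f x) = true := by
    rw [hf x]
    cases neg <;> simp
  rw [key]
  refine ⟨fun ht => ?_, fun hn T => ?_⟩
  · rw [ht] at h1
    refine (loadRun_halts h1 (l := []) rfl).mono ?_
    have h2 := hM x.length
    simp only at h2
    have h3 : C * (x.length + M.time x.length + 1) ≤ C * ((c0 + 1) * (x.length + t x.length + 1)) := by
      refine Nat.mul_le_mul_left _ ?_
      have : (c0 + 1) * (x.length + t x.length + 1) =
        c0 * x.length + c0 * t x.length + c0 + x.length + t x.length + 1 := by ring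
      omega
    have h4 : (4 * C * (c0 + 1) + 2) * (x.length + t x.length + 1) =
      4 * (C * ((c0 + 1) * (x.length + t x.length + 1))) + 2 * (x.length + t x.length + 1) := by ring
    omega
  · have hf' : xor neg (f x) = false := by simpa using hn
    rw [hf'] at h1
    exact loadRun_loops h1 (by simp) T

end Crest.Agent.R290
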