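import Crest.Agent.R290.SelfRef
import Crest.Agent.R290.FlatCode
import Crest.Agent.R290.TMRun
import Crest.Agent.R290.GenAG
import Crest.Prelude.Def_ExpTime

/-!
# Row 290, [HARD]: EXP-hardness from the core theorems and the generators

The core theorems and the generators enter as hypotheses (`CoreA`, `CoreS`, `GenA`, `GenS`, `GenO`;
these are the statements of `coreA`, `coreS`, `ptf_graphA`, `ptf_graphS`, `ptu_baseOrder`).
-/

set_option autoImplicit false

namespace Crest.Agent.R290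

open Crest.WLRefine Crest.Enc Function
open Crest.Agent.Lib.PT

/-! ### statements used -/

/-- statement of `coreA` -/
def CoreA : Prop := ∀ (p : Flat) (Ks B D pad : ℕ), WF p Ks → 2 ≤ B → 1 ≤ D →
    baseOrder p Ks B D + 2 ≤ pad →
    ∃ (n : ℕ) (G0 G1 : Fin n → Fin n → Bool), n = baseOrder p Ks B D + pad ∧
      SimpleConnDiamTwo G0 ∧ SimpleConnDiamTwo G1 ∧
      adjMatrixCode G0 = graphA p Ks B D pad false ∧ adjMatrixCode G1 = graphA p Ks B D pad true ∧
      ((∃ t < B ^ D, FHalts p t) →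
        ¬ JEquiv (D + 1) G0 G1 ∧ ¬ SEquiv (D + 2) G0 G1 ∧ Identifies (D + 1) G0) ∧
      (RunsForever p → JEquiv (D + 1) G0 G1 ∧ SEquiv (D + 2) G0 G1 ∧
        ∀ k', 1 ≤ k' → k' ≤ D + 1 → ¬ Identifies k' G0)

/-- statement of `coreS` -/
def CoreS : Prop := ∀ (p : Flat) (Ks B D : ℕ), WF p Ks → 2 ≤ B → 1 ≤ D →
    ∃ (n : ℕ) (G0 G1 : Fin n → Fin n → Bool), 0 < n ∧
      SimpleConnSubcubic G0 ∧ SimpleConnSubcubic G1 ∧
      adjMatrixCode G0 = graphS p Ks B D false ∧ adjMatrixCode G1 = graphS p Ks B D true ∧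
      ((∃ t < B ^ D, FHalts p t) → ¬ JEquiv (D + 1) G0 G1) ∧
      (RunsForever p → JEquiv (D + 1) G0 G1)

/-- statement of `ptf_graphA` -/
def GenA : Prop := ∀ tw : Bool, PTF (fun d : Flat × Un × Un × Un × Un =>
    graphA d.1 d.2.1.val d.2.2.1.val d.2.2.2.1.val d.2.2.2.2.val tw)

/-- statement of `ptf_graphS` -/
def GenS : Prop := ∀ tw : Bool, PTF (fun d : Flat × Un × Un × Un =>
    graphS d.1 d.2.1.val d.2.2.1.val d.2.2.2.val tw)

/-- statement of `ptu_baseOrder` -/
def GenO : Prop := PTU (fun d : Flat × Un × Un × Un =>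
    baseOrder d.1 d.2.1.val d.2.2.1.val d.2.2.2.val)

/-! ### unique parsing of codes -/

theorem digits_append_inj (l l' u v : List Bool)
    (h : (l.map fun b => [true, b]).flatten ++ [false, false] ++ u =
      (l'.map fun b => [true, b]).flatten ++ [false, false] ++ v) : l = l' ∧ u = v := by
  induction l generalizing l' with
  | nil =>
    cases l' with
    | nil => simpa using h
    | cons b l' => simp at h
  | cons a l ih =>
    cases l' with
    | nil => simp at h
    | cons b l' =>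
      simp only [List.map_cons, List.flatten_cons, List.cons_append, List.nil_append,
        List.cons.injEq, true_and] at h
      obtain ⟨h1, h2⟩ := h
      obtain ⟨h3, h4⟩ := ih l' (by simpa using h2)
      exact ⟨by rw [h1, h3], h4⟩

theorem natCode_append_inj {a b : ℕ} {u v : List Bool} (h : natCode a ++ u = natCode b ++ v) :
    a = b ∧ u = v := by
  unfold natCode at h
  obtain ⟨h1, h2⟩ := digits_append_inj _ _ _ _ h
  refine ⟨?_, h2⟩
  have : enc a = enc b := h1
  simpa using this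

theorem flatMap_inj {α β : Type} (L : List α) (f g : α → List β)
    (hl : ∀ a ∈ L, (f a).length = (g a).length) (h : L.flatMap f = L.flatMap g) :
    ∀ a ∈ L, f a = g a := by
  induction L with
  | nil => intro a ha; simp at ha
  | cons x L ih =>
    rw [List.flatMap_cons, List.flatMap_cons] at h
    obtain ⟨h1, h2⟩ := List.append_inj h (hl x (by simp))
    intro a ha
    rcases List.mem_cons.1 ha with rfl | ha
    · exact h1
    · exact ih (fun a ha => hl a (by simp [ha])) h2 a ha

theorem adjMatrixCode_append_inj {n : ℕ} {G : Fin n → Fin n → Bool} {m : ℕ}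
    {H : Fin m → Fin m → Bool} {u v : List Bool}
    (h : adjMatrixCode G ++ u = adjMatrixCode H ++ v) : ∃ e : n = m, e ▸ G = H ∧ u = v := by
  unfold adjMatrixCode at h
  rw [List.append_assoc, List.append_assoc] at h
  obtain ⟨h1, h2⟩ := natCode_append_inj h
  subst h1
  refine ⟨rfl, ?_⟩
  obtain ⟨h3, h4⟩ := List.append_inj h2 (by simp [List.length_flatMap])
  refine ⟨?_, h4⟩
  funext i j
  have h5 := flatMap_inj _ _ _ (by simp) h3 i (List.mem_finRange i)
  have h6 := (List.map_inj_left.1 h5) j (List.mem_finRange j)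
  exact h6

/-! ### simulation of exponential time -/

theorem wf_loadRun (x : List Bool) (c : Cmd) : WF (loadRun x c) (c.maxVar + 1) := by
  intro i hi
  have h : StacksLe c.maxVar (loadRun x c) :=
    StacksLe.append ((stacksLe_pushes _ _).mono (Nat.zero_le _)) (stacksLe_runPart c _)
  have := h i hi
  omega

theorem exp_base {A : Set (List Bool)} (hA : Crest.ExpTime.InEXP A) (neg : Bool) :
    ∃ (c : Cmd) (D : List Bool → ℕ), PTU D ∧ (∀ x, 1 ≤ D x) ∧ ∀ x,
      ((if neg = true then x ∉ A else x ∈ A) → ∃ t < 2 ^ D x, FHalts (loadRun x c) t) ∧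
      (¬ (if neg = true then x ∉ A else x ∈ A) → RunsForever (loadRun x c)) := by
  obtain ⟨k, hk⟩ := hA
  obtain ⟨c, C, hc⟩ := flat_of_inDTIME hk neg
  refine ⟨c, fun x => C + (x.length + 1) + x.length ^ k, ?_, fun x => ?_, fun x => ⟨fun h => ?_,
    fun h => (hc x).2 h⟩⟩
  · have h1 : PTU (fun x : List Bool => x.length) := PTU.length PTF.id
    exact PTU.add (PTU.add (PTU.const C) (PTU.add h1 (PTU.const 1))) (PTU.pow h1 k)
  · dsimp only
    omega
  · refine ⟨_, ?_, (hc x).1 h⟩
    set N := x.length with hN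
    set E := 2 ^ (N ^ k) with hE
    have e0 : 1 ≤ E := Nat.one_le_two_pow
    have e1 : N + E + 1 ≤ (N + 2) * E := by nlinarith
    have e2 : C < 2 ^ C := Nat.lt_two_pow_self
    have e3 : N + 2 ≤ 2 ^ (N + 1) := Nat.lt_two_pow_self
    calc C * (N + E + 1) ≤ C * ((N + 2) * E) := Nat.mul_le_mul_left _ e1
      _ ≤ C * (2 ^ (N + 1) * E) := Nat.mul_le_mul_left _ (Nat.mul_le_mul_right _ e3)
      _ < 2 ^ C * (2 ^ (N + 1) * E) := Nat.mul_lt_mul_of_pos_right e2 (by positivity)
      _ = 2 ^ (C + (N + 1) + N ^ k) := by rw [pow_add, pow_add, hE]; ring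

theorem ptf_loadRun (c : Cmd) : PTF (fun x : List Bool => loadRun x c) :=
  (ptf_selfProg (w := fun x : List Bool => x) (code := fun _ => runPart c 0) PTF.id
    (PTF.const _)).of_eq fun x => selfProg_eq x c

/-! ### subcubic pairs and pairs of arbitrary graphs -/

/-- the reduction to pairs of graphs -/
def redS (c : Cmd) (D : List Bool → ℕ) (x : List Bool) : List Bool :=
  natCode (D x + 1) ++ graphS (loadRun x c) (c.maxVar + 1) 2 (D x) false ++
    graphS (loadRun x c) (c.maxVar + 1) 2 (D x) true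

theorem redS_aux (gr : Flat → ℕ → ℕ → ℕ → Bool → List Bool)
    (hg : ∀ tw : Bool, PTF (fun d : Flat × Un × Un × Un =>
      gr d.1 d.2.1.val d.2.2.1.val d.2.2.2.val tw)) (c : Cmd) (K : ℕ) {D : List Bool → ℕ}
    (hD : PTU D) :
    PTF (fun x : List Bool => natCode (D x + 1) ++ gr (loadRun x c) K 2 (D x) false ++
      gr (loadRun x c) K 2 (D x) true) := by
  have h0 : PTF (fun x : List Bool => ((loadRun x c, Un.mk K, Un.mk 2, Un.mk (D x)) :
      Flat × Un × Un × Un)) :=
    PTF.prodMk (ptf_loadRun c) (PTF.prodMk (PTF.const _) (PTF.prodMk (PTF.const _) hD))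
  have h1 : ∀ tw, PTF (fun x : List Bool => gr (loadRun x c) K 2 (D x) tw) :=
    fun tw => PTF.comp (hg tw) h0
  exact PTF.append (PTF.append (ptf_natCode (PTU.toPTF (PTU.add hD (PTU.const 1)))) (h1 false))
    (h1 true)

theorem redS_polyTime (hg : GenS) (c : Cmd) {D : List Bool → ℕ} (hD : PTU D) :
    Crest.Complexity.PolyTime (redS c D) :=
  (PTF.toPT_list (redS_aux graphS hg c (c.maxVar + 1) hD)).polyTime

theorem hard_subcubic_of (hc : CoreS) (hg : GenS) :
    Crest.ExpTime.EXPHard subcubicVarDimEquivLang := by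
  intro A hA
  obtain ⟨c, D, hD, hD1, h⟩ := exp_base hA true
  refine ⟨redS c D, redS_polyTime hg c hD, fun x => ?_⟩
  obtain ⟨n, G0, G1, hn, s0, s1, e0, e1, h1, h2⟩ :=
    hc (loadRun x c) (c.maxVar + 1) 2 (D x) (wf_loadRun x c) le_rfl (hD1 x)
  simp only [if_true] at h
  constructor
  · intro hx
    have h3 := h2 ((h x).2 (by simpa using hx))
    refine ⟨D x + 1, n, G0, G1, ?_, hn, s0, s1, h3, ?_⟩
    · have := hD1 x; omega
    · rw [e0, e1]; rfl
  · rintro ⟨k, n', H0, H1, hk, hn', t0, t1, hJ, he⟩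
    by_contra hx
    apply h1 ((h x).1 hx)
    unfold redS at he
    rw [List.append_assoc, List.append_assoc] at he
    obtain ⟨a1, a2⟩ := natCode_append_inj he
    rw [← e0, ← e1] at a2
    obtain ⟨b1, b2, b3⟩ := adjMatrixCode_append_inj a2
    subst b1
    rw [← List.append_nil (adjMatrixCode G1), ← List.append_nil (adjMatrixCode H1)] at b3
    obtain ⟨_, b5, _⟩ := adjMatrixCode_append_inj b3
    dsimp only at b2 b5
    rw [a1, b2, b5]
    exact hJ

theorem hard_varDim_of (hc : CoreS) (hg : GenS) :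
    Crest.ExpTime.EXPHard varDimEquivLang := by
  intro A hA
  obtain ⟨c, D, hD, hD1, h⟩ := exp_base hA true
  refine ⟨redS c D, redS_polyTime hg c hD, fun x => ?_⟩
  obtain ⟨n, G0, G1, hn, s0, s1, e0, e1, h1, h2⟩ :=
    hc (loadRun x c) (c.maxVar + 1) 2 (D x) (wf_loadRun x c) le_rfl (hD1 x)
  simp only [if_true] at h
  constructor
  · intro hx
    have h3 := h2 ((h x).2 (by simpa using hx))
    refine ⟨D x + 1, n, n, G0, G1, ?_, s0.1, s1.1, h3, ?_⟩
    · have := hD1 x; omega
    · rw [e0, e1]; rfl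
  · rintro ⟨k, n', m', H0, H1, hk, t0, t1, hJ, he⟩
    by_contra hx
    apply h1 ((h x).1 hx)
    unfold redS at he
    rw [List.append_assoc, List.append_assoc] at he
    obtain ⟨a1, a2⟩ := natCode_append_inj he
    rw [← e0, ← e1] at a2
    obtain ⟨b1, b2, b3⟩ := adjMatrixCode_append_inj a2
    subst b1
    rw [← List.append_nil (adjMatrixCode G1), ← List.append_nil (adjMatrixCode H1)] at b3
    obtain ⟨b4, b5, _⟩ := adjMatrixCode_append_inj b3
    subst b4
    dsimp only at b2 b5
    rw [a1, b2, b5]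
    exact hJ

/-! ### the dimension problem -/

/-- the reduction to one graph -/
def redA (c : Cmd) (D : List Bool → ℕ) (x : List Bool) : List Bool :=
  natCode (D x + 1) ++ graphA (loadRun x c) (c.maxVar + 1) 2 (D x)
    (baseOrder (loadRun x c) (c.maxVar + 1) 2 (D x) + 2) false

theorem redA_aux (gr : Flat → ℕ → ℕ → ℕ → ℕ → Bool → List Bool)
    (hg : ∀ tw : Bool, PTF (fun d : Flat × Un × Un × Un × Un =>
      gr d.1 d.2.1.val d.2.2.1.val d.2.2.2.1.val d.2.2.2.2.val tw))
    (od : Flat → ℕ → ℕ → ℕ → ℕ)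
    (ho : PTU (fun d : Flat × Un × Un × Un => od d.1 d.2.1.val d.2.2.1.val d.2.2.2.val))
    (c : Cmd) (K : ℕ) {D : List Bool → ℕ} (hD : PTU D) :
    PTF (fun x : List Bool => natCode (D x + 1) ++ gr (loadRun x c) K 2 (D x)
      (od (loadRun x c) K 2 (D x) + 2) false) := by
  have h0 : PTF (fun x : List Bool => ((loadRun x c, Un.mk K, Un.mk 2, Un.mk (D x)) :
      Flat × Un × Un × Un)) :=
    PTF.prodMk (ptf_loadRun c) (PTF.prodMk (PTF.const _) (PTF.prodMk (PTF.const _) hD))
  have h1 : PTU (fun x : List Bool => od (loadRun x c) K 2 (D x) + 2) :=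
    PTU.add (PTU.comp (n := fun d : Flat × Un × Un × Un =>
      od d.1 d.2.1.val d.2.2.1.val d.2.2.2.val) ho h0) (PTU.const 2)
  have h2 : PTF (fun x : List Bool => ((loadRun x c, Un.mk K, Un.mk 2, Un.mk (D x),
      Un.mk (od (loadRun x c) K 2 (D x) + 2)) : Flat × Un × Un × Un × Un)) :=
    PTF.prodMk (ptf_loadRun c) (PTF.prodMk (PTF.const _) (PTF.prodMk (PTF.const _)
      (PTF.prodMk hD h1)))
  have h3 : PTF (fun x : List Bool => gr (loadRun x c) K 2 (D x)
      (od (loadRun x c) K 2 (D x) + 2) false) := PTF.comp (hg false) h2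
  exact PTF.append (ptf_natCode (PTU.toPTF (PTU.add hD (PTU.const 1)))) h3

theorem redA_polyTime (hg : GenA) (ho : GenO) (c : Cmd) {D : List Bool → ℕ} (hD : PTU D) :
    Crest.Complexity.PolyTime (redA c D) :=
  (PTF.toPT_list (redA_aux graphA hg baseOrder ho c (c.maxVar + 1) hD)).polyTime

theorem hard_wlDim_of (hc : CoreA) (hg : GenA) (ho : GenO) :
    Crest.ExpTime.EXPHard wlDimLeLang := by
  intro A hA
  obtain ⟨c, D, hD, hD1, h⟩ := exp_base hA false
  refine ⟨redA c D, redA_polyTime hg ho c hD, fun x => ?_⟩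
  obtain ⟨n, G0, G1, hn, s0, s1, e0, e1, h1, h2⟩ :=
    hc (loadRun x c) (c.maxVar + 1) 2 (D x)
      (baseOrder (loadRun x c) (c.maxVar + 1) 2 (D x) + 2) (wf_loadRun x c) le_rfl (hD1 x) le_rfl
  simp only [Bool.false_eq_true, if_false] at h
  constructor
  · intro hx
    have h3 := h1 ((h x).1 hx)
    refine ⟨D x + 1, n, G0, by omega, by omega, s0.1, ⟨D x + 1, by omega, le_rfl, h3.2.2⟩, ?_⟩
    rw [e0]; rfl
  · rintro ⟨k, n', H0, hk, hn', t0, ⟨k', hk1, hk2, hI⟩, he⟩
    by_contra hx
    have h3 := (h2 ((h x).2 hx)).2.2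
    unfold redA at he
    obtain ⟨a1, a2⟩ := natCode_append_inj he
    rw [← e0, ← List.append_nil (adjMatrixCode G0), ← List.append_nil (adjMatrixCode H0)] at a2
    obtain ⟨b1, b2, _⟩ := adjMatrixCode_append_inj a2
    subst b1
    dsimp only at b2
    apply h3 k' hk1 (by omega)
    rw [b2]
    exact hI

end Crest.Agent.R290
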