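import Crest.Agent.R290.AG
import Crest.Agent.R290.WL

/-!
# Row 290: incidence systems (blueprint 2.2).

`IncSys ports D K S`: the shift-level form of a class preserving pebble system between the incidence
structures (objects, variables) of two parity assignments with difference `D`. A pebble is either an
object together with the shift of its ports (of parity `D`), or a variable together with its shift.

* `Template.incSys`: a class preserving pebble system on an agreement graph gives an incidence system.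
-/

set_option autoImplicit false
set_option linter.unusedSectionVars false

namespace Crest.Agent.R290

open Finset

/-- Pebbles at shift level. -/
inductive Peb (O X : Type) : Type
  | obj : O → (X → ZMod 2) → Peb O X
  | var : X → ZMod 2 → Peb O X

/-- Shift-level pebble system between incidence structures; positions are lists of pebbles. -/
structure IncSys {O X : Type} (ports : O → Finset X) (D : O → ZMod 2) (K : ℕ)
    (S : List (Peb O X) → Prop) : Prop where
  /-- monotone -/
  mono : ∀ {l l' : List (Peb O X)}, S l → l' ⊆ l → S l'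
  /-- the empty position -/
  empty : S []
  /-- parity of the shift of an object -/
  par : ∀ {l}, S l → ∀ u σ, Peb.obj u σ ∈ l → ∑ x ∈ ports u, σ x = D u
  /-- an object and one of its variables have the same shift -/
  cons : ∀ {l}, S l → ∀ u σ x ε, Peb.obj u σ ∈ l → Peb.var x ε ∈ l → x ∈ ports u → σ x = ε
  /-- one more object -/
  extObj : ∀ {l : List (Peb O X)}, S l → l.length < K → ∀ u, ∃ σ, S (Peb.obj u σ :: l)
  /-- one more variable -/
  extVar : ∀ {l : List (Peb O X)}, S l → l.length < K → ∀ u, ∀ x ∈ ports u,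
    ∃ ε, S (Peb.var x ε :: l)

theorem IncSys.anti {O X : Type} {ports : O → Finset X} {D : O → ZMod 2} {K L : ℕ}
    {S : List (Peb O X) → Prop} (h : IncSys ports D K S) (hL : L ≤ K) : IncSys ports D L S :=
  { h with
    extObj := fun hS hc => h.extObj hS (hc.trans_le hL)
    extVar := fun hS hc => h.extVar hS (hc.trans_le hL) }

/-- two pebbled objects have the same shift on common variables -/
theorem IncSys.cons' {O X : Type} {ports : O → Finset X} {D : O → ZMod 2} {K : ℕ}
    {S : List (Peb O X) → Prop} (h : IncSys ports D K S) {l : List (Peb O X)} (hl : S l)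
    (hK : l.length < K) {u v : O} {σ τ : X → ZMod 2} (hu : Peb.obj u σ ∈ l) (hv : Peb.obj v τ ∈ l)
    {x : X} (hxu : x ∈ ports u) (hxv : x ∈ ports v) : σ x = τ x := by
  obtain ⟨ε, hε⟩ := h.extVar hl hK u x hxu
  have h1 := h.cons hε u σ x ε (List.mem_cons_of_mem _ hu) (List.mem_cons_self ..) hxu
  have h2 := h.cons hε v τ x ε (List.mem_cons_of_mem _ hv) (List.mem_cons_self ..) hxv
  rw [h1, h2]

private theorem z2_of_iff (a a' b b' : ZMod 2) (h : a = b ↔ a' = b') : a + a' = b + b' := by
  revert h; revert a a' b b'; decide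

/-- A class preserving pebble system on an agreement graph gives an incidence system. -/
theorem Template.incSys {C X O : Type} (T : Template C X) {b b' : C → ZMod 2} {K : ℕ}
    {R : Finset (T.Vert b × T.Vert b') → Prop}
    (hR : WL.PSys (T.agAdj b) (T.agAdj b') K R)
    (hcl : ∀ P, R P → ∀ p ∈ P, p.1.cl = p.2.cl)
    (ports : O → Finset X) (cO : O → C) (cX : X → C)
    (hO : ∀ u, T.vars (cO u) = ports u) (hOc : ∀ u, T.con (cO u))
    (hX : ∀ u, ∀ x ∈ ports u, T.vars (cX x) = {x})
    (hXc : ∀ u, ∀ x ∈ ports u, ¬ T.con (cX x))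
    (hadj : ∀ u, ∀ x ∈ ports u, T.adj (cO u) (cX x) = true)
    (hne : ∀ u, (ports u).Nonempty) :
    ∃ S, IncSys ports (fun u => b (cO u) + b' (cO u)) K S := by
  classical
  let real : Peb O X → T.Vert b × T.Vert b' → Prop := fun p q =>
    match p with
    | Peb.obj u σ => q.1.cl = cO u ∧ ∀ x ∈ ports u, σ x = q.1.as x + q.2.as x
    | Peb.var x ε => (∃ u, x ∈ ports u) ∧ q.1.cl = cX x ∧ ε = q.1.as x + q.2.as x
  let S : List (Peb O X) → Prop := fun l =>
    ∃ Q : Finset (T.Vert b × T.Vert b'), Q.card ≤ l.length ∧ R Q ∧ ∀ p ∈ l, ∃ q ∈ Q, real p q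
  refine ⟨S, ?_⟩
  have ext : ∀ {l : List (Peb O X)}, S l → l.length < K → ∀ c, (∃ v : T.Vert b, v.cl = c) →
      ∃ q : T.Vert b × T.Vert b', q.1.cl = c ∧ q.2.cl = c ∧
        ∀ p, real p q → S (p :: l) := by
    rintro l ⟨Q, hQ, hRQ, hl⟩ hK c ⟨z, hz⟩
    obtain ⟨f, hf⟩ := hR.ext' hRQ (lt_of_le_of_lt hQ hK)
    have h1 : R (insert (z, f z) Q) := hf z _ (fun x hx => by simpa using hx)
    refine ⟨(z, f z), hz, ?_, ?_⟩
    · rw [← hz]; exact (hcl _ h1 (z, f z) (mem_insert_self _ _)).symm
    · intro p hp
      refine ⟨insert (z, f z) Q, (card_insert_le _ _).trans (by simpa using hQ), h1, ?_⟩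
      intro p' hp'
      rcases List.mem_cons.1 hp' with rfl | hp'
      · exact ⟨(z, f z), mem_insert_self _ _, hp⟩
      · obtain ⟨q, hq, hr⟩ := hl p' hp'
        exact ⟨q, mem_insert_of_mem hq, hr⟩
  exact
  { mono := by
      rintro l l' ⟨Q, hQ, hRQ, hl⟩ hll
      choose f hf hfr using hl
      refine ⟨l'.toFinset.attach.image fun p => f p.1 (hll (List.mem_toFinset.1 p.2)), ?_, ?_, ?_⟩
      · refine card_image_le.trans ?_
        rw [card_attach]
        exact List.toFinset_card_le _
      · refine hR.mono ?_ hRQ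
        intro q hq
        obtain ⟨p, hp, rfl⟩ := mem_image.1 hq
        exact hf p.1 (hll (List.mem_toFinset.1 p.2))
      · intro p hp
        exact ⟨f p (hll hp), mem_image.2 ⟨⟨p, List.mem_toFinset.2 hp⟩, mem_attach _ _, rfl⟩,
          hfr p (hll hp)⟩
    empty := ⟨∅, by simp, hR.empty, by simp⟩
    par := by
      rintro l ⟨Q, hQ, hRQ, hl⟩ u σ hu
      obtain ⟨q, hq, h1, h2⟩ := hl _ hu
      have h3 : q.2.cl = cO u := by rw [← hcl _ hRQ q hq, h1]
      rw [sum_congr rfl h2, sum_add_distrib]
      have h4 := q.1.2.2 (by rw [show q.1.1.1 = cO u from h1]; exact hOc u)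
      have h5 := q.2.2.2 (by rw [show q.2.1.1 = cO u from h3]; exact hOc u)
      rw [show q.1.1.1 = cO u from h1, hO] at h4
      rw [show q.2.1.1 = cO u from h3, hO] at h5
      exact congrArg₂ (· + ·) h4 h5
    cons := by
      rintro l ⟨Q, hQ, hRQ, hl⟩ u σ x ε hu hx hxu
      obtain ⟨q, hq, h1, h2⟩ := hl _ hu
      obtain ⟨r, hr, ⟨u', hu'⟩, h3, h4⟩ := hl _ hx
      have h5 : q.2.cl = cO u := by rw [← hcl _ hRQ q hq, h1]
      have h6 : r.2.cl = cX x := by rw [← hcl _ hRQ r hr, h3]
      rw [h2 x hxu, h4]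
      apply z2_of_iff
      have h7 := hR.adj hRQ q hq r hr
      rw [Bool.eq_iff_iff, agAdj_iff, agAdj_iff, h1, h3, h5, h6, hO, hX u x hxu,
        hadj u x hxu] at h7
      constructor
      · intro h8
        have := (h7.1 ⟨rfl, fun y _ hy => by rw [mem_singleton.1 hy]; exact h8⟩).2 x hxu
          (mem_singleton_self _)
        exact this
      · intro h8
        exact (h7.2 ⟨rfl, fun y _ hy => by rw [mem_singleton.1 hy]; exact h8⟩).2 x hxu
          (mem_singleton_self _)
    extObj := by
      intro l hS hK u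
      obtain ⟨x₀, hx₀⟩ := hne u
      have hv : ∃ v : T.Vert b, v.cl = cO u := by
        refine ⟨⟨(cO u, fun x => if x = x₀ then b (cO u) else 0), ?_, ?_⟩, rfl⟩
        · intro x hx
          have : x ≠ x₀ := by
            rintro rfl
            apply hx
            change x ∈ T.vars (cO u)
            rw [hO]; exact hx₀
          simp [this]
        · intro _
          change ∑ x ∈ T.vars (cO u), (if x = x₀ then b (cO u) else 0) = b (cO u)
          rw [hO, sum_ite_eq' (ports u) x₀, if_pos hx₀]
      obtain ⟨q, h1, h2, h3⟩ := ext hS hK (cO u) hv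
      exact ⟨fun x => q.1.as x + q.2.as x, h3 _ ⟨h1, fun x _ => rfl⟩⟩
    extVar := by
      intro l hS hK u x hx
      have hv : ∃ v : T.Vert b, v.cl = cX x := by
        refine ⟨⟨(cX x, fun _ => 0), fun _ _ => rfl, ?_⟩, rfl⟩
        intro hc
        exact absurd hc (hXc u x hx)
      obtain ⟨q, h1, h2, h3⟩ := ext hS hK (cX x) hv
      exact ⟨q.1.as x + q.2.as x, h3 _ ⟨⟨u, hx⟩, h1, rfl⟩⟩ }

end Crest.Agent.R290
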