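import Crest.Agent.Lib.PT.ArithMore
import Crest.Agent.Lib.PT.ListFns2
import Crest.Prelude.Def_WordRAM

/-!
# A word-RAM interpreter as a polynomial-time step function with the program as data

* `TI`, `tabI`, `tab P`: table form of a word-RAM program.
* `St`: state (program counter, halted flag, registers, memory), the last two as association lists.
* `ustep : Params → St → St`: one step; `ptf_ustep`: it is in `PTF` (jointly in the parameters).
* `rel_run`: simulation of `Crest.WordRAM.run` with random stream `0`.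
* `sz_iterate_ustep`: absolute size bound for the states.
-/

set_option autoImplicit false
set_option linter.dupNamespace false

namespace Crest.Agent.R290.RAM

open Crest.WordRAM Crest.Agent.Lib.PT

/-- table form of an instruction: opcode and three arguments -/
abbrev TI : Type := ℕ × ℕ × ℕ × ℕ

/-- table form of an instruction -/
def tabI {r : ℕ} : Instr r → TI
  | .const d v => (0, d.val, v, 0)
  | .copy d s => (1, d.val, s.val, 0)
  | .add d a b => (2, d.val, a.val, b.val)
  | .sub d a b => (3, d.val, a.val, b.val)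
  | .mul d a b => (4, d.val, a.val, b.val)
  | .quot d a b => (5, d.val, a.val, b.val)
  | .rem d a b => (6, d.val, a.val, b.val)
  | .and d a b => (7, d.val, a.val, b.val)
  | .or d a b => (8, d.val, a.val, b.val)
  | .xor d a b => (9, d.val, a.val, b.val)
  | .shl d a b => (10, d.val, a.val, b.val)
  | .shr d a b => (11, d.val, a.val, b.val)
  | .load d a => (12, d.val, a.val, 0)
  | .rand d => (13, d.val, 0, 0)
  | .store s a => (14, s.val, a.val, 0)
  | .jump l => (15, l, 0, 0)
  | .jumpIfZero a l => (16, l, a.val, 0)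
  | .jumpIfEq a b l => (17, l, a.val, b.val)
  | .jumpIfLt a b l => (18, l, a.val, b.val)
  | .halt => (19, 0, 0, 0)

/-- table form of a program -/
def tab (P : Program) : List TI := P.code.map tabI

/-- the parameters of the interpreter: the program table and the word length in unary -/
abbrev Params : Type := List TI × Un

/-- the parameters of a program and a word length -/
def params (P : Program) (w : ℕ) : Params := (tab P, ⟨w⟩)

/-- association lists -/
abbrev AL : Type := List (ℕ × ℕ)

/-- states: program counter, halted flag, registers, memory -/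
abbrev St : Type := ℕ × Bool × AL × AL

/-- read an association list with default `0` -/
def rd (L : AL) (a : ℕ) : ℕ := ((L.find? (fun p => decide (p.1 = a))).map Prod.snd).getD 0

@[simp] theorem rd_nil (a : ℕ) : rd [] a = 0 := rfl

theorem rd_cons (p : ℕ × ℕ) (L : AL) (a : ℕ) :
    rd (p :: L) a = if p.1 = a then p.2 else rd L a := by
  unfold rd
  by_cases h : p.1 = a <;> simp [h]

/-- the result of the arithmetic instructions -/
def alu (w op x y v : ℕ) : ℕ :=
  if op = 0 then v % 2 ^ w
  else if op = 1 then x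
  else if op = 2 then (x + y) % 2 ^ w
  else if op = 3 then x - y
  else if op = 4 then (x * y) % 2 ^ w
  else if op = 5 then x / y
  else if op = 6 then x % y
  else if op = 7 then x &&& y
  else if op = 8 then x ||| y
  else if op = 9 then x ^^^ y
  else if op = 10 then (if y < w then (x * 2 ^ (min y w)) % 2 ^ w else 0)
  else if op = 11 then (if y < w then x >>> y else 0)
  else if op = 12 then v
  else 0

/-- execute one table instruction -/
def uexec (w : ℕ) (i : TI) (s : St) : St :=
  if i.1 < 14 then
    (s.1 + 1, s.2.1,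
      (i.2.1, alu w i.1 (rd s.2.2.1 i.2.2.1) (rd s.2.2.1 i.2.2.2)
        (if i.1 = 12 then rd s.2.2.2 (rd s.2.2.1 i.2.2.1) else i.2.2.1)) :: s.2.2.1, s.2.2.2)
  else if i.1 = 14 then
    (s.1 + 1, s.2.1, s.2.2.1, (rd s.2.2.1 i.2.2.1, rd s.2.2.1 i.2.1) :: s.2.2.2)
  else if i.1 = 15 then (i.2.1, s.2)
  else if i.1 = 16 then ((if rd s.2.2.1 i.2.2.1 = 0 then i.2.1 else s.1 + 1), s.2)
  else if i.1 = 17 then ((if rd s.2.2.1 i.2.2.1 = rd s.2.2.1 i.2.2.2 then i.2.1 else s.1 + 1), s.2)
  else if i.1 = 18 then ((if rd s.2.2.1 i.2.2.1 < rd s.2.2.1 i.2.2.2 then i.2.1 else s.1 + 1), s.2)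
  else (s.1, true, s.2.2)

/-- one step of the interpreter -/
def ustep (p : Params) (s : St) : St :=
  if s.2.1 = true then s else
  match p.1[min s.1 p.1.length]? with
  | none => (s.1, true, s.2.2)
  | some i => uexec p.2.val i s

/-- the state represents the configuration -/
structure Rel {r : ℕ} (c : Cfg r) (s : St) : Prop where
  pc : s.1 = c.pc
  halted : s.2.1 = c.halted
  regs : ∀ j, rd s.2.2.1 j = c.reg j
  mem : ∀ a, rd s.2.2.2 a = c.mem a

theorem reg_fin {r : ℕ} (c : Cfg r) (j : Fin r) : c.reg j.val = c.regs j := by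
  simp [Cfg.reg]

theorem reg_write {r : ℕ} (c : Cfg r) (R : Fin r → ℕ) (d : Fin r) (v : ℕ) (j : ℕ)
    (pc : ℕ) (mem : ℕ → ℕ) (dr : ℕ) (hR : R = c.regs) :
    ({ pc := pc, halted := c.halted, regs := writeReg R d v, mem := mem, drawn := dr } : Cfg r).reg j =
      if d.val = j then v else c.reg j := by
  subst hR
  unfold Cfg.reg writeReg
  by_cases h : j < r
  · simp only [h, dif_pos]
    by_cases h2 : d.val = j
    · subst h2; simp
    · have : (⟨j, h⟩ : Fin r) ≠ d := by
        intro h3; apply h2; rw [← h3]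
      simp [h2, this]
  · simp only [h, dif_neg, not_false_iff]
    have : d.val ≠ j := fun h2 => h (h2 ▸ d.isLt)
    simp [this]

theorem Rel.step {P : Program} {w : ℕ} {c : Cfg P.numRegs} {s : St} (h : Rel c s) :
    Rel (step P w (fun _ => 0) c) (ustep (params P w) s) := by
  unfold WordRAM.step ustep
  rw [h.halted]
  by_cases hh : c.halted = true
  · simp only [hh, if_true]
    exact h
  have hh' : c.halted = false := by simpa using hh
  rw [if_neg hh, if_neg hh]
  have hget : (params P w).1[min s.1 (params P w).1.length]? = (P.code[c.pc]?).map tabI := by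
    have : (params P w).1 = P.code.map tabI := rfl
    rw [this, h.pc, List.getElem?_map]
    congr 1
    rcases le_total c.pc (P.code.map tabI).length with h1 | h1
    · rw [min_eq_left h1]
    · rw [min_eq_right h1]
      rw [List.getElem?_eq_none (by simp), List.getElem?_eq_none (by simpa using h1)]
  rw [hget]
  have hw : (params P w).2.val = w := rfl
  have R := h.regs
  have Mm := h.mem
  cases hI : P.code[c.pc]? with
  | none =>
    simp only [Option.map_none]
    exact ⟨h.pc, rfl, h.regs, h.mem⟩
  | some i =>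
    simp only [Option.map_some, hw]
    cases i with
    | const d v =>
      refine ⟨by simp [uexec, tabI, h.pc], by simp [uexec, tabI, h.halted], fun j => ?_, fun a => ?_⟩
      · rw [reg_write c _ d _ j _ _ _ rfl]
        simp [uexec, tabI, alu, rd_cons, R]
      · simpa [uexec, tabI] using h.mem a
    | copy d a =>
      refine ⟨by simp [uexec, tabI, h.pc], by simp [uexec, tabI, h.halted], fun j => ?_, fun a => ?_⟩
      · rw [reg_write c _ d _ j _ _ _ rfl]
        simp [uexec, tabI, alu, rd_cons, R, reg_fin]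
      · simpa [uexec, tabI] using h.mem a
    | add d a b =>
      refine ⟨by simp [uexec, tabI, h.pc], by simp [uexec, tabI, h.halted], fun j => ?_, fun a => ?_⟩
      · rw [reg_write c _ d _ j _ _ _ rfl]
        simp [uexec, tabI, alu, rd_cons, R, reg_fin]
      · simpa [uexec, tabI] using h.mem a
    | sub d a b =>
      refine ⟨by simp [uexec, tabI, h.pc], by simp [uexec, tabI, h.halted], fun j => ?_, fun a => ?_⟩
      · rw [reg_write c _ d _ j _ _ _ rfl]
        simp [uexec, tabI, alu, rd_cons, R, reg_fin]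
      · simpa [uexec, tabI] using h.mem a
    | mul d a b =>
      refine ⟨by simp [uexec, tabI, h.pc], by simp [uexec, tabI, h.halted], fun j => ?_, fun a => ?_⟩
      · rw [reg_write c _ d _ j _ _ _ rfl]
        simp [uexec, tabI, alu, rd_cons, R, reg_fin]
      · simpa [uexec, tabI] using h.mem a
    | quot d a b =>
      refine ⟨by simp [uexec, tabI, h.pc], by simp [uexec, tabI, h.halted], fun j => ?_, fun a => ?_⟩
      · rw [reg_write c _ d _ j _ _ _ rfl]
        simp [uexec, tabI, alu, rd_cons, R, reg_fin]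
      · simpa [uexec, tabI] using h.mem a
    | rem d a b =>
      refine ⟨by simp [uexec, tabI, h.pc], by simp [uexec, tabI, h.halted], fun j => ?_, fun a => ?_⟩
      · rw [reg_write c _ d _ j _ _ _ rfl]
        simp [uexec, tabI, alu, rd_cons, R, reg_fin]
      · simpa [uexec, tabI] using h.mem a
    | and d a b =>
      refine ⟨by simp [uexec, tabI, h.pc], by simp [uexec, tabI, h.halted], fun j => ?_, fun a => ?_⟩
      · rw [reg_write c _ d _ j _ _ _ rfl]
        simp [uexec, tabI, alu, rd_cons, R, reg_fin]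
      · simpa [uexec, tabI] using h.mem a
    | or d a b =>
      refine ⟨by simp [uexec, tabI, h.pc], by simp [uexec, tabI, h.halted], fun j => ?_, fun a => ?_⟩
      · rw [reg_write c _ d _ j _ _ _ rfl]
        simp [uexec, tabI, alu, rd_cons, R, reg_fin]
      · simpa [uexec, tabI] using h.mem a
    | xor d a b =>
      refine ⟨by simp [uexec, tabI, h.pc], by simp [uexec, tabI, h.halted], fun j => ?_, fun a => ?_⟩
      · rw [reg_write c _ d _ j _ _ _ rfl]
        simp [uexec, tabI, alu, rd_cons, R, reg_fin]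
      · simpa [uexec, tabI] using h.mem a
    | shl d a b =>
      refine ⟨by simp [uexec, tabI, h.pc], by simp [uexec, tabI, h.halted], fun j => ?_, fun a => ?_⟩
      · rw [reg_write c _ d _ j _ _ _ rfl]
        by_cases hb : c.regs b < w
        · simp [uexec, tabI, alu, rd_cons, R, reg_fin, hb, min_eq_left hb.le, Nat.shiftLeft_eq]
        · simp [uexec, tabI, alu, rd_cons, R, reg_fin, hb]
      · simpa [uexec, tabI] using h.mem a
    | shr d a b =>
      refine ⟨by simp [uexec, tabI, h.pc], by simp [uexec, tabI, h.halted], fun j => ?_, fun a => ?_⟩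
      · rw [reg_write c _ d _ j _ _ _ rfl]
        simp [uexec, tabI, alu, rd_cons, R, reg_fin]
      · simpa [uexec, tabI] using h.mem a
    | load d a =>
      refine ⟨by simp [uexec, tabI, h.pc], by simp [uexec, tabI, h.halted], fun j => ?_, fun a => ?_⟩
      · rw [reg_write c _ d _ j _ _ _ rfl]
        simp [uexec, tabI, alu, rd_cons, R, reg_fin, Mm]
      · simpa [uexec, tabI] using h.mem a
    | rand d =>
      refine ⟨by simp [uexec, tabI, h.pc], by simp [uexec, tabI, h.halted], fun j => ?_, fun a => ?_⟩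
      · rw [reg_write c _ d _ j _ _ _ rfl]
        simp [uexec, tabI, alu, rd_cons, R]
      · simpa [uexec, tabI] using h.mem a
    | store d a =>
      refine ⟨by simp [uexec, tabI, h.pc], by simp [uexec, tabI, h.halted], fun j => ?_, fun a' => ?_⟩
      · simpa [uexec, tabI, Cfg.reg] using h.regs j
      · simp only [uexec, tabI, writeMem, Mm, R, reg_fin]
        simp [eq_comm, rd_cons, Mm]
    | jump l =>
      exact ⟨by simp [uexec, tabI], by simp [uexec, tabI, h.halted],
        fun j => by simpa [uexec, tabI, Cfg.reg] using h.regs j, fun a => by simpa [uexec, tabI] using h.mem a⟩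
    | jumpIfZero a l =>
      exact ⟨by simp [uexec, tabI, h.pc, R, reg_fin], by simp [uexec, tabI, h.halted],
        fun j => by simpa [uexec, tabI, Cfg.reg] using h.regs j, fun a => by simpa [uexec, tabI] using h.mem a⟩
    | jumpIfEq a b l =>
      exact ⟨by simp [uexec, tabI, h.pc, R, reg_fin], by simp [uexec, tabI, h.halted],
        fun j => by simpa [uexec, tabI, Cfg.reg] using h.regs j, fun a => by simpa [uexec, tabI] using h.mem a⟩
    | jumpIfLt a b l =>
      exact ⟨by simp [uexec, tabI, h.pc, R, reg_fin], by simp [uexec, tabI, h.halted],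
        fun j => by simpa [uexec, tabI, Cfg.reg] using h.regs j, fun a => by simpa [uexec, tabI] using h.mem a⟩
    | halt =>
      exact ⟨by simp [uexec, tabI, h.pc], by simp [uexec, tabI],
        fun j => by simpa [uexec, tabI, Cfg.reg] using h.regs j, fun a => by simpa [uexec, tabI] using h.mem a⟩

/-! ### the simulation -/

/-- the initial memory -/
def mem0 (w : ℕ) (input : List ℕ) : AL :=
  (List.range input.length).zip (input.map (fun a => a % 2 ^ w))

/-- the initial state -/
def init0 (P : Program) (w : ℕ) (input : List ℕ) : St :=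
  (0, false, if P.numRegs = 0 then [] else [(0, input.length % 2 ^ w)], mem0 w input)

theorem rd_zip (k : ℕ) (l : List ℕ) (a : ℕ) :
    rd ((List.range' k l.length).zip l) a = if a < k then 0 else l[a - k]?.getD 0 := by
  induction l generalizing k with
  | nil => simp
  | cons b l ih =>
    simp only [List.length_cons, List.range'_succ, List.zip_cons_cons, rd_cons]
    rw [ih]
    by_cases h1 : k = a
    · subst h1; simp
    · rw [if_neg h1]
      by_cases h2 : a < k
      · rw [if_pos h2, if_pos (by omega)]
      · rw [if_neg h2, if_neg (by omega)]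
        have : a - k = (a - (k + 1)) + 1 := by omega
        rw [this, List.getElem?_cons_succ]

theorem rd_mem0 (w : ℕ) (input : List ℕ) (a : ℕ) :
    rd (mem0 w input) a = input[a]?.getD 0 % 2 ^ w := by
  have := rd_zip 0 (input.map (fun a => a % 2 ^ w)) a
  simp only [List.length_map, Nat.not_lt_zero, if_false, Nat.sub_zero] at this
  unfold mem0
  rw [List.range_eq_range', this, List.getElem?_map]
  cases input[a]? <;> simp

theorem rel_init (P : Program) (w : ℕ) (input : List ℕ) :
    Rel (WordRAM.init P w input) (init0 P w input) where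
  pc := rfl
  halted := rfl
  regs j := by
    unfold init0 WordRAM.init Cfg.reg
    by_cases h0 : P.numRegs = 0
    · simp [h0]
    · simp only [h0, if_false, rd_cons, rd_nil]
      by_cases hj : j = 0
      · subst hj
        simp [Nat.pos_of_ne_zero h0]
      · rw [if_neg (Ne.symm hj)]
        split_ifs <;> rfl
  mem a := rd_mem0 w input a

theorem rel_run (P : Program) (w : ℕ) (input : List ℕ) (T : ℕ) :
    Rel (run P w (fun _ => 0) input T) ((ustep (params P w))^[T] (init0 P w input)) := by
  induction T with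
  | zero => exact rel_init P w input
  | succ T ih =>
    unfold run
    rw [Function.iterate_succ_apply', Function.iterate_succ_apply']
    exact ih.step

/-- the test whether the output is `[1]` -/
def out1 (s : St) : Bool := decide (rd s.2.2.1 0 = 1) && decide (rd s.2.2.2 (rd s.2.2.1 1) = 1)

theorem Rel.out1 {r : ℕ} {c : Cfg r} {s : St} (h : Rel c s) : out1 s = true ↔ c.output = [1] := by
  unfold RAM.out1 Cfg.output
  rw [h.regs, h.regs, h.mem]
  simp only [Bool.and_eq_true, decide_eq_true_eq]
  constructor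
  · rintro ⟨h1, h2⟩
    rw [h1]
    simp [List.range_succ, h2]
  · intro h1
    have h2 : c.reg 0 = 1 := by simpa using congrArg List.length h1
    rw [h2] at h1
    simp only [List.range_succ, List.range_zero, List.nil_append, List.map_cons, add_zero,
      List.map_nil, List.cons.injEq, and_true] at h1
    exact ⟨h2, h1⟩

/-! ### the interpreter is polynomial time -/

section ptf

variable {α : Type} [PTCode α]

@[fun_prop]
protected theorem ptf_rd {L : α → AL} {a : α → ℕ} (hL : PTF L) (ha : PTF a) :
    PTF (fun x => rd (L x) (a x)) := by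
  unfold rd
  refine PTF.optionGetD (PTF.optionMap (PTF.find? hL ?_) ?_) (PTF.const 0)
  · exact PTPred.toPTF (PTPred.natEq (by fun_prop) (by fun_prop))
  · exact PTF.comp (g := fun p : ℕ × ℕ => p.2) PTF.snd PTF.snd

theorem ptf_alu {w op x y v : α → ℕ} (hw : PTU w) (hop : PTF op) (hx : PTF x) (hy : PTF y)
    (hv : PTF v) : PTF (fun a => alu (w a) (op a) (x a) (y a) (v a)) := by
  unfold alu
  have h2 : PTF (fun a => 2 ^ w a) := PTF.natTwoPow hw
  have hm : PTU (fun a => min (y a) (w a)) := PTF.natMinUn hy hw
  have hs : PTF (fun a => 2 ^ (min (y a) (w a))) := PTF.natTwoPow hm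
  have hw' : PTF w := PTU.toPTF hw
  have hc : ∀ n : ℕ, PTPred (fun a => op a = n) := fun n => PTPred.natEq hop (PTF.const n)
  have hlt : PTPred (fun a => y a < w a) := PTPred.natLt hy hw'
  have e0 : PTF (fun a => v a % 2 ^ w a) := PTF.natMod hv h2
  have e2 : PTF (fun a => (x a + y a) % 2 ^ w a) := PTF.natMod (by fun_prop) h2
  have e4 : PTF (fun a => (x a * y a) % 2 ^ w a) := PTF.natMod (by fun_prop) h2
  have e10 : PTF (fun a => (x a * 2 ^ (min (y a) (w a))) % 2 ^ w a) :=
    PTF.natMod (PTF.natMul hx hs) h2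
  refine PTF.ite (hc 0) e0 (PTF.ite (hc 1) hx (PTF.ite (hc 2) e2 (PTF.ite (hc 3) (by fun_prop)
    (PTF.ite (hc 4) e4 (PTF.ite (hc 5) (by fun_prop) (PTF.ite (hc 6) (by fun_prop)
    (PTF.ite (hc 7) (by fun_prop) (PTF.ite (hc 8) (by fun_prop) (PTF.ite (hc 9) (by fun_prop)
    (PTF.ite (hc 10) (PTF.ite hlt e10 (PTF.const 0)) (PTF.ite (hc 11) (PTF.ite hlt (by fun_prop)
    (PTF.const 0)) (PTF.ite (hc 12) hv (PTF.const 0)))))))))))))

theorem ptf_uexec : PTF (fun q : Un × TI × St => uexec q.1.val q.2.1 q.2.2) := by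
  unfold uexec
  have hop : PTF (fun q : Un × TI × St => q.2.1.1) := by fun_prop
  have hx : PTF (fun q : Un × TI × St => rd q.2.2.2.2.1 q.2.1.2.2.1) := by fun_prop
  have hy : PTF (fun q : Un × TI × St => rd q.2.2.2.2.1 q.2.1.2.2.2) := by fun_prop
  have hc : ∀ n : ℕ, PTPred (fun q : Un × TI × St => q.2.1.1 = n) :=
    fun n => PTPred.natEq hop (PTF.const n)
  have hlt : PTPred (fun q : Un × TI × St => q.2.1.1 < 14) := PTPred.natLt hop (PTF.const _)
  have halu := ptf_alu (w := fun q : Un × TI × St => q.1.val) (op := fun q => q.2.1.1)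
    (x := fun q => rd q.2.2.2.2.1 q.2.1.2.2.1) (y := fun q => rd q.2.2.2.2.1 q.2.1.2.2.2)
    (v := fun q => if q.2.1.1 = 12 then rd q.2.2.2.2.2 (rd q.2.2.2.2.1 q.2.1.2.2.1)
      else q.2.1.2.2.1) (PTU.val (by fun_prop)) hop hx hy
      (PTF.ite (hc 12) (by fun_prop) (by fun_prop))
  refine PTF.ite hlt ?_ (PTF.ite (hc 14) (by fun_prop) (PTF.ite (hc 15) (by fun_prop)
    (PTF.ite (hc 16) ?_ (PTF.ite (hc 17) ?_ (PTF.ite (hc 18) ?_ (by fun_prop))))))
  · exact PTF.prodMk (by fun_prop) (PTF.prodMk (by fun_prop)
      (PTF.prodMk (PTF.listCons (PTF.prodMk (by fun_prop) halu) (by fun_prop)) (by fun_prop)))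
  · exact PTF.prodMk (PTF.ite (PTPred.natEq hx (PTF.const 0)) (by fun_prop) (by fun_prop))
      (by fun_prop)
  · exact PTF.prodMk (PTF.ite (PTPred.natEq hx hy) (by fun_prop) (by fun_prop))
      (by fun_prop)
  · exact PTF.prodMk (PTF.ite (PTPred.natLt hx hy) (by fun_prop) (by fun_prop))
      (by fun_prop)

theorem ptf_ustep : PTF (fun q : Params × St => ustep q.1 q.2) := by
  have hidx : PTU (fun q : Params × St => min q.2.1 q.1.1.length) :=
    PTF.natMinUn (by fun_prop) (PTU.length (by fun_prop))
  have hget : PTF (fun q : Params × St => q.1.1[min q.2.1 q.1.1.length]?) :=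
    PTF.getElem? hidx (by fun_prop)
  have h := PTF.ite (p := fun q : Params × St => q.2.2.1 = true)
    (PTF.toPTPred (by fun_prop)) (f := fun q => q.2) (by fun_prop)
    (PTF.optionCasesOn (s := fun q : Params × St => q.1.1[min q.2.1 q.1.1.length]?)
      (f := fun q => ((q.2.1, true, q.2.2.2) : St))
      (g := fun q i => uexec q.1.2.val i q.2) hget (by fun_prop)
      (PTF.comp (f := fun p : (Params × St) × TI => (p.1.1.2, p.2, p.1.2)) ptf_uexec (by fun_prop)))
  refine h.of_eq (fun q => ?_)
  unfold ustep
  cases q.1.1[min q.2.1 q.1.1.length]? <;> rfl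

@[fun_prop]
theorem ptf_out1 {s : α → St} (hs : PTF s) : PTF (fun a => out1 (s a)) := by
  unfold out1
  refine PTF.and (PTPred.toPTF (PTPred.natEq (by fun_prop) (by fun_prop)))
    (PTPred.toPTF (PTPred.natEq (by fun_prop) (by fun_prop)))

theorem ptf_mem0 {w : α → ℕ} {x : α → List ℕ} (hw : PTU w) (hx : PTF x) :
    PTF (fun a => mem0 (w a) (x a)) := by
  unfold mem0
  refine PTF.zip (PTF.range (PTU.length hx)) (PTF.map hx ?_)
  exact PTF.natMod (by fun_prop) (PTF.natTwoPow (by fun_prop))

end ptf

/-! ### size bounds -/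

/-- all numbers in the state have size at most `B` -/
structure Bd (B : ℕ) (s : St) : Prop where
  pc : s.1.size ≤ B
  regs : ∀ p ∈ s.2.2.1, p.1.size ≤ B ∧ p.2.size ≤ B
  mem : ∀ p ∈ s.2.2.2, p.1.size ≤ B ∧ p.2.size ≤ B

theorem size_rd {B : ℕ} {L : AL} (h : ∀ p ∈ L, p.1.size ≤ B ∧ p.2.size ≤ B) (a : ℕ) :
    (rd L a).size ≤ B := by
  induction L with
  | nil => simp
  | cons p L ih =>
    rw [rd_cons]
    split_ifs
    · exact (h p (by simp)).2
    · exact ih (fun q hq => h q (by simp [hq]))

theorem size_mono {a b : ℕ} (h : a ≤ b) : a.size ≤ b.size := Nat.size_le_size h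

theorem size_mod_two_pow {a w : ℕ} : (a % 2 ^ w).size ≤ w :=
  Nat.size_le.2 (Nat.mod_lt _ (by positivity))

theorem size_alu {B w op x y v : ℕ} (hw : w ≤ B) (hx : x.size ≤ B) (hy : y.size ≤ B)
    (hv : op = 12 → v.size ≤ B) : (alu w op x y v).size ≤ B := by
  unfold alu
  by_cases h0 : op = 0
  · rw [if_pos h0]; exact size_mod_two_pow.trans hw
  rw [if_neg h0]
  by_cases h1 : op = 1
  · rw [if_pos h1]; exact hx
  rw [if_neg h1]
  by_cases h2 : op = 2
  · rw [if_pos h2]; exact size_mod_two_pow.trans hw
  rw [if_neg h2]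
  by_cases h3 : op = 3
  · rw [if_pos h3]; exact (size_mono (Nat.sub_le _ _)).trans hx
  rw [if_neg h3]
  by_cases h4 : op = 4
  · rw [if_pos h4]; exact size_mod_two_pow.trans hw
  rw [if_neg h4]
  by_cases h5 : op = 5
  · rw [if_pos h5]; exact (size_mono (Nat.div_le_self _ _)).trans hx
  rw [if_neg h5]
  by_cases h6 : op = 6
  · rw [if_pos h6]; exact (size_mono (Nat.mod_le _ _)).trans hx
  rw [if_neg h6]
  by_cases h7 : op = 7
  · rw [if_pos h7]; exact (size_mono Nat.and_le_left).trans hx
  rw [if_neg h7]
  by_cases h8 : op = 8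
  · rw [if_pos h8]; exact Nat.size_le.2 (Nat.or_lt_two_pow (Nat.size_le.1 hx) (Nat.size_le.1 hy))
  rw [if_neg h8]
  by_cases h9 : op = 9
  · rw [if_pos h9]; exact Nat.size_le.2 (Nat.xor_lt_two_pow (Nat.size_le.1 hx) (Nat.size_le.1 hy))
  rw [if_neg h9]
  by_cases h10 : op = 10
  · rw [if_pos h10]
    split_ifs
    · exact size_mod_two_pow.trans hw
    · simp
  rw [if_neg h10]
  by_cases h11 : op = 11
  · rw [if_pos h11]
    split_ifs
    · rw [Nat.shiftRight_eq_div_pow]
      exact (size_mono (Nat.div_le_self _ _)).trans hx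
    · simp
  rw [if_neg h11]
  by_cases h12 : op = 12
  · rw [if_pos h12]; exact hv h12
  rw [if_neg h12]
  simp

theorem bd_uexec {B w : ℕ} {i : TI} {s : St} (hw : w ≤ B) (hd : i.2.1.size ≤ B)
    (hpc : (s.1 + 1).size ≤ B) (h : Bd B s) : Bd B (uexec w i s) := by
  have hx := size_rd h.regs i.2.2.1
  have hy := size_rd h.regs i.2.2.2
  unfold uexec
  by_cases h14 : i.1 < 14
  · rw [if_pos h14]
    refine ⟨hpc, ?_, h.mem⟩
    intro p hp
    rcases List.mem_cons.1 hp with rfl | hp
    · refine ⟨hd, size_alu hw hx hy (fun h12 => ?_)⟩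
      rw [if_pos h12]
      exact size_rd h.mem _
    · exact h.regs p hp
  rw [if_neg h14]
  by_cases h14 : i.1 = 14
  · rw [if_pos h14]
    refine ⟨hpc, h.regs, ?_⟩
    intro p hp
    rcases List.mem_cons.1 hp with rfl | hp
    · exact ⟨hx, size_rd h.regs _⟩
    · exact h.mem p hp
  rw [if_neg h14]
  by_cases h15 : i.1 = 15
  · rw [if_pos h15]
    exact ⟨hd, h.regs, h.mem⟩
  rw [if_neg h15]
  by_cases h16 : i.1 = 16
  · rw [if_pos h16]
    refine ⟨?_, h.regs, h.mem⟩
    show Nat.size (if _ then _ else _) ≤ B
    split_ifs <;> assumption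
  rw [if_neg h16]
  by_cases h17 : i.1 = 17
  · rw [if_pos h17]
    refine ⟨?_, h.regs, h.mem⟩
    show Nat.size (if _ then _ else _) ≤ B
    split_ifs <;> assumption
  rw [if_neg h17]
  by_cases h18 : i.1 = 18
  · rw [if_pos h18]
    refine ⟨?_, h.regs, h.mem⟩
    show Nat.size (if _ then _ else _) ≤ B
    split_ifs <;> assumption
  rw [if_neg h18]
  exact ⟨h.pc, h.regs, h.mem⟩

theorem sz_prod_eq {α β : Type} [PTCode α] [PTCode β] (p : α × β) :
    sz p = 2 * sz p.1 + 1 + sz p.2 := by
  rw [sz, enc_prod, length_pair]; rfl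

theorem sz_un_eq (u : Un) : sz u = u.val := by
  rw [sz, enc_un, List.length_replicate]

theorem bd_ustep {B : ℕ} {p : Params} {s : St} (hB : sz p ≤ B) (h : Bd B s) :
    Bd B (ustep p s) := by
  unfold ustep
  split_ifs with hh
  · exact h
  have hp1 : sz p = 2 * sz p.1 + 1 + sz p.2 := sz_prod_eq p
  have hp2 : sz p.2 = p.2.val := sz_un_eq p.2
  split
  · exact ⟨h.pc, h.regs, h.mem⟩
  · rename_i i hi
    have hmem : i ∈ p.1 := List.mem_of_getElem? hi
    have hlt : min s.1 p.1.length < p.1.length := by
      by_contra hcon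
      rw [List.getElem?_eq_none (by omega)] at hi
      simp at hi
    have hlt' : s.1 < p.1.length := by
      rcases min_lt_iff.1 hlt with h | h
      · exact h
      · exact absurd h (lt_irrefl _)
    have hlen : p.1.length ≤ sz p.1 := length_le_sz p.1
    have hi1 : sz i ≤ sz p.1 := sz_mem_le hmem
    have hi2 : sz i = 2 * sz i.1 + 1 + sz i.2 := sz_prod_eq i
    have hi3 : sz i.2 = 2 * sz i.2.1 + 1 + sz i.2.2 := sz_prod_eq i.2
    have hi4 : sz i.2.1 = i.2.1.size := sz_nat _
    refine bd_uexec (by omega) (by omega) ?_ h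
    have : (s.1 + 1).size ≤ s.1 + 1 := by
      rw [Nat.size_le]
      exact Nat.lt_two_pow_self
    omega

/-- number of entries of the two association lists -/
def len (s : St) : ℕ := s.2.2.1.length + s.2.2.2.length

theorem len_ustep (p : Params) (s : St) : len (ustep p s) ≤ len s + 1 := by
  unfold ustep
  split_ifs with hh
  · omega
  split
  · simp [len]
  · rename_i i hi
    unfold uexec len
    split_ifs <;> simp <;> omega

theorem sz_AL {B : ℕ} {L : AL} (h : ∀ p ∈ L, p.1.size ≤ B ∧ p.2.size ≤ B) :
    sz L ≤ (6 * B + 3) * L.length := by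
  induction L with
  | nil => simp [sz]
  | cons p L ih =>
    have h1 := ih (fun q hq => h q (by simp [hq]))
    have h2 := h p (by simp)
    have h3 : sz p = 2 * sz p.1 + 1 + sz p.2 := sz_prod_eq p
    have h4 : sz p.1 = p.1.size := sz_nat _
    have h5 : sz p.2 = p.2.size := sz_nat _
    rw [sz_cons, List.length_cons]
    nlinarith

theorem sz_st {B : ℕ} {s : St} (h : Bd B s) : sz s ≤ (14 * B + 11) * (len s + 1) := by
  have h1 : sz s = 2 * sz s.1 + 1 + sz s.2 := sz_prod_eq s
  have h2 : sz s.2 = 2 * sz s.2.1 + 1 + sz s.2.2 := sz_prod_eq s.2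
  have h3 : sz s.2.2 = 2 * sz s.2.2.1 + 1 + sz s.2.2.2 := sz_prod_eq s.2.2
  have h4 : sz s.1 = s.1.size := sz_nat _
  have h5 : sz s.2.1 = 1 := rfl
  have h6 := sz_AL h.regs
  have h7 := sz_AL h.mem
  have h8 := h.pc
  unfold len
  nlinarith

theorem bd_iterate {B : ℕ} {p : Params} {s : St} (hB : sz p ≤ B) (h : Bd B s) (t : ℕ) :
    Bd B ((ustep p)^[t] s) := by
  induction t with
  | zero => exact h
  | succ t ih => rw [Function.iterate_succ_apply']; exact bd_ustep hB ih

theorem len_iterate (p : Params) (s : St) (t : ℕ) : len ((ustep p)^[t] s) ≤ len s + t := by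
  induction t with
  | zero => simp
  | succ t ih =>
    rw [Function.iterate_succ_apply']
    have := len_ustep p ((ustep p)^[t] s)
    omega

theorem bd_of_sz {s : St} : Bd (sz s) s := by
  have h1 : sz s = 2 * sz s.1 + 1 + sz s.2 := sz_prod_eq s
  have h2 : sz s.2 = 2 * sz s.2.1 + 1 + sz s.2.2 := sz_prod_eq s.2
  have h3 : sz s.2.2 = 2 * sz s.2.2.1 + 1 + sz s.2.2.2 := sz_prod_eq s.2.2
  have h4 : sz s.1 = s.1.size := sz_nat _
  have key : ∀ (L : AL), ∀ p ∈ L, p.1.size ≤ sz L ∧ p.2.size ≤ sz L := by
    intro L p hp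
    have h5 := sz_mem_le hp
    have h6 : sz p = 2 * sz p.1 + 1 + sz p.2 := sz_prod_eq p
    have h7 : sz p.1 = p.1.size := sz_nat _
    have h8 : sz p.2 = p.2.size := sz_nat _
    omega
  refine ⟨by omega, fun p hp => ?_, fun p hp => ?_⟩
  · have := key _ p hp
    omega
  · have := key _ p hp
    omega

theorem len_le_sz (s : St) : len s ≤ sz s := by
  have h1 : sz s = 2 * sz s.1 + 1 + sz s.2 := sz_prod_eq s
  have h2 : sz s.2 = 2 * sz s.2.1 + 1 + sz s.2.2 := sz_prod_eq s.2
  have h3 : sz s.2.2 = 2 * sz s.2.2.1 + 1 + sz s.2.2.2 := sz_prod_eq s.2.2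
  have h4 := length_le_sz s.2.2.1
  have h5 := length_le_sz s.2.2.2
  unfold len
  omega

/-- **absolute size bound** for the states of the interpreter -/
theorem sz_iterate_ustep (p : Params) (s : St) (t : ℕ) :
    sz ((ustep p)^[t] s) ≤ 14 * (sz p + sz s + 1) * (sz s + t + 1) := by
  have h1 := bd_iterate (B := sz p + sz s) (p := p) (s := s) (by omega)
    (by
      have := bd_of_sz (s := s)
      exact ⟨this.pc.trans (by omega), fun q hq => ⟨(this.regs q hq).1.trans (by omega),
        (this.regs q hq).2.trans (by omega)⟩, fun q hq => ⟨(this.mem q hq).1.trans (by omega),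
        (this.mem q hq).2.trans (by omega)⟩⟩) t
  refine (sz_st h1).trans ?_
  have h2 := len_iterate p s t
  have h3 := len_le_sz s
  refine Nat.mul_le_mul ?_ (by omega)
  omega

/-- size of the initial state -/
theorem sz_init0 (P : Program) (w : ℕ) (input : List ℕ) :
    sz (init0 P w input) ≤ (14 * (input.length + w) + 11) * (input.length + 2) := by
  have hb : Bd (input.length + w) (init0 P w input) := by
    refine ⟨by simp [init0], ?_, ?_⟩
    · intro p hp
      have : p = (0, input.length % 2 ^ w) := by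
        simp only [init0] at hp
        split_ifs at hp with h0
        · simp at hp
        · simpa using hp
      subst this
      exact ⟨by simp, size_mod_two_pow.trans (by omega)⟩
    · intro p hp
      obtain ⟨a, b⟩ := p
      have h1 := List.of_mem_zip hp
      have h2 : a < input.length := List.mem_range.1 h1.1
      obtain ⟨c, -, rfl⟩ := List.mem_map.1 h1.2
      refine ⟨?_, size_mod_two_pow.trans (by omega)⟩
      have : a.size ≤ a := by
        rw [Nat.size_le]
        exact Nat.lt_two_pow_self
      show a.size ≤ _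
      omega
  refine (sz_st hb).trans (Nat.mul_le_mul le_rfl ?_)
  have h1 : (mem0 w input).length = input.length := by simp [mem0]
  have h2 : (if P.numRegs = 0 then ([] : AL) else [(0, input.length % 2 ^ w)]).length ≤ 1 := by
    split_ifs <;> simp
  unfold len init0
  show (if P.numRegs = 0 then ([] : AL) else [(0, input.length % 2 ^ w)]).length +
    (mem0 w input).length + 1 ≤ _
  omega

end Crest.Agent.R290.RAM
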