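import Crest.Agent.Lib.PT.ListFns2
import Crest.Agent.Lib.PT.ArithMore
import Crest.Prelude.Def_WL

/-!
# Row 290: adjacency matrices of listed vertices as poly-time outputs

`listAdj l adj` is the matrix of the graph whose vertices are the positions of the list `l`;
`PTF.adjMatrixCode`: its bit-string code is a poly-time function of the data.
-/

set_option autoImplicit false
set_option linter.dupNamespace false

namespace Crest.Agent.R290

open Crest.Agent.Lib.PT Crest.WLRefine Crest.Enc

/-- adjacency matrix of a list of vertices -/
def listAdj {β : Type} (l : List β) (adj : β → β → Bool) : Fin l.length → Fin l.length → Bool :=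
  fun i j => adj (l.get i) (l.get j)

theorem finRange_map_get {β δ : Type} (l : List β) (f : β → δ) :
    (List.finRange l.length).map (fun i => f (l.get i)) = l.map f := by
  conv_rhs => rw [← List.map_get_finRange l]
  rw [List.map_map]
  rfl

theorem adjMatrixCode_listAdj {β : Type} (l : List β) (adj : β → β → Bool) :
    adjMatrixCode (listAdj l adj) =
      natCode l.length ++ l.flatMap (fun v => l.map (fun w => adj v w)) := by
  unfold adjMatrixCode listAdj
  congr 1
  rw [List.flatMap_def, List.flatMap_def]
  congr 1
  rw [← finRange_map_get l (fun v => l.map (fun w => adj v w))]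
  refine List.map_congr_left fun i _ => ?_
  exact finRange_map_get l (fun w => adj (l.get i) w)

section ptf

variable {γ β : Type} [PTCode γ] [PTCode β]

theorem ptf_natCode {f : γ → ℕ} (hf : PTF f) : PTF (fun c => natCode (f c)) := by
  have h1 : PTF (fun c => (f c).bits) := PTF.natBits hf
  have h2 : PTF (fun c => ((f c).bits.map (fun b => [true, b]))) :=
    PTF.map h1 (f := fun (_ : γ) (b : Bool) => [true, b])
      (by show PTF (fun q : γ × Bool => [true, q.2]); fun_prop)
  have h3 := PTF.append (PTF.flatten h2) (PTF.const (α := γ) [false, false])
  exact h3.of_eq (fun c => rfl)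

theorem ptf_adjMatrixCode {l : γ → List β} {adj : γ → β → β → Bool} (hl : PTF l)
    (hadj : PTF (fun p : γ × β × β => adj p.1 p.2.1 p.2.2)) :
    PTF (fun c => adjMatrixCode (listAdj (l c) (adj c))) := by
  have h1 : PTF (fun c => natCode (l c).length) := ptf_natCode (PTU.toPTF (PTU.length hl))
  have h2 : PTF (fun c => (l c).flatMap (fun v => (l c).map (fun w => adj c v w))) := by
    refine PTF.flatMap hl ?_
    have h3 : PTF (fun p : γ × β => (l p.1).map (fun w => adj p.1 p.2 w)) := by
      refine PTF.map (by fun_prop) ?_
      have h4 : PTF (fun q : (γ × β) × β => (q.1.1, q.1.2, q.2)) := by fun_prop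
      exact PTF.comp hadj h4
    exact h3
  exact (PTF.append h1 h2).of_eq fun c => (adjMatrixCode_listAdj (l c) (adj c)).symm

end ptf

end Crest.Agent.R290
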