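import Mathlib

/-!
Row 290, blueprint 2 / 2.1: networks, objects, ports, closed sets of facts, and the shift system of
the Duplicator. Registers are `Fin (m+1)`, rows `Fin m`, the arms have length `m + 2`.
-/

set_option autoImplicit false

namespace Crest.Agent.R290.Net

open Finset

/-- Columns: the centre of a gadget, or position `p` (1 ≤ p ≤ m+2) of arm `a` of a gadget. -/
inductive Col (Gad : Type) : Type
  | ctr : Gad → Col Gad
  | arm : Gad → ℕ → ℕ → Col Gad
  deriving DecidableEq

/-- Edges between columns: `int g a p` joins positions `p-1` and `p` of arm `a`; `hub h` joins all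
last columns of the arms attached to hub `h`. -/
inductive Edge (Hub Gad : Type) : Type
  | int : Gad → ℕ → ℕ → Edge Hub Gad
  | hub : Hub → Edge Hub Gad
  deriving DecidableEq

/-- Object data: column, row, two letters. -/
structure Obj (m : ℕ) (Gad Λ : Type) where
  κ : Col Gad
  i : Fin m
  x : Λ
  y : Λ
  deriving DecidableEq

/-- Variables. -/
inductive Var (m : ℕ) (Hub Gad Λ : Type) : Type
  | Y : Edge Hub Gad → Fin m → Λ → Λ → Var m Hub Gad Λ
  | U : Col Gad → Fin (m + 1) → Λ → Var m Hub Gad Λ
  deriving DecidableEq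

/-- A network with `m` rows. -/
structure Network (m : ℕ) (Hub Gad Λ : Type) where
  /-- base letter -/
  o : Λ
  /-- letter sets of a gadget, for every register -/
  A : Gad → Fin (m + 1) → Set Λ
  /-- number of arms -/
  nArm : Gad → ℕ
  /-- hub of an arm -/
  hub : Gad → ℕ → Hub
  /-- projection of an arm -/
  pr : Gad → ℕ → Λ → Λ
  A_zero : ∀ g, A g 0 = {o}
  A_last : ∀ g, A g (Fin.last m) = {o}
  nArm_pos : ∀ g, 0 < nArm g
  pr_o : ∀ g a, pr g a o = o

variable {m : ℕ} {Hub Gad Λ : Type} [DecidableEq Hub] [DecidableEq Gad] [DecidableEq Λ]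

namespace Network

variable (N : Network m Hub Gad Λ)

/-- The edges at a column. -/
def edges : Col Gad → Finset (Edge Hub Gad)
  | .ctr g => (range (N.nArm g)).image fun a => Edge.int g a 1
  | .arm g a p => {Edge.int g a p, if p < m + 2 then Edge.int g a (p + 1) else Edge.hub (N.hub g a)}

/-- The projection of letters of a column used at an edge. -/
def psi : Col Gad → Edge Hub Gad → Λ → Λ
  | .arm g a _, .hub _ => N.pr g a
  | _, _ => id

/-- Valid columns. -/
def IsCol : Col Gad → Prop
  | .ctr _ => True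
  | .arm g a p => a < N.nArm g ∧ 1 ≤ p ∧ p ≤ m + 2

/-- The gadget of a column. -/
def _root_.Crest.Agent.R290.Net.Col.gad : Col Gad → Gad
  | .ctr g => g
  | .arm g _ _ => g

/-- Valid objects. -/
def IsObj (u : Obj m Gad Λ) : Prop :=
  N.IsCol u.κ ∧ u.x ∈ N.A u.κ.gad u.i.castSucc ∧ u.y ∈ N.A u.κ.gad u.i.succ

/-- Ports of an object. -/
def ports (u : Obj m Gad Λ) : Finset (Var m Hub Gad Λ) :=
  ((N.edges u.κ).image fun e => Var.Y e u.i (N.psi u.κ e u.x) (N.psi u.κ e u.y)) ∪
    ((if u.i.val = 0 then ∅ else {Var.U u.κ u.i.castSucc u.x}) ∪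
      (if u.i.val + 1 = m then ∅ else {Var.U u.κ u.i.succ u.y}))

/-- Twist of a column. -/
def bcol (β : Gad → ZMod 2) : Col Gad → ZMod 2
  | .ctr g => β g
  | .arm _ _ _ => 0

/-- Required parity of an object: the twist of its column in the bottom row, `0` elsewhere. -/
def bobj (β : Gad → ZMod 2) (u : Obj m Gad Λ) : ZMod 2 :=
  if u.i.val + 1 = m then bcol β u.κ else 0

/-- The shift of the variables given by potentials. -/
def sV (V : Edge Hub Gad → Fin (m + 1) → Λ → ZMod 2) : Var m Hub Gad Λ → ZMod 2
  | .Y e i x y => V e i.castSucc x + V e i.succ y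
  | .U κ j x => ∑ e ∈ N.edges κ, V e j (N.psi κ e x)

/-- Known facts with values; a set of known facts is closed if in no gadget and content exactly one
arm is unknown, and if all are known the values add up to the twist. -/
def Closed (β : Gad → ZMod 2) (K : Hub → (Fin (m + 1) → Λ) → Option (ZMod 2)) : Prop :=
  ∀ (g : Gad) (x : Fin (m + 1) → Λ), (∀ j, x j ∈ N.A g j) →
    ((range (N.nArm g)).filter fun a => K (N.hub g a) (fun j => N.pr g a (x j)) = none).card ≠ 1 ∧
    ((∀ a ∈ range (N.nArm g), K (N.hub g a) (fun j => N.pr g a (x j)) ≠ none) →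
      ∑ a ∈ range (N.nArm g), (K (N.hub g a) (fun j => N.pr g a (x j))).getD 0 = β g)

end Network

end Crest.Agent.R290.Net
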