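import Crest.Agent.R290.NetDefs
import Crest.Agent.R290.Inc

/-!
# Row 290, blueprint 2.2 (Sp): what Spoiler can derive in a network with `m + 1` pebbles.
-/

set_option autoImplicit false
set_option linter.unusedSectionVars false

namespace Crest.Agent.R290

open Finset

section exchange

variable {O X : Type} {ports : O → Finset X} {D : O → ZMod 2} {K m : ℕ}
  {S : List (Peb O X) → Prop}

/-- exchanging the pebbles one by one -/
theorem IncSys.exch (h : IncSys ports D K S) (hm : m < K) (Good : Fin m → Peb O X → Prop)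
    (p : Fin m → Peb O X)
    (hstep : ∀ i (l : List (Peb O X)), S l → l.length < K → p i ∈ l →
      ∃ q, Good i q ∧ S (q :: l)) (hp : S (List.ofFn p)) :
    ∃ q : Fin m → Peb O X, (∀ i, Good i (q i)) ∧ S (List.ofFn q) := by
  have key : ∀ k ≤ m, ∃ q : Fin m → Peb O X, (∀ i : Fin m, i.val < k → Good i (q i)) ∧
      (∀ i : Fin m, k ≤ i.val → q i = p i) ∧ S (List.ofFn q) := by
    intro k
    induction k with
    | zero => intro _; exact ⟨p, by simp, by simp, hp⟩
    | succ k ih =>
      intro hk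
      obtain ⟨q, h1, h2, h3⟩ := ih (by omega)
      obtain ⟨q', h4, h5⟩ := hstep ⟨k, hk⟩ (List.ofFn q) h3 (by simpa using hm)
        (by rw [← h2 ⟨k, hk⟩ (le_refl _)]; exact List.mem_ofFn.2 ⟨_, rfl⟩)
      refine ⟨Function.update q ⟨k, hk⟩ q', ?_, ?_, ?_⟩
      · intro i hi
        by_cases hik : i = ⟨k, hk⟩
        · subst hik; simpa using h4
        · rw [Function.update_of_ne hik]
          apply h1
          have : i.val ≠ k := fun e => hik (Fin.ext e)
          omega
      · intro i hi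
        have hik : i ≠ ⟨k, hk⟩ := by
          rintro rfl
          simp at hi
        rw [Function.update_of_ne hik]
        exact h2 i (by omega)
      · refine h.mono h5 ?_
        intro r hr
        obtain ⟨i, rfl⟩ := List.mem_ofFn.1 hr
        by_cases hik : i = ⟨k, hk⟩
        · subst hik; simp
        · rw [Function.update_of_ne hik]
          exact List.mem_cons_of_mem _ (List.mem_ofFn.2 ⟨_, rfl⟩)
  obtain ⟨q, h1, _, h3⟩ := key m le_rfl
  exact ⟨q, fun i => h1 i i.isLt, h3⟩

/-- variables to objects -/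
theorem IncSys.toObj (h : IncSys ports D K S) (hm : m < K) (x : Fin m → X) (u : Fin m → O)
    (hx : ∀ i, x i ∈ ports (u i)) (ε : Fin m → ZMod 2)
    (hp : S (List.ofFn fun i => Peb.var (x i) (ε i))) :
    ∃ σ : Fin m → X → ZMod 2, (∀ i, σ i (x i) = ε i) ∧
      S (List.ofFn fun i => Peb.obj (u i) (σ i)) := by
  obtain ⟨q, h1, h2⟩ := h.exch hm (fun i q => ∃ σ, q = Peb.obj (u i) σ ∧ σ (x i) = ε i)
    (fun i => Peb.var (x i) (ε i)) (by
      intro i l hl hK hi
      obtain ⟨σ, hσ⟩ := h.extObj hl hK (u i)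
      exact ⟨_, ⟨σ, rfl, h.cons hσ (u i) σ (x i) (ε i) (List.mem_cons_self ..)
        (List.mem_cons_of_mem _ hi) (hx i)⟩, hσ⟩) hp
  choose σ h3 h4 using h1
  refine ⟨σ, h4, ?_⟩
  have : q = fun i => Peb.obj (u i) (σ i) := funext h3
  rwa [this] at h2

/-- objects to variables -/
theorem IncSys.toVar (h : IncSys ports D K S) (hm : m < K) (x : Fin m → X) (u : Fin m → O)
    (hx : ∀ i, x i ∈ ports (u i)) (σ : Fin m → X → ZMod 2)
    (hp : S (List.ofFn fun i => Peb.obj (u i) (σ i))) :
    S (List.ofFn fun i => Peb.var (x i) (σ i (x i))) := by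
  obtain ⟨q, h1, h2⟩ := h.exch hm (fun i q => q = Peb.var (x i) (σ i (x i)))
    (fun i => Peb.obj (u i) (σ i)) (by
      intro i l hl hK hi
      obtain ⟨ε, hε⟩ := h.extVar hl hK (u i) (x i) (hx i)
      have := h.cons hε (u i) (σ i) (x i) ε (List.mem_cons_of_mem _ hi)
        (List.mem_cons_self ..) (hx i)
      refine ⟨_, rfl, ?_⟩
      rw [this]; exact hε) hp
  have : q = fun i => Peb.var (x i) (σ i (x i)) := funext h1
  rwa [this] at h2

/-- existence of positions of variables -/
theorem IncSys.exVar (h : IncSys ports D K S) : ∀ (n : ℕ) (x : Fin n → X), n ≤ K →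
    (∀ i, ∃ u, x i ∈ ports u) → ∃ ε : Fin n → ZMod 2, S (List.ofFn fun i => Peb.var (x i) (ε i)) := by
  intro n
  induction n with
  | zero => intro x _ _; exact ⟨fun _ => 0, by simpa using h.empty⟩
  | succ n ih =>
    intro x hn hx
    obtain ⟨ε, hε⟩ := ih (fun i => x i.succ) (by omega) (fun i => hx _)
    obtain ⟨u, hu⟩ := hx 0
    obtain ⟨ε₀, h0⟩ := h.extVar hε (by simp; omega) u (x 0) hu
    refine ⟨Fin.cons ε₀ ε, ?_⟩
    rw [List.ofFn_succ]
    simpa using h0

end exchange

namespace Net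

variable {m : ℕ} {Hub Gad Λ : Type} [DecidableEq Hub] [DecidableEq Gad] [DecidableEq Λ]

/-- telescoping mod 2 -/
theorem z2_telescope (g : ℕ → ZMod 2) : ∀ n, ∑ i ∈ range n, (g i + g (i + 1)) = g 0 + g n := by
  have h2 : ∀ a : ZMod 2, a + a = 0 := by decide
  intro n
  induction n with
  | zero => simp [h2]
  | succ n ih =>
    rw [sum_range_succ, ih]
    calc g 0 + g n + (g n + g (n + 1)) = g 0 + (g n + g n) + g (n + 1) := by ring
      _ = g 0 + g (n + 1) := by rw [h2, add_zero]

namespace Network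

variable (N : Network m Hub Gad Λ)

/-- Valid objects as a type. -/
abbrev NObj : Type := {u : Obj m Gad Λ // N.IsObj u}

/-- The sum over the ports of an object. -/
theorem sum_ports (u : Obj m Gad Λ) (s : Var m Hub Gad Λ → ZMod 2) :
    ∑ v ∈ N.ports u, s v =
      ∑ e ∈ N.edges u.κ, s (Var.Y e u.i (N.psi u.κ e u.x) (N.psi u.κ e u.y)) +
        ((if u.i.val = 0 then 0 else s (Var.U u.κ u.i.castSucc u.x)) +
          (if u.i.val + 1 = m then 0 else s (Var.U u.κ u.i.succ u.y))) := by
  unfold ports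
  rw [sum_union, sum_image, sum_union]
  · congr 2
    · split_ifs <;> simp
    · split_ifs <;> simp
  · rw [disjoint_left]
    intro v h1 h2
    split_ifs at h1 h2
    · simp at h1
    · simp at h1
    · simp at h2
    · rw [mem_singleton] at h1 h2
      rw [h1] at h2
      simp only [Var.U.injEq] at h2
      have := congrArg Fin.val h2.2.1
      simp at this
  · intro e _ e' _ h
    simp only [Var.Y.injEq] at h
    exact h.1
  · rw [disjoint_left]
    intro v h1 h2
    simp only [mem_image] at h1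
    obtain ⟨e, he, rfl⟩ := h1
    rw [mem_union] at h2
    rcases h2 with h2 | h2
    · split_ifs at h2 <;> simp at h2
    · split_ifs at h2 <;> simp at h2

theorem Y_mem_ports (u : Obj m Gad Λ) {e : Edge Hub Gad} (he : e ∈ N.edges u.κ) :
    Var.Y e u.i (N.psi u.κ e u.x) (N.psi u.κ e u.y) ∈ N.ports u := by
  unfold ports
  exact mem_union_left _ (mem_image_of_mem _ he)

/-- Contents of a gadget. -/
def Cont (g : Gad) (x : Fin (m + 1) → Λ) : Prop := ∀ j, x j ∈ N.A g j

/-- The object of a column in row `i` for a content. -/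
def ob (κ : Col Gad) (x : Fin (m + 1) → Λ) (i : Fin m) : Obj m Gad Λ :=
  ⟨κ, i, x i.castSucc, x i.succ⟩

theorem isObj_ob {κ : Col Gad} (hκ : N.IsCol κ) {x : Fin (m + 1) → Λ} (hx : N.Cont κ.gad x)
    (i : Fin m) : N.IsObj (ob κ x i) := ⟨hκ, hx _, hx _⟩

/-- Total parity difference of a column and content. -/
def DC (D : Obj m Gad Λ → ZMod 2) (κ : Col Gad) (x : Fin (m + 1) → Λ) : ZMod 2 :=
  ∑ i, D (ob κ x i)

/-- In every position with all the variables `Y(e, ·, z)` pebbled the sum of their shifts is `f`. -/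
def Derived (S : List (Peb N.NObj (Var m Hub Gad Λ)) → Prop) (e : Edge Hub Gad)
    (z : Fin (m + 1) → Λ) (f : ZMod 2) : Prop :=
  ∀ ε : Fin m → ZMod 2,
    S (List.ofFn fun i : Fin m => Peb.var (Var.Y e i (z i.castSucc) (z i.succ)) (ε i)) →
    ∑ i, ε i = f

variable {N} {D : Obj m Gad Λ → ZMod 2} {S : List (Peb N.NObj (Var m Hub Gad Λ)) → Prop}

/-- The content seen at an edge of a column. -/
def see (N : Network m Hub Gad Λ) (κ : Col Gad) (e : Edge Hub Gad) (x : Fin (m + 1) → Λ) :
    Fin (m + 1) → Λ := fun j => N.psi κ e (x j)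

/-- sums of shifts at all edges of a column -/
theorem col_sum (h : IncSys (fun u : N.NObj => N.ports u.1) (fun u => D u.1) (m + 1) S)
    {κ : Col Gad} (hκ : N.IsCol κ) {x : Fin (m + 1) → Λ} (hx : N.Cont κ.gad x)
    (σ : Fin m → Var m Hub Gad Λ → ZMod 2)
    (hσ : S (List.ofFn fun i => Peb.obj ⟨ob κ x i, N.isObj_ob hκ hx i⟩ (σ i))) :
    ∑ e ∈ N.edges κ, ∑ i, σ i (Var.Y e i (see N κ e x i.castSucc) (see N κ e x i.succ)) =
      DC D κ x := by
  have h1 : ∀ i, ∑ v ∈ N.ports (ob κ x i), σ i v = D (ob κ x i) := fun i =>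
    h.par hσ ⟨ob κ x i, N.isObj_ob hκ hx i⟩ (σ i) (List.mem_ofFn.2 ⟨i, rfl⟩)
  have h2 : ∑ i, ∑ v ∈ N.ports (ob κ x i), σ i v = DC D κ x :=
    sum_congr rfl fun i _ => h1 i
  rw [← h2, sum_comm]
  simp_rw [sum_ports]
  rw [sum_add_distrib]
  let g : ℕ → ZMod 2 := fun j =>
    if hj : j < m then (if j = 0 then 0 else σ ⟨j, hj⟩ (Var.U κ (Fin.castSucc ⟨j, hj⟩) (x (Fin.castSucc ⟨j, hj⟩))))
    else 0
  have h3 : ∀ i : Fin m,
      ((if (ob κ x i).i.val = 0 then 0 else σ i (Var.U (ob κ x i).κ (ob κ x i).i.castSucc (ob κ x i).x)) +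
        (if (ob κ x i).i.val + 1 = m then 0 else σ i (Var.U (ob κ x i).κ (ob κ x i).i.succ (ob κ x i).y))) =
      g i.val + g (i.val + 1) := by
    intro i
    have e1 : g i.val = (if (ob κ x i).i.val = 0 then 0 else
        σ i (Var.U (ob κ x i).κ (ob κ x i).i.castSucc (ob κ x i).x)) := by
      simp only [g, i.isLt, dif_pos]
      rfl
    have e2 : g (i.val + 1) = (if (ob κ x i).i.val + 1 = m then 0 else
        σ i (Var.U (ob κ x i).κ (ob κ x i).i.succ (ob κ x i).y)) := by
      by_cases hi : i.val + 1 < m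
      · have hne : ¬ ((ob κ x i).i.val + 1 = m) := by change ¬ (i.val + 1 = m); omega
        rw [if_neg hne]
        simp only [g, hi, dif_pos]
        rw [if_neg (by omega)]
        have ee : (Fin.castSucc ⟨i.val + 1, hi⟩ : Fin (m + 1)) = i.succ := rfl
        rw [ee]
        refine h.cons' hσ (by simp) (List.mem_ofFn.2 ⟨⟨i.val + 1, hi⟩, rfl⟩)
          (List.mem_ofFn.2 ⟨i, rfl⟩) ?_ ?_
        · unfold ports
          apply mem_union_right
          apply mem_union_left
          rw [if_neg (by simp [ob])]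
          rw [mem_singleton]
          rfl
        · unfold ports
          apply mem_union_right
          apply mem_union_right
          rw [if_neg hne]
          rw [mem_singleton]
          rfl
      · have hne : (ob κ x i).i.val + 1 = m := by change i.val + 1 = m; have := i.isLt; omega
        rw [if_pos hne]
        simp only [g, hi, dif_neg, not_false_eq_true]
    rw [e1, e2]
  have h4 : ∑ i : Fin m, (g i.val + g (i.val + 1)) = 0 := by
    rw [Fin.sum_univ_eq_sum_range (fun i => g i + g (i + 1)) m, z2_telescope]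
    simp [g]
  rw [sum_congr rfl fun i _ => h3 i, h4, add_zero]
  rfl

/-- **Step**: if all edges but `e` of a column are derived then so is `e`. -/
theorem Derived.step (h : IncSys (fun u : N.NObj => N.ports u.1) (fun u => D u.1) (m + 1) S)
    {κ : Col Gad} (hκ : N.IsCol κ) {x : Fin (m + 1) → Λ} (hx : N.Cont κ.gad x)
    {e : Edge Hub Gad} (he : e ∈ N.edges κ) (f : Edge Hub Gad → ZMod 2)
    (hf : ∀ e' ∈ N.edges κ, e' ≠ e → N.Derived S e' (see N κ e' x) (f e')) :
    N.Derived S e (see N κ e x) (∑ e' ∈ (N.edges κ).erase e, f e' + DC D κ x) := by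
  have h2 : ∀ a b c : ZMod 2, a + b = c → a = b + c := by decide
  intro ε hε
  obtain ⟨σ, h3, h4⟩ := h.toObj (Nat.lt_succ_self m)
    (fun i => Var.Y e i (see N κ e x i.castSucc) (see N κ e x i.succ))
    (fun i => ⟨ob κ x i, N.isObj_ob hκ hx i⟩) (fun i => N.Y_mem_ports (ob κ x i) he) ε hε
  have h5 := col_sum h hκ hx σ h4
  rw [← add_sum_erase _ _ he] at h5
  have h6 : ∑ i, σ i (Var.Y e i (see N κ e x i.castSucc) (see N κ e x i.succ)) = ∑ i, ε i :=
    sum_congr rfl fun i _ => h3 i
  rw [h6] at h5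
  have h7 : ∑ e' ∈ (N.edges κ).erase e,
      ∑ i, σ i (Var.Y e' i (see N κ e' x i.castSucc) (see N κ e' x i.succ)) =
      ∑ e' ∈ (N.edges κ).erase e, f e' := by
    refine sum_congr rfl fun e' he' => ?_
    have he'' := mem_erase.1 he'
    refine hf e' he''.2 he''.1 (fun i => σ i (Var.Y e' i (see N κ e' x i.castSucc) (see N κ e' x i.succ))) ?_
    exact h.toVar (Nat.lt_succ_self m)
      (fun i => Var.Y e' i (see N κ e' x i.castSucc) (see N κ e' x i.succ))
      (fun i => ⟨ob κ x i, N.isObj_ob hκ hx i⟩) (fun i => N.Y_mem_ports (ob κ x i) he''.2) σ h4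
  rw [h7] at h5
  exact h2 _ _ _ h5

/-- derived values are unique -/
theorem Derived.unique (h : IncSys (fun u : N.NObj => N.ports u.1) (fun u => D u.1) (m + 1) S)
    {κ : Col Gad} (hκ : N.IsCol κ) {x : Fin (m + 1) → Λ} (hx : N.Cont κ.gad x)
    {e : Edge Hub Gad} (he : e ∈ N.edges κ) {f f' : ZMod 2}
    (h1 : N.Derived S e (see N κ e x) f) (h2 : N.Derived S e (see N κ e x) f') : f = f' := by
  obtain ⟨ε, hε⟩ := h.exVar m
    (fun i => Var.Y e i (see N κ e x i.castSucc) (see N κ e x i.succ)) (Nat.le_succ m)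
    (fun i => ⟨⟨ob κ x i, N.isObj_ob hκ hx i⟩, N.Y_mem_ports (ob κ x i) he⟩)
  rw [← h1 ε hε, ← h2 ε hε]

end Network

end Net

end Crest.Agent.R290
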