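import Crest.Agent.R290.NetWF
import Crest.Agent.R290.NetDefs
import Crest.Agent.R290.Inc
import Crest.Agent.R290.Sp

/-!
Row 290, module NETBR: from the concrete networks of `Defs.lean` to the abstract networks of
`NetDefs.lean`.

* `ShiftSys.transfer`: shift systems along a bijection of objects and a map of variables.
* `Net.nw N hN : Net.Network N.m H (Fin N.nG) Λ`.
* `Net.shiftEquiv_iff`: `ShiftEquiv N.objs N.ports b K ↔ ∃ S, ShiftSys` on the valid objects of `nw`.
* `Net.nw_closed`: closed sets of facts.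
-/

set_option autoImplicit false

namespace Crest.Agent.R290

open Finset

section transfer

variable {O X O' X' : Type} [DecidableEq O] [DecidableEq O']

/-- Transfer of a shift system along `e : O ≃ O'` and `f : X → X'`, bijective on ports. -/
theorem ShiftSys.transfer (e : O ≃ O') (f : X → X') {ports : O → Finset X}
    {ports' : O' → Finset X'} {par : O → ZMod 2} {par' : O' → ZMod 2} {K : ℕ}
    (hf : ∀ u, Set.BijOn f (ports u) (ports' (e u))) (hpar : ∀ u, par u = par' (e u))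
    {S' : Finset O' → (X' → ZMod 2) → Prop} (h : ShiftSys ports' par' K S') :
    ShiftSys ports par K (fun P s => ∃ s', S' (P.map e.toEmbedding) s' ∧ s = s' ∘ f) where
  valid := by
    rintro P s ⟨s', hs', rfl⟩ u hu
    rw [hpar, ← h.valid hs' (e u) (Finset.mem_map.2 ⟨u, hu, rfl⟩)]
    exact Finset.sum_nbij f (fun x hx => (hf u).mapsTo hx) (hf u).injOn (hf u).surjOn
      (fun _ _ => rfl)
  mono := by
    rintro P Q s ⟨s', hs', rfl⟩ hQ
    exact ⟨s', h.mono hs' (Finset.map_subset_map.2 hQ), rfl⟩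
  empty := by
    obtain ⟨s', hs'⟩ := h.empty
    exact ⟨s' ∘ f, s', by simpa using hs', rfl⟩
  ext := by
    rintro P s ⟨s', hs', rfl⟩ hP u
    obtain ⟨s'', h1, h2⟩ := h.ext hs' (by simpa using hP) (e u)
    refine ⟨s'' ∘ f, ⟨s'', by rw [Finset.map_insert]; exact h1, rfl⟩, ?_⟩
    intro v hv x hx
    exact h2 (e v) (Finset.mem_map.2 ⟨v, hv, rfl⟩) (f x) ((hf v).mapsTo hx)

end transfer

namespace Net

variable {H Λ : Type} (N : Net H Λ) (hN : N.OK)

/-- the abstract network -/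
def nw : Network N.m H (Fin N.nG) Λ where
  o := N.o
  A g j := {x | x ∈ N.lett g.1 j.1}
  nArm g := N.narm g.1
  hub g a := N.hub g.1 a
  pr g a := N.proj g.1 a
  A_zero g := by
    have h : N.lett g.1 0 = [N.o] := hN.lett_triv g.1 g.2 0 (Or.inl rfl)
    ext x
    simp [h]
  A_last g := by
    have h : N.lett g.1 N.m = [N.o] := hN.lett_triv g.1 g.2 N.m (Or.inr le_rfl)
    ext x
    simp [h]
  nArm_pos g := by
    obtain ⟨k, hk⟩ := hN.narm_odd g.1 g.2
    omega
  pr_o g a := hN.proj_o g.1 a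

/-- gadget index -/
def gf (g : ℕ) : Fin N.nG := if h : g < N.nG then ⟨g, h⟩ else ⟨N.gt, hN.gt_lt⟩

theorem gf_of_lt {g : ℕ} (h : g < N.nG) : N.gf hN g = ⟨g, h⟩ := dif_pos h

theorem gf_fin (g : Fin N.nG) : N.gf hN g.1 = g := N.gf_of_lt hN g.2

/-- row index -/
def rf (i : ℕ) : Fin N.m := if h : i < N.m then ⟨i, h⟩ else ⟨0, by have := hN.two_le; omega⟩

theorem rf_of_lt {i : ℕ} (h : i < N.m) : N.rf hN i = ⟨i, h⟩ := dif_pos h

theorem rf_fin (i : Fin N.m) : N.rf hN i.1 = i := N.rf_of_lt hN i.2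

/-- register index -/
def jf (j : ℕ) : Fin (N.m + 1) := if h : j < N.m + 1 then ⟨j, h⟩ else 0

theorem jf_of_lt {j : ℕ} (h : j < N.m + 1) : N.jf j = ⟨j, h⟩ := dif_pos h

theorem jf_fin (j : Fin (N.m + 1)) : N.jf j.1 = j := N.jf_of_lt j.2

/-- column -/
def cfwd (κ : R290.Col) : Col (Fin N.nG) :=
  if κ.2.2 = 0 then Col.ctr (N.gf hN κ.1) else Col.arm (N.gf hN κ.1) κ.2.1 κ.2.2

/-- column, back -/
def cback : Col (Fin N.nG) → R290.Col
  | .ctr g => (g.1, 0, 0)
  | .arm g a p => (g.1, a, p)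

/-- edge -/
def efwd : R290.Edge H → Edge H (Fin N.nG)
  | Sum.inl h => Edge.hub h
  | Sum.inr e => Edge.int (N.gf hN e.1) e.2.1 e.2.2

/-- edge, back -/
def eback : Edge H (Fin N.nG) → R290.Edge H
  | .hub h => Sum.inl h
  | .int g a p => Sum.inr (g.1, a, p)

theorem efwd_eback (e : Edge H (Fin N.nG)) : N.efwd hN (N.eback e) = e := by
  cases e with
  | hub h => rfl
  | int g a p => simp [eback, efwd, gf_fin]

/-- variable -/
def vfwd : NVar H Λ → Var N.m H (Fin N.nG) Λ
  | Sum.inl v => Var.Y (N.efwd hN v.1) (N.rf hN v.2.1) v.2.2.1 v.2.2.2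
  | Sum.inr v => Var.U (N.cfwd hN v.1) (N.jf v.2.1) v.2.2

/-- variable, back -/
def vback : Var N.m H (Fin N.nG) Λ → NVar H Λ
  | .Y e i x y => Sum.inl (N.eback e, i.1, x, y)
  | .U κ j x => Sum.inr (N.cback κ, j.1, x)

/-- object -/
def ofwd (u : R290.NObj Λ) : Obj N.m (Fin N.nG) Λ :=
  ⟨N.cfwd hN u.1, N.rf hN u.2.1, u.2.2.1, u.2.2.2⟩

/-- object, back -/
def oback (u : Obj N.m (Fin N.nG) Λ) : R290.NObj Λ := (N.cback u.κ, u.i.1, u.x, u.y)

theorem cback_cfwd {κ : R290.Col} (h : κ ∈ N.cols κ.1) (hg : κ.1 < N.nG) :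
    N.cback (N.cfwd hN κ) = κ := by
  rw [mem_cols] at h
  unfold cfwd
  rcases h with h | ⟨a, ha, p, hp, h⟩
  · rw [h, if_pos rfl, N.gf_of_lt hN hg]
    rfl
  · have h0 : κ.2.2 ≠ 0 := by rw [h]; simp
    rw [if_neg h0, N.gf_of_lt hN hg]
    rfl

theorem cfwd_cback {κ : Col (Fin N.nG)} (h : (N.nw hN).IsCol κ) :
    N.cfwd hN (N.cback κ) = κ := by
  cases κ with
  | ctr g => simp [cback, cfwd, gf_fin]
  | arm g a p =>
    have hp : 1 ≤ p := h.2.1
    simp [cback, cfwd, gf_fin, show p ≠ 0 by omega]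

theorem isCol_cfwd {κ : R290.Col} (h : κ ∈ N.cols κ.1) (hg : κ.1 < N.nG) :
    (N.nw hN).IsCol (N.cfwd hN κ) := by
  rw [mem_cols] at h
  unfold cfwd
  rcases h with h | ⟨a, ha, p, hp, h⟩
  · rw [h, if_pos rfl]
    trivial
  · have h0 : κ.2.2 ≠ 0 := by rw [h]; simp
    rw [if_neg h0, N.gf_of_lt hN hg]
    have e1 : κ.2.1 = a := by rw [h]
    have e2 : κ.2.2 = p + 1 := by rw [h]
    have hL : N.L = N.m + 2 := rfl
    refine ⟨?_, ?_, ?_⟩
    · show κ.2.1 < N.narm κ.1
      rw [e1]; exact ha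
    · rw [e2]; omega
    · rw [e2]; omega

theorem cback_mem_cols {κ : Col (Fin N.nG)} (h : (N.nw hN).IsCol κ) :
    N.cback κ ∈ N.cols (N.cback κ).1 := by
  rw [mem_cols]
  cases κ with
  | ctr g => exact Or.inl rfl
  | arm g a p =>
    refine Or.inr ⟨a, h.1, p - 1, ?_, ?_⟩
    · have h1 : 1 ≤ p := h.2.1
      have h2 : p ≤ N.m + 2 := h.2.2
      have : N.L = N.m + 2 := rfl
      omega
    · have h1 : 1 ≤ p := h.2.1
      simp only [cback]
      rw [show p - 1 + 1 = p by omega]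

theorem gad_cfwd (κ : R290.Col) : (N.cfwd hN κ).gad = N.gf hN κ.1 := by
  unfold cfwd
  split <;> rfl

/-- The objects of a network and the valid objects of the abstract network. -/
def objEquiv : {u // u ∈ N.objs} ≃ {u : Obj N.m (Fin N.nG) Λ // (N.nw hN).IsObj u} where
  toFun u := ⟨N.ofwd hN u.1, by
    obtain ⟨h1, h2, h3, h4, h5⟩ := N.mem_objs.1 u.2
    refine ⟨N.isCol_cfwd hN h2 h1, ?_, ?_⟩
    · show u.1.2.2.1 ∈ N.lett (N.cfwd hN u.1.1).gad.1 (N.rf hN u.1.2.1).castSucc.1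
      rw [gad_cfwd, N.gf_of_lt hN h1, N.rf_of_lt hN h3]
      exact h4
    · show u.1.2.2.2 ∈ N.lett (N.cfwd hN u.1.1).gad.1 (N.rf hN u.1.2.1).succ.1
      rw [gad_cfwd, N.gf_of_lt hN h1, N.rf_of_lt hN h3]
      exact h5⟩
  invFun v := ⟨N.oback v.1, by
    obtain ⟨h1, h2, h3⟩ := v.2
    rw [mem_objs]
    have hg : (N.cback v.1.κ).1 = v.1.κ.gad.1 := by
      cases v.1.κ <;> rfl
    refine ⟨?_, N.cback_mem_cols hN h1, v.1.i.2, ?_, ?_⟩
    · show (N.cback v.1.κ).1 < N.nG
      rw [hg]; exact v.1.κ.gad.2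
    · show v.1.x ∈ N.lett (N.cback v.1.κ).1 v.1.i.1
      rw [hg]; exact h2
    · show v.1.y ∈ N.lett (N.cback v.1.κ).1 (v.1.i.1 + 1)
      rw [hg]; exact h3⟩
  left_inv u := by
    obtain ⟨h1, h2, h3, h4, h5⟩ := N.mem_objs.1 u.2
    apply Subtype.ext
    show (N.cback (N.cfwd hN u.1.1), (N.rf hN u.1.2.1).1, u.1.2.2.1, u.1.2.2.2) = u.1
    rw [N.cback_cfwd hN h2 h1, N.rf_of_lt hN h3]
  right_inv v := by
    apply Subtype.ext
    show (⟨N.cfwd hN (N.cback v.1.κ), N.rf hN v.1.i.1, v.1.x, v.1.y⟩ : Obj N.m (Fin N.nG) Λ) = v.1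
    rw [N.cfwd_cback hN v.2.1, N.rf_fin hN]

theorem objEquiv_apply (u : {u // u ∈ N.objs}) : ((N.objEquiv hN) u).1 = N.ofwd hN u.1 := rfl

theorem objEquiv_symm_apply (v : {u : Obj N.m (Fin N.nG) Λ // (N.nw hN).IsObj u}) :
    ((N.objEquiv hN).symm v).1 = N.oback v.1 := rfl

variable [DecidableEq H]

theorem edges_cfwd {κ : R290.Col} (h : κ ∈ N.cols κ.1) (hg : κ.1 < N.nG) (e : Edge H (Fin N.nG)) :
    e ∈ (N.nw hN).edges (N.cfwd hN κ) ↔ ∃ e' ∈ N.edges κ, N.efwd hN e' = e := by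
  rw [mem_cols] at h
  unfold cfwd edges
  rcases h with h | ⟨a, ha, p, hp, h⟩
  · have h0 : κ.2.2 = 0 := by rw [h]
    rw [if_pos h0, if_pos h0, N.gf_of_lt hN hg]
    simp only [Network.edges, mem_image, mem_range, List.mem_map, List.mem_range]
    constructor
    · rintro ⟨a, ha, rfl⟩
      exact ⟨_, ⟨a, ha, rfl⟩, by simp [efwd, N.gf_of_lt hN hg]⟩
    · rintro ⟨e', ⟨a, ha, rfl⟩, rfl⟩
      exact ⟨a, ha, by simp [efwd, N.gf_of_lt hN hg]⟩
  · have h0 : κ.2.2 ≠ 0 := by rw [h]; simp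
    rw [if_neg h0, if_neg h0, N.gf_of_lt hN hg]
    simp only [Network.edges, mem_insert, mem_singleton, List.mem_cons, List.not_mem_nil, or_false]
    have hL : N.L = N.m + 2 := rfl
    rw [hL]
    constructor
    · rintro (h1 | h1)
      · exact ⟨Sum.inr κ, Or.inl rfl, by rw [h1]; simp [efwd, N.gf_of_lt hN hg]⟩
      · refine ⟨_, Or.inr rfl, ?_⟩
        rw [h1]
        split
        · simp [efwd, N.gf_of_lt hN hg]
        · rfl
    · rintro ⟨e', h1 | h1, rfl⟩
      · left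
        rw [h1]; simp [efwd, N.gf_of_lt hN hg]
      · right
        rw [h1]
        split
        · simp [efwd, N.gf_of_lt hN hg]
        · rfl

omit [DecidableEq H] in
theorem psi_cfwd {κ : R290.Col} (hg : κ.1 < N.nG) {e : R290.Edge H} (he : e ∈ N.edges κ) :
    (N.nw hN).psi (N.cfwd hN κ) (N.efwd hN e) = N.psi κ e := by
  unfold cfwd
  funext x
  cases e with
  | inr e =>
    split
    · rfl
    · rfl
  | inl h =>
    have h0 : κ.2.2 ≠ 0 := by
      intro h0
      rw [edges, if_pos h0] at he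
      simp at he
    rw [if_neg h0, N.gf_of_lt hN hg]
    rfl

omit [DecidableEq H] in
theorem mem_ports {u : R290.NObj Λ} {v : NVar H Λ} : v ∈ N.ports u ↔
    (∃ e ∈ N.edges u.1, v = Y e u.2.1 (N.psi u.1 e u.2.2.1) (N.psi u.1 e u.2.2.2)) ∨
      (0 < u.2.1 ∧ v = U u.1 u.2.1 u.2.2.1) ∨ (u.2.1 + 1 < N.m ∧ v = U u.1 (u.2.1 + 1) u.2.2.2) := by
  rw [ports, List.mem_append, List.mem_append, List.mem_map]
  refine or_congr ?_ (or_congr ?_ ?_)
  · exact ⟨fun ⟨e, he, h⟩ => ⟨e, he, h.symm⟩, fun ⟨e, he, h⟩ => ⟨e, he, h.symm⟩⟩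
  · by_cases h : 0 < u.2.1 <;> simp [h]
  · by_cases h : u.2.1 + 1 < N.m <;> simp [h]

variable [DecidableEq Λ]

theorem mem_nw_ports {u : Obj N.m (Fin N.nG) Λ} {v : Var N.m H (Fin N.nG) Λ} :
    v ∈ (N.nw hN).ports u ↔
    (∃ e ∈ (N.nw hN).edges u.κ, v = Var.Y e u.i ((N.nw hN).psi u.κ e u.x) ((N.nw hN).psi u.κ e u.y)) ∨
      (0 < u.i.1 ∧ v = Var.U u.κ u.i.castSucc u.x) ∨
      (u.i.1 + 1 < N.m ∧ v = Var.U u.κ u.i.succ u.y) := by
  rw [Network.ports, Finset.mem_union, Finset.mem_union, Finset.mem_image]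
  refine or_congr ?_ (or_congr ?_ ?_)
  · exact ⟨fun ⟨e, he, h⟩ => ⟨e, he, h.symm⟩, fun ⟨e, he, h⟩ => ⟨e, he, h.symm⟩⟩
  · by_cases h : u.i.1 = 0
    · simp [h]
    · simp [h, Nat.pos_of_ne_zero h]
  · have := u.i.2
    by_cases h : u.i.1 + 1 = N.m
    · simp [h]
    · have h' : u.i.1 + 1 < N.m := by omega
      simp [h, h']

omit [DecidableEq H] [DecidableEq Λ] in
theorem eback_efwd {κ : R290.Col} (hg : κ.1 < N.nG) {e : R290.Edge H} (he : e ∈ N.edges κ) :
    N.eback (N.efwd hN e) = e := by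
  cases e with
  | inl h => rfl
  | inr e =>
    have : e.1 = κ.1 := by
      rw [edges] at he
      split at he
      · simp only [List.mem_map, List.mem_range] at he
        obtain ⟨a, _, h⟩ := he
        rw [Sum.inr.injEq] at h
        rw [← h]
      · simp only [List.mem_cons, List.not_mem_nil, or_false, Sum.inr.injEq] at he
        rcases he with rfl | he
        · rfl
        · split at he
          · rw [Sum.inr.injEq] at he
            rw [he]
          · simp at he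
    simp only [efwd, eback, N.gf_of_lt hN (this ▸ hg : e.1 < N.nG)]

omit [DecidableEq H] [DecidableEq Λ] in
theorem vback_vfwd {u : R290.NObj Λ} (hu : u ∈ N.objs) {v : NVar H Λ} (hv : v ∈ N.ports u) :
    N.vback (N.vfwd hN v) = v := by
  obtain ⟨h1, h2, h3, h4, h5⟩ := N.mem_objs.1 hu
  rw [mem_ports] at hv
  rcases hv with ⟨e, he, rfl⟩ | ⟨hi, rfl⟩ | ⟨hi, rfl⟩
  · simp only [Y, vfwd, vback, N.eback_efwd hN h1 he, N.rf_of_lt hN h3]
  · simp only [U, vfwd, vback, N.cback_cfwd hN h2 h1, N.jf_of_lt (show u.2.1 < N.m + 1 by omega)]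
  · simp only [U, vfwd, vback, N.cback_cfwd hN h2 h1, N.jf_of_lt (show u.2.1 + 1 < N.m + 1 by omega)]

theorem bijOn_ports {u : R290.NObj Λ} (hu : u ∈ N.objs) :
    Set.BijOn (N.vfwd hN) ((N.ports u).toFinset : Set (NVar H Λ))
      ((N.nw hN).ports (N.ofwd hN u) : Set (Var N.m H (Fin N.nG) Λ)) := by
  obtain ⟨h1, h2, h3, h4, h5⟩ := N.mem_objs.1 hu
  refine ⟨?_, ?_, ?_⟩
  · intro v hv
    rw [Finset.mem_coe, List.mem_toFinset, mem_ports] at hv
    rw [Finset.mem_coe, mem_nw_ports]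
    rcases hv with ⟨e, he, rfl⟩ | ⟨hi, rfl⟩ | ⟨hi, rfl⟩
    · left
      refine ⟨N.efwd hN e, (N.edges_cfwd hN h2 h1 _).2 ⟨e, he, rfl⟩, ?_⟩
      show _ = Var.Y (N.efwd hN e) (N.rf hN u.2.1)
        ((N.nw hN).psi (N.cfwd hN u.1) (N.efwd hN e) u.2.2.1)
        ((N.nw hN).psi (N.cfwd hN u.1) (N.efwd hN e) u.2.2.2)
      rw [N.psi_cfwd hN h1 he]
      rfl
    · right; left
      have e1 : (N.ofwd hN u).i.1 = u.2.1 := by
        show (N.rf hN u.2.1).1 = _
        rw [N.rf_of_lt hN h3]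
      refine ⟨by rw [e1]; exact hi, ?_⟩
      show Var.U (N.cfwd hN u.1) (N.jf u.2.1) u.2.2.1 =
        Var.U (N.cfwd hN u.1) (N.rf hN u.2.1).castSucc u.2.2.1
      congr 1
      apply Fin.ext
      rw [N.jf_of_lt (show u.2.1 < N.m + 1 by omega), N.rf_of_lt hN h3]
      rfl
    · right; right
      have e1 : (N.ofwd hN u).i.1 = u.2.1 := by
        show (N.rf hN u.2.1).1 = _
        rw [N.rf_of_lt hN h3]
      refine ⟨by rw [e1]; exact hi, ?_⟩
      show Var.U (N.cfwd hN u.1) (N.jf (u.2.1 + 1)) u.2.2.2 =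
        Var.U (N.cfwd hN u.1) (N.rf hN u.2.1).succ u.2.2.2
      congr 1
      apply Fin.ext
      rw [N.jf_of_lt (show u.2.1 + 1 < N.m + 1 by omega), N.rf_of_lt hN h3]
      rfl
  · intro v hv w hw h
    rw [Finset.mem_coe, List.mem_toFinset] at hv hw
    rw [← N.vback_vfwd hN hu hv, ← N.vback_vfwd hN hu hw, h]
  · intro v hv
    rw [Finset.mem_coe, mem_nw_ports] at hv
    have e1 : (N.ofwd hN u).i.1 = u.2.1 := by
      show (N.rf hN u.2.1).1 = _
      rw [N.rf_of_lt hN h3]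
    rcases hv with ⟨e, he, rfl⟩ | ⟨hi, rfl⟩ | ⟨hi, rfl⟩
    · obtain ⟨e', he', rfl⟩ := (N.edges_cfwd hN h2 h1 e).1 he
      refine ⟨Y e' u.2.1 (N.psi u.1 e' u.2.2.1) (N.psi u.1 e' u.2.2.2), ?_, ?_⟩
      · rw [Finset.mem_coe, List.mem_toFinset, mem_ports]
        exact Or.inl ⟨e', he', rfl⟩
      · show _ = Var.Y (N.efwd hN e') (N.rf hN u.2.1)
          ((N.nw hN).psi (N.cfwd hN u.1) (N.efwd hN e') u.2.2.1)
          ((N.nw hN).psi (N.cfwd hN u.1) (N.efwd hN e') u.2.2.2)
        rw [N.psi_cfwd hN h1 he']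
        rfl
    · rw [e1] at hi
      refine ⟨U u.1 u.2.1 u.2.2.1, ?_, ?_⟩
      · rw [Finset.mem_coe, List.mem_toFinset, mem_ports]
        exact Or.inr (Or.inl ⟨hi, rfl⟩)
      · show Var.U (N.cfwd hN u.1) (N.jf u.2.1) u.2.2.1 =
          Var.U (N.cfwd hN u.1) (N.rf hN u.2.1).castSucc u.2.2.1
        congr 1
        apply Fin.ext
        rw [N.jf_of_lt (show u.2.1 < N.m + 1 by omega), N.rf_of_lt hN h3]
        rfl
    · rw [e1] at hi
      refine ⟨U u.1 (u.2.1 + 1) u.2.2.2, ?_, ?_⟩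
      · rw [Finset.mem_coe, List.mem_toFinset, mem_ports]
        exact Or.inr (Or.inr ⟨hi, rfl⟩)
      · show Var.U (N.cfwd hN u.1) (N.jf (u.2.1 + 1)) u.2.2.2 =
          Var.U (N.cfwd hN u.1) (N.rf hN u.2.1).succ u.2.2.2
        congr 1
        apply Fin.ext
        rw [N.jf_of_lt (show u.2.1 + 1 < N.m + 1 by omega), N.rf_of_lt hN h3]
        rfl

theorem bijOn_ports_back {u : Obj N.m (Fin N.nG) Λ} (hu : (N.nw hN).IsObj u) :
    Set.BijOn N.vback ((N.nw hN).ports u : Set (Var N.m H (Fin N.nG) Λ))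
      ((N.ports (N.oback u)).toFinset : Set (NVar H Λ)) := by
  have h1 := ((N.objEquiv hN).symm ⟨u, hu⟩).2
  rw [objEquiv_symm_apply] at h1
  have h2 : N.ofwd hN (N.oback u) = u :=
    congrArg Subtype.val ((N.objEquiv hN).apply_symm_apply ⟨u, hu⟩)
  have h3 := N.bijOn_ports hN h1
  rw [h2] at h3
  refine Set.BijOn.symm ⟨?_, ?_⟩ h3
  · intro v hv
    obtain ⟨w, hw, rfl⟩ := h3.surjOn hv
    rw [Finset.mem_coe, List.mem_toFinset] at hw
    rw [N.vback_vfwd hN h1 hw]
  · intro v hv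
    rw [Finset.mem_coe, List.mem_toFinset] at hv
    exact N.vback_vfwd hN h1 hv

/-- **Bridge**: `ShiftEquiv` of a concrete network from the abstract network. -/
theorem shiftEquiv_of_nw (b : R290.NObj Λ → Bool) {K : ℕ}
    {S : Finset {u : Obj N.m (Fin N.nG) Λ // (N.nw hN).IsObj u} →
      (Var N.m H (Fin N.nG) Λ → ZMod 2) → Prop}
    (h : ShiftSys (fun u : {u : Obj N.m (Fin N.nG) Λ // (N.nw hN).IsObj u} => (N.nw hN).ports u.1)
      (fun u => bz (b (N.oback u.1))) K S) :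
    ShiftEquiv N.objs N.ports b K := by
  refine ⟨_, ShiftSys.transfer (N.objEquiv hN) (N.vfwd hN) (fun u => ?_) (fun u => ?_) h⟩
  · exact N.bijOn_ports hN u.2
  · show bz (b u.1) = bz (b (N.oback (N.objEquiv hN u).1))
    rw [← objEquiv_symm_apply N hN, (N.objEquiv hN).symm_apply_apply]

/-- **Bridge**: the abstract network from `ShiftEquiv` of a concrete network. -/
theorem nw_of_shiftEquiv (b : R290.NObj Λ → Bool) {K : ℕ} (h : ShiftEquiv N.objs N.ports b K) :
    ∃ S, ShiftSys (fun u : {u : Obj N.m (Fin N.nG) Λ // (N.nw hN).IsObj u} => (N.nw hN).ports u.1)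
      (fun u => bz (b (N.oback u.1))) K S := by
  obtain ⟨S, hS⟩ := h
  refine ⟨_, ShiftSys.transfer (N.objEquiv hN).symm N.vback (fun u => ?_) (fun u => ?_) hS⟩
  · exact N.bijOn_ports_back hN u.2
  · rfl

/-- the twist of the gadgets -/
def beta01 : Fin N.nG → ZMod 2 := fun g => if g.1 = N.gt then 1 else 0

omit [DecidableEq H] [DecidableEq Λ] in
theorem bz_beta (u : Obj N.m (Fin N.nG) Λ) (hu : (N.nw hN).IsObj u) :
    bz (N.beta (N.oback u)) = Network.bobj N.beta01 u := by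
  unfold beta bz Network.bobj
  obtain ⟨κ, i, x, y⟩ := u
  by_cases hi : i.1 + 1 = N.m
  · rw [if_pos hi]
    cases κ with
    | ctr g =>
      show (if decide (_ ∧ _) = true then (1 : ZMod 2) else 0) = if g.1 = N.gt then 1 else 0
      simp only [oback, cback, decide_eq_true_eq, hi, and_true, Prod.mk.injEq]
    | arm g a p =>
      have hp : 1 ≤ p := hu.1.2.1
      show (if decide (_ ∧ _) = true then (1 : ZMod 2) else 0) = 0
      rw [if_neg]
      simp only [oback, cback, decide_eq_true_eq, Prod.mk.injEq]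
      omega
  · rw [if_neg hi, if_neg]
    intro h
    rw [decide_eq_true_eq] at h
    exact hi h.2

/-! ### Contents -/

/-- extend a content by the trivial letter -/
def cext (x : Fin (N.m + 1) → Λ) : ℕ → Λ := fun j => if h : j < N.m + 1 then x ⟨j, h⟩ else N.o

omit [DecidableEq H] [DecidableEq Λ] in
theorem content_cext (g : Fin N.nG) {x : Fin (N.m + 1) → Λ} (hx : ∀ j, x j ∈ (N.nw hN).A g j) :
    N.Content g.1 (N.cext x) := by
  intro j
  unfold cext
  split
  · next h => exact hx ⟨j, h⟩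
  · next h =>
    rw [hN.lett_triv g.1 g.2 j (Or.inr (by omega))]
    simp

omit [DecidableEq H] [DecidableEq Λ] in
theorem content_restrict {g : ℕ} (hg : g < N.nG) {x : ℕ → Λ} (hx : N.Content g x)
    (j : Fin (N.m + 1)) : x j.1 ∈ (N.nw hN).A ⟨g, hg⟩ j := hx j.1

include hN in
omit [DecidableEq H] [DecidableEq Λ] in
theorem cext_restrict {g : ℕ} (hg : g < N.nG) {x : ℕ → Λ} (hx : N.Content g x) :
    N.cext (fun j : Fin (N.m + 1) => x j.1) = x := by
  funext j
  unfold cext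
  split
  · rfl
  · next h =>
    have := hx j
    rw [hN.lett_triv g hg j (Or.inr (by omega)), List.mem_singleton] at this
    exact this.symm

include hN in
omit [DecidableEq H] [DecidableEq Λ] in
theorem proj_cext (g a : ℕ) (x : Fin (N.m + 1) → Λ) :
    (fun j => N.proj g a (N.cext x j)) = N.cext (fun j => N.proj g a (x j)) := by
  funext j
  unfold cext
  split
  · rfl
  · exact hN.proj_o g a

theorem bz_add (a b : Bool) : bz (a + b) = bz a + bz b := by
  revert a b; decide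

theorem bz_sum (l : List Bool) : bz l.sum = (l.map bz).sum := by
  induction l with
  | nil => rfl
  | cons a l ih => rw [List.sum_cons, List.map_cons, List.sum_cons, bz_add, ih]

theorem sum_range_list {M : Type*} [AddCommMonoid M] (f : ℕ → M) (n : ℕ) :
    ((List.range n).map f).sum = ∑ a ∈ range n, f a := by
  induction n with
  | zero => simp
  | succ n ih => rw [List.range_succ, List.map_append, List.sum_append, ih, Finset.sum_range_succ]; simp

omit [DecidableEq H] [DecidableEq Λ] in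
open Classical in
/-- closed sets of facts of the concrete network are closed in the abstract network -/
theorem nw_closed {Kn : H → (ℕ → Λ) → Prop} {val : H → (ℕ → Λ) → Bool} (h : N.Closed Kn val) :
    (N.nw hN).Closed N.beta01
      (fun hb z => if Kn hb (N.cext z) then some (bz (val hb (N.cext z))) else none) := by
  intro g x hx
  have hc := N.content_cext hN g hx
  have key : ∀ a, N.cext (fun j => (N.nw hN).pr g a (x j)) = fun j => N.proj g.1 a (N.cext x j) :=
    fun a => (N.proj_cext hN g.1 a x).symm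
  simp only [key]
  constructor
  · intro h1
    obtain ⟨a, ha⟩ := Finset.card_eq_one.1 h1
    have ha' := Finset.mem_singleton_self a
    rw [← ha, Finset.mem_filter, Finset.mem_range] at ha'
    have h2 : ¬ Kn ((N.nw hN).hub g a) (fun j => N.proj g.1 a (N.cext x j)) := by
      intro h3
      rw [if_pos h3] at ha'
      simp at ha'
    refine h2 (h.ne_one g.1 g.2 _ hc a ha'.1 fun a' ha1 hne => ?_)
    by_contra h4
    have h5 : a' ∈ ({a} : Finset ℕ) := by
      rw [← ha, Finset.mem_filter, Finset.mem_range]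
      exact ⟨ha1, if_neg h4⟩
    exact hne (Finset.mem_singleton.1 h5)
  · intro h1
    have h2 : ∀ a < N.narm g.1, Kn (N.hub g.1 a) (fun j => N.proj g.1 a (N.cext x j)) := by
      intro a ha
      by_contra h3
      exact h1 a (Finset.mem_range.2 ha) (if_neg h3)
    have h3 := congrArg bz (h.sum_eq g.1 g.2 _ hc h2)
    rw [bz_sum, List.map_map, sum_range_list] at h3
    have h4 : bz (decide (g.1 = N.gt)) = N.beta01 g := by
      unfold beta01 bz
      by_cases h5 : g.1 = N.gt <;> simp [h5]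
    rw [← h4, ← h3]
    refine Finset.sum_congr rfl fun a ha => ?_
    have h5 : Kn ((N.nw hN).hub g a) (fun j => N.proj g.1 a (N.cext x j)) :=
      h2 a (Finset.mem_range.1 ha)
    rw [if_pos h5]
    rfl

end Net

/-- A shift system gives an incidence system. -/
theorem ShiftSys.incSys {O X : Type} [DecidableEq O] {ports : O → Finset X} {par : O → ZMod 2}
    {K : ℕ} {S : Finset O → (X → ZMod 2) → Prop} (h : ShiftSys ports par K S) :
    ∃ S', IncSys ports par K S' := by
  classical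
  let S' : List (Peb O X) → Prop := fun l => ∃ P s, S P s ∧ P.card ≤ l.length ∧
    (∀ u σ, Peb.obj u σ ∈ l → u ∈ P ∧ ∀ x ∈ ports u, σ x = s x) ∧
    (∀ x ε, Peb.var x ε ∈ l → ∃ u ∈ P, x ∈ ports u ∧ ε = s x)
  refine ⟨S', ?_⟩
  exact
  { mono := by
      rintro l l' ⟨P, s, hS, hc, h1, h2⟩ hll
      have h3 : ∀ p ∈ l', ∃ u ∈ P, (∀ v σ, p = Peb.obj v σ → v = u) ∧
          (∀ x ε, p = Peb.var x ε → x ∈ ports u) := by
        intro p hp
        cases p with
        | obj v σ =>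
          refine ⟨v, (h1 v σ (hll hp)).1, ?_, ?_⟩
          · intro v' σ' e
            injection e with e1 e2
            exact e1.symm
          · intro x ε e
            cases e
        | var x ε =>
          obtain ⟨u, hu, hx, _⟩ := h2 x ε (hll hp)
          refine ⟨u, hu, ?_, ?_⟩
          · intro v' σ' e
            cases e
          · intro x' ε' e
            injection e with e1 e2
            rw [← e1]
            exact hx
      choose g hgP hg1 hg2 using h3
      refine ⟨l'.toFinset.attach.image fun p => g p.1 (List.mem_toFinset.1 p.2), s, ?_, ?_, ?_, ?_⟩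
      · refine h.mono hS ?_
        intro u hu
        obtain ⟨p, hp, rfl⟩ := mem_image.1 hu
        exact hgP _ _
      · refine card_image_le.trans ?_
        rw [card_attach]
        exact List.toFinset_card_le _
      · intro u σ hu
        refine ⟨mem_image.2 ⟨⟨_, List.mem_toFinset.2 hu⟩, mem_attach _ _, (hg1 _ hu u σ rfl).symm⟩,
          (h1 u σ (hll hu)).2⟩
      · intro x ε hx
        refine ⟨g _ hx, mem_image.2 ⟨⟨_, List.mem_toFinset.2 hx⟩, mem_attach _ _, rfl⟩,
          hg2 _ hx x ε rfl, ?_⟩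
        obtain ⟨u, hu, _, h4⟩ := h2 x ε (hll hx)
        exact h4
    empty := by
      obtain ⟨s, hs⟩ := h.empty
      exact ⟨∅, s, hs, by simp, by simp, by simp⟩
    par := by
      rintro l ⟨P, s, hS, hc, h1, h2⟩ u σ hu
      rw [← h.valid hS u (h1 u σ hu).1]
      exact sum_congr rfl (h1 u σ hu).2
    cons := by
      rintro l ⟨P, s, hS, hc, h1, h2⟩ u σ x ε hu hx hxu
      obtain ⟨v, hv, _, h3⟩ := h2 x ε hx
      rw [h3, (h1 u σ hu).2 x hxu]
    extObj := by
      rintro l ⟨P, s, hS, hc, h1, h2⟩ hK u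
      obtain ⟨s', h3, h4⟩ := h.ext hS (lt_of_le_of_lt hc hK) u
      refine ⟨s', insert u P, s', h3, (card_insert_le _ _).trans (by simpa using hc), ?_, ?_⟩
      · intro v τ hv
        rcases List.mem_cons.1 hv with e | hv
        · injection e with e1 e2
          subst e1 e2
          exact ⟨mem_insert_self _ _, fun _ _ => rfl⟩
        · refine ⟨mem_insert_of_mem (h1 v τ hv).1, fun x hx => ?_⟩
          rw [(h1 v τ hv).2 x hx, h4 v (h1 v τ hv).1 x hx]
      · intro x ε hx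
        rcases List.mem_cons.1 hx with e | hx
        · cases e
        · obtain ⟨v, hv, h5, h6⟩ := h2 x ε hx
          exact ⟨v, mem_insert_of_mem hv, h5, by rw [h6, h4 v hv x h5]⟩
    extVar := by
      rintro l ⟨P, s, hS, hc, h1, h2⟩ hK u x hxu
      obtain ⟨s', h3, h4⟩ := h.ext hS (lt_of_le_of_lt hc hK) u
      refine ⟨s' x, insert u P, s', h3, (card_insert_le _ _).trans (by simpa using hc), ?_, ?_⟩
      · intro v τ hv
        rcases List.mem_cons.1 hv with e | hv
        · cases e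
        · refine ⟨mem_insert_of_mem (h1 v τ hv).1, fun x hx => ?_⟩
          rw [(h1 v τ hv).2 x hx, h4 v (h1 v τ hv).1 x hx]
      · intro y ε hy
        rcases List.mem_cons.1 hy with e | hy
        · injection e with e1 e2
          subst e1 e2
          exact ⟨u, mem_insert_self _ _, hxu, rfl⟩
        · obtain ⟨v, hv, h5, h6⟩ := h2 y ε hy
          exact ⟨v, mem_insert_of_mem hv, h5, by rw [h6, h4 v hv y h5]⟩ }

/-- `ShiftEquiv` of a concrete network gives an incidence system of the abstract network. -/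
theorem Net.incSys_of_shiftEquiv {H Λ : Type} [DecidableEq H] [DecidableEq Λ] (N : Net H Λ)
    (hN : N.OK) (b : NObj Λ → Bool) {K : ℕ} (h : ShiftEquiv N.objs N.ports b K) :
    ∃ S, IncSys (fun u : (N.nw hN).NObj => (N.nw hN).ports u.1)
      (fun u => bz (b (N.oback u.1))) K S := by
  obtain ⟨S, hS⟩ := N.nw_of_shiftEquiv hN b h
  exact hS.incSys

end Crest.Agent.R290
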