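import Crest.Agent.R290.NetSplit
import Crest.Agent.R290.NetWF
import Crest.Agent.R290.AGBridge

/-!
# Row 290, blueprint 2.2 / 2.3 directly on `Defs.Net`: what a shift system with `m + 1` pebbles knows

* `NS.not_shiftEquiv_of_der` and `NS.solution_of_unlocked`: second, short proofs of the statements
[NETSP], [NETID] of `Iface` (official ones: `NetSp.lean`, `NetId.lean`).
-/

set_option autoImplicit false

namespace Crest.Agent.R290

open Finset

namespace NS

open Net

variable {H Λ : Type} [DecidableEq H] [DecidableEq Λ]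

/-- shifts as Booleans -/
def sb {X : Type} (s : X → ZMod 2) : X → Bool := fun x => decide (s x = 1)

theorem bz_sb {X : Type} (s : X → ZMod 2) (x : X) : bz (sb s x) = s x := by
  unfold sb bz
  generalize s x = a
  revert a
  decide

/-- the type of objects -/
abbrev Ob (N : Net H Λ) : Type := {u // u ∈ N.objs}

/-- ports as finsets -/
abbrev pf (N : Net H Λ) : Ob N → Finset (NVar H Λ) := fun u => (N.ports u.1).toFinset

variable {N : Net H Λ} {b : NObj Λ → Bool} {S : Finset (Ob N) → (NVar H Λ → ZMod 2) → Prop}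

theorem valid_list (hS : ShiftSys (pf N) (fun u => bz (b u.1)) (N.m + 1) S) {P : Finset (Ob N)}
    {s : NVar H Λ → ZMod 2} (h : S P s) {u : Ob N} (hu : u ∈ P) :
    ((N.ports u.1).map (sb s)).sum = b u.1 := by
  apply AGB.bz_inj
  rw [← AGB.sum_bz_toFinset (N.nodup_ports u.1), ← hS.valid h u hu]
  exact Finset.sum_congr rfl fun x _ => bz_sb s x

/-- The objects of `P` see all the variables `Y (e, i, z)`. -/
def Sees (N : Net H Λ) (P : Finset (Ob N)) (e : Edge H) (z : ℕ → Λ) : Prop :=
  ∀ i < N.m, ∃ u ∈ P, Y e i (z i) (z (i + 1)) ∈ N.ports u.1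

/-- Every position of at most `m` objects that see the variables `Y (e, i, z)` has total shift `f`. -/
def Kw (N : Net H Λ) (S : Finset (Ob N) → (NVar H Λ → ZMod 2) → Prop) (e : Edge H) (z : ℕ → Λ)
    (f : Bool) : Prop :=
  ∀ (P : Finset (Ob N)) (s : NVar H Λ → ZMod 2), S P s → P.card ≤ N.m → Sees N P e z →
    fval N.m (sb s) e z = f

/-- all objects of the column `κ` with content `x` are in `P` -/
def Full (N : Net H Λ) (P : Finset (Ob N)) (κ : Col) (x : ℕ → Λ) : Prop :=
  ∀ i < N.m, ∃ u ∈ P, u.1 = (κ, i, x i, x (i + 1))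

theorem Y_mem (N : Net H Λ) {κ : Col} {e : Edge H} (he : e ∈ N.edges κ) (i : ℕ) (x y : Λ) :
    Y e i (N.psi κ e x) (N.psi κ e y) ∈ N.ports (κ, i, x, y) := by
  simp only [Net.ports, List.mem_append, List.mem_map]
  exact Or.inl ⟨e, he, rfl⟩

theorem Full.sees {P : Finset (Ob N)} {κ : Col} {x : ℕ → Λ} (h : Full N P κ x) {e : Edge H}
    (he : e ∈ N.edges κ) : Sees N P e (fun j => N.psi κ e (x j)) := by
  intro i hi
  obtain ⟨u, hu, hux⟩ := h i hi
  refine ⟨u, hu, ?_⟩
  rw [hux]
  exact Y_mem N he i _ _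

theorem Kw.at {κ : Col} {x : ℕ → Λ} {e : Edge H} {f : Bool}
    (h : Kw N S e (fun j => N.psi κ e (x j)) f) (he : e ∈ N.edges κ) {P : Finset (Ob N)}
    {s : NVar H Λ → ZMod 2} (hP : S P s) (hc : P.card ≤ N.m) (hF : Full N P κ x) :
    fval N.m (sb s) e (fun j => N.psi κ e (x j)) = f := h P s hP hc (hF.sees he)

/-- objects of a column -/
def ob (N : Net H Λ) {g : ℕ} (hg : g < N.nG) {κ : Col} (hκ : κ ∈ N.cols g) {x : ℕ → Λ}
    (hx : N.Content g x) (i : Fin N.m) : Ob N :=
  ⟨(κ, i.1, x i.1, x (i.1 + 1)), mem_objs N hg hκ i.2 (hx _) (hx _)⟩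

/-- **Exchange**: it is enough to look at positions on the column `κ`. -/
theorem Kw.of_col (hS : ShiftSys (pf N) (fun u => bz (b u.1)) (N.m + 1) S)
    {g : ℕ} (hg : g < N.nG) {κ : Col} (hκ : κ ∈ N.cols g) {x : ℕ → Λ} (hx : N.Content g x)
    {e : Edge H} (he : e ∈ N.edges κ) {f : Bool}
    (h : ∀ (P : Finset (Ob N)) (s : NVar H Λ → ZMod 2), S P s → P.card ≤ N.m → Full N P κ x →
      fval N.m (sb s) e (fun j => N.psi κ e (x j)) = f) :
    Kw N S e (fun j => N.psi κ e (x j)) f := by
  classical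
  intro P s hP _ hsee
  choose u hu huY using fun i : Fin N.m => hsee i.1 i.2
  let o : Fin N.m → Ob N := ob N hg hκ hx
  have key : ∀ k ≤ N.m, ∃ s', S (univ.image fun i : Fin N.m => if i.val < k then o i else u i) s' ∧
      ∀ i : Fin N.m, s' (Y e i.1 (N.psi κ e (x i.1)) (N.psi κ e (x (i.1 + 1)))) =
        s (Y e i.1 (N.psi κ e (x i.1)) (N.psi κ e (x (i.1 + 1)))) := by
    intro k
    induction k with
    | zero =>
      intro _
      refine ⟨s, hS.mono hP ?_, fun _ => rfl⟩
      intro w hw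
      simp only [mem_image, mem_univ, true_and, Nat.not_lt_zero, if_false] at hw
      obtain ⟨i, rfl⟩ := hw
      exact hu i
    | succ k ih =>
      intro hk
      obtain ⟨s', h1, h2⟩ := ih (by omega)
      have hcard : (univ.image fun i : Fin N.m => if i.val < k then o i else u i).card < N.m + 1 := by
        refine lt_of_le_of_lt card_image_le ?_
        simp
      obtain ⟨s'', h3, h4⟩ := hS.ext h1 hcard (o ⟨k, hk⟩)
      refine ⟨s'', hS.mono h3 ?_, ?_⟩
      · intro w hw
        simp only [mem_image, mem_univ, true_and] at hw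
        obtain ⟨i, rfl⟩ := hw
        rw [mem_insert]
        by_cases hik : i.val < k
        · right
          rw [if_pos (by omega), mem_image]
          exact ⟨i, mem_univ _, by rw [if_pos hik]⟩
        · by_cases hik' : i.val = k
          · left
            rw [if_pos (by omega)]
            congr 1
            exact Fin.ext hik'
          · right
            rw [if_neg (by omega), mem_image]
            exact ⟨i, mem_univ _, by rw [if_neg hik]⟩
      · intro i
        rw [← h2 i]
        refine h4 (if i.val < k then o i else u i) (mem_image.2 ⟨i, mem_univ _, rfl⟩) _ ?_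
        rw [List.mem_toFinset]
        split_ifs with hik
        · exact Y_mem N he i.1 _ _
        · exact huY i
  obtain ⟨s', h1, h2⟩ := key N.m le_rfl
  have h3 := h _ s' h1 (card_image_le.trans (by simp)) (by
    intro i hi
    refine ⟨o ⟨i, hi⟩, mem_image.2 ⟨⟨i, hi⟩, mem_univ _, if_pos hi⟩, rfl⟩)
  rw [← h3]
  unfold fval
  refine Finset.sum_congr rfl fun i hi => ?_
  have := h2 ⟨i, Finset.mem_range.1 hi⟩
  simp only [sb]
  rw [this]

/-- positions on a column exist -/
theorem exists_full (hS : ShiftSys (pf N) (fun u => bz (b u.1)) (N.m + 1) S)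
    {g : ℕ} (hg : g < N.nG) {κ : Col} (hκ : κ ∈ N.cols g) {x : ℕ → Λ} (hx : N.Content g x) :
    ∃ P s, S P s ∧ P.card ≤ N.m ∧ Full N P κ x := by
  classical
  have key : ∀ l : List (Ob N), l.length ≤ N.m + 1 → ∃ s, S l.toFinset s := by
    intro l
    induction l with
    | nil => intro _; simpa using hS.empty
    | cons u l ih =>
      intro hl
      simp only [List.length_cons] at hl
      obtain ⟨s, hs⟩ := ih (by omega)
      obtain ⟨s', hs', _⟩ := hS.ext hs (lt_of_le_of_lt (List.toFinset_card_le l) (by omega)) u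
      exact ⟨s', by rw [List.toFinset_cons]; exact hs'⟩
  obtain ⟨s, hs⟩ := key (List.ofFn (ob N hg hκ hx)) (by simp)
  refine ⟨_, s, hs, (List.toFinset_card_le _).trans (by simp), ?_⟩
  intro i hi
  exact ⟨ob N hg hκ hx ⟨i, hi⟩, by simp, rfl⟩

theorem Kw.unique (hS : ShiftSys (pf N) (fun u => bz (b u.1)) (N.m + 1) S)
    {g : ℕ} (hg : g < N.nG) {κ : Col} (hκ : κ ∈ N.cols g) {x : ℕ → Λ} (hx : N.Content g x)
    {e : Edge H} (he : e ∈ N.edges κ) {f f' : Bool}
    (h : Kw N S e (fun j => N.psi κ e (x j)) f) (h' : Kw N S e (fun j => N.psi κ e (x j)) f') :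
    f = f' := by
  obtain ⟨P, s, h1, h2, h3⟩ := exists_full hS hg hκ hx
  rw [← h.at he h1 h2 h3, ← h'.at he h1 h2 h3]

/-- total parity of a column and a content -/
def bs (N : Net H Λ) (b : NObj Λ → Bool) (κ : Col) (x : ℕ → Λ) : Bool :=
  ∑ i ∈ Finset.range N.m, b (κ, i, x i, x (i + 1))

theorem full_sum (hS : ShiftSys (pf N) (fun u => bz (b u.1)) (N.m + 1) S) {κ : Col} {x : ℕ → Λ}
    {P : Finset (Ob N)} {s : NVar H Λ → ZMod 2} (hP : S P s) (hF : Full N P κ x) :
    ((N.edges κ).map fun e => fval N.m (sb s) e (fun j => N.psi κ e (x j))).sum = bs N b κ x := by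
  apply column_sum
  intro i hi
  obtain ⟨u, hu, hux⟩ := hF i hi
  rw [← hux]
  exact valid_list hS hP hu

theorem bid1 : ∀ f a : Bool, a = f + (f + a) := by decide
theorem bid2 : ∀ f a : Bool, a = f + (a + f) := by decide
theorem bid3 : ∀ a b c : Bool, a + b + (c + b) = a + c := by decide

/-- columns with two edges -/
theorem Kw.two (hS : ShiftSys (pf N) (fun u => bz (b u.1)) (N.m + 1) S)
    {g : ℕ} (hg : g < N.nG) {κ : Col} (hκ : κ ∈ N.cols g) {x : ℕ → Λ} (hx : N.Content g x)
    {e e' : Edge H} (he : N.edges κ = [e, e']) {f : Bool}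
    (h : Kw N S e (fun j => N.psi κ e (x j)) f) :
    Kw N S e' (fun j => N.psi κ e' (x j)) (f + bs N b κ x) := by
  refine Kw.of_col hS hg hκ hx (by rw [he]; simp) ?_
  intro P s hP hc hF
  have h1 := full_sum hS hP hF
  have h2 := h.at (by rw [he]; simp) hP hc hF
  rw [he] at h1
  simp only [List.map_cons, List.map_nil, List.sum_cons, List.sum_nil, add_zero] at h1
  rw [← h1, h2]
  exact bid1 _ _

theorem Kw.two' (hS : ShiftSys (pf N) (fun u => bz (b u.1)) (N.m + 1) S)
    {g : ℕ} (hg : g < N.nG) {κ : Col} (hκ : κ ∈ N.cols g) {x : ℕ → Λ} (hx : N.Content g x)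
    {e e' : Edge H} (he : N.edges κ = [e, e']) {f : Bool}
    (h : Kw N S e' (fun j => N.psi κ e' (x j)) f) :
    Kw N S e (fun j => N.psi κ e (x j)) (f + bs N b κ x) := by
  refine Kw.of_col hS hg hκ hx (by rw [he]; simp) ?_
  intro P s hP hc hF
  have h1 := full_sum hS hP hF
  have h2 := h.at (by rw [he]; simp) hP hc hF
  rw [he] at h1
  simp only [List.map_cons, List.map_nil, List.sum_cons, List.sum_nil, add_zero] at h1
  rw [← h1, h2]
  exact bid2 _ _

/-- inward along an arm -/
theorem Kw.inward (hS : ShiftSys (pf N) (fun u => bz (b u.1)) (N.m + 1) S)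
    {g : ℕ} (hg : g < N.nG) {a : ℕ} (ha : a < N.narm g) {x : ℕ → Λ} (hx : N.Content g x) {f : Bool}
    (h : Kw N S (Sum.inl (N.hub g a)) (fun j => N.proj g a (x j)) f) :
    Kw N S (Sum.inr (g, a, 1)) x (f + ∑ q ∈ Finset.range N.L, bs N b (g, a, q + 1) x) := by
  have key : ∀ d p, p + d + 1 = N.L →
      Kw N S (Sum.inr (g, a, p + 1)) x (f + ∑ q ∈ Finset.Ico p N.L, bs N b (g, a, q + 1) x) := by
    intro d
    induction d with
    | zero =>
      intro p hp
      have hp' : p + 1 = N.L := by omega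
      have h1 := Kw.two' (x := x) hS hg (arm_mem_cols N ha (by omega)) hx (edges_last N hp') h
      have h2 : ∑ q ∈ Finset.Ico p N.L, bs N b (g, a, q + 1) x = bs N b (g, a, p + 1) x := by
        rw [Finset.sum_eq_sum_Ico_succ_bot (by omega), hp', Finset.Ico_self, Finset.sum_empty, add_zero]
      rw [h2]
      exact h1
    | succ d ih =>
      intro p hp
      have h1 := Kw.two' (x := x) hS hg (arm_mem_cols N ha (p := p) (by omega)) hx
        (edges_arm N (by omega)) (ih (p + 1) (by omega))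
      have h2 : ∑ q ∈ Finset.Ico p N.L, bs N b (g, a, q + 1) x =
          bs N b (g, a, p + 1) x + ∑ q ∈ Finset.Ico (p + 1) N.L, bs N b (g, a, q + 1) x := by
        rw [Finset.sum_eq_sum_Ico_succ_bot (by omega)]
      rw [h2, add_comm (bs N b (g, a, p + 1) x), ← add_assoc]
      exact h1
  have h1 := key (N.L - 1) 0 (by have : 0 < N.L := by simp [Net.L]
                                 omega)
  rw [Nat.Ico_zero_eq_range] at h1
  exact h1

/-- outward along an arm -/
theorem Kw.outward (hS : ShiftSys (pf N) (fun u => bz (b u.1)) (N.m + 1) S)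
    {g : ℕ} (hg : g < N.nG) {a : ℕ} (ha : a < N.narm g) {x : ℕ → Λ} (hx : N.Content g x) {f : Bool}
    (h : Kw N S (Sum.inr (g, a, 1)) x f) :
    Kw N S (Sum.inl (N.hub g a)) (fun j => N.proj g a (x j))
      (f + ∑ q ∈ Finset.range N.L, bs N b (g, a, q + 1) x) := by
  have key : ∀ p < N.L,
      Kw N S (Sum.inr (g, a, p + 1)) x (f + ∑ q ∈ Finset.range p, bs N b (g, a, q + 1) x) := by
    intro p
    induction p with
    | zero => intro _; simpa using h
    | succ p ih =>
      intro hp
      have h1 := Kw.two (x := x) hS hg (arm_mem_cols N ha (p := p) (by omega)) hx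
        (edges_arm N (by omega)) (ih (by omega))
      rw [Finset.sum_range_succ, ← add_assoc]
      exact h1
  have hL : N.m + 2 = N.L := rfl
  have h1 := Kw.two (x := x) hS hg (arm_mem_cols N ha (p := N.m + 1) (by omega)) hx
    (edges_last N (by omega)) (key (N.m + 1) (by omega))
  have h2 : ∑ q ∈ Finset.range N.L, bs N b (g, a, q + 1) x =
      ∑ q ∈ Finset.range (N.m + 1), bs N b (g, a, q + 1) x + bs N b (g, a, N.m + 1 + 1) x := by
    rw [← hL, Finset.sum_range_succ]
  rw [h2, ← add_assoc]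
  exact h1

/-- centre of a gadget -/
theorem Kw.centre (hS : ShiftSys (pf N) (fun u => bz (b u.1)) (N.m + 1) S)
    {g : ℕ} (hg : g < N.nG) {a : ℕ} (ha : a < N.narm g) {x : ℕ → Λ} (hx : N.Content g x)
    (f : ℕ → Bool) (h : ∀ a' < N.narm g, a' ≠ a → Kw N S (Sum.inr (g, a', 1)) x (f a')) :
    Kw N S (Sum.inr (g, a, 1)) x
      (∑ a' ∈ (Finset.range (N.narm g)).erase a, f a' + bs N b (g, 0, 0) x) := by
  have he : ∀ a' < N.narm g, (Sum.inr (g, a', 1) : Edge H) ∈ N.edges (g, 0, 0) := by
    intro a' ha'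
    rw [edges_ctr]
    exact List.mem_map.2 ⟨a', List.mem_range.2 ha', rfl⟩
  refine Kw.of_col (x := x) hS hg (ctr_mem_cols N g) hx (he a ha) ?_
  intro P s hP hc hF
  have h1 := full_sum hS hP hF
  rw [edges_ctr, List.map_map] at h1
  have e1 : ((List.range (N.narm g)).map
      ((fun e => fval N.m (sb s) e (fun j => N.psi (g, 0, 0) e (x j))) ∘ fun a => Sum.inr (g, a, 1))).sum =
      ∑ a ∈ Finset.range (N.narm g), fval N.m (sb s) (Sum.inr (g, a, 1)) x := by
    rw [list_range_sum]
    rfl
  rw [e1, ← Finset.add_sum_erase _ _ (Finset.mem_range.2 ha)] at h1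
  have h2 : ∑ a' ∈ (Finset.range (N.narm g)).erase a, fval N.m (sb s) (Sum.inr (g, a', 1)) x =
      ∑ a' ∈ (Finset.range (N.narm g)).erase a, f a' := by
    refine Finset.sum_congr rfl fun a' ha' => ?_
    have ha'' := Finset.mem_erase.1 ha'
    have hlt := Finset.mem_range.1 ha''.2
    have h3 := h a' hlt ha''.1
    exact Kw.at (x := x) h3 (he a' hlt) hP hc hF
  rw [h2] at h1
  rw [← h1]
  change fval N.m (sb s) (Sum.inr (g, a, 1)) x = _
  exact bid2 _ _

/-- **Gadget rule.** -/
theorem Kw.gadget (hS : ShiftSys (pf N) (fun u => bz (b u.1)) (N.m + 1) S)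
    {g : ℕ} (hg : g < N.nG) {a : ℕ} (ha : a < N.narm g) {x : ℕ → Λ} (hx : N.Content g x)
    (f : ℕ → Bool) (h : ∀ a' < N.narm g, a' ≠ a →
      Kw N S (Sum.inl (N.hub g a')) (fun j => N.proj g a' (x j)) (f a')) :
    Kw N S (Sum.inl (N.hub g a)) (fun j => N.proj g a (x j))
      (∑ a' ∈ (Finset.range (N.narm g)).erase a, f a' + gsum N b g x) := by
  have h1 := Kw.centre hS hg ha hx
    (fun a' => f a' + ∑ q ∈ Finset.range N.L, bs N b (g, a', q + 1) x)
    (fun a' ha' hne => Kw.inward hS hg ha' hx (h a' ha' hne))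
  have h2 := Kw.outward hS hg ha hx h1
  have h3 : gsum N b g x = bs N b (g, 0, 0) x +
      ∑ a ∈ Finset.range (N.narm g), ∑ p ∈ Finset.range N.L, bs N b (g, a, p + 1) x := by
    unfold gsum
    rw [cols_sum]
    rfl
  rw [h3, ← Finset.add_sum_erase _ _ (Finset.mem_range.2 ha)]
  rw [Finset.sum_add_distrib] at h2
  convert h2 using 1
  generalize ∑ a' ∈ (Finset.range (N.narm g)).erase a, f a' = c1
  generalize bs N b (g, 0, 0) x = c2
  generalize ∑ p ∈ Finset.range N.L, bs N b (g, a, p + 1) x = c3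
  generalize ∑ a ∈ (Finset.range (N.narm g)).erase a, ∑ p ∈ Finset.range N.L, bs N b (g, a, p + 1) x = c4
  clear h1 h2 h3
  revert c1 c2 c3 c4
  decide

omit [DecidableEq H] [DecidableEq Λ] in
theorem last_mem (N : Net H Λ) {g a : ℕ} (ha : a < N.narm g) :
    (g, a, N.m + 1 + 1) ∈ N.cols g ∧ Sum.inl (N.hub g a) ∈ N.edges (g, a, N.m + 1 + 1) := by
  have hL : N.m + 2 = N.L := rfl
  refine ⟨arm_mem_cols N ha (by omega), ?_⟩
  rw [edges_last N (by omega)]
  simp

theorem Kw.unique_hub (hS : ShiftSys (pf N) (fun u => bz (b u.1)) (N.m + 1) S)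
    {g : ℕ} (hg : g < N.nG) {a : ℕ} (ha : a < N.narm g) {x : ℕ → Λ} (hx : N.Content g x)
    {f f' : Bool} (h : Kw N S (Sum.inl (N.hub g a)) (fun j => N.proj g a (x j)) f)
    (h' : Kw N S (Sum.inl (N.hub g a)) (fun j => N.proj g a (x j)) f') : f = f' :=
  Kw.unique (x := x) hS hg (last_mem N ha).1 hx (last_mem N ha).2 h h'

/-- derivable facts are known -/
theorem Kw.of_der (hS : ShiftSys (pf N) (fun u => bz (b u.1)) (N.m + 1) S) {h : H} {z : ℕ → Λ}
    (hd : N.Der h z) : ∃ f, Kw N S (Sum.inl h) z f := by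
  classical
  induction hd with
  | mk g x a hg hgt hx ha h ih =>
    have : ∀ a', ∃ f, a' < N.narm g → a' ≠ a →
        Kw N S (Sum.inl (N.hub g a')) (fun j => N.proj g a' (x j)) f := by
      intro a'
      by_cases h1 : a' < N.narm g ∧ a' ≠ a
      · obtain ⟨f, hf⟩ := ih a' h1.1 h1.2
        exact ⟨f, fun _ _ => hf⟩
      · exact ⟨false, fun h2 h3 => absurd ⟨h2, h3⟩ h1⟩
    choose f hf using this
    exact ⟨_, Kw.gadget hS hg ha hx f hf⟩

/-- for the twist only, derivable facts have value `0` -/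
theorem Kw.of_der_beta (hm : 0 < N.m)
    (hS : ShiftSys (pf N) (fun u => bz (N.beta u.1)) (N.m + 1) S) {h : H} {z : ℕ → Λ}
    (hd : N.Der h z) : Kw N S (Sum.inl h) z false := by
  classical
  induction hd with
  | mk g x a hg hgt hx ha h ih =>
    have h1 := Kw.gadget hS hg ha hx (fun _ => false) ih
    have h2 : gsum N N.beta g x = false := by
      unfold gsum
      rw [cols_sum, beta_sum N hm]
      have : ∀ a ∈ Finset.range (N.narm g), ∑ p ∈ Finset.range N.L,
          ∑ i ∈ Finset.range N.m, N.beta ((g, a, p + 1), i, x i, x (i + 1)) = 0 := by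
        intro a _
        refine Finset.sum_eq_zero fun p _ => ?_
        rw [beta_sum N hm]
        simp only [Prod.mk.injEq, Nat.succ_ne_zero, and_false, decide_false]
        rfl
      rw [Finset.sum_congr rfl this, Finset.sum_const_zero]
      simp [hgt]
    rw [h2] at h1
    have h3 : ∑ a' ∈ (Finset.range (N.narm g)).erase a, false = (0 : Bool) := Finset.sum_const_zero
    rw [h3] at h1
    exact h1

end NS

namespace NS

open Net

variable {H Λ : Type} [DecidableEq H] [DecidableEq Λ]

/-- [NETSP] the Spoiler wins when the twisted fact is derivable. -/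
theorem not_shiftEquiv_of_der (N : Net H Λ) (hN : N.OK) (x : ℕ → Λ) (hx : N.Content N.gt x)
    (h : N.Der (N.hub N.gt 0) (fun j => N.proj N.gt 0 (x j))) :
    ¬ ShiftEquiv N.objs N.ports N.beta (N.m + 1) := by
  rintro ⟨S, hS⟩
  have hm : 0 < N.m := by have := hN.two_le; omega
  have ha : 0 < N.narm N.gt := by rw [hN.narm_gt]; omega
  have h1 := NS.Kw.of_der_beta hm hS h
  have h2 := NS.Kw.gadget hS hN.gt_lt ha hx (fun _ => false) (by
    intro a' ha' hne
    rw [hN.narm_gt] at ha'
    omega)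
  have h3 := NS.Kw.unique_hub hS hN.gt_lt ha hx h1 h2
  have h4 : NS.gsum N N.beta N.gt x = true := by
    unfold NS.gsum
    rw [NS.cols_sum, NS.beta_sum N hm]
    have : ∀ a ∈ Finset.range (N.narm N.gt), ∑ p ∈ Finset.range N.L,
        ∑ i ∈ Finset.range N.m, N.beta ((N.gt, a, p + 1), i, x i, x (i + 1)) = 0 := by
      intro a _
      refine Finset.sum_eq_zero fun p _ => ?_
      rw [NS.beta_sum N hm]
      simp only [Prod.mk.injEq, Nat.succ_ne_zero, and_false, decide_false]
      rfl
    rw [Finset.sum_congr rfl this, Finset.sum_const_zero]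
    simp
  rw [h4] at h3
  have h5 : ∑ a' ∈ (Finset.range (N.narm N.gt)).erase 0, false = (0 : Bool) := Finset.sum_const_zero
  rw [h5] at h3
  exact absurd h3 (by decide)

/-- [NETID] if every hub can be unlocked and the `(m+1)`-pebble game is won by the Duplicator for the
parity difference `b`, then `b` has a global solution. -/
theorem solution_of_unlocked (N : Net H Λ) (hN : N.OK) {ug : H → ℕ} {lift : H → ℕ → Λ → Λ}
    (hu : N.Unlocked ug lift) (b : NObj Λ → Bool)
    (hS : ShiftEquiv N.objs N.ports b (N.m + 1)) :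
    ∃ s : NVar H Λ → Bool, IsSol N.objs N.ports b s := by
  classical
  obtain ⟨S, hS⟩ := hS
  -- all facts are derivable
  have hder : ∀ g < N.nG, ∀ a < N.narm g, ∀ x, N.Content g x →
      N.Der (N.hub g a) (fun j => N.proj g a (x j)) := by
    intro g hg a ha x hx
    have h1 := Der.mk (N := N) (ug (N.hub g a)) (fun j => lift (N.hub g a) j (N.proj g a (x j))) 2
      (hu.lt g hg a ha) (hu.ne g hg a ha) (fun j => hu.mem g hg a ha j (x j) (hx j))
      (by rw [hu.narm g hg a ha]; omega) (by
        intro a' ha' hne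
        rw [hu.narm g hg a ha] at ha'
        have h2 := hu.der g hg a ha x hx
        rcases (show a' = 0 ∨ a' = 1 by omega) with rfl | rfl
        · exact h2
        · rw [← hu.hub01 g hg a ha, ← hu.proj01 g hg a ha]
          exact h2)
    rw [hu.hub2 g hg a ha] at h1
    have h2 : (fun j => N.proj (ug (N.hub g a)) 2 (lift (N.hub g a) j (N.proj g a (x j)))) =
        fun j => N.proj g a (x j) := funext fun j => hu.proj_lift g hg a ha j (x j) (hx j)
    rw [h2] at h1
    exact h1
  let F : H → (ℕ → Λ) → Bool := fun h z =>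
    if hf : ∃ f, NS.Kw N S (Sum.inl h) z f then hf.choose else false
  have hF : ∀ g < N.nG, ∀ a < N.narm g, ∀ x, N.Content g x →
      NS.Kw N S (Sum.inl (N.hub g a)) (fun j => N.proj g a (x j))
        (F (N.hub g a) (fun j => N.proj g a (x j))) := by
    intro g hg a ha x hx
    have h1 := NS.Kw.of_der hS (hder g hg a ha x hx)
    simp only [F, dif_pos h1]
    exact h1.choose_spec
  refine NS.solution_of_sums N hN hu b F ?_
  intro g hg x hx
  have ha : 0 < N.narm g := (hN.narm_odd g hg).pos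
  have h1 := NS.Kw.gadget hS hg ha hx (fun a => F (N.hub g a) (fun j => N.proj g a (x j)))
    (fun a' ha' _ => hF g hg a' ha' x hx)
  have h2 := NS.Kw.unique_hub hS hg ha hx (hF g hg 0 ha x hx) h1
  rw [← Finset.add_sum_erase _ _ (Finset.mem_range.2 ha)]
  rw [h2]
  generalize ∑ a' ∈ (Finset.range (N.narm g)).erase 0, F (N.hub g a') (fun j => N.proj g a' (x j)) = c1
  generalize NS.gsum N b g x = c2
  clear h1 h2
  revert c1 c2
  decide

end NS

end Crest.Agent.R290
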