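import Crest.Agent.R290.NetNoSol

/-!
# Row 290, blueprint 2.3: from values of all facts to a global solution (coboundary part)

`NS.solution_of_sums`: if every hub can be unlocked and there are values `F` of the facts such that for
every gadget and content the values at the arms add up to the total parity of the gadget, then the parity
function `b` has a global solution.
-/

set_option autoImplicit false

namespace Crest.Agent.R290

open Finset

namespace NS

open Net

variable {H Λ : Type}

theorem list_sum_comm {α : Type} (l : List α) (n : ℕ) (f : α → ℕ → Bool) :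
    (l.map fun κ => ∑ i ∈ Finset.range n, f κ i).sum = ∑ i ∈ Finset.range n, (l.map fun κ => f κ i).sum := by
  induction l with
  | nil => simp
  | cons e l ih => simp only [List.map_cons, List.sum_cons, Finset.sum_add_distrib, ih]

/-- auxiliary recursion for the splitting lemma -/
def splitU (c : ℕ → Λ) (d : ℕ → Λ → Λ → Bool) : ℕ → Λ → Bool
  | 0 => fun _ => 0
  | i + 1 => fun y => d i (c i) y + splitU c d i (c i)

/-- **Splitting lemma**: row functions whose sum vanishes on all full contents (one-point ends) are a
coboundary. -/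
theorem split {m : ℕ} (A : ℕ → Set Λ) (c : ℕ → Λ) (hc : ∀ j, c j ∈ A j)
    (h0 : ∀ x ∈ A 0, x = c 0) (hm : ∀ x ∈ A m, x = c m) (d : ℕ → Λ → Λ → Bool)
    (hd : ∀ x : ℕ → Λ, (∀ j, x j ∈ A j) → ∑ i ∈ Finset.range m, d i (x i) (x (i + 1)) = 0) :
    ∃ U : ℕ → Λ → Bool, (∀ x, U 0 x = 0) ∧ (∀ x ∈ A m, U m x = 0) ∧
      ∀ i < m, ∀ x ∈ A i, ∀ y ∈ A (i + 1), d i x y = U i x + U (i + 1) y := by
  refine ⟨splitU c d, fun _ => rfl, ?_, ?_⟩
  · intro x hx
    rw [hm x hx]
    have key : ∀ n, splitU c d n (c n) = ∑ i ∈ Finset.range n, d i (c i) (c (i + 1)) := by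
      intro n
      induction n with
      | zero => rfl
      | succ n ih =>
        rw [Finset.sum_range_succ, ← ih]
        exact add_comm _ _
    rw [key m]
    exact hd c hc
  · intro i hi x hx y hy
    cases i with
    | zero =>
      rw [h0 x hx]
      change d 0 (c 0) y = 0 + (d 0 (c 0) y + 0)
      simp
    | succ k =>
      classical
      let z : ℕ → Λ := Function.update (Function.update c (k + 1) x) (k + 2) y
      let z' : ℕ → Λ := Function.update c (k + 2) y
      have hz : ∀ j, z j ∈ A j := by
        intro j
        by_cases h2 : j = k + 2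
        · subst h2; simp only [z, Function.update_self]; exact hy
        · simp only [z, Function.update_of_ne h2]
          by_cases h1 : j = k + 1
          · subst h1; simp only [Function.update_self]; exact hx
          · rw [Function.update_of_ne h1]; exact hc j
      have hz' : ∀ j, z' j ∈ A j := by
        intro j
        by_cases h2 : j = k + 2
        · subst h2; simp only [z', Function.update_self]; exact hy
        · simp only [z', Function.update_of_ne h2]; exact hc j
      have hzz : ∀ j, j ≠ k + 1 → z j = z' j := by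
        intro j hj
        by_cases h2 : j = k + 2
        · subst h2; simp only [z, z', Function.update_self]
        · simp only [z, z', Function.update_of_ne h2, Function.update_of_ne hj]
      have hsum : ∑ i ∈ Finset.range m, (d i (z i) (z (i + 1)) + d i (z' i) (z' (i + 1))) = 0 := by
        rw [Finset.sum_add_distrib, hd z hz, hd z' hz']; rfl
      have hpair : ∑ i ∈ Finset.range m, (d i (z i) (z (i + 1)) + d i (z' i) (z' (i + 1))) =
          (d k (z k) (z (k + 1)) + d k (z' k) (z' (k + 1))) +
          (d (k + 1) (z (k + 1)) (z (k + 2)) + d (k + 1) (z' (k + 1)) (z' (k + 2))) := by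
        rw [← Finset.sum_pair (f := fun i => d i (z i) (z (i + 1)) + d i (z' i) (z' (i + 1)))
          (show k ≠ k + 1 by omega)]
        symm
        apply Finset.sum_subset
        · intro i hi'
          simp only [Finset.mem_insert, Finset.mem_singleton] at hi'
          exact Finset.mem_range.2 (by omega)
        · intro i _ hi'
          simp only [Finset.mem_insert, Finset.mem_singleton, not_or] at hi'
          rw [hzz i (by omega), hzz (i + 1) (by omega)]
          exact bool_add_self _
      rw [hpair] at hsum
      have e1 : z k = c k := by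
        simp only [z]
        rw [Function.update_of_ne (by omega), Function.update_of_ne (by omega)]
      have e2 : z (k + 1) = x := by
        simp only [z]
        rw [Function.update_of_ne (by omega), Function.update_self]
      have e3 : z (k + 2) = y := by simp only [z, Function.update_self]
      have e4 : z' k = c k := by
        simp only [z']
        rw [Function.update_of_ne (by omega)]
      have e5 : z' (k + 1) = c (k + 1) := by
        simp only [z']
        rw [Function.update_of_ne (by omega)]
      have e6 : z' (k + 2) = y := by simp only [z', Function.update_self]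
      rw [e1, e2, e3, e4, e5, e6] at hsum
      change d (k + 1) x y = (d k (c k) x + splitU c d k (c k)) +
        (d (k + 1) (c (k + 1)) y + (d k (c k) (c (k + 1)) + splitU c d k (c k)))
      generalize d (k + 1) x y = a1 at *
      generalize d k (c k) x = a2 at *
      generalize splitU c d k (c k) = a3 at *
      generalize d (k + 1) (c (k + 1)) y = a4 at *
      generalize d k (c k) (c (k + 1)) = a5 at *
      revert hsum
      revert a1 a2 a3 a4 a5
      decide

/-- total parity of a gadget and a content -/
def gsum (N : Net H Λ) (b : NObj Λ → Bool) (g : ℕ) (x : ℕ → Λ) : Bool :=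
  ((N.cols g).map fun κ => ∑ i ∈ Finset.range N.m, b (κ, i, x i, x (i + 1))).sum

/-- the columns of a gadget, as a sum -/
theorem cols_sum (N : Net H Λ) (g : ℕ) (f : Col → Bool) :
    ((N.cols g).map f).sum = f (g, 0, 0) +
      ∑ a ∈ Finset.range (N.narm g), ∑ p ∈ Finset.range N.L, f (g, a, p + 1) := by
  simp only [Net.cols, List.map_cons, List.sum_cons]
  congr 1
  rw [← list_range_sum, List.flatMap, List.map_flatten, List.sum_flatten, List.map_map, List.map_map]
  congr 1
  apply List.map_congr_left
  intro a _
  simp only [Function.comp_apply, List.map_map]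
  rw [← list_range_sum]
  rfl

theorem mem_objs_iff (N : Net H Λ) (u : NObj Λ) : u ∈ N.objs ↔ ∃ g < N.nG, u.1 ∈ N.cols g ∧ u.2.1 < N.m ∧
    u.2.2.1 ∈ N.lett g u.2.1 ∧ u.2.2.2 ∈ N.lett g (u.2.1 + 1) := by
  obtain ⟨κ, i, x, y⟩ := u
  simp only [Net.objs, List.mem_flatMap, List.mem_range, List.mem_map, Prod.mk.injEq]
  constructor
  · rintro ⟨g, hg, κ', hκ, i', hi, x', hx, y', hy, rfl, rfl, rfl, rfl⟩
    exact ⟨g, hg, hκ, hi, hx, hy⟩
  · rintro ⟨g, hg, hκ, hi, hx, hy⟩
    exact ⟨g, hg, κ, hκ, i, hi, x, hx, y, hy, rfl, rfl, rfl, rfl⟩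

theorem mem_cols_iff (N : Net H Λ) (g : ℕ) (κ : Col) : κ ∈ N.cols g ↔ κ = (g, 0, 0) ∨
    ∃ a < N.narm g, ∃ p < N.L, κ = (g, a, p + 1) := by
  simp only [Net.cols, List.mem_cons, List.mem_flatMap, List.mem_range, List.mem_map]
  constructor
  · rintro (h | ⟨a, ha, p, hp, h⟩)
    · exact Or.inl h
    · exact Or.inr ⟨a, ha, p, hp, h.symm⟩
  · rintro (h | ⟨a, ha, p, hp, h⟩)
    · exact Or.inl h
    · exact Or.inr ⟨a, ha, p, hp, h.symm⟩

section sol

variable (N : Net H Λ) (ug : H → ℕ) (lift : H → ℕ → Λ → Λ) (b : NObj Λ → Bool)

/-- `Y` variables at hub edges -/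
def yh (h : H) (i : ℕ) (x y : Λ) : Bool :=
  ((N.cols (ug h)).map fun κ => b (κ, i, lift h i x, lift h (i + 1) y)).sum

/-- tail sums along an arm -/
def tl (g a p i : ℕ) (x y : Λ) : Bool := ∑ q ∈ Finset.Ico p N.L, b ((g, a, q + 1), i, x, y)

/-- `Y` variables at internal edges -/
def yi (g a p i : ℕ) (x y : Λ) : Bool :=
  yh N ug lift b (N.hub g a) i (N.proj g a x) (N.proj g a y) + tl N b g a p i x y

/-- the solution, for given `U` at the centres -/
def sol (Uc : ℕ → ℕ → Λ → Bool) : NVar H Λ → Bool
  | Sum.inl (Sum.inl h, i, x, y) => yh N ug lift b h i x y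
  | Sum.inl (Sum.inr (g, a, p), i, x, y) => yi N ug lift b g a (p - 1) i x y
  | Sum.inr ((g, _, p), j, x) => if p = 0 then Uc g j x else 0

end sol

/-- the values at the hubs -/
theorem hub_val (N : Net H Λ) {ug : H → ℕ} {lift : H → ℕ → Λ → Λ} (hu : N.Unlocked ug lift)
    (b : NObj Λ → Bool) (F : H → (ℕ → Λ) → Bool)
    (hF : ∀ g < N.nG, ∀ x, N.Content g x →
      ∑ a ∈ Finset.range (N.narm g), F (N.hub g a) (fun j => N.proj g a (x j)) = gsum N b g x)
    {g : ℕ} (hg : g < N.nG) {a : ℕ} (ha : a < N.narm g) (x : ℕ → Λ) (hx : N.Content g x) :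
    F (N.hub g a) (fun j => N.proj g a (x j)) =
      ∑ i ∈ Finset.range N.m, yh N ug lift b (N.hub g a) i (N.proj g a (x i)) (N.proj g a (x (i + 1))) := by
  have h1 := hF (ug (N.hub g a)) (hu.lt g hg a ha)
    (fun j => lift (N.hub g a) j (N.proj g a (x j))) (fun j => hu.mem g hg a ha j (x j) (hx j))
  rw [hu.narm g hg a ha] at h1
  simp only [Finset.sum_range_succ, Finset.sum_range_zero, zero_add] at h1
  rw [hu.hub01 g hg a ha, hu.proj01 g hg a ha, bool_add_self, zero_add, hu.hub2 g hg a ha] at h1
  have h2 : (fun j => N.proj (ug (N.hub g a)) 2 (lift (N.hub g a) j (N.proj g a (x j)))) =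
      fun j => N.proj g a (x j) := funext fun j => hu.proj_lift g hg a ha j (x j) (hx j)
  rw [h2] at h1
  rw [h1]
  unfold gsum yh
  rw [list_sum_comm]

/-- **Coboundary part of the identification theorem.** -/
theorem solution_of_sums (N : Net H Λ) (hN : N.OK) {ug : H → ℕ} {lift : H → ℕ → Λ → Λ}
    (hu : N.Unlocked ug lift) (b : NObj Λ → Bool) (F : H → (ℕ → Λ) → Bool)
    (hF : ∀ g < N.nG, ∀ x, N.Content g x →
      ∑ a ∈ Finset.range (N.narm g), F (N.hub g a) (fun j => N.proj g a (x j)) = gsum N b g x) :
    ∃ s : NVar H Λ → Bool, IsSol N.objs N.ports b s := by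
  have hm : 0 < N.m := by have := hN.two_le; omega
  -- the centres
  have hU : ∀ g, ∃ U : ℕ → Λ → Bool, g < N.nG → (∀ x, U 0 x = 0) ∧ (∀ x ∈ N.lett g N.m, U N.m x = 0) ∧
      ∀ i < N.m, ∀ x ∈ N.lett g i, ∀ y ∈ N.lett g (i + 1),
        b ((g, 0, 0), i, x, y) + ∑ a ∈ Finset.range (N.narm g), yi N ug lift b g a 0 i x y =
          U i x + U (i + 1) y := by
    intro g
    by_cases hg : g < N.nG
    · obtain ⟨U, h1, h2, h3⟩ := split (m := N.m) (fun j => {x | x ∈ N.lett g j})
        (fun j => (N.lett g j).head (hN.lett_ne g j)) (fun j => List.head_mem _)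
        (by
          intro x hx
          have e := hN.lett_triv g hg 0 (Or.inl rfl)
          simp only [Set.mem_ofPred_eq, e, List.mem_singleton] at hx
          simp only [e, List.head_cons]
          exact hx)
        (by
          intro x hx
          have e := hN.lett_triv g hg N.m (Or.inr le_rfl)
          simp only [Set.mem_ofPred_eq, e, List.mem_singleton] at hx
          simp only [e, List.head_cons]
          exact hx)
        (fun i x y => b ((g, 0, 0), i, x, y) +
          ∑ a ∈ Finset.range (N.narm g), yi N ug lift b g a 0 i x y)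
        (by
          intro x hx
          rw [Finset.sum_add_distrib, Finset.sum_comm]
          have h1 := hF g hg x hx
          have h2 : ∀ a ∈ Finset.range (N.narm g),
              ∑ i ∈ Finset.range N.m, yi N ug lift b g a 0 i (x i) (x (i + 1)) =
              F (N.hub g a) (fun j => N.proj g a (x j)) +
                ∑ q ∈ Finset.range N.L, ∑ i ∈ Finset.range N.m, b ((g, a, q + 1), i, x i, x (i + 1)) := by
            intro a ha
            unfold yi tl
            rw [Finset.sum_add_distrib, ← hub_val N hu b F hF hg (Finset.mem_range.1 ha) x hx,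
              Finset.sum_comm, Nat.Ico_zero_eq_range]
          rw [Finset.sum_congr rfl h2, Finset.sum_add_distrib, h1]
          unfold gsum
          rw [cols_sum]
          generalize ∑ i ∈ Finset.range N.m, b ((g, 0, 0), i, x i, x (i + 1)) = a1
          generalize ∑ a ∈ Finset.range (N.narm g), ∑ q ∈ Finset.range N.L,
            ∑ i ∈ Finset.range N.m, b ((g, a, q + 1), i, x i, x (i + 1)) = a2
          revert a1 a2
          decide)
      exact ⟨U, fun _ => ⟨h1, h2, h3⟩⟩
    · exact ⟨fun _ _ => 0, fun h => absurd h hg⟩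
  choose Uc hUc using hU
  refine ⟨sol N ug lift b Uc, ?_⟩
  intro u hu'
  obtain ⟨g, hg, hκ, hi, hx, hy⟩ := (mem_objs_iff N u).1 hu'
  obtain ⟨κ, i, x, y⟩ := u
  simp only at hκ hi hx hy
  rcases (mem_cols_iff N g κ).1 hκ with rfl | ⟨a, ha, p, hp, rfl⟩
  · -- centre
    obtain ⟨h1, h2, h3⟩ := hUc g hg
    have h4 := h3 i hi x hx y hy
    simp only [Net.ports, List.map_append, List.sum_append, edges_ctr, List.map_map]
    have e1 : ((List.range (N.narm g)).map ((sol N ug lift b Uc) ∘ (fun e => Y e i (N.psi (g, 0, 0) e x)
        (N.psi (g, 0, 0) e y)) ∘ fun a => Sum.inr (g, a, 1))).sum =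
        ∑ a ∈ Finset.range (N.narm g), yi N ug lift b g a 0 i x y := by
      rw [list_range_sum]
      rfl
    rw [e1]
    have e2 : (List.map (sol N ug lift b Uc) (if 0 < i then [U (g, 0, 0) i x] else [])).sum = Uc g i x := by
      by_cases h0 : 0 < i
      · rw [if_pos h0]
        simp [sol, U]
      · rw [if_neg h0]
        have : i = 0 := by omega
        subst this
        rw [h1]; rfl
    have e3 : (List.map (sol N ug lift b Uc)
        (if i + 1 < N.m then [U (g, 0, 0) (i + 1) y] else [])).sum = Uc g (i + 1) y := by
      by_cases h0 : i + 1 < N.m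
      · rw [if_pos h0]
        simp [sol, U]
      · rw [if_neg h0]
        have h5 : i + 1 = N.m := by omega
        rw [h5] at hy ⊢
        rw [h2 y hy]; rfl
    rw [e2, e3]
    generalize ∑ a ∈ Finset.range (N.narm g), yi N ug lift b g a 0 i x y = a1 at *
    generalize Uc g i x = a2 at *
    generalize Uc g (i + 1) y = a3 at *
    generalize b ((g, 0, 0), i, x, y) = a4 at *
    clear e1 e2 e3
    revert h4
    revert a1 a2 a3 a4
    decide
  · -- arm column
    have e2 : (List.map (sol N ug lift b Uc) (if 0 < i then [U (g, a, p + 1) i x] else [])).sum = 0 := by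
      by_cases h0 : 0 < i
      · rw [if_pos h0]
        simp [sol, U]
      · rw [if_neg h0]; rfl
    have e3 : (List.map (sol N ug lift b Uc)
        (if i + 1 < N.m then [U (g, a, p + 1) (i + 1) y] else [])).sum = 0 := by
      by_cases h0 : i + 1 < N.m
      · rw [if_pos h0]
        simp [sol, U]
      · rw [if_neg h0]; rfl
    simp only [Net.ports, List.map_append, List.sum_append]
    rw [e2, e3]
    by_cases hpL : p + 1 < N.L
    · rw [edges_arm N hpL]
      have e4 : tl N b g a p i x y = b ((g, a, p + 1), i, x, y) + tl N b g a (p + 1) i x y := by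
        unfold tl
        rw [Finset.sum_eq_sum_Ico_succ_bot hp]
      change (yi N ug lift b g a p i x y + (yi N ug lift b g a (p + 1) i x y + 0)) + (0 + 0) =
        b ((g, a, p + 1), i, x, y)
      unfold yi
      rw [e4]
      generalize yh N ug lift b (N.hub g a) i (N.proj g a x) (N.proj g a y) = a1
      generalize b ((g, a, p + 1), i, x, y) = a2
      generalize tl N b g a (p + 1) i x y = a3
      revert a1 a2 a3
      decide
    · have hpL' : p + 1 = N.L := by omega
      rw [edges_last N hpL']
      have e4 : tl N b g a p i x y = b ((g, a, p + 1), i, x, y) := by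
        unfold tl
        rw [Finset.sum_eq_sum_Ico_succ_bot hp, hpL', Finset.Ico_self, Finset.sum_empty, add_zero]
      change (yi N ug lift b g a p i x y +
        (yh N ug lift b (N.hub g a) i (N.proj g a x) (N.proj g a y) + 0)) + (0 + 0) =
        b ((g, a, p + 1), i, x, y)
      unfold yi
      rw [e4]
      generalize yh N ug lift b (N.hub g a) i (N.proj g a x) (N.proj g a y) = a1
      generalize b ((g, a, p + 1), i, x, y) = a2
      revert a1 a2
      decide

end NS

end Crest.Agent.R290
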