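import Crest.Agent.R290.Flat

/-!
# Row 290, module PROG: the Horn rules / gadgets of a flat program (definitions)

* `Letter` = `ℕ × ℕ × ℕ × ℕ`: at a gadget the digits of `(t, t', s, s')`, at a hub `(x, y, 0, 0)`.
* `Hub` = `ℕ × ℕ` : `hSt i`, `hTop k`, `hSym b`, `hNxt`, `hAcc`, `hTgt`.
* an arm is `(hub, c, d)` with selector codes `c, d` (`0 = Z, 1 = T, 2 = T', 3 = S, 4 = S'`); its
  projection of letters is `proj c d`.
* a rule is `(premises, head, carry)`; `carry = 0`: no increment (`t' = 0`); `carry = f + 1`:
  `t' = t + 1` and the increment stops at digit `f`.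
* `gadgets p K m` (`K` a bound for the stack indices of `p`): every rule gives the gadget with arms `premises ++ premises ++ [head]`, parity
  `false`; the last gadget is the twisted one (one arm, `hTgt`), parity `true`.
* `letters B carry j` : letters allowed at register `j` (`1 ≤ j ≤ m - 1`), i.e. digit `j - 1`.
-/

set_option autoImplicit false

namespace Crest.Agent.R290.Prog

open Crest.Agent.R290

/-- letters -/
abbrev Letter : Type := ℕ × ℕ × ℕ × ℕ

/-- base letter -/
abbrev o : Letter := (0, 0, 0, 0)

/-- hubs -/
abbrev Hub : Type := ℕ × ℕ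

/-- arms: hub and the two selectors -/
abbrev Arm : Type := Hub × ℕ × ℕ

/-- value of a selector: `0 = Z, 1 = T, 2 = T', 3 = S, 4 = S'` -/
def sel (c : ℕ) (x : Letter) : ℕ :=
  if c = 1 then x.1 else if c = 2 then x.2.1 else if c = 3 then x.2.2.1
  else if c = 4 then x.2.2.2 else 0

/-- projection of letters -/
def proj (c d : ℕ) (x : Letter) : Letter := (sel c x, sel d x, 0, 0)

@[simp] theorem sel_zero (x : Letter) : sel 0 x = 0 := rfl
@[simp] theorem sel_one (x : Letter) : sel 1 x = x.1 := rfl
@[simp] theorem sel_two (x : Letter) : sel 2 x = x.2.1 := rfl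
@[simp] theorem sel_three (x : Letter) : sel 3 x = x.2.2.1 := rfl
@[simp] theorem sel_four (x : Letter) : sel 4 x = x.2.2.2 := rfl

theorem sel_o (c : ℕ) : sel c o = 0 := by
  unfold sel
  split_ifs <;> rfl

theorem proj_o (c d : ℕ) : proj c d o = o := by
  unfold proj
  rw [sel_o, sel_o]

/-- state `i` at time `t`: fact `(hSt i; t, 0)` -/
def hSt (i : ℕ) : Hub := (0, i)
/-- top cell of stack `k` at time `t` was created at time `s` (`0`: empty): `(hTop k; t, s)` -/
def hTop (k : ℕ) : Hub := (1, k)
/-- the cell created at time `s` carries `b`: `(hSym b; s, 0)` -/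
def hSym (b : Bool) : Hub := (2, if b then 1 else 0)
/-- below the cell created at time `s` is the cell created at time `s'`: `(hNxt; s, s')` -/
def hNxt : Hub := (3, 0)
/-- accepted: `(hAcc; 0, 0)` -/
def hAcc : Hub := (4, 0)
/-- target -/
def hTgt : Hub := (5, 0)

/-- stack index of an instruction -/
def stackOf : FInstr → ℕ
  | .push k _ _ => k
  | .pop k _ _ _ => k

/-- all stack indices of `p` are `< K` -/
def StacksLt (K : ℕ) (p : Flat) : Prop := ∀ i ∈ p, stackOf i < K

/-- the other stacks do not change -/
def frameRules (K i k : ℕ) : List (List Arm × Arm) :=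
  ((List.range K).filter fun k' => k' ≠ k).map fun k' =>
    ([(hSt i, 1, 0), (hTop k', 1, 3)], (hTop k', 2, 3))

/-- rules of instruction `i` (time `T` to time `T'`), `len` the length of the program -/
def instrRules (len K i : ℕ) : FInstr → List (List Arm × Arm)
  | .push k b j =>
      [([(hSt i, 1, 0)], (hSt (min j len), 2, 0)),
        ([(hSt i, 1, 0)], (hTop k, 2, 2)),
        ([(hSt i, 1, 0), (hTop k, 1, 3)], (hNxt, 2, 3)),
        ([(hSt i, 1, 0)], (hSym b, 2, 0))] ++ frameRules K i k
  | .pop k e t f =>
      [([(hSt i, 1, 0), (hTop k, 1, 0)], (hSt (min e len), 2, 0)),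
        ([(hSt i, 1, 0), (hTop k, 1, 0)], (hTop k, 2, 0)),
        ([(hSt i, 1, 0), (hTop k, 1, 3), (hSym true, 3, 0)], (hSt (min t len), 2, 0)),
        ([(hSt i, 1, 0), (hTop k, 1, 3), (hSym false, 3, 0)], (hSt (min f len), 2, 0)),
        ([(hSt i, 1, 0), (hTop k, 1, 3), (hNxt, 3, 4)], (hTop k, 2, 4))] ++ frameRules K i k

/-- all rules of the instructions, without increment position -/
def stepRules (p : Flat) (K : ℕ) : List (List Arm × Arm) :=
  p.zipIdx.flatMap fun x => instrRules p.length K x.2 x.1

/-- all hubs -/
def hubs (p : Flat) (K : ℕ) : List Hub :=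
  (List.range (p.length + 1)).map hSt ++ ((List.range K).map hTop ++
    [hSym false, hSym true, hNxt, hAcc, hTgt])

/-- rules without increment: initial configuration, acceptance, unlocking of all hubs -/
def baseRules (p : Flat) (K : ℕ) : List (List Arm × Arm) :=
  ([], (hSt 0, 0, 0)) :: ((List.range K).map fun k => ([], (hTop k, 0, 0))) ++
    (([(hSt p.length, 1, 0)], (hAcc, 0, 0)) ::
      (hubs p K).map fun h => ([(hAcc, 0, 0)], (h, 3, 4)))

/-- all rules `(premises, head, carry)` -/
def rules (p : Flat) (K m : ℕ) : List (List Arm × Arm × ℕ) :=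
  (baseRules p K).map (fun r => (r.1, r.2, 0)) ++
    (List.range (m - 1)).flatMap fun f => (stepRules p K).map fun r => (r.1, r.2, f + 1)

/-- gadgets: arms, carry, parity -/
abbrev Gadget : Type := List Arm × ℕ × Bool

/-- the gadget of a rule: every premise twice, the head once -/
def gadgetOf (r : List Arm × Arm × ℕ) : Gadget := (r.1 ++ r.1 ++ [r.2.1], r.2.2, false)

/-- the twisted gadget -/
def twisted : Gadget := ([(hTgt, 0, 0)], 0, true)

/-- all gadgets -/
def gadgets (p : Flat) (K m : ℕ) : List Gadget := (rules p K m).map gadgetOf ++ [twisted]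

/-- letters at register `j ≥ 1` (digit `j - 1`) of a gadget with the given carry code -/
def letters (B c j : ℕ) : List Letter :=
  (List.range B).flatMap fun s => (List.range B).flatMap fun s' =>
    if c = 0 then (List.range B).map fun d => (d, 0, s, s')
    else if j < c then [(B - 1, 0, s, s')]
    else if j = c then (List.range (B - 1)).map fun d => (d, d + 1, s, s')
    else (List.range B).map fun d => (d, d, s, s')

/-- letters at an arbitrary register `j` of a network with `m` rows: only `o` at `0` and `≥ m` -/
def lettersAt (B m c j : ℕ) : List Letter :=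
  if 1 ≤ j ∧ j < m then letters B c j else [o]

end Crest.Agent.R290.Prog
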