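import Crest.Agent.R290.MRAM
import Crest.Agent.R290.FlatPTF
import Crest.Prelude.Def_WL

/-!
# Row 290: word-RAM deciders as structured programs with absolute polynomial overhead

* `ram_cmd`: one fixed program `c` with the RAM program and the word-length constant as data.
* `ram_prog`: for every RAM program `P` and constant `c₀` a program which on the raw input bits `x`
  (starting with `natCode n`) computes the bit "output = [1]"; time `C * (|x| + T + 1) ^ a` with an
  absolute exponent `a`.
-/

set_option autoImplicit false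
set_option linter.dupNamespace false

namespace Crest.Agent.R290.RAM

open Crest.WordRAM Crest.Agent.Lib.PT Function

/-- static data of a RAM decider: program table, `numRegs = 0`?, word-length constant -/
abbrev Dat : Type := List TI × Bool × Un

/-- static data -/
def dat (P : Program) (c₀ : ℕ) : Dat := (tab P, decide (P.numRegs = 0), ⟨c₀⟩)

/-- the number coded by the front of a bit string -/
def decN (x : List Bool) : ℕ := (Crest.Agent.Lib.PT.fst x).foldr (fun b n => Nat.bit b n) 0

theorem natCode_append (n : ℕ) (y : List Bool) :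
    Crest.Enc.natCode n ++ y = pair n.bits (false :: y) := by
  unfold Crest.Enc.natCode pair
  rw [List.append_assoc, List.flatMap_def]
  rfl

theorem foldr_bits (n : ℕ) : n.bits.foldr (fun b n => Nat.bit b n) 0 = n := by
  induction n using Nat.binaryRec' with
  | zero => simp
  | bit b n hn ih =>
    rw [Nat.bits_append_bit n b hn, List.foldr_cons, ih]

theorem decN_natCode (n : ℕ) (y : List Bool) : decN (Crest.Enc.natCode n ++ y) = n := by
  unfold decN
  rw [natCode_append, fst_pair, foldr_bits]

theorem size_eq_clog (n : ℕ) : (n + 1).size = Nat.clog 2 (n + 2) := by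
  apply le_antisymm
  · rw [Nat.size_le]
    have := Nat.le_pow_clog (b := 2) (by norm_num) (n + 2)
    omega
  · rw [Nat.clog_le_iff_le_pow (by norm_num)]
    have := Nat.lt_size_self (n + 1)
    omega

/-- bits as numbers -/
def bitsNat (x : List Bool) : List ℕ := x.map fun b => if b then 1 else 0

/-- initial state of the interpreter from the static data and the input bits -/
def start (a : Dat × Bits) : Params × St :=
  ((a.1.1, ⟨a.1.2.2.val * (decN a.2.val + 1).size⟩),
    (0, false, if a.1.2.1 = true then [] else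
      [(0, a.2.val.length % 2 ^ (a.1.2.2.val * (decN a.2.val + 1).size))],
      mem0 (a.1.2.2.val * (decN a.2.val + 1).size) (bitsNat a.2.val)))

theorem start_eq (P : Program) (c₀ n : ℕ) (y : List Bool) :
    start (dat P c₀, ⟨Crest.Enc.natCode n ++ y⟩) =
      (params P (c₀ * Nat.clog 2 (n + 2)),
        init0 P (c₀ * Nat.clog 2 (n + 2)) (bitsNat (Crest.Enc.natCode n ++ y))) := by
  unfold start init0 params dat
  simp only [decN_natCode, size_eq_clog]
  have : (bitsNat (Crest.Enc.natCode n ++ y)).length = (Crest.Enc.natCode n ++ y).length := by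
    simp [bitsNat]
  rw [this]
  by_cases h : P.numRegs = 0 <;> simp [h]

theorem ptf_decN : PTF (fun x : Bits => decN x.val) := by
  have h1 : PTF (fun x : Bits => Bits.mk (Crest.Agent.Lib.PT.fst x.val)) := PT.toPTF PT.fst
  have h2 : PTF (fun x : Bits => Crest.Agent.Lib.PT.fst x.val) := by
    have := PTF.bitsVal h1
    exact this
  exact PTF.ofBits h2

theorem ptf_start : PTF start := by
  unfold start
  have hx : PTF (fun a : Dat × Bits => a.2.val) := by fun_prop
  have hn : PTF (fun a : Dat × Bits => decN a.2.val) :=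
    PTF.comp (g := fun x : Bits => decN x.val) (f := fun a : Dat × Bits => a.2) ptf_decN (by fun_prop)
  have hw : PTU (fun a : Dat × Bits => a.1.2.2.val * (decN a.2.val + 1).size) :=
    PTU.mul (PTU.val (by fun_prop)) (PTF.natSizeUn (by fun_prop))
  have h2 : PTF (fun a : Dat × Bits => 2 ^ (a.1.2.2.val * (decN a.2.val + 1).size)) :=
    PTF.natTwoPow hw
  have hl : PTF (fun a : Dat × Bits => a.2.val.length) := PTU.toPTF (PTU.length hx)
  have hb : PTF (fun a : Dat × Bits => bitsNat a.2.val) := by
    unfold bitsNat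
    refine PTF.map (f := fun (_ : Dat × Bits) (b : Bool) => if b = true then 1 else 0) hx ?_
    exact PTF.ite (PTF.toPTPred (by fun_prop)) (PTF.const 1) (PTF.const 0)
  refine PTF.prodMk (PTF.prodMk (by fun_prop) hw) (PTF.prodMk (PTF.const 0)
    (PTF.prodMk (PTF.const false) (PTF.prodMk (PTF.ite (PTF.toPTPred (by fun_prop)) (PTF.const [])
    (PTF.listCons (PTF.prodMk (PTF.const 0) (PTF.natMod hl h2)) (PTF.const []))) ?_)))
  exact ptf_mem0 hw hb

/-- one step on parameters and state -/
def pstep (b : Params × St) : Params × St := (b.1, ustep b.1 b.2)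

theorem pstep_iterate (b : Params × St) (i : ℕ) : pstep^[i] b = (b.1, (ustep b.1)^[i] b.2) := by
  induction i with
  | zero => rfl
  | succ i ih => rw [iterate_succ_apply', ih, iterate_succ_apply']; rfl

theorem ustep_halted {p : Params} {s : St} (h : s.2.1 = true) : ustep p s = s := by
  unfold ustep
  rw [if_pos h]

theorem ustep_iterate_halted {p : Params} {s : St} (h : s.2.1 = true) (i : ℕ) :
    (ustep p)^[i] s = s := by
  induction i with
  | zero => rfl
  | succ i ih => rw [iterate_succ_apply, ustep_halted h, ih]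

/-- polynomials with natural coefficients are bounded by powers -/
theorem eval_le_pow (q : Polynomial ℕ) : ∃ C e : ℕ, ∀ m, q.eval m ≤ C * (m + 1) ^ e := by
  refine ⟨q.sum fun _ a => a, q.natDegree, fun m => ?_⟩
  rw [Polynomial.eval_eq_sum, Polynomial.sum, Polynomial.sum, Finset.sum_mul]
  refine Finset.sum_le_sum fun i hi => ?_
  refine Nat.mul_le_mul_left _ ?_
  calc m ^ i ≤ (m + 1) ^ i := Nat.pow_le_pow_left (by omega) _
    _ ≤ (m + 1) ^ q.natDegree :=
      Nat.pow_le_pow_right (by omega) (Polynomial.le_natDegree_of_mem_supp i hi)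

theorem length_natCode (n : ℕ) : (Crest.Enc.natCode n).length = 2 * n.size + 2 := by
  have h : ∀ l : List Bool, ((l.map fun b => [true, b]).flatten).length = 2 * l.length := by
    intro l
    induction l with
    | nil => rfl
    | cons a l ih => simp only [List.map_cons, List.flatten_cons, List.length_append, ih,
        List.length_cons, List.length_nil]; omega
  unfold Crest.Enc.natCode
  rw [List.length_append, h, Nat.size_eq_bits_len]
  rfl

/-- **one fixed program** for all word-RAM programs -/
theorem ram_cmd : ∃ (c : Cmd) (C a : ℕ), ∀ (P : Program) (c₀ n : ℕ) (y : List Bool) (T : ℕ),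
    (run P (c₀ * Nat.clog 2 (n + 2)) (fun _ => 0) (bitsNat (Crest.Enc.natCode n ++ y)) T).halted
      = true →
    Run c (init (enc (dat P c₀, Bits.mk (Crest.Enc.natCode n ++ y))))
      (init [decide ((run P (c₀ * Nat.clog 2 (n + 2)) (fun _ => 0)
        (bitsNat (Crest.Enc.natCode n ++ y)) T).output = [1])])
      (C * (sz (dat P c₀) + (Crest.Enc.natCode n ++ y).length + T + 1) ^ a) := by
  have hf : PTF pstep := by
    unfold pstep
    exact PTF.prodMk (by fun_prop) ptf_ustep
  have hd : PTF (fun b : Params × St => b.2.2.1) := by fun_prop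
  have hh : PTF (fun b : Params × St => out1 b.2) := by fun_prop
  obtain ⟨c, q, hc⟩ := ptf_while ptf_start hf hd hh
  obtain ⟨C, e, hC⟩ := eval_le_pow q
  refine ⟨c, C * 201560 ^ e, 6 * e + 1, fun P c₀ n y T hT => ?_⟩
  set x := Crest.Enc.natCode n ++ y with hx
  set w := c₀ * Nat.clog 2 (n + 2) with hw
  set inp := bitsNat x with hinp
  set p := params P w with hp
  set s0 := init0 P w inp with hs0
  have hstart : start (dat P c₀, ⟨x⟩) = (p, s0) := start_eq P c₀ n y
  have hrel := rel_run P w inp
  have hex : ∃ t, ((ustep p)^[t] s0).2.1 = true := ⟨T, by rw [(hrel T).halted]; exact hT⟩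
  classical
  set N := Nat.find hex with hN
  have hNT : N ≤ T := Nat.find_min' hex (by rw [(hrel T).halted]; exact hT)
  have hNh : ((ustep p)^[N] s0).2.1 = true := Nat.find_spec hex
  have hNT2 : (ustep p)^[T] s0 = (ustep p)^[N] s0 := by
    obtain ⟨d, hd⟩ := Nat.exists_eq_add_of_le hNT
    rw [hd, add_comm, iterate_add_apply, ustep_iterate_halted hNh]
  -- sizes
  set Z := sz (dat P c₀) + x.length + T + 1 with hZ
  have hdat : sz (dat P c₀) = 2 * sz (tab P) + 1 + (2 * 1 + 1 + c₀) := by
    unfold dat
    simp [sz_prod]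
  have hxlen : x.length = 2 * n.size + 2 + y.length := by
    rw [hx, List.length_append, length_natCode]
  have hclog : Nat.clog 2 (n + 2) ≤ n.size + 1 := by
    rw [← size_eq_clog]
    have h1 := Arith.size_add_le n 1
    rw [Nat.size_le]
    have h2 : n < 2 ^ n.size := Nat.lt_size_self n
    rw [pow_succ]
    omega
  have hwZ : w ≤ Z * Z := by
    rw [hw]
    exact Nat.mul_le_mul (by omega) (by omega)
  have hp1 : sz p = 2 * sz (tab P) + 1 + w := by
    rw [hp]; unfold params; simp [sz_prod]
  have hinpl : inp.length = x.length := by simp [hinp, bitsNat]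
  have hs1 : sz s0 ≤ (14 * (x.length + w) + 11) * (x.length + 2) := by
    have := sz_init0 P w inp
    rwa [hinpl] at this
  have hZ1 : 1 ≤ Z := by omega
  have hs2 : sz s0 ≤ 117 * Z ^ 3 := by
    refine hs1.trans ?_
    have h1 : 14 * (x.length + w) + 11 ≤ 39 * Z ^ 2 := by nlinarith
    have h2 : x.length + 2 ≤ 3 * Z := by omega
    calc (14 * (x.length + w) + 11) * (x.length + 2) ≤ (39 * Z ^ 2) * (3 * Z) :=
          Nat.mul_le_mul h1 h2
      _ = 117 * Z ^ 3 := by ring
  have hZ23 : Z ^ 2 ≤ Z ^ 3 := Nat.pow_le_pow_right hZ1 (by norm_num)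
  have hZ13 : Z ≤ Z ^ 3 := by
    calc Z = Z ^ 1 := (pow_one Z).symm
      _ ≤ Z ^ 3 := Nat.pow_le_pow_right hZ1 (by norm_num)
  have hp2 : sz p ≤ 4 * Z ^ 2 := by nlinarith
  have hB : ∀ i ≤ N, sz (pstep^[i] (start (dat P c₀, ⟨x⟩))) ≤ 201553 * Z ^ 6 := by
    intro i hi
    rw [hstart, pstep_iterate, sz_prod]
    have h1 := sz_iterate_ustep p s0 i
    have h2 : 14 * (sz p + sz s0 + 1) * (sz s0 + i + 1) ≤ 14 * (122 * Z ^ 3) * (118 * Z ^ 3) := by
      refine Nat.mul_le_mul (Nat.mul_le_mul_left _ ?_) ?_
      · omega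
      · have : i ≤ T := hi.trans hNT
        omega
    have h3 : 14 * (122 * Z ^ 3) * (118 * Z ^ 3) = 201544 * Z ^ 6 := by ring
    have h4 : Z ^ 2 ≤ Z ^ 6 := Nat.pow_le_pow_right hZ1 (by norm_num)
    have h5 : 1 ≤ Z ^ 6 := Nat.one_le_pow _ _ (by omega)
    show 2 * sz p + 1 + sz ((ustep p)^[i] s0) ≤ 201553 * Z ^ 6
    omega
  have key := hc (dat P c₀, ⟨x⟩) N (201553 * Z ^ 6) ?_ ?_ hB
  · have hout : out1 (pstep^[N] (start (dat P c₀, ⟨x⟩))).2 =
        decide ((run P w (fun _ => 0) inp T).output = [1]) := by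
      rw [hstart, pstep_iterate]
      show out1 ((ustep p)^[N] s0) = _
      rw [← hNT2]
      have := (hrel T).out1
      by_cases ho : (run P w (fun _ => 0) inp T).output = [1]
      · rw [decide_eq_true ho]; exact this.2 ho
      · rw [decide_eq_false ho]
        exact Bool.eq_false_iff.2 (fun h => ho (this.1 h))
    rw [hout] at key
    refine key.mono ?_
    have hsza : sz ((dat P c₀, ⟨x⟩) : Dat × Bits) ≤ 3 * Z := by
      rw [sz_prod, sz_bits]
      show 2 * sz (dat P c₀) + 1 + x.length ≤ _
      omega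
    have hZ6 : Z ≤ Z ^ 6 := by
      calc Z = Z ^ 1 := (pow_one Z).symm
        _ ≤ Z ^ 6 := Nat.pow_le_pow_right hZ1 (by norm_num)
    have h1 : sz ((dat P c₀, ⟨x⟩) : Dat × Bits) + 201553 * Z ^ 6 + 1 ≤ 201560 * Z ^ 6 := by
      have h5 : 1 ≤ Z ^ 6 := Nat.one_le_pow _ _ (by omega)
      omega
    calc (N + 1) * q.eval (sz ((dat P c₀, ⟨x⟩) : Dat × Bits) + 201553 * Z ^ 6)
        ≤ Z * (C * (201560 * Z ^ 6) ^ e) := by
          refine Nat.mul_le_mul (by omega) ((hC _).trans ?_)
          exact Nat.mul_le_mul_left _ (Nat.pow_le_pow_left h1 _)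
      _ = C * 201560 ^ e * Z ^ (6 * e + 1) := by
          rw [mul_pow, ← pow_mul, pow_succ]; ring
  · intro i hi
    rw [hstart, pstep_iterate]
    show ((ustep p)^[i] s0).2.1 = false
    exact Bool.eq_false_iff.2 (Nat.find_min hex hi)
  · rw [hstart, pstep_iterate]
    exact hNh

/-- for every RAM program a program on the raw input, absolute exponent `a` -/
theorem ram_prog : ∃ a : ℕ, ∀ (P : Program) (c₀ : ℕ), ∃ (c : Cmd) (C : ℕ),
    ∀ (n : ℕ) (y : List Bool) (T : ℕ),
    (run P (c₀ * Nat.clog 2 (n + 2)) (fun _ => 0) (bitsNat (Crest.Enc.natCode n ++ y)) T).halted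
      = true →
    Run c (init (Crest.Enc.natCode n ++ y))
      (init [decide ((run P (c₀ * Nat.clog 2 (n + 2)) (fun _ => 0)
        (bitsNat (Crest.Enc.natCode n ++ y)) T).output = [1])])
      (C * ((Crest.Enc.natCode n ++ y).length + T + 1) ^ a) := by
  obtain ⟨c, C, a, hc⟩ := ram_cmd
  refine ⟨a, fun P c₀ => ⟨.seq (pushAll 0 (pair (enc (dat P c₀)) [])) c,
    C * (sz (dat P c₀) + 1) ^ a + (pair (enc (dat P c₀)) []).length + 1, fun n y T hT => ?_⟩⟩
  set x := Crest.Enc.natCode n ++ y with hx
  have h1 := run_pushAll 0 (pair (enc (dat P c₀)) []) (init x)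
  have e1 : update (init x) 0 (pair (enc (dat P c₀)) [] ++ init x 0) =
      init (enc (dat P c₀, Bits.mk x)) := by
    have : enc ((dat P c₀, Bits.mk x) : Dat × Bits) = pair (enc (dat P c₀)) [] ++ x := by
      rw [enc_prod]
      show pair (enc (dat P c₀)) x = _
      unfold pair
      simp
    rw [this]
    funext j
    by_cases hj : j = 0
    · subst hj; simp
    · simp [Lib.PT.init, hj]
  rw [e1] at h1
  have h2 := h1.seq (hc P c₀ n y T hT)
  rw [← hx] at h2
  refine h2.mono ?_
  have h3 : sz (dat P c₀) + x.length + T + 1 ≤ (sz (dat P c₀) + 1) * (x.length + T + 1) := by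
    nlinarith [Nat.zero_le (sz (dat P c₀) * (x.length + T))]
  have h4 : C * (sz (dat P c₀) + x.length + T + 1) ^ a ≤
      C * ((sz (dat P c₀) + 1) ^ a * (x.length + T + 1) ^ a) := by
    rw [← mul_pow]
    exact Nat.mul_le_mul_left _ (Nat.pow_le_pow_left h3 _)
  have h5 : 1 ≤ (x.length + T + 1) ^ a := Nat.one_le_pow _ _ (by omega)
  have h6 : (C * (sz (dat P c₀) + 1) ^ a + (pair (enc (dat P c₀)) []).length + 1) *
      (x.length + T + 1) ^ a = C * ((sz (dat P c₀) + 1) ^ a * (x.length + T + 1) ^ a) +
      ((pair (enc (dat P c₀)) []).length + 1) * (x.length + T + 1) ^ a := by ring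
  have h7 : (pair (enc (dat P c₀)) []).length + 1 ≤
      ((pair (enc (dat P c₀)) []).length + 1) * (x.length + T + 1) ^ a :=
    Nat.le_mul_of_pos_right _ h5
  omega

end Crest.Agent.R290.RAM
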