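import Crest.Agent.Lib.PT.OfTM

/-!
# Linear-time compilation of `Turing.FinTM2` machines to `Cmd` programs

`exists_cmd_of_finTM2`: for every multi-stack machine `M` with Boolean input and output alphabets
there are a `Cmd` program `c` and a constant `C` such that whenever `M` outputs `y` on input `x`
within `T` steps, `c` leads from `init x` to `init y` within `C * (x.length + T + 1)` steps.
-/

set_option autoImplicit false
set_option linter.dupNamespace false

namespace Crest.Agent.R290

open Turing Function Crest.Agent.Lib.PT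

namespace TMFlat

/-! ### coded symbols on Boolean stacks -/

/-- unary self-delimiting code of a list of numbers -/
def cs : List ℕ → List Bool
  | [] => []
  | a :: l => List.replicate a true ++ false :: cs l

/-- push the coded symbol `a` on stack `k` -/
def pushT (k : ℕ) : ℕ → Cmd → Cmd
  | 0, c => c
  | a + 1, c => pushT k a (Cmd.seq (Cmd.push k true) c)

/-- push the coded symbol `a` on stack `k`, then continue with `c` -/
def pushSym (k a : ℕ) (c : Cmd) : Cmd := Cmd.seq (Cmd.push k false) (pushT k a c)

/-- reading the rest of a coded symbol; `i` trues have been popped -/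
def rd (k : ℕ) (cont : Option ℕ → Cmd) : ℕ → ℕ → Cmd
  | 0, _ => cont none
  | n + 1, i => Cmd.ite k (cont none) (Cmd.seq (Cmd.pop k) (rd k cont n (i + 1)))
      (Cmd.seq (Cmd.pop k) (cont (some i)))

theorem run_pushT (k : ℕ) : ∀ (a : ℕ) (c : Cmd) (s s' : Store) (n : ℕ),
    Run c (update s k (List.replicate a true ++ s k)) s' n → Run (pushT k a c) s s' (n + a)
  | 0, c, s, s', n, h => by simpa [pushT] using h
  | a + 1, c, s, s', n, h => by
    have h1 := run_pushT k a (Cmd.seq (Cmd.push k true) c) s s' (n + 1) (by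
      have h2 := (Exec.push k true (update s k (List.replicate a true ++ s k))).run
      refine ((h2.seq (s'' := s') (m := n) ?_)).mono (by omega)
      simpa [List.replicate_succ] using h)
    exact h1.mono (by omega)

theorem run_pushSym (k a : ℕ) (c : Cmd) (s s' : Store) (n : ℕ) (l : List ℕ) (hs : s k = cs l)
    (h : Run c (update s k (cs (a :: l))) s' n) : Run (pushSym k a c) s s' (n + a + 1) := by
  have h1 := (Exec.push k false s).run
  refine (h1.seq (run_pushT k a c _ s' n ?_)).mono (by omega)
  simpa [cs, hs] using h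

theorem run_rd (k : ℕ) (cont : Option ℕ → Cmd) (l : List ℕ) (s' : Store) (m : ℕ) :
    ∀ (a n i : ℕ) (s : Store), a < n → s k = cs (a :: l) →
    Run (cont (some (i + a))) (update s k (cs l)) s' m →
    Run (rd k cont n i) s s' (m + 2 * (a + 1))
  | 0, 0, i, s, hn, hs, h => by omega
  | 0, n + 1, i, s, hn, hs, h => by
    have h1 := (Exec.pop k s).run
    have h2 : (s k).tail = cs l := by simp [hs, cs]
    rw [h2] at h1
    have h3 := h1.seq (d := cont (some i)) (s'' := s') (m := m) (by simpa using h)
    refine (Run.ite_false (l := cs l) ?_ h3).mono (by omega)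
    simp [hs, cs]
  | a + 1, 0, i, s, hn, hs, h => by omega
  | a + 1, n + 1, i, s, hn, hs, h => by
    have h1 := (Exec.pop k s).run
    have h2 : (s k).tail = cs (a :: l) := by simp [hs, cs, List.replicate_succ]
    rw [h2] at h1
    have h3 := run_rd k cont l s' m a n (i + 1) (update s k (cs (a :: l))) (by omega) (by simp)
      (by
        rw [update_idem]
        have : i + 1 + a = i + (a + 1) := by omega
        rw [this]
        exact h)
    refine (Run.ite_true (l := cs (a :: l)) ?_ (h1.seq h3)).mono (by omega)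
    simp [hs, cs, List.replicate_succ]

theorem run_rd_nil (k : ℕ) (cont : Option ℕ → Cmd) (n i : ℕ) (s s' : Store) (m : ℕ)
    (hs : s k = []) (h : Run (cont none) s s' m) : Run (rd k cont n i) s s' (m + 1) := by
  cases n with
  | zero => exact h.mono (by omega)
  | succ n => exact (Run.ite_nil hs h).mono (by omega)

/-! ### loops consuming a list -/

theorem run_loop_list {α β : Type} (k : ℕ) (c : Cmd) (st : List α → List β → Store) (g : α → β)
    (C : ℕ) (hnil : ∀ acc, st [] acc k = []) (hcons : ∀ a l acc, st (a :: l) acc k ≠ [])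
    (h : ∀ a l acc, Run c (st (a :: l) acc) (st l (g a :: acc)) C) :
    ∀ (l : List α) (acc : List β),
      Run (Cmd.loop k c) (st l acc) (st [] ((l.map g).reverse ++ acc)) ((C + 1) * l.length + 1)
  | [], acc => by simpa using Run.loop_nil (c := c) (hnil acc)
  | a :: l, acc => by
    have h1 := run_loop_list k c st g C hnil hcons h l (g a :: acc)
    have h2 := Run.loop_cons (hcons a l acc) (h a l acc) h1
    refine h2.of_eq (by simp) ?_
    simp only [List.length_cons]
    ring_nf
    omega

/-- a store with two named stacks -/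
def st2 (i : ℕ) (a : List Bool) (j : ℕ) (b : List Bool) : Store :=
  fun n => if n = i then a else if n = j then b else []

/-! ### statements -/

section stmt

variable {K : Type} {Γ : K → Type} {Λ σ : Type}
variable (pos : K → ℕ) (sc : ∀ k, Γ k → ℕ) (sd : ∀ k, ℕ → Option (Γ k)) (N : ℕ)
  (stc : Λ × σ → ℕ)

/-- the program of a statement in the state `v`; the next label and state are pushed on stack `0` -/
def comp : TM2.Stmt Γ Λ σ → σ → Cmd
  | .push k f q, v => pushSym (pos k) (sc k (f v)) (comp q v)
  | .peek k f q, v => rd (pos k) (fun o =>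
      match o with
      | none => comp q (f v none)
      | some i => pushSym (pos k) i (comp q (f v (sd k i)))) N 0
  | .pop k f q, v => rd (pos k) (fun o => comp q (f v (o.bind (sd k)))) N 0
  | .load a q, v => comp q (a v)
  | .branch p q₁ q₂, v => bif p v then comp q₁ v else comp q₂ v
  | .goto l, v => pushSym 0 (stc (l v, v)) Cmd.skip
  | .halt, _ => Cmd.skip

/-- every pushed symbol is correctly coded by a small number -/
def Good : TM2.Stmt Γ Λ σ → Prop
  | .push k f q => (∀ v, sd k (sc k (f v)) = some (f v) ∧ sc k (f v) < N) ∧ Good q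
  | .peek _ _ q => Good q
  | .pop _ _ q => Good q
  | .load _ q => Good q
  | .branch _ q₁ q₂ => Good q₁ ∧ Good q₂
  | .goto _ => True
  | .halt => True

/-- number of stack operations of a statement -/
def depth : TM2.Stmt Γ Λ σ → ℕ
  | .push _ _ q => depth q + 1
  | .peek _ _ q => depth q + 1
  | .pop _ _ q => depth q + 1
  | .load _ q => depth q
  | .branch _ q₁ q₂ => max (depth q₁) (depth q₂)
  | .goto _ => 1
  | .halt => 1

/-- the store `s` represents the stacks `S`; stack `0` is coded by `w` -/
structure Rel (s : Store) (S : ∀ k, List (Γ k)) (w : List ℕ) : Prop where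
  eq : ∀ k, ∃ T : List ℕ, s (pos k) = cs T ∧ T.map (sd k) = (S k).map some ∧ ∀ i ∈ T, i < N
  zero : s 0 = cs w
  other : ∀ j, j ≠ 0 → (∀ k, pos k ≠ j) → s j = []

variable {pos sc sd N stc}

theorem Rel.update [DecidableEq K] {s : Store} {S : ∀ k, List (Γ k)} {w : List ℕ}
    (h : Rel pos sd N s S w)
    (hpos : Injective pos) (h0 : ∀ k, pos k ≠ 0) (k : K) (T : List ℕ) (l : List (Γ k))
    (hT : T.map (sd k) = l.map some) (hN : ∀ i ∈ T, i < N) :
    Rel pos sd N (update s (pos k) (cs T)) (update S k l) w := by
  refine ⟨fun j => ?_, ?_, fun j hj0 hj => ?_⟩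
  · by_cases hj : j = k
    · subst hj
      exact ⟨T, by simp, by simpa using hT, hN⟩
    · have : pos j ≠ pos k := fun e => hj (hpos e)
      rw [update_of_ne this, update_of_ne hj]
      exact h.eq j
  · rw [update_of_ne (h0 k).symm]
    exact h.zero
  · rw [update_of_ne (hj k).symm]
    exact h.other j hj0 hj

theorem Rel.update0 {s : Store} {S : ∀ k, List (Γ k)} {w : List ℕ}
    (h : Rel pos sd N s S w) (h0 : ∀ k, pos k ≠ 0) (w' : List ℕ) :
    Rel pos sd N (Function.update s 0 (cs w')) S w' := by
  refine ⟨fun j => ?_, by simp, fun j hj0 hj => ?_⟩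
  · rw [update_of_ne (h0 j)]
    exact h.eq j
  · rw [update_of_ne hj0]
    exact h.other j hj0 hj

/-- the state stack after a step -/
def nxt (stc : Λ × σ → ℕ) (c : TM2.Cfg Γ Λ σ) : List ℕ :=
  match c.l with
  | none => []
  | some l => [stc (l, c.var)]

theorem run_comp [DecidableEq K] (hpos : Injective pos) (h0 : ∀ k, pos k ≠ 0) (B : ℕ)
    (hB : ∀ a, stc a ≤ B) (hNB : 3 * N + 3 ≤ B)
    (q : TM2.Stmt Γ Λ σ) (hq : Good sc sd N q) (v : σ) {S : ∀ k, List (Γ k)} {s : Store}
    (h : Rel pos sd N s S []) :
    ∃ s', Run (comp pos sc sd N stc q v) s s' ((B + 2) * depth q) ∧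
      Rel pos sd N s' (TM2.stepAux q v S).stk (nxt stc (TM2.stepAux q v S)) := by
  induction q generalizing v S s with
  | push k f q ih =>
    obtain ⟨T, hT, hT2, hT3⟩ := h.eq k
    obtain ⟨h1, h2⟩ := hq.1 v
    obtain ⟨s', hr, hs'⟩ := ih hq.2 v (h.update hpos h0 k (sc k (f v) :: T) (f v :: S k)
      (by simp [h1, hT2]) (by
        intro i hi
        rcases List.mem_cons.1 hi with rfl | hi
        · exact h2
        · exact hT3 i hi))
    refine ⟨s', (run_pushSym (pos k) (sc k (f v)) _ s s' _ T hT hr).mono ?_, by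
      simpa [TM2.stepAux] using hs'⟩
    simp only [depth]
    have : (B + 2) * (depth q + 1) = (B + 2) * depth q + (B + 2) := by ring
    omega
  | peek k f q ih =>
    obtain ⟨T, hT, hT2, hT3⟩ := h.eq k
    cases hTc : T with
    | nil =>
      subst hTc
      have hS : S k = [] := by simpa using hT2
      obtain ⟨s', hr, hs'⟩ := ih hq (f v none) h
      refine ⟨s', (run_rd_nil (pos k) _ N 0 s s' _ (by simpa [cs] using hT) hr).mono ?_, by
        simpa [TM2.stepAux, hS] using hs'⟩
      simp only [depth]
      have : (B + 2) * (depth q + 1) = (B + 2) * depth q + (B + 2) := by ring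
      omega
    | cons a T' =>
      subst hTc
      obtain ⟨g, l, hS⟩ : ∃ g l, S k = g :: l := by
        cases hS : S k with
        | nil => simp [hS] at hT2
        | cons g l => exact ⟨g, l, rfl⟩
      have ha : sd k a = some g := by
        simp [hS] at hT2; exact hT2.1
      have haN : a < N := hT3 a (by simp)
      obtain ⟨s', hr, hs'⟩ := ih hq (f v (some g)) h
      have h1 := run_pushSym (pos k) a (comp pos sc sd N stc q (f v (sd k a)))
        (Function.update s (pos k) (cs T')) s' ((B + 2) * depth q) T' (by simp) (by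
          rw [update_idem, ← hT, update_eq_self, ha]
          exact hr)
      have h2 := run_rd (pos k) (fun o =>
        match o with
        | none => comp pos sc sd N stc q (f v none)
        | some i => pushSym (pos k) i (comp pos sc sd N stc q (f v (sd k i)))) T' s' _ a N 0 s haN hT
        (by simpa using h1)
      refine ⟨s', h2.mono ?_, by simpa [TM2.stepAux, hS] using hs'⟩
      simp only [depth]
      have : (B + 2) * (depth q + 1) = (B + 2) * depth q + (B + 2) := by ring
      omega
  | pop k f q ih =>
    obtain ⟨T, hT, hT2, hT3⟩ := h.eq k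
    cases hTc : T with
    | nil =>
      subst hTc
      have hS : S k = [] := by simpa using hT2
      obtain ⟨s', hr, hs'⟩ := ih hq (f v none) h
      have hu : Function.update S k [] = S := by rw [← hS, update_eq_self]
      refine ⟨s', (run_rd_nil (pos k) _ N 0 s s' _ (by simpa [cs] using hT) hr).mono ?_, by
        simpa [TM2.stepAux, hS, hu] using hs'⟩
      simp only [depth]
      have : (B + 2) * (depth q + 1) = (B + 2) * depth q + (B + 2) := by ring
      omega
    | cons a T' =>
      subst hTc
      obtain ⟨g, l, hS⟩ : ∃ g l, S k = g :: l := by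
        cases hS : S k with
        | nil => simp [hS] at hT2
        | cons g l => exact ⟨g, l, rfl⟩
      have ha : sd k a = some g := by
        simp [hS] at hT2; exact hT2.1
      have haN : a < N := hT3 a (by simp)
      obtain ⟨s', hr, hs'⟩ := ih hq (f v (some g)) (h.update hpos h0 k T' l
        (by simp [hS] at hT2; exact hT2.2) (fun i hi => hT3 i (by simp [hi])))
      have h2 := run_rd (pos k) (fun o => comp pos sc sd N stc q (f v (o.bind (sd k)))) T' s'
        ((B + 2) * depth q) a N 0 s haN hT (by simpa [ha] using hr)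
      refine ⟨s', h2.mono ?_, by simpa [TM2.stepAux, hS] using hs'⟩
      simp only [depth]
      have : (B + 2) * (depth q + 1) = (B + 2) * depth q + (B + 2) := by ring
      omega
  | load a q ih =>
    exact ih hq (a v) h
  | branch p q₁ q₂ ih₁ ih₂ =>
    simp only [comp, TM2.stepAux, depth]
    cases p v
    · obtain ⟨s', hr, hs'⟩ := ih₂ hq.2 v h
      exact ⟨s', hr.mono (Nat.mul_le_mul_left _ (le_max_right _ _)), hs'⟩
    · obtain ⟨s', hr, hs'⟩ := ih₁ hq.1 v h
      exact ⟨s', hr.mono (Nat.mul_le_mul_left _ (le_max_left _ _)), hs'⟩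
  | goto l =>
    refine ⟨_, (run_pushSym 0 (stc (l v, v)) _ s _ 1 [] h.zero ((Exec.skip _).run)).mono ?_,
      h.update0 h0 _⟩
    have := hB (l v, v)
    simp only [depth]
    omega
  | halt =>
    exact ⟨s, ((Exec.skip s).run).mono (by simp only [depth]; omega), h⟩

variable (pos sc sd N stc)

/-- the main loop -/
def mainLoop (std : ℕ → Option (Λ × σ)) (Nst : ℕ) (m : Λ → TM2.Stmt Γ Λ σ) : Cmd :=
  Cmd.loop 0 (rd 0 (fun o =>
    match o.bind std with
    | none => Cmd.skip
    | some p => comp pos sc sd N stc (m p.1) p.2) Nst 0)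

variable {pos sc sd N stc}

theorem iterate_none (m : Λ → TM2.Stmt Γ Λ σ) [DecidableEq K] (n : ℕ) :
    (flip bind (TM2.step m))^[n] none = none := by
  induction n with
  | zero => rfl
  | succ n ih => rw [iterate_succ_apply']; rw [ih]; rfl

theorem run_mainLoop [DecidableEq K] (hpos : Injective pos) (h0 : ∀ k, pos k ≠ 0)
    (std : ℕ → Option (Λ × σ)) (Nst : ℕ) (m : Λ → TM2.Stmt Γ Λ σ)
    (hst : ∀ a, std (stc a) = some a ∧ stc a < Nst) (hq : ∀ l, Good sc sd N (m l))
    (B D : ℕ) (hB : ∀ a, stc a ≤ B) (hNB : 3 * N + 3 ≤ B) (hD : ∀ l, depth (m l) ≤ D) :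
    ∀ (n : ℕ) (c c' : TM2.Cfg Γ Λ σ) (s : Store), Rel pos sd N s c.stk (nxt stc c) →
      (flip bind (TM2.step m))^[n] (some c) = some c' → c'.l = none →
      ∃ s', Run (mainLoop pos sc sd N stc std Nst m) s s' ((2 * B + 3 + (B + 2) * D) * n + 1) ∧
        Rel pos sd N s' c'.stk []
  | 0, c, c', s, h, hit, hl => by
    have hc : c = c' := by simpa using hit
    subst hc
    have h1 : nxt stc c = [] := by simp [nxt, hl]
    rw [h1] at h
    exact ⟨s, (Run.loop_nil (by simpa [cs] using h.zero)).mono (by omega), h⟩
  | n + 1, c, c', s, h, hit, hl => by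
    rw [iterate_succ_apply] at hit
    obtain ⟨cl, v, S⟩ := c
    cases cl with
    | none =>
      have : (flip bind (TM2.step m)) (some (⟨none, v, S⟩ : TM2.Cfg Γ Λ σ)) = none := rfl
      rw [this, iterate_none] at hit
      simp at hit
    | some l =>
      have h2 : (flip bind (TM2.step m)) (some (⟨some l, v, S⟩ : TM2.Cfg Γ Λ σ)) =
        some (TM2.stepAux (m l) v S) := rfl
      rw [h2] at hit
      have h3 : nxt stc (⟨some l, v, S⟩ : TM2.Cfg Γ Λ σ) = [stc (l, v)] := rfl
      rw [h3] at h
      have h4 := h.update0 h0 []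
      obtain ⟨s1, hr1, hs1⟩ := run_comp hpos h0 B hB hNB (m l) (hq l) v h4
      obtain ⟨s2, hr2, hs2⟩ := run_mainLoop hpos h0 std Nst m hst hq B D hB hNB hD n _ c' s1 hs1 hit hl
      refine ⟨s2, ?_, hs2⟩
      have h5 := run_rd 0 (fun o =>
        match o.bind std with
        | none => Cmd.skip
        | some p => comp pos sc sd N stc (m p.1) p.2) [] s1 ((B + 2) * depth (m l)) (stc (l, v)) Nst 0 s
        (hst _).2 h.zero (by
          simp only [zero_add, Option.bind_some, (hst _).1]
          exact hr1)
      have h6 : s 0 ≠ [] := by rw [h.zero]; simp [cs]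
      have h7 := Run.loop_cons h6 h5 hr2
      refine Run.mono h7 ?_
      have h8 := hB (l, v)
      have h9 : (B + 2) * depth (m l) ≤ (B + 2) * D := Nat.mul_le_mul_left _ (hD l)
      have h10 : (2 * B + 3 + (B + 2) * D) * (n + 1) = (2 * B + 3 + (B + 2) * D) * n +
        (2 * B + 3 + (B + 2) * D) := by ring
      omega

end stmt

/-! ### input and output conversion -/

/-- move a Boolean stack `i` (reversing it) to the stack `j` -/
def rmv (i j : ℕ) : Cmd :=
  Cmd.loop i (Cmd.ite i Cmd.skip (Cmd.seq (Cmd.pop i) (Cmd.push j true))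
    (Cmd.seq (Cmd.pop i) (Cmd.push j false)))

theorem st2_update_left {i j : ℕ} (h : i ≠ j) (a b a' : List Bool) :
    update (st2 i a j b) i a' = st2 i a' j b := by
  funext n
  by_cases hn : n = i
  · subst hn; simp [st2]
  · rw [update_of_ne hn]; simp [st2, hn]

theorem st2_update_right {i j : ℕ} (h : i ≠ j) (a b b' : List Bool) :
    update (st2 i a j b) j b' = st2 i a j b' := by
  funext n
  by_cases hn : n = j
  · subst hn; simp [st2, h.symm]
  · rw [update_of_ne hn]; simp [st2, hn]

theorem st2_left (i j : ℕ) (a b : List Bool) : st2 i a j b i = a := by simp [st2]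

theorem st2_right {i j : ℕ} (h : i ≠ j) (a b : List Bool) : st2 i a j b j = b := by
  simp [st2, h.symm]

theorem run_rmv {i j : ℕ} (h : i ≠ j) (x acc : List Bool) :
    Run (rmv i j) (st2 i x j acc) (st2 i [] j (x.reverse ++ acc)) (4 * x.length + 1) := by
  have := run_loop_list (α := Bool) (β := Bool) i (Cmd.ite i Cmd.skip
    (Cmd.seq (Cmd.pop i) (Cmd.push j true)) (Cmd.seq (Cmd.pop i) (Cmd.push j false)))
    (fun l acc => st2 i l j acc) (fun b => b) 3 (fun acc => st2_left i j _ _)
    (fun a l acc => by rw [st2_left]; simp) (fun a l acc => by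
      have h1 := (Exec.pop i (st2 i (a :: l) j acc)).run
      rw [st2_left, st2_update_left h, List.tail_cons] at h1
      have h2 := (Exec.push j a (st2 i l j acc)).run
      rw [st2_right h, st2_update_right h] at h2
      cases a
      · exact (Run.ite_false (st2_left i j _ _) (h1.seq h2)).mono (by omega)
      · exact (Run.ite_true (st2_left i j _ _) (h1.seq h2)).mono (by omega)) x acc
  simpa [rmv] using this

/-- read raw bits from `i` (reversing) and push coded symbols on `j` -/
def mvIn (i j : ℕ) (g : Bool → ℕ) : Cmd :=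
  Cmd.loop i (Cmd.ite i Cmd.skip (Cmd.seq (Cmd.pop i) (pushSym j (g true) Cmd.skip))
    (Cmd.seq (Cmd.pop i) (pushSym j (g false) Cmd.skip)))

theorem run_mvIn {i j : ℕ} (h : i ≠ j) (g : Bool → ℕ) (x : List Bool) (acc : List ℕ) :
    Run (mvIn i j g) (st2 i x j (cs acc)) (st2 i [] j (cs ((x.map g).reverse ++ acc)))
      ((g true + g false + 5) * x.length + 1) := by
  have := run_loop_list (α := Bool) (β := ℕ) i (Cmd.ite i Cmd.skip
    (Cmd.seq (Cmd.pop i) (pushSym j (g true) Cmd.skip))
    (Cmd.seq (Cmd.pop i) (pushSym j (g false) Cmd.skip)))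
    (fun l acc => st2 i l j (cs acc)) g (g true + g false + 4) (fun acc => st2_left i j _ _)
    (fun a l acc => by rw [st2_left]; simp) (fun a l acc => by
      have h1 := (Exec.pop i (st2 i (a :: l) j (cs acc))).run
      rw [st2_left, st2_update_left h, List.tail_cons] at h1
      have h2 := run_pushSym j (g a) Cmd.skip (st2 i l j (cs acc)) (st2 i l j (cs (g a :: acc))) 1 acc
        (st2_right h _ _) (by
          rw [st2_update_right h]
          exact (Exec.skip _).run)
      cases a
      · exact (Run.ite_false (st2_left i j _ _) (h1.seq h2)).mono (by omega)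
      · exact (Run.ite_true (st2_left i j _ _) (h1.seq h2)).mono (by omega)) x acc
  exact this

/-- read coded symbols from `i` (reversing) and push raw bits on `j` -/
def mvOut (i j N : ℕ) (g : ℕ → Bool) : Cmd :=
  Cmd.loop i (rd i (fun o =>
    match o with
    | none => Cmd.skip
    | some a => Cmd.push j (g a)) N 0)

theorem run_mvOut {i j : ℕ} (h : i ≠ j) (N : ℕ) (g : ℕ → Bool) (x : List ℕ) (acc : List Bool)
    (hx : ∀ a ∈ x, a < N) :
    Run (mvOut i j N g) (st2 i (cs x) j acc) (st2 i [] j ((x.map g).reverse ++ acc))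
      ((2 * N + 4) * x.length + 1) := by
  have h1 := run_loop_list (α := {a : ℕ // a < N}) (β := Bool) i (rd i (fun o =>
    match o with
    | none => Cmd.skip
    | some a => Cmd.push j (g a)) N 0)
    (fun l acc => st2 i (cs (l.map Subtype.val)) j acc) (fun a => g a.1) (2 * N + 3)
    (fun acc => by rw [st2_left]; rfl)
    (fun a l acc => by rw [st2_left]; simp [cs]) (fun a l acc => by
      have h2 := (Exec.push j (g a.1) (st2 i (cs (l.map Subtype.val)) j acc)).run
      rw [st2_right h, st2_update_right h] at h2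
      have h3 := run_rd i (fun o =>
        match o with
        | none => Cmd.skip
        | some a => Cmd.push j (g a)) (l.map Subtype.val)
        (st2 i (cs (l.map Subtype.val)) j (g a.1 :: acc)) 1 a.1 N 0
        (st2 i (cs ((a :: l).map Subtype.val)) j acc) a.2 (by rw [st2_left]; rfl) (by
          rw [st2_update_left h]
          simpa using h2)
      refine h3.mono ?_
      have := a.2
      omega) (x.pmap Subtype.mk hx) acc
  simp only [List.map_pmap, List.length_pmap, List.map_nil] at h1
  simpa [mvOut, cs, add_assoc] using h1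

theorem length_le_cs (l : List ℕ) : l.length ≤ (cs l).length := by
  induction l with
  | nil => simp
  | cons a l ih => simp [cs]; omega

theorem init_eq_st2 (x : List Bool) (j : ℕ) : init x = st2 0 x j [] := by
  funext n
  cases n with
  | zero => simp [init, st2]
  | succ n => simp [init, st2]

theorem st2_swap {i j : ℕ} (h : i ≠ j) (a b : List Bool) : st2 i a j b = st2 j b i a := by
  funext n
  by_cases h1 : n = i
  · subst h1; simp [st2, h]
  · by_cases h2 : n = j
    · subst h2; simp [st2, h1]
    · simp [st2, h1, h2]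

theorem st2_nil {i j i' : ℕ} (h : i ≠ j) (h' : i' ≠ j) (b : List Bool) :
    st2 i [] j b = st2 i' [] j b := by
  funext n
  by_cases h1 : n = j
  · subst h1; simp [st2, h.symm, h'.symm]
  · simp [st2, h1]

theorem good_of_pushed {K : Type} {Γ : K → Type} {Λ σ : Type} {F : Set (Σ k, Γ k)} {n : ℕ}
    (sc : ∀ k, Γ k → ℕ) (sd : ∀ k, ℕ → Option (Γ k))
    (h : ∀ k g, (⟨k, g⟩ : Σ k, Γ k) ∈ F → sd k (sc k g) = some g ∧ sc k g < n)
    (q : TM2.Stmt Γ Λ σ) (hq : OfTM.pushed q ⊆ F) : Good sc sd n q := by
  induction q with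
  | push k f q ih =>
    exact ⟨fun v => h _ _ (hq (Or.inl ⟨v, rfl⟩)), ih (fun x hx => hq (Or.inr hx))⟩
  | peek k f q ih => exact ih hq
  | pop k f q ih => exact ih hq
  | load a q ih => exact ih hq
  | branch p q₁ q₂ ih₁ ih₂ =>
    exact ⟨ih₁ (fun x hx => hq (Or.inl hx)), ih₂ (fun x hx => hq (Or.inr hx))⟩
  | goto l => exact trivial
  | halt => exact trivial

end TMFlat

open TMFlat in
/-- Every multi-stack machine with Boolean input and output is simulated by a `Cmd` program in
linear time. -/
theorem exists_cmd_of_finTM2 (M : FinTM2) (inA : M.Γ M.k₀ ≃ Bool) (outA : M.Γ M.k₁ ≃ Bool) :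
    ∃ (c : Cmd) (C : ℕ), ∀ (x y : List Bool) (T : ℕ),
      Nonempty (TM2OutputsInTime M (x.map inA.symm) (some (y.map outA.symm)) T) →
      Run c (init x) (init y) (C * (x.length + T + 1)) := by
  classical
  let _ := M.kFin
  let _ := M.ΛFin
  let _ := M.σFin
  let _ := M.Γk₀Fin
  let F : Set (Σ k, M.Γ k) := (⋃ l, OfTM.pushed (M.m l)) ∪
    Set.range (fun g : M.Γ M.k₀ => ⟨M.k₀, g⟩)
  have hF : F.Finite := (Set.finite_iUnion (fun l => OfTM.finite_pushed (M.m l))).union
    (Set.finite_range _)
  have : Finite F := hF.to_subtype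
  let N := Nat.card (Option F)
  let e : Option F ≃ Fin N := Finite.equivFin (Option F)
  let sc : ∀ k, M.Γ k → ℕ := fun k g => (e (OfTM.sym F k g) : ℕ)
  let sd : ∀ k, ℕ → Option (M.Γ k) := fun k i =>
    if h : i < N then OfTM.unsym F k (e.symm ⟨i, h⟩) else none
  have hsc : ∀ k g, sc k g < N := fun k g => (e _).2
  have hsd : ∀ k g, (⟨k, g⟩ : Σ k, M.Γ k) ∈ F → sd k (sc k g) = some g := by
    intro k g hg
    have h1 := hsc k g
    simp only [sd, h1, dif_pos]
    simp only [sc, Fin.eta, Equiv.symm_apply_apply]
    exact OfTM.unsym_sym hg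
  have hgood : ∀ l, Good sc sd N (M.m l) := fun l =>
    good_of_pushed sc sd (fun k g hg => ⟨hsd k g hg, hsc k g⟩) _
      (fun x hx => Or.inl (Set.mem_iUnion.2 ⟨l, hx⟩))
  let Nst := Nat.card (M.Λ × M.σ)
  let est : M.Λ × M.σ ≃ Fin Nst := Finite.equivFin (M.Λ × M.σ)
  let stc : M.Λ × M.σ → ℕ := fun a => (est a : ℕ)
  let std : ℕ → Option (M.Λ × M.σ) := fun i => if h : i < Nst then some (est.symm ⟨i, h⟩) else none
  have hst : ∀ a, std (stc a) = some a ∧ stc a < Nst := by
    intro a
    have h1 : stc a < Nst := (est a).2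
    refine ⟨?_, h1⟩
    simp only [std, h1, dif_pos]
    simp only [stc, Fin.eta, Equiv.symm_apply_apply]
  let n := Nat.card M.K
  let pos : M.K → ℕ := fun k => (Finite.equivFin M.K k : ℕ) + 1
  have hpos : Injective pos := fun a b hab =>
    (Finite.equivFin M.K).injective (Fin.ext (Nat.succ_injective hab))
  have hlt : ∀ k, pos k < n + 1 := fun k => Nat.succ_lt_succ (Finite.equivFin M.K k).2
  have h0 : ∀ k, pos k ≠ 0 := fun k => Nat.succ_ne_zero _
  let B := 3 * N + 3 + Nst
  obtain ⟨D, hD⟩ : ∃ D, ∀ l, depth (M.m l) ≤ D :=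
    ⟨∑ l, depth (M.m l), fun l => Finset.single_le_sum (f := fun l => depth (M.m l))
      (fun _ _ => Nat.zero_le _) (Finset.mem_univ l)⟩
  have hB : ∀ a, stc a ≤ B := fun a => by have := (hst a).2; omega
  let g : Bool → ℕ := fun b => sc M.k₀ (inA.symm b)
  let hh : ℕ → Bool := fun a => ((sd M.k₁ a).map outA).getD false
  let tmp := n + 1
  have htmp : ∀ k, pos k ≠ tmp := fun k => (hlt k).ne
  let c1 : Cmd := rmv 0 tmp
  let c2 : Cmd := mvIn tmp (pos M.k₀) g
  let c3 : Cmd := pushSym 0 (stc (M.main, M.initialState)) Cmd.skip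
  let c4 : Cmd := mainLoop pos sc sd N stc std Nst M.m
  let c5 : Cmd := mvOut (pos M.k₁) tmp N hh
  let c6 : Cmd := rmv tmp 0
  let E := 2 * B + 3 + (B + 2) * D
  let C1 := 4 + (g true + g false + 5) + B + E + 5
  refine ⟨Cmd.seq (Cmd.seq (Cmd.seq (Cmd.seq c1 c2) c3) c4) (Cmd.seq c5 c6),
    C1 + (2 * N + 4) * C1 + 4 * C1 + 2, ?_⟩
  rintro x y T ⟨⟨⟨steps, hsteps⟩, hle⟩⟩
  simp only at hle
  -- stage 1
  have r1 : Run c1 (init x) (st2 0 [] tmp x.reverse) (4 * x.length + 1) := by
    have := run_rmv (i := 0) (j := tmp) (Nat.succ_ne_zero n).symm x []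
    rw [List.append_nil, ← init_eq_st2] at this
    exact this
  -- stage 2
  have r2 : Run c2 (st2 0 [] tmp x.reverse) (st2 tmp [] (pos M.k₀) (cs (x.map g)))
      ((g true + g false + 5) * x.length + 1) := by
    have := run_mvIn (i := tmp) (j := pos M.k₀) (htmp _).symm g x.reverse []
    rw [List.append_nil, List.map_reverse, List.reverse_reverse, List.length_reverse] at this
    have h1 : st2 0 [] tmp x.reverse = st2 tmp x.reverse (pos M.k₀) (cs []) := by
      rw [st2_swap (htmp M.k₀).symm]
      exact st2_nil (Nat.succ_ne_zero n).symm (htmp M.k₀) _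
    rw [h1]
    exact this
  -- stage 3
  have hemp : Rel pos sd N (fun _ => []) (fun k => ([] : List (M.Γ k))) [] :=
    ⟨fun k => ⟨[], rfl, rfl, by simp⟩, rfl, fun _ _ _ => rfl⟩
  have hrel0 : Rel pos sd N (st2 tmp [] (pos M.k₀) (cs (x.map g)))
      (initList M (x.map inA.symm)).stk [] := by
    have h1 := hemp.update hpos h0 M.k₀ (x.map g) (x.map inA.symm) (by
      rw [List.map_map, List.map_map]
      apply List.map_congr_left
      intro b _
      exact hsd _ _ (Or.inr ⟨_, rfl⟩)) (by
      intro i hi
      obtain ⟨b, _, rfl⟩ := List.mem_map.1 hi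
      exact hsc _ _)
    have e1 : (initList M (x.map inA.symm)).stk =
        update (fun k => ([] : List (M.Γ k))) M.k₀ (x.map inA.symm) := by
      funext k
      by_cases hk : k = M.k₀
      · subst hk
        simp [initList]
      · rw [update_of_ne hk]
        simp [initList, hk]
    have e2 : st2 tmp [] (pos M.k₀) (cs (x.map g)) =
        update (fun _ => ([] : List Bool)) (pos M.k₀) (cs (x.map g)) := by
      funext j
      by_cases hj : j = pos M.k₀
      · subst hj
        rw [update_self, st2_right (htmp _).symm]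
      · rw [update_of_ne hj]
        simp [st2, hj]
    rw [e1, e2]
    exact h1
  have r3 : Run c3 (st2 tmp [] (pos M.k₀) (cs (x.map g)))
      (update (st2 tmp [] (pos M.k₀) (cs (x.map g))) 0 (cs [stc (M.main, M.initialState)]))
      (1 + stc (M.main, M.initialState) + 1) :=
    run_pushSym 0 _ Cmd.skip _ _ 1 [] hrel0.zero (Exec.skip _).run
  -- stage 4
  have hrel3 : Rel pos sd N
      (update (st2 tmp [] (pos M.k₀) (cs (x.map g))) 0 (cs [stc (M.main, M.initialState)]))
      (initList M (x.map inA.symm)).stk (nxt stc (initList M (x.map inA.symm))) :=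
    hrel0.update0 h0 _
  obtain ⟨s4, r4', hrel4⟩ := run_mainLoop hpos h0 std Nst M.m hst hgood B D hB (by omega) hD steps
    (initList M (x.map inA.symm)) (haltList M (y.map outA.symm)) _ hrel3 hsteps rfl
  have r4 : Run c4 _ s4 (E * steps + 1) := r4'
  have r14 := ((r1.seq r2).seq r3).seq r4
  -- the final store
  obtain ⟨Ty, hTy, hTy2, hTy3⟩ := hrel4.eq M.k₁
  have hs4 : s4 = st2 (pos M.k₁) (cs Ty) tmp [] := by
    funext j
    by_cases hj : j = pos M.k₁
    · subst hj
      rw [st2_left]
      exact hTy
    · have h1 : st2 (pos M.k₁) (cs Ty) tmp [] j = [] := by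
        simp [st2, hj]
      rw [h1]
      by_cases hj0 : j = 0
      · subst hj0
        exact hrel4.zero
      · by_cases hk : ∃ k, pos k = j
        · obtain ⟨k, rfl⟩ := hk
          obtain ⟨T', hT', hT2, _⟩ := hrel4.eq k
          have hk1 : k ≠ M.k₁ := fun e => hj (by rw [e])
          have : (haltList M (y.map outA.symm)).stk k = [] := by
            simp [haltList, hk1]
          rw [this] at hT2
          have : T' = [] := by simpa using hT2
          rw [hT', this]
          rfl
        · push Not at hk
          exact hrel4.other j hj0 hk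
  have hmap : Ty.map hh = y := by
    have h1 : (haltList M (y.map outA.symm)).stk M.k₁ = y.map outA.symm := by
      simp [haltList]
    rw [h1] at hTy2
    have h2 : Ty.map hh = (Ty.map (sd M.k₁)).map (fun o => (o.map outA).getD false) := by
      rw [List.map_map]
      rfl
    rw [h2, hTy2, List.map_map, List.map_map]
    conv_rhs => rw [← List.map_id y]
    apply List.map_congr_left
    intro b _
    simp
  have hlen : y.length ≤ 4 * x.length + 1 + ((g true + g false + 5) * x.length + 1) +
      (1 + stc (M.main, M.initialState) + 1) + (E * steps + 1) := by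
    obtain ⟨t, ht, hx⟩ := r14
    have h1 := hx.length_le (pos M.k₁)
    have h2 : init x (pos M.k₁) = [] := by simp [init, h0 M.k₁]
    rw [h2, hTy] at h1
    have h3 := length_le_cs Ty
    have h4 : Ty.length = y.length := by rw [← hmap, List.length_map]
    simp only [List.length_nil] at h1
    omega
  have r5 : Run c5 s4 (st2 (pos M.k₁) [] tmp y.reverse) ((2 * N + 4) * y.length + 1) := by
    have := run_mvOut (i := pos M.k₁) (j := tmp) (htmp _) N hh Ty [] hTy3
    rw [List.append_nil, hmap] at this
    have h4 : Ty.length = y.length := by rw [← hmap, List.length_map]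
    rw [hs4, ← h4]
    exact this
  have r6 : Run c6 (st2 (pos M.k₁) [] tmp y.reverse) (init y) (4 * y.length + 1) := by
    have := run_rmv (i := tmp) (j := 0) (Nat.succ_ne_zero n) y.reverse []
    rw [List.append_nil, List.reverse_reverse, List.length_reverse,
      st2_swap (Nat.succ_ne_zero n) [] y, ← init_eq_st2, st2_swap (Nat.succ_ne_zero n)] at this
    rw [st2_nil (htmp M.k₁) (Nat.succ_ne_zero n).symm]
    exact this
  have hstc := hB (M.main, M.initialState)
  have hb1 : 4 * x.length + 1 + ((g true + g false + 5) * x.length + 1) +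
      (1 + stc (M.main, M.initialState) + 1) + (E * steps + 1) ≤ C1 * (x.length + T + 1) := by
    have h1 : E * steps ≤ E * T := Nat.mul_le_mul_left _ hle
    have h2 : C1 * (x.length + T + 1) = (4 + (g true + g false + 5)) * x.length +
      (B + E + 5) * x.length + E * T + (4 + (g true + g false + 5) + B + 5) * T + C1 := by
      simp only [C1]; ring
    have h3 : (4 + (g true + g false + 5)) * x.length =
      4 * x.length + (g true + g false + 5) * x.length := by ring
    have h4 : 0 ≤ (B + E + 5) * x.length := Nat.zero_le _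
    have h5 : 0 ≤ (4 + (g true + g false + 5) + B + 5) * T := Nat.zero_le _
    omega
  refine (r14.seq (r5.seq r6)).mono ?_
  have h6 : (2 * N + 4) * y.length ≤ (2 * N + 4) * (C1 * (x.length + T + 1)) :=
    Nat.mul_le_mul_left _ (hlen.trans hb1)
  have h7 : (C1 + (2 * N + 4) * C1 + 4 * C1 + 2) * (x.length + T + 1) =
    C1 * (x.length + T + 1) + (2 * N + 4) * (C1 * (x.length + T + 1)) +
      4 * (C1 * (x.length + T + 1)) + 2 * (x.length + T + 1) := by ring
  have h8 := hlen.trans hb1
  omega

end Crest.Agent.R290
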