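import Mathlib
import Crest.Agent.R290.PreEqns

/-!
# Row 290, S0438: cardinality of the parity lifts and the order bound
-/

set_option autoImplicit false
set_option linter.unusedSectionVars false

namespace Crest.Agent.R290.ZCard

open Crest.WLRefine Crest.WLRefine.ParityLift Finset

/-! ### Boolean vectors of given parity -/

section parity

variable {N : Type*} [Fintype N] [DecidableEq N]

/-- flip one coordinate -/
def flip (a : N) (z : N → Bool) : N → Bool := Function.update z a (!z a)

theorem flip_flip (a : N) (z : N → Bool) : flip a (flip a z) = z := by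
  funext b
  by_cases h : b = a
  · subst h; simp [flip]
  · simp [flip, h]

theorem card_flip (a : N) (z : N → Bool) :
    (univ.filter fun b => flip a z b = true).card % 2 =
      1 - (univ.filter fun b => z b = true).card % 2 := by
  have key : ∀ w : N → Bool, (univ.filter fun b => w b = true).card =
      (if w a = true then 1 else 0) + ((univ.erase a).filter fun b => w b = true).card := by
    intro w
    rw [← Finset.insert_erase (mem_univ a), Finset.filter_insert]
    split_ifs with h
    · rw [Finset.card_insert_of_notMem (by simp), Finset.erase_insert (by simp)]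
      ring
    · rw [Finset.erase_insert (by simp), zero_add]
  rw [key, key z]
  have h2 : ((univ.erase a).filter fun b => flip a z b = true) =
      ((univ.erase a).filter fun b => z b = true) := by
    apply Finset.filter_congr
    intro b hb
    have : b ≠ a := (Finset.mem_erase.1 hb).1
    simp [flip, this]
  rw [h2]
  have h3 : flip a z a = !z a := by simp [flip]
  rw [h3]
  cases z a <;> simp <;> omega

/-- the flip is a bijection between the two parity classes -/
def parityEquiv (a : N) (c : ℕ) (hc : c < 2) :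
    {z : N → Bool // (univ.filter fun b => z b = true).card % 2 = c} ≃
      {z : N → Bool // (univ.filter fun b => z b = true).card % 2 = 1 - c} where
  toFun z := ⟨flip a z.1, by rw [card_flip, z.2]⟩
  invFun z := ⟨flip a z.1, by rw [card_flip, z.2]; omega⟩
  left_inv z := Subtype.ext (flip_flip a z.1)
  right_inv z := Subtype.ext (flip_flip a z.1)

theorem card_parity (a : N) (c : ℕ) (hc : c < 2) :
    Fintype.card {z : N → Bool // (univ.filter fun b => z b = true).card % 2 = c} =
      2 ^ (Fintype.card N - 1) := by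
  have h1 : Fintype.card {z : N → Bool // (univ.filter fun b => z b = true).card % 2 = c} =
      Fintype.card {z : N → Bool // (univ.filter fun b => z b = true).card % 2 = 1 - c} :=
    Fintype.card_congr (parityEquiv a c hc)
  have h2 : Fintype.card {z : N → Bool // (univ.filter fun b => z b = true).card % 2 = 1 - c} =
      Fintype.card {z : N → Bool // ¬ (univ.filter fun b => z b = true).card % 2 = c} := by
    apply Fintype.card_congr
    refine Equiv.subtypeEquivRight fun z => ?_
    have := Nat.mod_lt (univ.filter fun b => z b = true).card (show 0 < 2 by norm_num)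
    omega
  have h3 := Fintype.card_subtype_compl (fun z : N → Bool =>
    (univ.filter fun b => z b = true).card % 2 = c)
  have h4 : Fintype.card {z : N → Bool // (univ.filter fun b => z b = true).card % 2 = c} ≤
      Fintype.card (N → Bool) := Fintype.card_subtype_le _
  rw [Fintype.card_fun, Fintype.card_bool] at h3 h4
  have hN : 0 < Fintype.card N := Fintype.card_pos_iff.2 ⟨a⟩
  obtain ⟨m, hm⟩ : ∃ m, Fintype.card N = m + 1 := ⟨Fintype.card N - 1, by omega⟩
  rw [hm, pow_succ] at h3 h4
  rw [hm, Nat.add_sub_cancel]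
  omega

end parity

variable {t : ℕ} {C : ChoiceSystem t}

/-- the fibre description of the lift -/
def liftEquiv (b : TV t → Bool) : LiftV C b ≃
    Σ u : BV C, {z : Nbr (typeOf C u) → Bool //
      (univ.filter fun a' => z a' = true).card % 2 = (b (typeOf C u)).toNat} where
  toFun x := ⟨x.1.1, x.1.2, x.2⟩
  invFun x := ⟨⟨x.1, x.2.1⟩, x.2.2⟩
  left_inv _ := rfl
  right_inv _ := rfl

theorem exists_nbr (ht : 4 ≤ t) (a : TV t) : Nonempty (Nbr a) := by
  rcases a with i | h
  · obtain ⟨j, hj⟩ : ∃ j : Fin t, i ≠ j := by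
      by_cases h0 : i = ⟨0, by omega⟩
      · exact ⟨⟨1, by omega⟩, by rw [h0]; simp [Fin.ext_iff]⟩
      · exact ⟨⟨0, by omega⟩, h0⟩
    exact ⟨⟨Sum.inl j, by simp [tAdj, hj]⟩⟩
  · exact ⟨⟨Sum.inl h.1.1, by simp [tAdj]⟩⟩

theorem card_lift (ht : 4 ≤ t) (b : TV t → Bool) :
    Fintype.card (LiftV C b) = ∑ u : BV C, 2 ^ (Fintype.card (Nbr (typeOf C u)) - 1) := by
  rw [Fintype.card_congr (liftEquiv b), Fintype.card_sigma]
  refine Finset.sum_congr rfl fun u _ => ?_
  obtain ⟨a⟩ := exists_nbr ht (typeOf C u)
  exact card_parity a _ (by cases b (typeOf C u) <;> simp)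

theorem card_lift_eq (ht : 4 ≤ t) (b b' : TV t → Bool) :
    Fintype.card (LiftV C b) = Fintype.card (LiftV C b') := by
  rw [card_lift ht, card_lift ht]

/-! ### counting helpers -/

/-- the three mains of a helper -/
def T (h : Helper t) : Finset (Fin t) := {h.1.1, h.1.2.1, h.1.2.2}

theorem card_T (h : Helper t) : (T h).card = 3 := by
  rw [T, Finset.card_eq_three]
  exact ⟨_, _, _, h.2.1.ne, h.2.2.1.symm, h.2.2.2.symm, rfl⟩

theorem T_third (h : Helper t) : h.1.2.2 ∈ T h := by simp [T]

theorem T_erase (h : Helper t) : (T h).erase h.1.2.2 = {h.1.1, h.1.2.1} := by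
  ext x
  simp only [T, mem_erase, mem_insert, mem_singleton]
  have h1 := h.2.2.1
  have h2 := h.2.2.2
  constructor
  · rintro ⟨hx, rfl | rfl | rfl⟩
    · exact Or.inl rfl
    · exact Or.inr rfl
    · exact absurd rfl hx
  · rintro (rfl | rfl)
    · exact ⟨h1.symm, Or.inl rfl⟩
    · exact ⟨h2.symm, Or.inr (Or.inl rfl)⟩

theorem T_inj {h h' : Helper t} (hT : T h = T h') (h3 : h.1.2.2 = h'.1.2.2) : h = h' := by
  have e : ({h.1.1, h.1.2.1} : Finset (Fin t)) = {h'.1.1, h'.1.2.1} := by
    rw [← T_erase, ← T_erase, hT, h3]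
  have a1 : h.1.1 ∈ ({h'.1.1, h'.1.2.1} : Finset (Fin t)) := by rw [← e]; simp
  have a2 : h.1.2.1 ∈ ({h'.1.1, h'.1.2.1} : Finset (Fin t)) := by rw [← e]; simp
  have a3 : h'.1.1 ∈ ({h.1.1, h.1.2.1} : Finset (Fin t)) := by rw [e]; simp
  simp only [mem_insert, mem_singleton] at a1 a2 a3
  have l1 := h.2.1
  have l2 := h'.2.1
  have e1 : h.1.1 = h'.1.1 := by
    rcases a1 with a1 | a1
    · exact a1
    · rcases a3 with a3 | a3
      · exact a3.symm
      · exfalso
        have l3 : h.1.2.1 < h.1.1 := by rw [← a3, a1]; exact l2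
        exact lt_irrefl _ (l1.trans l3)
  have e2 : h.1.2.1 = h'.1.2.1 := by
    rcases a2 with a2 | a2
    · rw [a2, ← e1] at l1
      exact absurd l1 (lt_irrefl _)
    · exact a2
  apply Subtype.ext
  exact Prod.ext e1 (Prod.ext e2 h3)

theorem card_helper_le : Fintype.card (Helper t) ≤ 3 * t.choose 3 := by
  have h1 : (((univ : Finset (Fin t)).powersetCard 3).sigma fun s => s).card = 3 * t.choose 3 := by
    rw [Finset.card_sigma, Finset.sum_congr rfl (fun s hs => (Finset.mem_powersetCard.1 hs).2),
      Finset.sum_const, Finset.card_powersetCard, Finset.card_univ, Fintype.card_fin, smul_eq_mul,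
      mul_comm]
  rw [← h1, ← Finset.card_univ]
  refine Finset.card_le_card_of_injOn (fun h : Helper t => (⟨T h, h.1.2.2⟩ :
    Σ _ : Finset (Fin t), Fin t)) ?_ ?_
  · intro h _
    simp only [Finset.coe_sigma, Set.mem_sigma_iff, Finset.mem_coe, Finset.mem_powersetCard]
    exact ⟨⟨Finset.subset_univ _, card_T h⟩, T_third h⟩
  · intro h _ h' _ heq
    simp only [Sigma.mk.injEq, heq_eq_eq] at heq
    exact T_inj heq.1 heq.2

theorem card_helper_at_le (i : Fin t) :
    (univ.filter fun h : Helper t => i ∈ T h).card ≤ 3 * (t - 1).choose 2 := by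
  have h1 : ((((univ : Finset (Fin t)).erase i).powersetCard 2).sigma fun s => insert i s).card =
      3 * (t - 1).choose 2 := by
    rw [Finset.card_sigma, Finset.sum_congr rfl (g := fun _ => 3), Finset.sum_const,
      Finset.card_powersetCard, Finset.card_erase_of_mem (mem_univ i), Finset.card_univ,
      Fintype.card_fin, smul_eq_mul, mul_comm]
    intro s hs
    obtain ⟨hs1, hs2⟩ := Finset.mem_powersetCard.1 hs
    rw [Finset.card_insert_of_notMem, hs2]
    intro hi
    exact absurd rfl (Finset.mem_erase.1 (hs1 hi)).1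
  rw [← h1]
  refine Finset.card_le_card_of_injOn (fun h : Helper t => (⟨(T h).erase i, h.1.2.2⟩ :
    Σ _ : Finset (Fin t), Fin t)) ?_ ?_
  · intro h hh
    have hi : i ∈ T h := (Finset.mem_filter.1 hh).2
    simp only [Finset.coe_sigma, Set.mem_sigma_iff, Finset.mem_coe, Finset.mem_powersetCard]
    refine ⟨⟨Finset.erase_subset_erase _ (Finset.subset_univ _), ?_⟩, ?_⟩
    · rw [Finset.card_erase_of_mem hi, card_T]
    · rw [Finset.insert_erase hi]
      exact T_third h
  · intro h hh h' hh' heq
    have hi : i ∈ T h := (Finset.mem_filter.1 hh).2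
    have hi' : i ∈ T h' := (Finset.mem_filter.1 hh').2
    simp only [Sigma.mk.injEq, heq_eq_eq] at heq
    refine T_inj ?_ heq.2
    rw [← Finset.insert_erase hi, heq.1, Finset.insert_erase hi']

theorem card_nbr_main (i : Fin t) :
    Fintype.card (Nbr (Sum.inl i : TV t)) ≤ t - 1 + 3 * (t - 1).choose 2 := by
  rw [Fintype.card_subtype]
  have h1 : (univ.filter fun a' : TV t => tAdj (Sum.inl i) a' = true) =
      ((univ.erase i).map Function.Embedding.inl).disjUnion
        ((univ.filter fun h : Helper t => i ∈ T h).map Function.Embedding.inr) (by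
          rw [Finset.disjoint_left]
          intro x hx hy
          obtain ⟨a, _, rfl⟩ := Finset.mem_map.1 hx
          obtain ⟨b, _, hb⟩ := Finset.mem_map.1 hy
          simp at hb) := by
    ext a
    rw [Finset.mem_disjUnion, Finset.mem_map, Finset.mem_map, Finset.mem_filter]
    rcases a with j | h
    · constructor
      · rintro ⟨-, h2⟩
        have h3 : i ≠ j := by simpa [tAdj] using h2
        exact Or.inl ⟨j, Finset.mem_erase.2 ⟨h3.symm, mem_univ _⟩, rfl⟩
      · rintro (⟨a, ha, hb⟩ | ⟨a, ha, hb⟩)
        · have h3 : a = j := Sum.inl_injective hb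
          subst h3
          have h4 : i ≠ a := (Finset.mem_erase.1 ha).1.symm
          exact ⟨mem_univ _, by simp [tAdj, h4]⟩
        · simp at hb
    · simp [tAdj, T]
  rw [h1, Finset.card_disjUnion, Finset.card_map, Finset.card_map,
    Finset.card_erase_of_mem (mem_univ i), Finset.card_univ, Fintype.card_fin]
  exact Nat.add_le_add_left (card_helper_at_le i) _

theorem card_nbr_helper (h : Helper t) : Fintype.card (Nbr (Sum.inr h : TV t)) ≤ 3 := by
  rw [Fintype.card_subtype]
  have h1 : (univ.filter fun a' : TV t => tAdj (Sum.inr h) a' = true) ⊆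
      {Sum.inl h.1.1, Sum.inl h.1.2.1, Sum.inl h.1.2.2} := by
    intro a ha
    have ha' := (Finset.mem_filter.1 ha).2
    rcases a with j | h'
    · simp only [tAdj, decide_eq_true_eq] at ha'
      simp only [mem_insert, mem_singleton, Sum.inl.injEq]
      exact ha'
    · simp [tAdj] at ha'
  exact (Finset.card_le_card h1).trans Finset.card_le_three

theorem card_lift_le (ht : 4 ≤ t) (b : TV t → Bool) (A : ℕ) (hA : C.SizeAtMost A) :
    Fintype.card (LiftV C b) ≤ A * orderFactor t := by
  rw [card_lift ht, Fintype.sum_sum_type, Fintype.sum_sigma, Fintype.sum_sigma]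
  have h1 : ∑ i : Fin t, ∑ d : Fin (C.dom i),
      2 ^ (Fintype.card (Nbr (typeOf C (Sum.inl ⟨i, d⟩))) - 1) ≤
      t * (A * 2 ^ (t - 2 + 3 * (t - 1).choose 2)) := by
    calc ∑ i : Fin t, ∑ d : Fin (C.dom i),
          2 ^ (Fintype.card (Nbr (typeOf C (Sum.inl ⟨i, d⟩))) - 1)
        ≤ ∑ i : Fin t, ∑ _d : Fin (C.dom i), 2 ^ (t - 2 + 3 * (t - 1).choose 2) := by
          refine Finset.sum_le_sum fun i _ => Finset.sum_le_sum fun d _ => ?_
          refine Nat.pow_le_pow_right (by norm_num) ?_
          have := card_nbr_main (t := t) i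
          change Fintype.card (Nbr (Sum.inl i : TV t)) - 1 ≤ _
          omega
      _ ≤ ∑ _i : Fin t, A * 2 ^ (t - 2 + 3 * (t - 1).choose 2) := by
          refine Finset.sum_le_sum fun i _ => ?_
          rw [Finset.sum_const, Finset.card_univ, Fintype.card_fin, smul_eq_mul]
          exact Nat.mul_le_mul_right _ (hA.1 i)
      _ = t * (A * 2 ^ (t - 2 + 3 * (t - 1).choose 2)) := by
          rw [Finset.sum_const, Finset.card_univ, Fintype.card_fin, smul_eq_mul]
  have h2 : ∑ h : Helper t, ∑ q : Fin (C.lab h.1.1 h.1.2.1),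
      2 ^ (Fintype.card (Nbr (typeOf C (Sum.inr ⟨h, q⟩))) - 1) ≤
      (3 * t.choose 3) * (A * 4) := by
    calc ∑ h : Helper t, ∑ q : Fin (C.lab h.1.1 h.1.2.1),
          2 ^ (Fintype.card (Nbr (typeOf C (Sum.inr ⟨h, q⟩))) - 1)
        ≤ ∑ h : Helper t, ∑ _q : Fin (C.lab h.1.1 h.1.2.1), 4 := by
          refine Finset.sum_le_sum fun h _ => Finset.sum_le_sum fun q _ => ?_
          have h3 : Fintype.card (Nbr (typeOf C (Sum.inr ⟨h, q⟩))) - 1 ≤ 2 := by
            have := card_nbr_helper (t := t) h
            change Fintype.card (Nbr (Sum.inr h : TV t)) - 1 ≤ _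
            omega
          exact (Nat.pow_le_pow_right (by norm_num) h3).trans (by norm_num)
      _ ≤ ∑ _h : Helper t, A * 4 := by
          refine Finset.sum_le_sum fun h _ => ?_
          rw [Finset.sum_const, Finset.card_univ, Fintype.card_fin, smul_eq_mul]
          exact Nat.mul_le_mul_right _ (hA.2 _ _ h.2.1)
      _ = Fintype.card (Helper t) * (A * 4) := by
          rw [Finset.sum_const, Finset.card_univ, smul_eq_mul]
      _ ≤ (3 * t.choose 3) * (A * 4) := Nat.mul_le_mul_right _ card_helper_le
  refine (Nat.add_le_add h1 h2).trans (le_of_eq ?_)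
  rw [orderFactor]
  ring

end Crest.Agent.R290.ZCard
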