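import Mathlib
import Crest.Agent.R290.PreEqns

/-!
# Row 290, statement S0438: shared definitions (namespace `Crest.Agent.R290Z`).

* `PebSys A B K R`: a family `R` of positions in which Duplicator wins the bijective `K`-pebble game.
* `Good A x`: `x` is a clique tuple all of whose triples have `≡ 3 (mod 4)` common neighbours.
* `lam`, `labN`: labels as natural numbers; `bAdj` is "types adjacent and labels agree".
-/

set_option autoImplicit false

namespace Crest.Agent.R290Z

open Finset Crest.WLRefine Crest.WLRefine.ParityLift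

/-! ### pebble systems -/

/-- Family of positions from which Duplicator wins the bijective `K`-pebble game between two Boolean
adjacency functions. -/
structure PebSys {V W : Type} [DecidableEq V] [DecidableEq W] (A : V → V → Bool) (B : W → W → Bool)
    (K : ℕ) (R : Finset (V × W) → Prop) : Prop where
  empty : R ∅
  mono : ∀ {P Q : Finset (V × W)}, R P → Q ⊆ P → R Q
  eq : ∀ {P : Finset (V × W)}, R P → ∀ p ∈ P, ∀ q ∈ P, (p.1 = q.1 ↔ p.2 = q.2)
  adj : ∀ {P : Finset (V × W)}, R P → ∀ p ∈ P, ∀ q ∈ P, A p.1 q.1 = B p.2 q.2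
  ext : ∀ {P : Finset (V × W)}, R P → P.card < K → ∃ f : V ≃ W, ∀ z, R (insert (z, f z) P)

/-- Number of common neighbours of three vertices. -/
def cn {V : Type} [Fintype V] (A : V → V → Bool) (x y z : V) : ℕ :=
  (univ.filter fun w => A w x = true ∧ A w y = true ∧ A w z = true).card

/-- A tuple of pairwise adjacent vertices all of whose triples have `3 mod 4` common neighbours. -/
def Good {V : Type} [Fintype V] (A : V → V → Bool) {t : ℕ} (x : Fin t → V) : Prop :=
  (∀ i j, i ≠ j → A (x i) (x j) = true) ∧
    ∀ a b c : Fin t, a ≠ b → a ≠ c → b ≠ c → cn A (x a) (x b) (x c) % 4 = 3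

/-! ### labels -/

variable {t : ℕ}

/-- The label, as a natural number, of the element `d` of domain `i` towards main type `j`. -/
def lam (C : ChoiceSystem t) (i j : Fin t) (d : Fin (C.dom i)) : ℕ :=
  if i < j then (C.lamL i j d : ℕ) else (C.lamR j i d : ℕ)

/-- first (smaller) pair element of a helper -/
abbrev h1 (h : Helper t) : Fin t := h.1.1
/-- second (larger) pair element of a helper -/
abbrev h2 (h : Helper t) : Fin t := h.1.2.1
/-- third type of a helper -/
abbrev h3 (h : Helper t) : Fin t := h.1.2.2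

/-- the other pair element -/
def oth (h : Helper t) (i : Fin t) : Fin t := if i = h1 h then h2 h else h1 h

/-- The label of a base vertex towards a template vertex. -/
def labN (C : ChoiceSystem t) : BV C → TV t → ℕ
  | Sum.inl p, Sum.inl j => lam C p.1 j p.2
  | Sum.inl p, Sum.inr h => if p.1 = h3 h then 0 else lam C p.1 (oth h p.1) p.2
  | Sum.inr p, Sum.inl i => if i = h3 p.1 then 0 else (p.2 : ℕ)
  | Sum.inr _, Sum.inr _ => 0

theorem h12 (h : Helper t) : h1 h < h2 h := h.2.1
theorem h31 (h : Helper t) : h3 h ≠ h1 h := h.2.2.1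
theorem h32 (h : Helper t) : h3 h ≠ h2 h := h.2.2.2

theorem tAdj_comm (a b : TV t) : tAdj a b = tAdj b a := by
  rcases a with i | h <;> rcases b with j | h' <;> simp [tAdj, eq_comm]

theorem tAdj_self (a : TV t) : tAdj a a = false := by
  rcases a with i | h <;> simp [tAdj]

theorem mainAgree_iff (C : ChoiceSystem t) (p q : Σ i : Fin t, Fin (C.dom i)) :
    (mainAgree C p q || mainAgree C q p) = true ↔
      p.1 ≠ q.1 ∧ lam C p.1 q.1 p.2 = lam C q.1 p.1 q.2 := by
  unfold mainAgree lam
  rw [Bool.or_eq_true, decide_eq_true_iff, decide_eq_true_iff]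
  rcases lt_trichotomy p.1 q.1 with h | h | h
  · have h' : ¬ q.1 < p.1 := not_lt.2 h.le
    simp only [h, h', if_true, if_false, exists_true_left, IsEmpty.exists_iff, or_false, h.ne,
      ne_eq, not_false_eq_true, true_and, Fin.ext_iff]
  · have h1 : ¬ p.1 < q.1 := by rw [h]; exact lt_irrefl _
    have h2 : ¬ q.1 < p.1 := by rw [h]; exact lt_irrefl _
    constructor
    · rintro (⟨h3, -⟩ | ⟨h3, -⟩)
      · exact absurd h3 h1
      · exact absurd h3 h2
    · rintro ⟨h3, -⟩
      exact absurd h h3
  · have h' : ¬ p.1 < q.1 := not_lt.2 h.le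
    simp only [h, h', if_true, if_false, exists_true_left, IsEmpty.exists_iff, false_or, h.ne',
      ne_eq, not_false_eq_true, true_and, Fin.ext_iff]
    exact eq_comm

theorem helperAgree_iff (C : ChoiceSystem t) (p : Σ i : Fin t, Fin (C.dom i))
    (hq : Σ h : Helper t, Fin (C.lab h.1.1 h.1.2.1)) :
    helperAgree C p hq = true ↔
      tAdj (t := t) (Sum.inl p.1) (Sum.inr hq.1) = true ∧
        labN C (Sum.inl p) (Sum.inr hq.1) = labN C (Sum.inr hq) (Sum.inl p.1) := by
  obtain ⟨i, d⟩ := p
  obtain ⟨h, q⟩ := hq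
  unfold helperAgree
  rw [decide_eq_true_iff]
  simp only [tAdj, decide_eq_true_iff, labN]
  have e12 := h12 h
  have e31 := h31 h
  have e32 := h32 h
  by_cases c3 : i = h.1.2.2
  · subst c3
    simp
  · by_cases c1 : i = h.1.1
    · subst c1
      have ho : oth h h.1.1 = h.1.2.1 := if_pos rfl
      have hl : lam C h.1.1 h.1.2.1 d = (C.lamL h.1.1 h.1.2.1 d : ℕ) := if_pos e12
      simp only [exists_true_left, Fin.cast_refl, id_eq, e12.ne, IsEmpty.exists_iff, c3, or_false,
        true_and, if_false, h3, Fin.ext_iff, ho, hl]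
      exact eq_comm
    · by_cases c2 : i = h.1.2.1
      · subst c2
        have e21 : ¬ h.1.2.1 < h.1.1 := not_lt.2 e12.le
        have ho : oth h h.1.2.1 = h.1.1 := if_neg c1
        have hl : lam C h.1.2.1 h.1.1 d = (C.lamR h.1.1 h.1.2.1 d : ℕ) := if_neg e21
        simp only [exists_true_left, Fin.cast_refl, id_eq, c1, IsEmpty.exists_iff, c3, or_false,
          or_true, true_and, if_false, h3, Fin.ext_iff, false_or, ho, hl]
        exact eq_comm
      · simp [c1, c2, c3]

/-- Base adjacency = template adjacency of the types and agreement of labels. -/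
theorem bAdj_iff (C : ChoiceSystem t) (u v : BV C) :
    bAdj C u v = true ↔ tAdj (typeOf C u) (typeOf C v) = true ∧
      labN C u (typeOf C v) = labN C v (typeOf C u) := by
  rcases u with p | p <;> rcases v with q | q
  · show (mainAgree C p q || mainAgree C q p) = true ↔ _
    rw [mainAgree_iff]
    simp [typeOf, tAdj, labN]
  · show helperAgree C p q = true ↔ _
    rw [helperAgree_iff]
    rfl
  · show helperAgree C q p = true ↔ _
    rw [helperAgree_iff, tAdj_comm]
    exact and_congr Iff.rfl eq_comm
  · simp [bAdj, typeOf, tAdj]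

theorem bAdj_comm (C : ChoiceSystem t) (u v : BV C) : bAdj C u v = bAdj C v u := by
  rw [Bool.eq_iff_iff, bAdj_iff, bAdj_iff, tAdj_comm]
  exact and_congr Iff.rfl eq_comm

/-! ### lift vertices -/

/-- base vertex of a lift vertex -/
abbrev bse {C : ChoiceSystem t} {b : TV t → Bool} (x : LiftV C b) : BV C := x.1.1

/-- tag of a lift vertex, extended by `false` to all template vertices -/
def tg {C : ChoiceSystem t} {b : TV t → Bool} (x : LiftV C b) (a : TV t) : Bool :=
  if h : tAdj (typeOf C x.1.1) a = true then x.1.2 ⟨a, h⟩ else false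

/-- `Bool → ZMod 2`. -/
def bz (b : Bool) : ZMod 2 := if b then 1 else 0

@[simp] theorem bz_true : bz true = 1 := rfl
@[simp] theorem bz_false : bz false = 0 := rfl

theorem bz_inj {b c : Bool} (h : bz b = bz c) : b = c := by
  cases b <;> cases c <;> simp_all

theorem bz_xor (b c : Bool) : bz (b ^^ c) = bz b + bz c := by
  cases b <;> cases c <;> decide

theorem liftAdj_iff {C : ChoiceSystem t} {b : TV t → Bool} (x y : LiftV C b) :
    liftAdj C b x y = true ↔ bAdj C (bse x) (bse y) = true ∧
      tg x (typeOf C (bse y)) = tg y (typeOf C (bse x)) := by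
  unfold liftAdj
  rw [decide_eq_true_iff]
  constructor
  · rintro ⟨h, h', h1, h2⟩
    refine ⟨h1, ?_⟩
    simp only [tg, bse]
    rw [dif_pos h, dif_pos h', h2]
  · rintro ⟨h1, h2⟩
    have h := ((bAdj_iff C _ _).1 h1).1
    have h' : tAdj (typeOf C y.1.1) (typeOf C x.1.1) = true := by rw [tAdj_comm]; exact h
    refine ⟨h, h', h1, ?_⟩
    simp only [tg, bse] at h2
    rw [dif_pos h, dif_pos h'] at h2
    exact h2

/-- number of `true`s mod 2 as a `ZMod 2` sum -/
theorem card_filter_bz {N : Type} [Fintype N] (z : N → Bool) (c : Bool) :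
    (univ.filter fun a => z a = true).card % 2 = c.toNat ↔ ∑ a, bz (z a) = bz c := by
  have h1 : ∑ a, bz (z a) = (((univ.filter fun a => z a = true).card : ℕ) : ZMod 2) := by
    rw [Finset.card_filter, Nat.cast_sum]
    refine Finset.sum_congr rfl fun a _ => ?_
    cases z a <;> simp
  have h2 : bz c = ((c.toNat : ℕ) : ZMod 2) := by cases c <;> simp
  rw [h1, h2, ZMod.natCast_eq_natCast_iff, Nat.ModEq]
  have : c.toNat % 2 = c.toNat := by cases c <;> rfl
  rw [this]

theorem sum_nbr {a : TV t} (g : TV t → ZMod 2) :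
    ∑ a' : Nbr a, g a'.1 = ∑ a' ∈ univ.filter (fun a' => tAdj a a' = true), g a' :=
  (Finset.sum_subtype (univ.filter (fun a' => tAdj a a' = true)) (fun x => by simp) g).symm

/-- the parity condition of a lift vertex as a `ZMod 2` sum over template neighbours -/
theorem tg_parity {C : ChoiceSystem t} {b : TV t → Bool} (x : LiftV C b) :
    ∑ a ∈ univ.filter (fun a => tAdj (typeOf C (bse x)) a = true), bz (tg x a)
      = bz (b (typeOf C (bse x))) := by
  rw [← sum_nbr (fun a => bz (tg x a)), ← (card_filter_bz _ _).1 x.2]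
  refine Finset.sum_congr rfl fun a _ => ?_
  unfold tg
  rw [dif_pos a.2]

/-- construct a lift vertex from a total tag function -/
def mkLift {C : ChoiceSystem t} {b : TV t → Bool} (u : BV C) (z : TV t → Bool)
    (hz : ∑ a ∈ univ.filter (fun a => tAdj (typeOf C u) a = true), bz (z a)
      = bz (b (typeOf C u))) : LiftV C b :=
  ⟨⟨u, fun a => z a.1⟩, (card_filter_bz _ _).2 (by
    rw [sum_nbr (fun a => bz (z a))]; exact hz)⟩

@[simp] theorem bse_mkLift {C : ChoiceSystem t} {b : TV t → Bool} (u : BV C) (z : TV t → Bool)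
    (hz : ∑ a ∈ univ.filter (fun a => tAdj (typeOf C u) a = true), bz (z a)
      = bz (b (typeOf C u))) : bse (mkLift (b := b) u z hz) = u := rfl

theorem tg_mkLift {C : ChoiceSystem t} {b : TV t → Bool} (u : BV C) (z : TV t → Bool)
    (hz : ∑ a ∈ univ.filter (fun a => tAdj (typeOf C u) a = true), bz (z a)
      = bz (b (typeOf C u))) {a : TV t} (ha : tAdj (typeOf C u) a = true) :
    tg (mkLift (b := b) u z hz) a = z a := by
  unfold tg mkLift
  exact dif_pos ha

/-- two lift vertices with the same base vertex and the same tags (at template neighbours) agree -/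
theorem lift_ext {C : ChoiceSystem t} {b : TV t → Bool} {x y : LiftV C b} (h : bse x = bse y)
    (ht : ∀ a, tAdj (typeOf C (bse x)) a = true → tg x a = tg y a) : x = y := by
  obtain ⟨⟨u, z⟩, hx⟩ := x
  obtain ⟨⟨v, w⟩, hy⟩ := y
  simp only [bse] at h
  subst h
  have hzw : z = w := by
    funext a
    have := ht a.1 a.2
    simp only [tg, bse] at this
    rw [dif_pos a.2, dif_pos a.2] at this
    exact this
  subst hzw
  rfl

end Crest.Agent.R290Z
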