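import Crest.Prelude.Def_ParityLift
import Crest.Agent.R290.ZDefs

/-!
# Row 290, S0438: Duplicator side of the parity lift (helper351)

If the choice system has no successful choice, Duplicator wins the bijective `t`-pebble game between
the two parity lifts, i.e. there is a pebble system with `t` pebbles.
-/

set_option autoImplicit false
open Finset Crest.WLRefine Crest.WLRefine.ParityLift

namespace Crest.Agent.R290.ZD

/-! ### mod-2 sums -/

/-- mod-2 sum of a Boolean vector -/
def par {ι : Type*} [Fintype ι] (f : ι → Bool) : ZMod 2 := ∑ a, if f a = true then 1 else 0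

theorem par_xor {ι : Type*} [Fintype ι] (f g : ι → Bool) :
    par (fun a => xor (f a) (g a)) = par f + par g := by
  unfold par
  rw [← Finset.sum_add_distrib]
  refine Finset.sum_congr rfl fun a _ => ?_
  beta_reduce
  generalize f a = x
  generalize g a = y
  revert x y
  decide

theorem par_eq_iff {ι : Type*} [Fintype ι] (f : ι → Bool) (b : Bool) :
    ((univ.filter fun a => f a = true).card % 2 = b.toNat) ↔ par f = (if b = true then 1 else 0) := by
  unfold par
  rw [Finset.sum_boole]
  have h : (b.toNat) = b.toNat % 2 := by cases b <;> rfl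
  rw [h, ← ZMod.natCast_eq_natCast_iff']
  cases b <;> simp

variable {t : ℕ} (C : ChoiceSystem t)

/-- mod-2 row sum of `x` at `u` over the template neighbours. -/
def rs (x : BV C → TV t → Bool) (u : BV C) : ZMod 2 :=
  ∑ a : TV t, if tAdj (typeOf C u) a = true ∧ x u a = true then 1 else 0

theorem rs_eq_par (x : BV C → TV t → Bool) (u : BV C) :
    rs C x u = par (fun a : Nbr (typeOf C u) => x u a.1) := by
  unfold rs par
  refine Eq.trans ?_ (Finset.sum_subtype (univ.filter fun a => tAdj (typeOf C u) a = true)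
    (by simp) (fun a => if x u a = true then (1 : ZMod 2) else 0))
  rw [Finset.sum_filter]
  refine Finset.sum_congr rfl fun a _ => ?_
  by_cases h1 : tAdj (typeOf C u) a = true <;> by_cases h2 : x u a = true <;> simp [h1, h2]

theorem rs_xor (x y : BV C → TV t → Bool) (u : BV C) :
    rs C (fun u a => xor (x u a) (y u a)) u = rs C x u + rs C y u := by
  simp only [rs_eq_par]
  exact par_xor _ _

theorem rs_congr {x y : BV C → TV t → Bool} {u : BV C} (h : ∀ a, x u a = y u a) :
    rs C x u = rs C y u := by
  unfold rs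
  simp only [h]

theorem rs_zero {x : BV C → TV t → Bool} {u : BV C} (h : ∀ a, x u a = false) :
    rs C x u = 0 := by
  unfold rs
  simp [h]

/-- consistency on base edges -/
def Cons (x : BV C → TV t → Bool) : Prop :=
  ∀ u v, bAdj C u v = true → x u (typeOf C v) = x v (typeOf C u)

theorem cons_xor {x y : BV C → TV t → Bool} (hx : Cons C x) (hy : Cons C y) :
    Cons C (fun u a => xor (x u a) (y u a)) := by
  intro u v h
  simp only [hx u v h, hy u v h]

theorem bAdj_comm (u v : BV C) : bAdj C u v = bAdj C v u := by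
  rcases u with u | u <;> rcases v with v | v <;> simp only [bAdj]
  exact Bool.or_comm _ _

theorem tAdj_comm (a b : TV t) : tAdj a b = tAdj b a := by
  rcases a with a | a <;> rcases b with b | b <;> simp only [tAdj, ne_eq]
  simp only [eq_comm]

theorem tAdj_irrefl (a : TV t) : tAdj a a = false := by
  rcases a with a | a <;> simp [tAdj]

theorem tAdj_of_bAdj {u v : BV C} (h : bAdj C u v = true) :
    tAdj (typeOf C u) (typeOf C v) = true := by
  rcases u with u | u <;> rcases v with v | v <;>
    simp only [bAdj, typeOf, tAdj, mainAgree, helperAgree, Bool.or_eq_true, decide_eq_true_eq] at h ⊢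
  · rcases h with ⟨h, _⟩ | ⟨h, _⟩
    · exact ne_of_lt h
    · exact (ne_of_lt h).symm
  · rcases h with ⟨h, _⟩ | ⟨h, _⟩ | h
    · exact Or.inl h
    · exact Or.inr (Or.inl h)
    · exact Or.inr (Or.inr h)
  · rcases h with ⟨h, _⟩ | ⟨h, _⟩ | h
    · exact Or.inl h
    · exact Or.inr (Or.inl h)
    · exact Or.inr (Or.inr h)
  · exact absurd h (by simp)

/-! ### edge flips -/

/-- flip of the edge variables between template vertices `a₀` and `b₀`, at the base vertices with `p`. -/
def ef (a₀ b₀ : TV t) (p : BV C → Bool) (u : BV C) (a : TV t) : Bool :=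
  decide ((typeOf C u = a₀ ∧ a = b₀) ∨ (typeOf C u = b₀ ∧ a = a₀)) && p u

theorem rs_ef (a₀ b₀ : TV t) (hab : tAdj a₀ b₀ = true) (p : BV C → Bool) (u : BV C) :
    rs C (ef C a₀ b₀ p) u =
      if (typeOf C u = a₀ ∨ typeOf C u = b₀) ∧ p u = true then 1 else 0 := by
  have hba : tAdj b₀ a₀ = true := by rw [tAdj_comm]; exact hab
  have hne : a₀ ≠ b₀ := by
    rintro rfl
    rw [tAdj_irrefl] at hab
    exact Bool.noConfusion hab
  unfold rs
  by_cases h1 : typeOf C u = a₀
  · have : ∀ a, (tAdj (typeOf C u) a = true ∧ ef C a₀ b₀ p u a = true) ↔ (a = b₀ ∧ p u = true) := by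
      intro a
      simp only [ef, h1, Bool.and_eq_true, decide_eq_true_eq]
      constructor
      · rintro ⟨_, h | h, h'⟩
        · exact ⟨h.2, h'⟩
        · exact absurd h.1 hne
      · rintro ⟨h, h'⟩
        subst h
        exact ⟨hab, by simp, h'⟩
    simp only [this]
    by_cases hp : p u = true
    · simp [hp, h1]
    · simp [hp]
  · by_cases h2 : typeOf C u = b₀
    · have : ∀ a, (tAdj (typeOf C u) a = true ∧ ef C a₀ b₀ p u a = true) ↔ (a = a₀ ∧ p u = true) := by
        intro a
        simp only [ef, h2, Bool.and_eq_true, decide_eq_true_eq]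
        constructor
        · rintro ⟨_, h | h, h'⟩
          · exact absurd h.1.symm hne
          · exact ⟨h.2, h'⟩
        · rintro ⟨h, h'⟩
          subst h
          exact ⟨hba, by simp, h'⟩
      simp only [this]
      by_cases hp : p u = true
      · simp [hp, h2]
      · simp [hp]
    · have : ∀ a, ¬ (tAdj (typeOf C u) a = true ∧ ef C a₀ b₀ p u a = true) := by
        intro a
        simp [ef, h1, h2]
      simp [this, h1, h2]

theorem cons_ef (a₀ b₀ : TV t) (p : BV C → Bool)
    (h : ∀ u v, bAdj C u v = true → typeOf C u = a₀ → typeOf C v = b₀ → p u = p v) :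
    Cons C (ef C a₀ b₀ p) := by
  intro u v huv
  unfold ef
  by_cases h1 : typeOf C u = a₀ ∧ typeOf C v = b₀
  · rw [h u v huv h1.1 h1.2]
    simp [h1.1, h1.2]
  · by_cases h2 : typeOf C u = b₀ ∧ typeOf C v = a₀
    · have hvu : bAdj C v u = true := by rw [bAdj_comm]; exact huv
      rw [h v u hvu h2.2 h2.1]
      simp [h2.1, h2.2]
    · have e1 : ¬ ((typeOf C u = a₀ ∧ typeOf C v = b₀) ∨ (typeOf C u = b₀ ∧ typeOf C v = a₀)) := by
        rintro (h | h)
        · exact h1 h
        · exact h2 h
      have e2 : ¬ ((typeOf C v = a₀ ∧ typeOf C u = b₀) ∨ (typeOf C v = b₀ ∧ typeOf C u = a₀)) := by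
        rintro (h | h)
        · exact h2 h.symm
        · exact h1 h.symm
      rw [decide_eq_false e1, decide_eq_false e2, Bool.false_and, Bool.false_and]

/-- membership of the label of the pair `(i, j)` in `{q₀}`. -/
def inQ (i j : Fin t) (q₀ : Fin (C.lab i j)) : BV C → Bool
  | Sum.inl p => decide ((∃ e : p.1 = i, C.lamL i j (Fin.cast (congrArg C.dom e) p.2) = q₀) ∨
      (∃ e : p.1 = j, C.lamR i j (Fin.cast (congrArg C.dom e) p.2) = q₀))
  | Sum.inr hq => decide ((hq.2 : ℕ) = (q₀ : ℕ))

theorem inQ_left {i j : Fin t} (hij : i < j) (q₀ : Fin (C.lab i j)) (d : Fin (C.dom i)) :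
    inQ C i j q₀ (Sum.inl ⟨i, d⟩) = decide (C.lamL i j d = q₀) := by
  refine decide_eq_decide.mpr ?_
  constructor
  · rintro (⟨_, h⟩ | ⟨e, _⟩)
    · exact h
    · exact absurd e (ne_of_lt hij)
  · intro h
    exact Or.inl ⟨rfl, h⟩

theorem inQ_right {i j : Fin t} (hij : i < j) (q₀ : Fin (C.lab i j)) (d : Fin (C.dom j)) :
    inQ C i j q₀ (Sum.inl ⟨j, d⟩) = decide (C.lamR i j d = q₀) := by
  refine decide_eq_decide.mpr ?_
  constructor
  · rintro (⟨e, _⟩ | ⟨_, h⟩)
    · exact absurd e.symm (ne_of_lt hij)
    · exact h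
  · intro h
    exact Or.inr ⟨rfl, h⟩

/-- the helper `(i, j; l)`. -/
def hlp (i j l : Fin t) (hij : i < j) (hl : l ≠ i ∧ l ≠ j) : Helper t :=
  ⟨(i, j, l), hij, hl⟩

/-- the common defect. -/
def Dfct (i j : Fin t) (q₀ : Fin (C.lab i j)) (u : BV C) : ZMod 2 :=
  (if typeOf C u = Sum.inl i ∧ inQ C i j q₀ u = true then 1 else 0) +
    (if typeOf C u = Sum.inl j ∧ inQ C i j q₀ u = false then 1 else 0)

theorem cons_main {i j : Fin t} (hij : i < j) (q₀ : Fin (C.lab i j)) (f : Bool → Bool) :
    Cons C (ef C (Sum.inl i) (Sum.inl j) (fun u => f (inQ C i j q₀ u))) := by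
  apply cons_ef
  intro u v huv hu hv
  rcases u with ⟨i', d⟩ | u
  · simp only [typeOf, Sum.inl.injEq] at hu
    subst hu
    rcases v with ⟨j', e⟩ | v
    · simp only [typeOf, Sum.inl.injEq] at hv
      subst hv
      simp only [bAdj, mainAgree, Bool.or_eq_true, decide_eq_true_eq] at huv
      rcases huv with ⟨_, h⟩ | ⟨h, _⟩
      · simp only [inQ_left C hij, inQ_right C hij, h]
      · exact absurd h (lt_asymm hij)
    · simp [typeOf] at hv
  · simp [typeOf] at hu

theorem cons_left {i j l : Fin t} (hij : i < j) (hl : l ≠ i ∧ l ≠ j) (q₀ : Fin (C.lab i j))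
    (f : Bool → Bool) :
    Cons C (ef C (Sum.inl i) (Sum.inr (hlp i j l hij hl)) (fun u => f (inQ C i j q₀ u))) := by
  apply cons_ef
  intro u v huv hu hv
  rcases u with ⟨i', d⟩ | u
  · simp only [typeOf, Sum.inl.injEq] at hu
    subst hu
    rcases v with v | ⟨h, q⟩
    · simp [typeOf] at hv
    · simp only [typeOf, Sum.inr.injEq] at hv
      subst hv
      simp only [bAdj, helperAgree, decide_eq_true_eq] at huv
      rcases huv with ⟨_, h⟩ | ⟨h, _⟩ | h
      · simp only [inQ_left C hij]
        congr 1
        simp only [inQ]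
        rw [h]
        congr 1
        apply propext
        exact Fin.ext_iff
      · exact absurd h (ne_of_lt hij)
      · exact absurd h.symm hl.1
  · simp [typeOf] at hu

theorem cons_right {i j l : Fin t} (hij : i < j) (hl : l ≠ i ∧ l ≠ j) (q₀ : Fin (C.lab i j))
    (f : Bool → Bool) :
    Cons C (ef C (Sum.inl j) (Sum.inr (hlp i j l hij hl)) (fun u => f (inQ C i j q₀ u))) := by
  apply cons_ef
  intro u v huv hu hv
  rcases u with ⟨i', d⟩ | u
  · simp only [typeOf, Sum.inl.injEq] at hu
    subst hu
    rcases v with v | ⟨h, q⟩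
    · simp [typeOf] at hv
    · simp only [typeOf, Sum.inr.injEq] at hv
      subst hv
      simp only [bAdj, helperAgree, decide_eq_true_eq] at huv
      rcases huv with ⟨h, _⟩ | ⟨_, h⟩ | h
      · exact absurd h.symm (ne_of_lt hij)
      · simp only [inQ_right C hij]
        congr 1
        simp only [inQ]
        rw [h]
        congr 1
        apply propext
        exact Fin.ext_iff
      · exact absurd h.symm hl.2
  · simp [typeOf] at hu

/-- The vectors `y^(l)`. -/
theorem exists_y {i j : Fin t} (hij : i < j) (q₀ : Fin (C.lab i j)) (l : Fin t) :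
    ∃ y : BV C → TV t → Bool, Cons C y ∧
      (∀ u, rs C y u = Dfct C i j q₀ u + (if typeOf C u = Sum.inl l then 1 else 0)) ∧
      ∀ u a, (∃ m, typeOf C u = Sum.inl m) → typeOf C u ≠ Sum.inl l →
        (typeOf C u = Sum.inl i → inQ C i j q₀ u = false) →
        (typeOf C u = Sum.inl j → inQ C i j q₀ u = true) → y u a = false := by
  have hij' : i ≠ j := ne_of_lt hij
  by_cases hl : l ≠ i ∧ l ≠ j
  · refine ⟨fun u a => xor (xor
      (ef C (Sum.inl i) (Sum.inr (hlp i j l hij hl)) (fun u => inQ C i j q₀ u) u a)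
      (ef C (Sum.inl j) (Sum.inr (hlp i j l hij hl)) (fun u => !(inQ C i j q₀ u)) u a))
      (ef C (Sum.inl l) (Sum.inr (hlp i j l hij hl)) (fun _ => true) u a), ?_, ?_, ?_⟩
    · refine cons_xor C (cons_xor C (cons_left C hij hl q₀ id) (cons_right C hij hl q₀ not)) ?_
      exact cons_ef C _ _ _ fun _ _ _ _ _ => rfl
    · intro u
      rw [rs_xor C (fun u a => xor _ _) _ u, rs_xor, rs_ef, rs_ef, rs_ef]
      · have h1 := hl.1
        have h2 := hl.2
        have h3 := h1.symm
        have h4 := h2.symm
        have h5 := hij'.symm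
        unfold Dfct
        rcases htu : typeOf C u with m | m
        · cases hq : inQ C i j q₀ u <;> simp only [Sum.inl.injEq, reduceCtorEq, or_false] <;>
          by_cases hm1 : m = i <;> by_cases hm2 : m = j <;> by_cases hm3 : m = l <;>
            first
              | (exfalso; subst hm1; subst hm2; exact hij' rfl)
              | (exfalso; subst hm1; subst hm3; exact hl.1 rfl)
              | (exfalso; subst hm2; subst hm3; exact hl.2 rfl)
              | simp [hm1, hm2, hm3, h1, h2, h3, h4, h5, hij']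
        · by_cases hm : m = hlp i j l hij hl
          · subst hm
            cases hq : inQ C i j q₀ u <;> simp <;> decide
          · simp [hm]
      all_goals simp [tAdj, hlp]
    · rintro u a ⟨m, hm⟩ hul hui huj
      simp only [ef, hm, reduceCtorEq, false_and, or_false, Sum.inl.injEq, ne_eq] at hul hui huj ⊢
      by_cases h1 : m = i
      · have := hui h1
        subst h1
        simp [this, hij', hul]
      · by_cases h2 : m = j
        · have := huj h2
          subst h2
          simp [this, hij'.symm, hul]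
        · simp [h1, h2, hul]
  · by_cases hli : l = i
    · subst hli
      refine ⟨ef C (Sum.inl l) (Sum.inl j) (fun u => !(inQ C l j q₀ u)), cons_main C hij q₀ not, ?_, ?_⟩
      · intro u
        rw [rs_ef _ _ _ (by simp [tAdj, hij'])]
        unfold Dfct
        rcases htu : typeOf C u with m | m
        · cases hq : inQ C l j q₀ u <;> simp only [Sum.inl.injEq] <;>
          by_cases hm1 : m = l <;> by_cases hm2 : m = j <;>
            first
              | (exfalso; subst hm1; subst hm2; exact hij' rfl)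
              | (simp [hm1, hm2, hij', hij'.symm]; try decide)
        · simp
      · rintro u a ⟨m, hm⟩ hul hui huj
        simp only [ef, hm, Sum.inl.injEq, ne_eq] at hul hui huj ⊢
        by_cases h2 : m = j
        · simp [huj h2]
        · simp [h2, hul]
    · have hlj : l = j := by
        by_contra h
        exact hl ⟨hli, h⟩
      subst hlj
      refine ⟨ef C (Sum.inl i) (Sum.inl l) (fun u => inQ C i l q₀ u), cons_main C hij q₀ id, ?_, ?_⟩
      · intro u
        rw [rs_ef _ _ _ (by simp [tAdj, hij'])]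
        unfold Dfct
        rcases htu : typeOf C u with m | m
        · cases hq : inQ C i l q₀ u <;> simp only [Sum.inl.injEq] <;>
          by_cases hm1 : m = i <;> by_cases hm2 : m = l <;>
            first
              | (exfalso; subst hm1; subst hm2; exact hij' rfl)
              | (simp [hm1, hm2, hij', hij'.symm]; try decide)
        · simp
      · rintro u a ⟨m, hm⟩ hul hui huj
        simp only [ef, hm, Sum.inl.injEq, ne_eq] at hul hui huj ⊢
        by_cases h2 : m = i
        · simp [hui h2]
        · simp [h2, hul]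

/-! ### solutions and the shift system -/

/-- `x` solves the XOR system with the twist moved from main `0` to main `m`. -/
def Sol (m : Fin t) (x : BV C → TV t → Bool) : Prop :=
  Cons C x ∧ ∀ u, rs C x u = (if liftStarParity t (typeOf C u) = true then 1 else 0) +
    (if typeOf C u = Sum.inl m then 1 else 0)

/-- invariant with an uncovered main type. -/
def I1 (P : Finset (BV C)) (s : BV C → TV t → Bool) : Prop :=
  ∃ m : Fin t, (∀ u ∈ P, typeOf C u ≠ Sum.inl m) ∧ ∃ x, Sol C m x ∧ ∀ u ∈ P, ∀ a, s u a = x u a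

/-- the shift system. -/
def Shf (P : Finset (BV C)) (s : BV C → TV t → Bool) : Prop :=
  I1 C P s ∨ (P.card = t ∧ Cons C s ∧
    (∀ u ∈ P, rs C s u = if liftStarParity t (typeOf C u) = true then 1 else 0) ∧
    ∀ r ∈ P, I1 C (P.erase r) s)

variable {C}

theorem I1.mono {P Q : Finset (BV C)} {s : BV C → TV t → Bool} (h : I1 C P s) (hQ : Q ⊆ P) :
    I1 C Q s := by
  obtain ⟨m, hm, x, hx, hs⟩ := h
  exact ⟨m, fun u hu => hm u (hQ hu), x, hx, fun u hu => hs u (hQ hu)⟩

theorem Shf.mono {P Q : Finset (BV C)} {s : BV C → TV t → Bool} (h : Shf C P s) (hQ : Q ⊆ P) :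
    Shf C Q s := by
  rcases h with h | ⟨h1, h2, h3, h4⟩
  · exact Or.inl (h.mono hQ)
  · by_cases hPQ : P ⊆ Q
    · have : Q = P := Finset.Subset.antisymm hQ hPQ
      subst this
      exact Or.inr ⟨h1, h2, h3, h4⟩
    · obtain ⟨r, hr, hrQ⟩ := Finset.not_subset.mp hPQ
      exact Or.inl ((h4 r hr).mono (Finset.subset_erase.mpr ⟨hQ, hrQ⟩))

theorem Shf.valid {P : Finset (BV C)} {s : BV C → TV t → Bool} (h : Shf C P s) {u : BV C}
    (hu : u ∈ P) : rs C s u = if liftStarParity t (typeOf C u) = true then 1 else 0 := by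
  rcases h with ⟨m, hm, x, hx, hs⟩ | h
  · rw [rs_congr C (hs u hu), hx.2 u, if_neg (hm u hu), add_zero]
  · exact h.2.2.1 u hu

theorem Shf.cons {P : Finset (BV C)} {s : BV C → TV t → Bool} (h : Shf C P s) {u v : BV C}
    (hu : u ∈ P) (hv : v ∈ P) (huv : bAdj C u v = true) : s u (typeOf C v) = s v (typeOf C u) := by
  rcases h with ⟨m, hm, x, hx, hs⟩ | h
  · rw [hs u hu, hs v hv, hx.1 u v huv]
  · exact h.2.1 u v huv

theorem Shf.empty (ht : 0 < t) : ∃ s, Shf C ∅ s := by
  refine ⟨fun _ _ => false, Or.inl ⟨⟨0, ht⟩, by simp, fun _ _ => false, ⟨fun _ _ _ => rfl, fun u => ?_⟩,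
    by simp⟩⟩
  rw [rs_zero C fun _ => rfl]
  have : (liftStarParity t (typeOf C u) = true) ↔ typeOf C u = Sum.inl ⟨0, ht⟩ := by
    simp [liftStarParity, ht]
  by_cases h : typeOf C u = Sum.inl ⟨0, ht⟩
  · rw [if_pos (this.mpr h), if_pos h]
    decide
  · rw [if_neg (fun h' => h (this.mp h')), if_neg h, add_zero]

theorem Shf.ext (hC : ¬ C.Successful) {P : Finset (BV C)} {s : BV C → TV t → Bool}
    (h : Shf C P s) (hP : P.card < t) (u : BV C) :
    ∃ s', Shf C (insert u P) s' ∧ ∀ v ∈ P, ∀ a, s' v a = s v a := by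
  by_cases huP : u ∈ P
  · exact ⟨s, by rwa [Finset.insert_eq_of_mem huP], fun _ _ _ => rfl⟩
  rcases h with ⟨m, hm, x, hx, hs⟩ | h
  swap
  · exact absurd h.1 (ne_of_lt hP)
  by_cases hum : typeOf C u = Sum.inl m
  swap
  · refine ⟨x, Or.inl ⟨m, ?_, x, hx, fun _ _ _ => rfl⟩, fun v hv a => (hs v hv a).symm⟩
    intro v hv
    rcases Finset.mem_insert.mp hv with rfl | hv
    · exact hum
    · exact hm v hv
  by_cases hm' : ∃ m', m' ≠ m ∧ ∀ v ∈ P, typeOf C v ≠ Sum.inl m'
  · obtain ⟨m', hmm', hm'⟩ := hm'
    have key : ∀ v ∈ P, ∀ a, ef C (Sum.inl m) (Sum.inl m') (fun _ => true) v a = false := by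
      intro v hv a
      simp [ef, hm v hv, hm' v hv]
    refine ⟨fun v a => xor (x v a) (ef C (Sum.inl m) (Sum.inl m') (fun _ => true) v a),
      Or.inl ⟨m', ?_, _, ⟨cons_xor C hx.1 (cons_ef C _ _ _ fun _ _ _ _ _ => rfl), fun v => ?_⟩,
        fun _ _ _ => rfl⟩, fun v hv a => ?_⟩
    · intro v hv
      rcases Finset.mem_insert.mp hv with rfl | hv
      · rw [hum]
        intro h
        exact hmm' (Sum.inl.inj h).symm
      · exact hm' v hv
    · rw [rs_xor, hx.2 v, rs_ef _ _ _ (by simp [tAdj, Ne.symm hmm']), add_assoc]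
      congr 1
      by_cases h1 : typeOf C v = Sum.inl m
      · have h2 : typeOf C v ≠ Sum.inl m' := by
          rw [h1]
          intro h
          exact hmm' (Sum.inl.inj h).symm
        rw [if_pos h1, if_pos ⟨Or.inl h1, rfl⟩, if_neg h2]
        decide
      · by_cases h2 : typeOf C v = Sum.inl m'
        · rw [if_neg h1, if_pos ⟨Or.inr h2, rfl⟩, if_pos h2]
          decide
        · rw [if_neg h1, if_neg (by tauto), if_neg h2]
          decide
    · simp only [key v hv a, Bool.xor_false]
      exact (hs v hv a).symm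
  · -- all other types are covered
    push Not at hm'
    have hD : ∀ i : Fin t, ∃ d : Fin (C.dom i), (Sum.inl ⟨i, d⟩ : BV C) ∈ insert u P := by
      intro i
      by_cases hi : i = m
      · subst hi
        rcases u with ⟨i', d⟩ | u
        · simp only [typeOf, Sum.inl.injEq] at hum
          subst hum
          exact ⟨d, Finset.mem_insert_self _ _⟩
        · simp [typeOf] at hum
      · obtain ⟨v, hv, hvi⟩ := hm' i hi
        rcases v with ⟨i', d⟩ | v
        · simp only [typeOf, Sum.inl.injEq] at hvi
          subst hvi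
          exact ⟨d, Finset.mem_insert_of_mem hv⟩
        · simp [typeOf] at hvi
    choose d hd using hD
    have hcardP : (insert u P).card ≤ t := by
      rw [Finset.card_insert_of_notMem huP]
      exact hP
    have hinj : Function.Injective (fun i : Fin t => (Sum.inl ⟨i, d i⟩ : BV C)) := by
      intro i j hij
      simp only [Sum.inl.injEq, Sigma.mk.injEq] at hij
      exact hij.1
    have hPeq : insert u P = univ.image (fun i : Fin t => (Sum.inl ⟨i, d i⟩ : BV C)) := by
      symm
      apply Finset.eq_of_subset_of_card_le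
      · intro v hv
        obtain ⟨i, _, rfl⟩ := Finset.mem_image.mp hv
        exact hd i
      · rw [Finset.card_image_of_injective _ hinj, Finset.card_univ, Fintype.card_fin]
        exact hcardP
    have hcard : (insert u P).card = t := by
      rw [hPeq, Finset.card_image_of_injective _ hinj, Finset.card_univ, Fintype.card_fin]
    have hu_eq : u = Sum.inl ⟨m, d m⟩ := by
      have hu : u ∈ univ.image (fun i : Fin t => (Sum.inl ⟨i, d i⟩ : BV C)) := by
        rw [← hPeq]
        exact Finset.mem_insert_self _ _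
      obtain ⟨i, _, hi⟩ := Finset.mem_image.mp hu
      subst hi
      simp only [typeOf, Sum.inl.injEq] at hum
      subst hum
      rfl
    have hfail : ∃ i j : Fin t, i < j ∧ C.lamL i j (d i) ≠ C.lamR i j (d j) := by
      by_contra hcon
      push Not at hcon
      exact hC ⟨d, hcon⟩
    obtain ⟨i, j, hij, hne⟩ := hfail
    have hqi : inQ C i j (C.lamR i j (d j)) (Sum.inl ⟨i, d i⟩) = false := by
      rw [inQ_left C hij]
      exact decide_eq_false hne
    have hqj : inQ C i j (C.lamR i j (d j)) (Sum.inl ⟨j, d j⟩) = true := by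
      rw [inQ_right C hij]
      exact decide_eq_true rfl
    choose y hyc hyr hyv using exists_y C hij (C.lamR i j (d j))
    have hvan : ∀ l i', i' ≠ l → ∀ a, y l (Sum.inl ⟨i', d i'⟩) a = false := by
      intro l i' hil a
      refine hyv l _ a ⟨i', rfl⟩ ?_ ?_ ?_
      · intro h
        exact hil (Sum.inl.inj h)
      · intro h
        have h : i' = i := Sum.inl.inj h
        subst h
        exact hqi
      · intro h
        have h : i' = j := Sum.inl.inj h
        subst h
        exact hqj
    have hD0 : ∀ i', Dfct C i j (C.lamR i j (d j)) (Sum.inl ⟨i', d i'⟩) = 0 := by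
      intro i'
      unfold Dfct
      rw [if_neg, if_neg, add_zero]
      · rintro ⟨h, h'⟩
        have h : i' = j := Sum.inl.inj h
        subst h
        rw [hqj] at h'
        exact Bool.noConfusion h'
      · rintro ⟨h, h'⟩
        have h : i' = i := Sum.inl.inj h
        subst h
        rw [hqi] at h'
        exact Bool.noConfusion h'
    have hPvan : ∀ v ∈ P, ∀ a, y m v a = false := by
      intro v hv a
      have hv' : v ∈ univ.image (fun i : Fin t => (Sum.inl ⟨i, d i⟩ : BV C)) := by
        rw [← hPeq]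
        exact Finset.mem_insert_of_mem hv
      obtain ⟨i', _, rfl⟩ := Finset.mem_image.mp hv'
      apply hvan
      rintro rfl
      exact hm _ hv rfl
    refine ⟨fun v a => xor (x v a) (y m v a), Or.inr ⟨hcard, cons_xor C hx.1 (hyc m), ?_, ?_⟩, ?_⟩
    · intro v hv
      rw [hPeq] at hv
      obtain ⟨i', _, rfl⟩ := Finset.mem_image.mp hv
      rw [rs_xor, hx.2, hyr, hD0]
      generalize (if typeOf C (Sum.inl ⟨i', d i'⟩) = Sum.inl m then (1 : ZMod 2) else 0) = A
      generalize (if liftStarParity t (typeOf C (Sum.inl ⟨i', d i'⟩)) = true then (1 : ZMod 2) else 0) = B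
      revert A B
      decide
    · intro r hr
      rw [hPeq] at hr
      obtain ⟨l, _, rfl⟩ := Finset.mem_image.mp hr
      have hmem : ∀ v ∈ (insert u P).erase (Sum.inl ⟨l, d l⟩), ∃ i', i' ≠ l ∧ v = Sum.inl ⟨i', d i'⟩ := by
        intro v hv
        obtain ⟨hv1, hv2⟩ := Finset.mem_erase.mp hv
        rw [hPeq] at hv2
        obtain ⟨i', _, rfl⟩ := Finset.mem_image.mp hv2
        refine ⟨i', ?_, rfl⟩
        rintro rfl
        exact hv1 rfl
      refine ⟨l, ?_, fun v a => xor (xor (x v a) (y m v a)) (y l v a),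
        ⟨cons_xor C (cons_xor C hx.1 (hyc m)) (hyc l), ?_⟩, ?_⟩
      · intro v hv
        obtain ⟨i', hi', rfl⟩ := hmem v hv
        intro h
        exact hi' (Sum.inl.inj h)
      · intro v
        rw [rs_xor C (fun v a => xor _ _) _ v, rs_xor, hx.2, hyr, hyr]
        generalize Dfct C i j (C.lamR i j (d j)) v = D
        generalize (if typeOf C v = Sum.inl m then (1 : ZMod 2) else 0) = A
        generalize (if typeOf C v = Sum.inl l then (1 : ZMod 2) else 0) = A'
        generalize (if liftStarParity t (typeOf C v) = true then (1 : ZMod 2) else 0) = B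
        revert A B A' D
        decide
      · intro v hv a
        obtain ⟨i', hi', rfl⟩ := hmem v hv
        simp only [hvan l i' hi' a, Bool.xor_false]
    · intro v hv a
      simp only [hPvan v hv a, Bool.xor_false]
      exact (hs v hv a).symm

/-! ### from the shift system to a pebble system on the lifts -/

variable (C)

/-- underlying data of a lift vertex. -/
abbrev SV : Type := Σ u : BV C, (Nbr (typeOf C u) → Bool)

/-- shift of the tag. -/
def shp (s : BV C → TV t → Bool) (x : SV C) : SV C :=
  ⟨x.1, fun a => xor (x.2 a) (s x.1 a.1)⟩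

theorem shp_shp (s : BV C → TV t → Bool) (x : SV C) : shp C s (shp C s x) = x := by
  rcases x with ⟨u, z⟩
  simp [shp]

theorem shp_inj (s : BV C → TV t → Bool) {x y : SV C} (h : shp C s x = shp C s y) : x = y := by
  rw [← shp_shp C s x, h, shp_shp]

theorem shp_congr {s s' : BV C → TV t → Bool} {x : SV C} (h : ∀ a, s x.1 a = s' x.1 a) :
    shp C s x = shp C s' x := by
  unfold shp
  simp only [h]

/-- adjacency on the underlying data. -/
def sAdj (x y : SV C) : Bool :=
  decide (∃ h : tAdj (typeOf C x.1) (typeOf C y.1) = true,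
    ∃ h' : tAdj (typeOf C y.1) (typeOf C x.1) = true,
      bAdj C x.1 y.1 = true ∧ x.2 ⟨typeOf C y.1, h⟩ = y.2 ⟨typeOf C x.1, h'⟩)

theorem liftAdj_eq (b : TV t → Bool) (x y : LiftV C b) : liftAdj C b x y = sAdj C x.1 y.1 := rfl

theorem sAdj_shp (s : BV C → TV t → Bool) (x y : SV C)
    (h : bAdj C x.1 y.1 = true → s x.1 (typeOf C y.1) = s y.1 (typeOf C x.1)) :
    sAdj C (shp C s x) (shp C s y) = sAdj C x y := by
  unfold sAdj
  refine decide_eq_decide.mpr ?_
  constructor
  · rintro ⟨h1, h2, h3, h4⟩
    refine ⟨h1, h2, h3, ?_⟩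
    have h5 := h h3
    simp only [shp] at h4
    rw [h5] at h4
    exact Bool.xor_left_inj.mp h4
  · rintro ⟨h1, h2, h3, h4⟩
    refine ⟨h1, h2, h3, ?_⟩
    have h5 := h h3
    simp only [shp]
    rw [h5, h4]

theorem par_shp (s : BV C → TV t → Bool) (x : SV C) :
    par (shp C s x).2 = par x.2 + rs C s x.1 := by
  rw [rs_eq_par]
  exact par_xor _ _

/-- the bijection of the two lifts given by a valid shift. -/
def shiftEquiv (σ : BV C → TV t → Bool)
    (hσ : ∀ u, rs C σ u = if liftStarParity t (typeOf C u) = true then 1 else 0) :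
    LiftV C (lift0Parity t) ≃ LiftV C (liftStarParity t) where
  toFun x := ⟨shp C σ x.1, by
    have h := (par_eq_iff _ _).mp x.2
    refine (par_eq_iff _ _).mpr ?_
    have h' := par_shp C σ x.1
    rw [h, hσ] at h'
    refine Eq.trans h' ?_
    simp [lift0Parity]
    rfl⟩
  invFun y := ⟨shp C σ y.1, by
    have h := (par_eq_iff _ _).mp y.2
    refine (par_eq_iff _ _).mpr ?_
    have h' := par_shp C σ y.1
    rw [h, hσ] at h'
    refine Eq.trans h' ?_
    by_cases hb : liftStarParity t (typeOf C y.1.1) = true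
    · simp [lift0Parity, hb]
      decide
    · simp [lift0Parity, hb]⟩
  left_inv x := Subtype.ext (shp_shp C σ x.1)
  right_inv y := Subtype.ext (shp_shp C σ y.1)

/-- **Duplicator side**: without a successful choice there is a pebble system with `t` pebbles
between the two lifts. -/
theorem exists_pebble_system (hC : ¬ C.Successful) (ht : 0 < t) :
    ∃ R : Finset (LiftV C (lift0Parity t) × LiftV C (liftStarParity t)) → Prop,
      R ∅ ∧ (∀ P Q, R P → Q ⊆ P → R Q) ∧
      (∀ P, R P → ∀ p ∈ P, ∀ q ∈ P, (p.1 = q.1 ↔ p.2 = q.2)) ∧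
      (∀ P, R P → ∀ p ∈ P, ∀ q ∈ P,
        liftAdj C (lift0Parity t) p.1 q.1 = liftAdj C (liftStarParity t) p.2 q.2) ∧
      (∀ P, R P → P.card < t →
        ∃ f : LiftV C (lift0Parity t) ≃ LiftV C (liftStarParity t), ∀ z, R (insert (z, f z) P)) := by
  refine ⟨fun S => ∃ s, Shf C (S.image fun p => p.1.1.1) s ∧ ∀ p ∈ S, p.2.1 = shp C s p.1.1,
    ?_, ?_, ?_, ?_, ?_⟩
  · obtain ⟨s, hs⟩ := Shf.empty (C := C) ht
    exact ⟨s, by simpa using hs, by simp⟩
  · rintro P Q ⟨s, hs, hp⟩ hQ
    exact ⟨s, hs.mono (Finset.image_subset_image hQ), fun p hpQ => hp p (hQ hpQ)⟩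
  · rintro P ⟨s, hs, hP⟩ p hp q hq
    constructor
    · intro h
      apply Subtype.ext
      rw [hP p hp, hP q hq, h]
    · intro h
      apply Subtype.ext
      apply shp_inj C s
      rw [← hP p hp, ← hP q hq, h]
  · rintro P ⟨s, hs, hP⟩ p hp q hq
    rw [liftAdj_eq, liftAdj_eq, hP p hp, hP q hq, sAdj_shp]
    intro hb
    exact hs.cons (Finset.mem_image_of_mem (fun p : LiftV C (lift0Parity t) × LiftV C (liftStarParity t) => p.1.1.1) hp)
      (Finset.mem_image_of_mem (fun p : LiftV C (lift0Parity t) × LiftV C (liftStarParity t) => p.1.1.1) hq) hb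
  · rintro P ⟨s, hs, hP⟩ hcard
    have hcard' : (P.image fun p => p.1.1.1).card < t := lt_of_le_of_lt Finset.card_image_le hcard
    choose s' hs' hs'' using fun u => hs.ext hC hcard' u
    have hσ : ∀ u, rs C (fun u a => s' u u a) u =
        if liftStarParity t (typeOf C u) = true then 1 else 0 := by
      intro u
      rw [← (hs' u).valid (Finset.mem_insert_self _ _)]
      exact rs_congr C fun _ => rfl
    refine ⟨shiftEquiv C (fun u a => s' u u a) hσ, fun z => ⟨s' z.1.1, ?_, ?_⟩⟩
    · rw [Finset.image_insert]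
      exact hs' z.1.1
    · intro p hp
      rcases Finset.mem_insert.mp hp with rfl | hp
      · exact shp_congr C fun a => rfl
      · rw [hP p hp]
        apply shp_congr
        intro a
        exact (hs'' z.1.1 p.1.1.1 (Finset.mem_image_of_mem
          (fun p : LiftV C (lift0Parity t) × LiftV C (liftStarParity t) => p.1.1.1) hp) a).symm

/-- **Duplicator side**, packaged as `PebSys`. -/
theorem exists_pebSys (hC : ¬ C.Successful) (ht : 0 < t) :
    ∃ R, R290Z.PebSys (liftAdj C (lift0Parity t)) (liftAdj C (liftStarParity t)) t R := by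
  obtain ⟨R, h1, h2, h3, h4, h5⟩ := exists_pebble_system C hC ht
  exact ⟨R, ⟨h1, fun {P Q} => h2 P Q, fun {P} => h3 P, fun {P} => h4 P, fun {P} => h5 P⟩⟩

end Crest.Agent.R290.ZD
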