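import Crest.Agent.R290.ZVal

/-!
S0438, success side, part 1: good tuples in the parity lifts.
-/

set_option autoImplicit false

namespace Crest.Agent.R290.Z

open Crest.WLRefine Crest.WLRefine.ParityLift Finset

/-! ### Common neighbour counts and good tuples -/

open Classical in
/-- number of common neighbours of the `v j`, `j ∈ T` -/
noncomputable def cn {V : Type*} [Fintype V] (adj : V → V → Bool) {ι : Type*} (T : Finset ι)
    (v : ι → V) : ℕ :=
  (univ.filter fun z => ∀ j ∈ T, adj z (v j) = true).card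

/-- a clique all of whose triples have a number of common neighbours congruent to 3 modulo 4 -/
def Good {V : Type*} [Fintype V] (adj : V → V → Bool) {ι : Type*} (v : ι → V) : Prop :=
  (∀ i j, i ≠ j → adj (v i) (v j) = true) ∧ ∀ T : Finset ι, T.card = 3 → cn adj T v % 4 = 3

theorem cn_comp {V : Type*} [Fintype V] (adj : V → V → Bool) {ι κ : Type*} [DecidableEq κ]
    (T : Finset ι) (v : κ → V) (e : ι → κ) : cn adj (T.image e) v = cn adj T (v ∘ e) := by
  classical
  unfold cn
  congr 1
  apply Finset.filter_congr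
  intro z _
  simp

theorem Good.comp {V : Type*} [Fintype V] {adj : V → V → Bool} {ι κ : Type*} 
    {v : κ → V} (h : Good adj v) (e : ι → κ) (he : Function.Injective e) : Good adj (v ∘ e) := by
  classical
  refine ⟨fun i j hij => h.1 _ _ (fun h' => hij (he h')), fun T hT => ?_⟩
  rw [← cn_comp]
  apply h.2
  rw [Finset.card_image_of_injective _ he, hT]

/-- Two halvings. -/
theorem four_dvd_card {α : Type*} [DecidableEq α] (F : Finset α) (p q : α → Bool) (σ τ : α → α)
    (hσ : ∀ a ∈ F, σ a ∈ F) (hσσ : ∀ a ∈ F, σ (σ a) = a) (hσp : ∀ a ∈ F, p (σ a) = !(p a))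
    (hτ : ∀ a ∈ F, τ a ∈ F) (hττ : ∀ a ∈ F, τ (τ a) = a) (hτp : ∀ a ∈ F, p (τ a) = p a)
    (hτq : ∀ a ∈ F, q (τ a) = !(q a)) : 4 ∣ F.card := by
  have half : ∀ (G : Finset α) (r : α → Bool) (ρ : α → α), (∀ a ∈ G, ρ a ∈ G) →
      (∀ a ∈ G, ρ (ρ a) = a) → (∀ a ∈ G, r (ρ a) = !(r a)) →
      G.card = 2 * (G.filter fun a => r a = true).card := by
    intro G r ρ h1 h2 h3
    have h4 : (G.filter fun a => r a = true).card = (G.filter fun a => ¬ r a = true).card := by
      apply Finset.card_bij (fun a _ => ρ a)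
      · intro a ha
        rw [mem_filter] at ha ⊢
        refine ⟨h1 a ha.1, ?_⟩
        rw [h3 a ha.1, ha.2]
        simp
      · intro a1 h1' a2 h2' h
        rw [mem_filter] at h1' h2'
        rw [← h2 a1 h1'.1, ← h2 a2 h2'.1, h]
      · intro a ha
        rw [mem_filter] at ha
        refine ⟨ρ a, ?_, h2 a ha.1⟩
        rw [mem_filter]
        refine ⟨h1 a ha.1, ?_⟩
        rw [h3 a ha.1]
        simpa using ha.2
    have h5 := Finset.card_filter_add_card_filter_not (s := G) (fun a => r a = true)
    omega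
  have e1 := half F p σ hσ hσσ hσp
  have e2 := half (F.filter fun a => p a = true) q τ
    (by
      intro a ha
      rw [mem_filter] at ha ⊢
      exact ⟨hτ a ha.1, by rw [hτp a ha.1]; exact ha.2⟩)
    (by
      intro a ha
      rw [mem_filter] at ha
      exact hττ a ha.1)
    (by
      intro a ha
      rw [mem_filter] at ha
      exact hτq a ha.1)
  rw [e1, e2]
  exact ⟨_, by ring⟩

variable {t : ℕ} {C : ChoiceSystem t} {b : TV t → Bool}

/-- version of `exists_mk` with sums in `ZMod 2` -/
theorem exists_mk' (u : BV C) (f : TV t → Bool)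
    (hf : ∀ c, tAdj (typeOf C u) c = false → f c = false)
    (hp : ∑ c : TV t, (if f c = true then (1 : ZMod 2) else 0) = if b (typeOf C u) = true then 1 else 0) :
    ∃ x : LiftV C b, bs x = u ∧ ∀ c, val x c = f c := by
  apply exists_mk u f hf
  rw [Finset.sum_boole] at hp
  have h0 : (((univ.filter fun c : TV t => f c = true).card % 2 : ℕ) : ZMod 2)
      = (((b (typeOf C u)).toNat : ℕ) : ZMod 2) := by
    have h2 : (((univ.filter fun c : TV t => f c = true).card : ℕ) : ZMod 2)
      = (((univ.filter fun c : TV t => f c = true).card % 2 : ℕ) : ZMod 2) := by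
      rw [ZMod.natCast_eq_natCast_iff]
      exact (Nat.mod_modEq _ _).symm
    rw [← h2, hp]
    cases b (typeOf C u) <;> simp
  have h1 := (ZMod.natCast_eq_natCast_iff _ _ _).1 h0
  have h2 : (univ.filter fun c : TV t => f c = true).card % 2 < 2 := Nat.mod_lt _ (by norm_num)
  have h3 : (b (typeOf C u)).toNat < 2 := by cases b (typeOf C u) <;> simp
  unfold Nat.ModEq at h1
  rw [Nat.mod_eq_of_lt h2, Nat.mod_eq_of_lt h3] at h1
  exact h1

theorem exists_flip (c1 c2 : TV t) (x : LiftV C b) (h12 : c1 ≠ c2)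
    (h1 : tAdj (ty x) c1 = true) (h2 : tAdj (ty x) c2 = true) :
    ∃ y : LiftV C b, bs y = bs x ∧
      ∀ c, val y c = xor (val x c) (decide (c = c1) || decide (c = c2)) := by
  apply exists_mk'
  · intro c hc
    have : val x c = false := val_of_not x hc
    rw [this]
    have e1 : c ≠ c1 := by
      rintro rfl
      rw [ty_eq, hc] at h1
      exact Bool.false_ne_true h1
    have e2 : c ≠ c2 := by
      rintro rfl
      rw [ty_eq, hc] at h2
      exact Bool.false_ne_true h2
    simp [e1, e2]
  · have hs := sum_v2 x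
    rw [ty_eq] at hs
    rw [← hs]
    have : ∀ c : TV t, (if (xor (val x c) (decide (c = c1) || decide (c = c2))) = true then (1 : ZMod 2) else 0)
        = v2 x c + ((if c = c1 then 1 else 0) + (if c = c2 then 1 else 0)) := by
      intro c
      unfold v2
      by_cases e1 : c = c1
      · have e2 : c ≠ c2 := by rintro rfl; exact h12 e1.symm
        cases val x c <;> simp [e1, h12]
        decide
      · by_cases e2 : c = c2
        · cases val x c <;> simp [e2]
          · intro h; exact absurd h h12.symm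
          · have := h12.symm
            simp [this]
            decide
        · cases val x c <;> simp [e1, e2]
    rw [Finset.sum_congr rfl (fun c _ => this c), Finset.sum_add_distrib, Finset.sum_add_distrib]
    simp
    exact CharTwo.add_self_eq_zero _

open Classical in
/-- flip the tag at the two coordinates `c1 ≠ c2` -/
noncomputable def flip (c1 c2 : TV t) (x : LiftV C b) : LiftV C b :=
  if h : c1 ≠ c2 ∧ tAdj (ty x) c1 = true ∧ tAdj (ty x) c2 = true then
    Classical.choose (exists_flip c1 c2 x h.1 h.2.1 h.2.2) else x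

theorem flip_spec (c1 c2 : TV t) (x : LiftV C b) (h12 : c1 ≠ c2)
    (h1 : tAdj (ty x) c1 = true) (h2 : tAdj (ty x) c2 = true) :
    bs (flip c1 c2 x) = bs x ∧
      ∀ c, val (flip c1 c2 x) c = xor (val x c) (decide (c = c1) || decide (c = c2)) := by
  unfold flip
  rw [dif_pos ⟨h12, h1, h2⟩]
  exact Classical.choose_spec (exists_flip c1 c2 x h12 h1 h2)

theorem flip_flip (c1 c2 : TV t) (x : LiftV C b) (h12 : c1 ≠ c2)
    (h1 : tAdj (ty x) c1 = true) (h2 : tAdj (ty x) c2 = true) :
    flip c1 c2 (flip c1 c2 x) = x := by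
  obtain ⟨e1, e2⟩ := flip_spec c1 c2 x h12 h1 h2
  have h1' : tAdj (ty (flip c1 c2 x)) c1 = true := by rw [ty_eq, e1]; exact h1
  have h2' : tAdj (ty (flip c1 c2 x)) c2 = true := by rw [ty_eq, e1]; exact h2
  obtain ⟨e3, e4⟩ := flip_spec c1 c2 (flip c1 c2 x) h12 h1' h2'
  apply ext_bs_val
  · rw [e3, e1]
  · intro c
    rw [e4, e2]
    cases val x c <;> cases (decide (c = c1) || decide (c = c2)) <;> rfl

/-! ### Helpers over a triple -/

/-- the three mains of a helper -/
def mains (h : Helper t) : Finset (Fin t) := {h.1.1, h.1.2.1, h.1.2.2}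

theorem card_mains (h : Helper t) : (mains h).card = 3 := by
  obtain ⟨⟨i, j, l⟩, h1, h2, h3⟩ := h
  simp only at h1 h2 h3
  unfold mains
  rw [Finset.card_eq_three]
  exact ⟨i, j, l, h1.ne, Ne.symm h2, Ne.symm h3, rfl⟩

theorem tAdj_inr_inl (h : Helper t) (i : Fin t) : tAdj (Sum.inr h) (Sum.inl i) = true ↔ i ∈ mains h := by
  simp [tAdj, mains]

/-- helpers over a set of mains -/
def ovr (T : Finset (Fin t)) : Finset (Helper t) := univ.filter fun h => mains h = T

theorem mem_ovr (T : Finset (Fin t)) (h : Helper t) : h ∈ ovr T ↔ mains h = T := by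
  simp [ovr]

theorem card_ovr (T : Finset (Fin t)) (hT : T.card = 3) : (ovr T).card = 3 := by
  rw [← hT]
  apply Finset.card_bij (fun h _ => h.1.2.2)
  · intro h hh
    rw [mem_ovr] at hh
    rw [← hh]
    simp [mains]
  · rintro ⟨⟨i, j, l⟩, h1, h2, h3⟩ hh ⟨⟨i', j', l'⟩, h1', h2', h3'⟩ hh' h
    simp only at h1 h2 h3 h1' h2' h3' h
    subst h
    replace hh := (mem_ovr _ _).1 hh
    replace hh' := (mem_ovr _ _).1 hh'
    simp only [mains] at hh hh'
    have e := hh.trans hh'.symm
    have m1 : i ∈ ({i', j', l} : Finset (Fin t)) := by rw [← e]; simp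
    have m2 : j ∈ ({i', j', l} : Finset (Fin t)) := by rw [← e]; simp
    simp only [mem_insert, mem_singleton] at m1 m2
    have e1 : i = i' ∧ j = j' := by
      rcases m1 with m1 | m1 | m1 <;> rcases m2 with m2 | m2 | m2
      · subst m1; exact absurd h1 (by rw [m2]; exact lt_irrefl _)
      · exact ⟨m1, m2⟩
      · exact absurd m2.symm h3
      · rw [m1, m2] at h1
        exact absurd h1 (not_lt.2 h1'.le)
      · rw [m1, m2] at h1
        exact absurd h1 (lt_irrefl _)
      · exact absurd m2.symm h3
      · exact absurd m1.symm h2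
      · exact absurd m1.symm h2
      · exact absurd m1.symm h2
    obtain ⟨rfl, rfl⟩ := e1
    rfl
  · intro l hl
    have hc : (T.erase l).card = 2 := by rw [Finset.card_erase_of_mem hl, hT]
    obtain ⟨i, j, hij, he⟩ := Finset.card_eq_two.1 hc
    have hT' : T = insert l {i, j} := by rw [← he, Finset.insert_erase hl]
    have hli : l ≠ i := by
      rintro rfl
      have : l ∈ T.erase l := by rw [he]; simp
      simp at this
    have hlj : l ≠ j := by
      rintro rfl
      have : l ∈ T.erase l := by rw [he]; simp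
      simp at this
    rcases lt_or_gt_of_ne hij with h | h
    · refine ⟨⟨(i, j, l), h, hli, hlj⟩, (mem_ovr _ _).2 ?_, rfl⟩
      rw [hT']
      ext x
      simp only [mains, mem_insert, mem_singleton]
      tauto
    · refine ⟨⟨(j, i, l), h, hlj, hli⟩, (mem_ovr _ _).2 ?_, rfl⟩
      rw [hT']
      ext x
      simp only [mains, mem_insert, mem_singleton]
      tauto

/-- a main has at least six template neighbours -/
theorem six_le_nbr (ht : 4 ≤ t) (i : Fin t) :
    6 ≤ (univ.filter fun c : TV t => tAdj (Sum.inl i) c = true).card := by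
  classical
  have h1 : (univ.erase i : Finset (Fin t)).card = t - 1 := by
    rw [Finset.card_erase_of_mem (mem_univ _), Finset.card_univ, Fintype.card_fin]
  obtain ⟨T0, hT0, hT0c⟩ := Finset.exists_subset_card_eq (s := (univ.erase i : Finset (Fin t))) (n := 2)
    (by omega)
  have hi : i ∉ T0 := fun h => by simpa using hT0 h
  have hTc : (insert i T0).card = 3 := by rw [Finset.card_insert_of_notMem hi, hT0c]
  have hov := card_ovr (insert i T0) hTc
  have hsub : (univ.erase i : Finset (Fin t)).map ⟨Sum.inl, Sum.inl_injective⟩ ∪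
      (ovr (insert i T0)).map ⟨Sum.inr, Sum.inr_injective⟩ ⊆
      (univ.filter fun c : TV t => tAdj (Sum.inl i) c = true) := by
    intro c hc
    rw [mem_union, mem_map, mem_map] at hc
    rw [mem_filter]
    refine ⟨mem_univ _, ?_⟩
    rcases hc with ⟨j, hj, rfl⟩ | ⟨h, hh, rfl⟩
    · simp only [mem_erase, mem_univ, and_true] at hj
      simp [tAdj, Ne.symm hj]
    · rw [mem_ovr] at hh
      rw [tAdj_symm]
      simp only [Function.Embedding.coeFn_mk]
      rw [tAdj_inr_inl, hh]
      simp
  have hdisj : Disjoint ((univ.erase i : Finset (Fin t)).map ⟨Sum.inl, Sum.inl_injective⟩)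
      ((ovr (insert i T0)).map ⟨(Sum.inr : Helper t → TV t), Sum.inr_injective⟩) := by
    rw [Finset.disjoint_left]
    intro c h1 h2
    rw [mem_map] at h1 h2
    obtain ⟨j, _, rfl⟩ := h1
    obtain ⟨h, _, hh⟩ := h2
    cases hh
  have := Finset.card_le_card hsub
  rw [Finset.card_union_of_disjoint hdisj, Finset.card_map, Finset.card_map, h1, hov] at this
  omega

/-- Common neighbours of main type of at most three vertices: their number is divisible by 4. -/
theorem main_part (ht : 4 ≤ t) {ι : Type*} (T : Finset ι) (hT : T.card = 3) (v : ι → LiftV C b)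
    (i : Fin t) (F : Finset (LiftV C b))
    (hF : ∀ z, z ∈ F ↔ ty z = Sum.inl i ∧ ∀ j ∈ T, liftAdj C b z (v j) = true) : 4 ∣ F.card := by
  classical
  set N := univ.filter fun c : TV t => tAdj (Sum.inl i) c = true with hN
  have hN6 : 6 ≤ N.card := six_le_nbr ht i
  have h3 : 3 ≤ (N \ T.image fun j => ty (v j)).card := by
    have h1 := Finset.le_card_sdiff (T.image fun j => ty (v j)) N
    have h2 : (T.image fun j => ty (v j)).card ≤ 3 := hT ▸ Finset.card_image_le
    omega
  obtain ⟨E, hE, hEc⟩ := Finset.exists_subset_card_eq h3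
  obtain ⟨c1, c2, c3, h12, h13, h23, rfl⟩ := Finset.card_eq_three.1 hEc
  have hm : ∀ c ∈ ({c1, c2, c3} : Finset (TV t)), tAdj (Sum.inl i) c = true ∧
      ∀ j ∈ T, ty (v j) ≠ c := by
    intro c hc
    have := hE hc
    rw [mem_sdiff, hN, mem_filter, mem_image] at this
    refine ⟨this.1.2, fun j hj h => this.2 ⟨j, hj, h⟩⟩
  obtain ⟨a1, d1⟩ := hm c1 (by simp)
  obtain ⟨a2, d2⟩ := hm c2 (by simp)
  obtain ⟨a3, d3⟩ := hm c3 (by simp)
  have pres : ∀ c c' : TV t, c ≠ c' → tAdj (Sum.inl i) c = true → tAdj (Sum.inl i) c' = true →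
      (∀ j ∈ T, ty (v j) ≠ c) → (∀ j ∈ T, ty (v j) ≠ c') → ∀ z ∈ F, flip c c' z ∈ F := by
    intro c c' hcc hc hc' hd hd' z hz
    rw [hF] at hz ⊢
    obtain ⟨hz1, hz2⟩ := hz
    obtain ⟨e1, e2⟩ := flip_spec c c' z hcc (by rw [hz1]; exact hc) (by rw [hz1]; exact hc')
    refine ⟨by rw [ty_eq, e1]; exact hz1, fun j hj => ?_⟩
    have := (liftAdj_iff _ _).1 (hz2 j hj)
    rw [liftAdj_iff, e1, e2]
    refine ⟨this.1, ?_⟩
    have n1 := hd j hj
    have n2 := hd' j hj
    have e3 : ty (flip c c' z) = ty z := by rw [ty_eq, e1]; rfl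
    rw [e3, this.2]
    simp [n1, n2]
  have hz1 : ∀ z ∈ F, ty z = Sum.inl i := fun z hz => ((hF z).1 hz).1
  apply four_dvd_card F (fun z => val z c1) (fun z => val z c2) (flip c1 c3) (flip c2 c3)
  · exact pres c1 c3 h13 a1 a3 d1 d3
  · intro z hz
    exact flip_flip c1 c3 z h13 (by rw [hz1 z hz]; exact a1) (by rw [hz1 z hz]; exact a3)
  · intro z hz
    obtain ⟨_, e2⟩ := flip_spec c1 c3 z h13 (by rw [hz1 z hz]; exact a1) (by rw [hz1 z hz]; exact a3)
    rw [e2]
    simp
  · exact pres c2 c3 h23 a2 a3 d2 d3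
  · intro z hz
    exact flip_flip c2 c3 z h23 (by rw [hz1 z hz]; exact a2) (by rw [hz1 z hz]; exact a3)
  · intro z hz
    obtain ⟨_, e2⟩ := flip_spec c2 c3 z h23 (by rw [hz1 z hz]; exact a2) (by rw [hz1 z hz]; exact a3)
    rw [e2]
    simp [h12, h13]
  · intro z hz
    obtain ⟨_, e2⟩ := flip_spec c2 c3 z h23 (by rw [hz1 z hz]; exact a2) (by rw [hz1 z hz]; exact a3)
    rw [e2]
    simp

open Classical in
/-- `cn` modulo 4 only counts the helper-type common neighbours. -/
theorem cn_mod (ht : 4 ≤ t) {ι : Type*} (T : Finset ι) (hT : T.card = 3) (v : ι → LiftV C b) :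
    cn (liftAdj C b) T v % 4 =
      (univ.filter fun z : LiftV C b => (∃ h, ty z = Sum.inr h) ∧
        ∀ j ∈ T, liftAdj C b z (v j) = true).card % 4 := by
  classical
  have key : (univ.filter fun z : LiftV C b => ∀ j ∈ T, liftAdj C b z (v j) = true).card
      = (univ.filter fun z : LiftV C b => (∃ h, ty z = Sum.inr h) ∧
        ∀ j ∈ T, liftAdj C b z (v j) = true).card +
        ∑ i : Fin t, (univ.filter fun z : LiftV C b => ty z = Sum.inl i ∧
        ∀ j ∈ T, liftAdj C b z (v j) = true).card := by
    rw [← Finset.card_biUnion]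
    · rw [← Finset.card_union_of_disjoint]
      · congr 1
        ext z
        simp only [mem_filter, mem_univ, true_and, mem_union, mem_biUnion]
        constructor
        · intro h
          rcases hty : ty z with i | h'
          · exact Or.inr ⟨i, rfl, h⟩
          · exact Or.inl ⟨⟨h', rfl⟩, h⟩
        · rintro (⟨_, h⟩ | ⟨i, _, h⟩) <;> exact h
      · rw [Finset.disjoint_left]
        intro z h1 h2
        simp only [mem_filter, mem_univ, true_and, mem_biUnion] at h1 h2
        obtain ⟨⟨h, hh⟩, _⟩ := h1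
        obtain ⟨i, hi, _⟩ := h2
        rw [hh] at hi
        cases hi
    · intro i _ j _ hij
      rw [Function.onFun, Finset.disjoint_left]
      intro z h1 h2
      simp only [mem_filter, mem_univ, true_and] at h1 h2
      apply hij
      have := h1.1.symm.trans h2.1
      exact Sum.inl_injective this
  unfold cn
  rw [key]
  have : 4 ∣ ∑ i : Fin t, (univ.filter fun z : LiftV C b => ty z = Sum.inl i ∧
        ∀ j ∈ T, liftAdj C b z (v j) = true).card := by
    apply Finset.dvd_sum
    intro i _
    apply main_part ht T hT v i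
    intro z
    simp
  omega

end Crest.Agent.R290.Z
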