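import Crest.Agent.R290.ZS1

/-!
S0438, success side, part 2: the even lift has a good tuple iff there is a successful choice,
the odd lift never has one.
-/

set_option autoImplicit false

namespace Crest.Agent.R290.Z

open Crest.WLRefine Crest.WLRefine.ParityLift Finset

variable {t : ℕ} {C : ChoiceSystem t} {b : TV t → Bool}

theorem eq_of_typeOf_inl {u : BV C} {i : Fin t} (h : typeOf C u = Sum.inl i) :
    ∃ m : Fin (C.dom i), u = Sum.inl ⟨i, m⟩ := by
  rcases u with ⟨i', m⟩ | q
  · simp only [typeOf, Sum.inl.injEq] at h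
    subst h
    exact ⟨m, rfl⟩
  · simp [typeOf] at h

theorem eq_of_typeOf_inr {u : BV C} {h : Helper t} (hu : typeOf C u = Sum.inr h) :
    ∃ q : Fin (C.lab h.1.1 h.1.2.1), u = Sum.inr ⟨h, q⟩ := by
  rcases u with m | ⟨h', q⟩
  · simp [typeOf] at hu
  · simp only [typeOf, Sum.inr.injEq] at hu
    subst hu
    exact ⟨q, rfl⟩

theorem agree_fst (h : Helper t) (q : Fin (C.lab h.1.1 h.1.2.1)) (m : Fin (C.dom h.1.1)) :
    bAdj C (Sum.inr ⟨h, q⟩) (Sum.inl ⟨h.1.1, m⟩) = true ↔ q = C.lamL h.1.1 h.1.2.1 m := by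
  have h1 := h.2.1
  have h2 := h.2.2.1
  unfold bAdj helperAgree
  rw [decide_eq_true_eq]
  constructor
  · rintro (⟨_, e⟩ | ⟨e, _⟩ | e)
    · exact e
    · exact absurd e h1.ne
    · exact absurd e.symm h2
  · intro e
    exact Or.inl ⟨rfl, e⟩

theorem agree_snd (h : Helper t) (q : Fin (C.lab h.1.1 h.1.2.1)) (m : Fin (C.dom h.1.2.1)) :
    bAdj C (Sum.inr ⟨h, q⟩) (Sum.inl ⟨h.1.2.1, m⟩) = true ↔ q = C.lamR h.1.1 h.1.2.1 m := by
  have h1 := h.2.1
  have h2 := h.2.2.2
  unfold bAdj helperAgree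
  rw [decide_eq_true_eq]
  constructor
  · rintro (⟨e, _⟩ | ⟨_, e⟩ | e)
    · exact absurd e h1.ne'
    · exact e
    · exact absurd e.symm h2
  · intro e
    exact Or.inr (Or.inl ⟨rfl, e⟩)

theorem agree_thd (h : Helper t) (q : Fin (C.lab h.1.1 h.1.2.1)) (m : Fin (C.dom h.1.2.2)) :
    bAdj C (Sum.inr ⟨h, q⟩) (Sum.inl ⟨h.1.2.2, m⟩) = true := by
  unfold bAdj helperAgree
  rw [decide_eq_true_eq]
  exact Or.inr (Or.inr rfl)

theorem mainAgree_iff {i j : Fin t} (hij : i < j) (m : Fin (C.dom i)) (m' : Fin (C.dom j)) :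
    bAdj C (Sum.inl ⟨i, m⟩) (Sum.inl ⟨j, m'⟩) = true ↔ C.lamL i j m = C.lamR i j m' := by
  simp only [bAdj, mainAgree, Bool.or_eq_true, decide_eq_true_eq]
  constructor
  · rintro (⟨_, e⟩ | ⟨e, _⟩)
    · exact e
    · exact absurd e (not_lt.2 hij.le)
  · intro e
    exact Or.inl ⟨hij, e⟩

/-- a triple containing a helper vertex has no helper-type common neighbour -/
theorem cn_helper (ht : 4 ≤ t) {ι : Type*} (T : Finset ι) (hT : T.card = 3) (v : ι → LiftV C b)
    {j0 : ι} (hj0 : j0 ∈ T) {h0 : Helper t} (hv : ty (v j0) = Sum.inr h0) :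
    cn (liftAdj C b) T v % 4 = 0 := by
  classical
  rw [cn_mod ht T hT v]
  rw [Finset.card_eq_zero.2]
  rw [Finset.filter_eq_empty_iff]
  rintro z _ ⟨⟨h, hh⟩, ha⟩
  have := tAdj_of_bAdj ((liftAdj_iff _ _).1 (ha j0 hj0)).1
  rw [← ty_eq, ← ty_eq, hh, hv] at this
  simp [tAdj] at this

theorem tAdj_of_liftAdj {x y : LiftV C b} (h : liftAdj C b x y = true) :
    tAdj (ty x) (ty y) = true := tAdj_of_bAdj ((liftAdj_iff _ _).1 h).1

/-- a helper vertex adjacent to given mains is determined by its type -/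
theorem helper_unique {v : Fin t → LiftV C b} (hv : ∀ i, ty (v i) = Sum.inl i) {h : Helper t}
    {z z' : LiftV C b} (hz : ty z = Sum.inr h) (hz' : ty z' = Sum.inr h)
    (ha : ∀ j ∈ mains h, liftAdj C b z (v j) = true)
    (ha' : ∀ j ∈ mains h, liftAdj C b z' (v j) = true) : z = z' := by
  obtain ⟨q, hq⟩ := eq_of_typeOf_inr (u := bs z) (by rw [← ty_eq]; exact hz)
  obtain ⟨q', hq'⟩ := eq_of_typeOf_inr (u := bs z') (by rw [← ty_eq]; exact hz')
  obtain ⟨m, hm⟩ := eq_of_typeOf_inl (u := bs (v h.1.1)) (by rw [← ty_eq]; exact hv _)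
  have hm1 : h.1.1 ∈ mains h := by simp [mains]
  have e1 := ((liftAdj_iff _ _).1 (ha _ hm1)).1
  have e2 := ((liftAdj_iff _ _).1 (ha' _ hm1)).1
  rw [hq, hm, agree_fst] at e1
  rw [hq', hm, agree_fst] at e2
  apply ext_bs_val
  · rw [hq, hq', e1, e2]
  · intro c
    by_cases hc : ∃ j ∈ mains h, c = Sum.inl j
    · obtain ⟨j, hj, rfl⟩ := hc
      have f1 := ((liftAdj_iff _ _).1 (ha _ hj)).2
      have f2 := ((liftAdj_iff _ _).1 (ha' _ hj)).2
      rw [hv] at f1 f2
      rw [f1, f2, hz, hz']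
    · have : tAdj (Sum.inr h) c = false := by
        rcases c with j | h'
        · rw [← Bool.not_eq_true, tAdj_inr_inl]
          intro hj
          exact hc ⟨j, hj, rfl⟩
        · rfl
      rw [val_of_not z (by rw [hz]; exact this), val_of_not z' (by rw [hz']; exact this)]

open Classical in
theorem card_helper_part {v : Fin t → LiftV C b} (hv : ∀ i, ty (v i) = Sum.inl i)
    (T : Finset (Fin t)) (hT : T.card = 3) :
    (univ.filter fun z : LiftV C b => (∃ h, ty z = Sum.inr h) ∧
        ∀ j ∈ T, liftAdj C b z (v j) = true).card =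
    ((ovr T).filter fun h => ∃ z : LiftV C b, ty z = Sum.inr h ∧
        ∀ j ∈ T, liftAdj C b z (v j) = true).card := by
  classical
  have hmains : ∀ (z : LiftV C b) (h : Helper t), ty z = Sum.inr h →
      (∀ j ∈ T, liftAdj C b z (v j) = true) → mains h = T := by
    intro z h hz ha
    symm
    apply Finset.eq_of_subset_of_card_le
    · intro j hj
      have := tAdj_of_liftAdj (ha j hj)
      rw [hz, hv, tAdj_inr_inl] at this
      exact this
    · rw [card_mains, hT]
  rw [← Finset.card_image_of_injOn (f := fun z : LiftV C b => ty z),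
    ← Finset.card_map ⟨(Sum.inr : Helper t → TV t), Sum.inr_injective⟩]
  · congr 1
    ext c
    simp only [mem_image, mem_filter, mem_univ, true_and, mem_map, Function.Embedding.coeFn_mk,
      mem_ovr]
    constructor
    · rintro ⟨z, ⟨⟨h, hz⟩, ha⟩, rfl⟩
      exact ⟨h, ⟨hmains z h hz ha, z, hz, ha⟩, hz.symm⟩
    · rintro ⟨h, ⟨_, z, hz, ha⟩, rfl⟩
      exact ⟨z, ⟨⟨h, hz⟩, ha⟩, hz⟩
  · intro z hz z' hz' e
    simp only [coe_filter, mem_univ, true_and, Set.mem_ofPred_eq] at hz hz' e
    obtain ⟨⟨h, hh⟩, ha⟩ := hz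
    obtain ⟨⟨h', hh'⟩, ha'⟩ := hz'
    have hhh : h = h' := by
      have := hh.symm.trans (e.trans hh')
      exact Sum.inr_injective this
    subst hhh
    have hm := hmains z h hh ha
    rw [← hm] at ha ha'
    exact helper_unique hv hh hh' ha ha'

/-- `cn ≡ 3 (mod 4)` means that all helpers over the triple have a common neighbour of their type. -/
theorem cn_eq_three_iff (ht : 4 ≤ t) {v : Fin t → LiftV C b} (hv : ∀ i, ty (v i) = Sum.inl i)
    (T : Finset (Fin t)) (hT : T.card = 3) :
    cn (liftAdj C b) T v % 4 = 3 ↔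
      ∀ h : Helper t, mains h = T → ∃ z : LiftV C b, ty z = Sum.inr h ∧
        ∀ j ∈ mains h, liftAdj C b z (v j) = true := by
  classical
  have h0 : cn (liftAdj C b) T v % 4 = ((ovr T).filter fun h => ∃ z : LiftV C b, ty z = Sum.inr h ∧
        ∀ j ∈ T, liftAdj C b z (v j) = true).card % 4 := by
    rw [cn_mod ht T hT v]
    congr 1
    convert card_helper_part hv T hT
  rw [h0]
  have h3 := card_ovr T hT
  have hle : ((ovr T).filter fun h => ∃ z : LiftV C b, ty z = Sum.inr h ∧
        ∀ j ∈ T, liftAdj C b z (v j) = true).card ≤ 3 := h3 ▸ Finset.card_filter_le _ _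
  constructor
  · intro h h' hh'
    have h4 : ((ovr T).filter fun h => ∃ z : LiftV C b, ty z = Sum.inr h ∧
        ∀ j ∈ T, liftAdj C b z (v j) = true) = ovr T := by
      apply Finset.eq_of_subset_of_card_le (Finset.filter_subset _ _)
      omega
    have h5 : h' ∈ ovr T := (mem_ovr _ _).2 hh'
    rw [← h4, mem_filter] at h5
    rw [hh']
    exact h5.2
  · intro h
    rw [Finset.filter_true_of_mem, h3]
    intro h' hh'
    rw [mem_ovr] at hh'
    have := h h' hh'
    rw [hh'] at this
    exact this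

/-- parity at a helper vertex -/
theorem helper_sum {v : Fin t → LiftV C b} (hv : ∀ i, ty (v i) = Sum.inl i) {h : Helper t}
    (hb : b (Sum.inr h) = false) {z : LiftV C b} (hz : ty z = Sum.inr h)
    (ha : ∀ j ∈ mains h, liftAdj C b z (v j) = true) :
    ∑ j ∈ mains h, v2 (v j) (Sum.inr h) = 0 := by
  have h1 := sum_v2 z
  rw [hz, hb] at h1
  simp only [Bool.false_eq_true, if_false] at h1
  rw [Fintype.sum_sum_type] at h1
  have h2 : ∑ h' : Helper t, v2 z (Sum.inr h') = 0 := by
    apply Finset.sum_eq_zero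
    intro h' _
    apply v2_of_not
    rw [hz]
    rfl
  have h3 : ∑ j : Fin t, v2 z (Sum.inl j) = ∑ j ∈ mains h, v2 z (Sum.inl j) := by
    symm
    apply Finset.sum_subset (Finset.subset_univ _)
    intro j _ hj
    apply v2_of_not
    rw [hz, ← Bool.not_eq_true, tAdj_inr_inl]
    exact hj
  rw [h2, add_zero, h3] at h1
  rw [← h1]
  apply Finset.sum_congr rfl
  intro j hj
  have f1 := ((liftAdj_iff _ _).1 (ha _ hj)).2
  rw [hv, hz] at f1
  rw [v2_eq_iff, f1]

/-- total parity -/
theorem total_parity {v : Fin t → LiftV C b} (hv : ∀ i, ty (v i) = Sum.inl i)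
    (hadj : ∀ i j, i ≠ j → liftAdj C b (v i) (v j) = true)
    (hh : ∀ h : Helper t, ∑ j ∈ mains h, v2 (v j) (Sum.inr h) = 0) :
    ∑ i : Fin t, (if b (Sum.inl i) = true then (1 : ZMod 2) else 0) = 0 := by
  have h1 : ∀ i, (if b (Sum.inl i) = true then (1 : ZMod 2) else 0)
      = ∑ j : Fin t, v2 (v i) (Sum.inl j) + ∑ h : Helper t, v2 (v i) (Sum.inr h) := by
    intro i
    have := sum_v2 (v i)
    rw [hv, Fintype.sum_sum_type] at this
    exact this.symm
  rw [Finset.sum_congr rfl (fun i _ => h1 i), Finset.sum_add_distrib]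
  have h2 : ∑ i : Fin t, ∑ j : Fin t, v2 (v i) (Sum.inl j) = 0 := by
    rw [← Finset.sum_product']
    apply Finset.sum_involution (fun (p : Fin t × Fin t) _ => (p.2, p.1))
    · rintro ⟨i, j⟩ _
      by_cases hij : i = j
      · subst hij
        exact CharTwo.add_self_eq_zero _
      · have f := ((liftAdj_iff _ _).1 (hadj i j hij)).2
        rw [hv, hv] at f
        have e : v2 (v i) (Sum.inl j) = v2 (v j) (Sum.inl i) := by rw [v2_eq_iff, f]
        simp only
        rw [e]
        exact CharTwo.add_self_eq_zero _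
    · rintro ⟨i, j⟩ _ hne heq
      have hij : j = i := by simpa using congrArg Prod.fst heq
      subst hij
      apply hne
      simp only
      apply v2_of_not
      rw [hv]
      exact tAdj_irrefl _
    · rintro ⟨i, j⟩ _
      simp
    · rintro ⟨i, j⟩ _
      rfl
  have h3 : ∑ i : Fin t, ∑ h : Helper t, v2 (v i) (Sum.inr h) = 0 := by
    rw [Finset.sum_comm]
    apply Finset.sum_eq_zero
    intro h _
    rw [← hh h]
    symm
    apply Finset.sum_subset (Finset.subset_univ _)
    intro j _ hj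
    apply v2_of_not
    rw [hv, tAdj_symm, ← Bool.not_eq_true, tAdj_inr_inl]
    exact hj
  rw [h2, h3, add_zero]

/-- In a good tuple every vertex has main type. -/
theorem Good.main_ty (ht : 4 ≤ t) {v : Fin t → LiftV C b} (hg : Good (liftAdj C b) v) (i : Fin t) :
    ∃ a : Fin t, ty (v i) = Sum.inl a := by
  rcases hty : ty (v i) with a | h
  · exact ⟨a, rfl⟩
  · exfalso
    obtain ⟨T, hT, hTc⟩ := Finset.exists_subset_card_eq (s := (univ.erase i : Finset (Fin t)))
      (n := 2) (by rw [Finset.card_erase_of_mem (mem_univ _), Finset.card_univ, Fintype.card_fin]; omega)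
    have hi : i ∉ T := fun h => by simpa using hT h
    have hTc' : (insert i T).card = 3 := by rw [Finset.card_insert_of_notMem hi, hTc]
    have h1 := hg.2 (insert i T) hTc'
    rw [cn_helper ht (insert i T) hTc' v (Finset.mem_insert_self i T) hty] at h1
    omega

/-- Normal form of a good tuple. -/
theorem Good.normalize (ht : 4 ≤ t) {v : Fin t → LiftV C b} (hg : Good (liftAdj C b) v) :
    ∃ v' : Fin t → LiftV C b, Good (liftAdj C b) v' ∧ ∀ i, ty (v' i) = Sum.inl i := by
  choose τ hτ using hg.main_ty ht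
  have hinj : Function.Injective τ := by
    intro i j hij
    by_contra hne
    have := tAdj_of_liftAdj (hg.1 i j hne)
    rw [hτ, hτ, hij, tAdj_irrefl] at this
    exact Bool.false_ne_true this
  have hbij : Function.Bijective τ := Finite.injective_iff_bijective.1 hinj
  let e := Equiv.ofBijective τ hbij
  refine ⟨v ∘ e.symm, hg.comp _ e.symm.injective, fun i => ?_⟩
  rw [Function.comp_apply, hτ]
  congr 1
  exact e.apply_symm_apply i

theorem not_good_star (ht : 4 ≤ t) (v : Fin t → LiftV C (liftStarParity t)) :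
    ¬ Good (liftAdj C (liftStarParity t)) v := by
  intro hg
  obtain ⟨v', hg', hv⟩ := hg.normalize ht
  have hh : ∀ h : Helper t, ∑ j ∈ mains h, v2 (v' j) (Sum.inr h) = 0 := by
    intro h
    have h1 := (cn_eq_three_iff ht hv (mains h) (card_mains h)).1 (hg'.2 _ (card_mains h)) h rfl
    obtain ⟨z, hz, ha⟩ := h1
    exact helper_sum hv (by simp [liftStarParity]) hz ha
  have h2 := total_parity hv hg'.1 hh
  have ht0 : 0 < t := by omega
  have h3 : ∀ i : Fin t, (if liftStarParity t (Sum.inl i) = true then (1 : ZMod 2) else 0)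
      = if i = ⟨0, ht0⟩ then 1 else 0 := by
    intro i
    simp [liftStarParity, ht0]
  rw [Finset.sum_congr rfl (fun i _ => h3 i)] at h2
  simp at h2

theorem exists_good (ht : 4 ≤ t) (hC : C.Successful) :
    ∃ v : Fin t → LiftV C (lift0Parity t), Good (liftAdj C (lift0Parity t)) v := by
  obtain ⟨d, hd⟩ := hC
  have mk : ∀ u : BV C, ∃ x : LiftV C (lift0Parity t), bs x = u ∧ ∀ c, val x c = false := by
    intro u
    apply exists_mk'
    · intros; rfl
    · simp [lift0Parity]
  choose V hV1 hV2 using mk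
  have hty : ∀ u, ty (V u) = typeOf C u := fun u => by rw [ty_eq, hV1]
  have adj_iff : ∀ u w, liftAdj C (lift0Parity t) (V u) (V w) = true ↔ bAdj C u w = true := by
    intro u w
    rw [liftAdj_iff, hV1, hV1, hV2, hV2]
    simp
  let v : Fin t → LiftV C (lift0Parity t) := fun i => V (Sum.inl ⟨i, d i⟩)
  have hv : ∀ i, ty (v i) = Sum.inl i := fun i => hty _
  refine ⟨v, fun i j hij => ?_, fun T hT => ?_⟩
  · rw [adj_iff]
    rcases lt_or_gt_of_ne hij with h | h
    · rw [mainAgree_iff h]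
      exact hd i j h
    · rw [bAdj_symm, mainAgree_iff h]
      exact hd j i h
  · rw [cn_eq_three_iff ht hv T hT]
    intro h hh
    refine ⟨V (Sum.inr ⟨h, C.lamL h.1.1 h.1.2.1 (d h.1.1)⟩), hty _, fun j hj => ?_⟩
    rw [adj_iff]
    simp only [mains, mem_insert, mem_singleton] at hj
    rcases hj with rfl | rfl | rfl
    · rw [agree_fst]
    · rw [agree_snd]
      exact hd _ _ h.2.1
    · exact agree_thd _ _ _

end Crest.Agent.R290.Z
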