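import Crest.Agent.R290.ZS2

/-!
S0438, success side, part 3: a good tuple is visible in the round-1 separate / round-2 joint colours.
-/

set_option autoImplicit false

namespace Crest.Agent.R290.Z

open Crest.WLRefine Crest.WLRefine.ParityLift Finset

theorem filter_congr_inst {α : Type*} {p q : α → Prop} (ip : DecidablePred p)
    (iq : DecidablePred q) (s : Multiset α) (h : ∀ x ∈ s, p x ↔ q x) :
    @Multiset.filter α p ip s = @Multiset.filter α q iq s := Multiset.filter_congr h

/-! ### Transport of good tuples -/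

theorem cn_embed {V W : Type*} [Fintype V] [Fintype W] {A : V → V → Bool} {B : W → W → Bool}
    (f : V → W) (hf : Function.Injective f) (hAB : ∀ x y, B (f x) (f y) = A x y)
    (hn : ∀ w y, B w (f y) = true → ∃ x, w = f x)
    {ι : Type*} (T : Finset ι) (hT : T.Nonempty) (v : ι → V) : cn B T (f ∘ v) = cn A T v := by
  classical
  unfold cn
  symm
  apply Finset.card_bij (fun x _ => f x)
  · intro x hx
    simp only [mem_filter, mem_univ, true_and, Function.comp_apply] at hx ⊢
    intro j hj
    rw [hAB]
    exact hx j hj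
  · intro x _ y _ h
    exact hf h
  · intro w hw
    simp only [mem_filter, mem_univ, true_and, Function.comp_apply] at hw
    obtain ⟨j0, hj0⟩ := hT
    obtain ⟨x, rfl⟩ := hn w (v j0) (hw j0 hj0)
    refine ⟨x, ?_, rfl⟩
    simp only [mem_filter, mem_univ, true_and]
    intro j hj
    rw [← hAB]
    exact hw j hj

theorem good_embed {V W : Type*} [Fintype V] [Fintype W] {A : V → V → Bool} {B : W → W → Bool}
    (f : V → W) (hf : Function.Injective f) (hAB : ∀ x y, B (f x) (f y) = A x y)
    (hn : ∀ w y, B w (f y) = true → ∃ x, w = f x)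
    {ι : Type*} (v : ι → V) : Good B (f ∘ v) ↔ Good A v := by
  unfold Good
  simp only [Function.comp_apply, hAB]
  apply and_congr_right
  intro _
  apply forall_congr'
  intro T
  constructor
  · intro h hT
    have := h hT
    rw [cn_embed f hf hAB hn T (Finset.card_pos.1 (by omega)) v] at this
    exact this
  · intro h hT
    rw [cn_embed f hf hAB hn T (Finset.card_pos.1 (by omega)) v]
    exact h hT

theorem good_asMatrix {V : Type} [Fintype V] (A : V → V → Bool) {ι : Type*} (v : ι → V) :
    Good (asMatrix A) (Fintype.equivFin V ∘ v) ↔ Good A v := by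
  apply good_embed (Fintype.equivFin V) (Fintype.equivFin V).injective
  · intro x y
    simp [asMatrix]
  · intro w y _
    exact ⟨(Fintype.equivFin V).symm w, by simp⟩

theorem good_inl {n m : ℕ} (G : Fin n → Fin n → Bool) (H : Fin m → Fin m → Bool) {ι : Type*}
    (v : ι → Fin n) : Good (unionAdj G H) (Sum.inl ∘ v) ↔ Good G v := by
  apply good_embed Sum.inl Sum.inl_injective
  · intro x y
    rfl
  · intro w y h
    rcases w with x | x
    · exact ⟨x, rfl⟩
    · simp [unionAdj] at h

theorem good_inr {n m : ℕ} (G : Fin n → Fin n → Bool) (H : Fin m → Fin m → Bool) {ι : Type*}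
    (v : ι → Fin m) : Good (unionAdj G H) (Sum.inr ∘ v) ↔ Good H v := by
  apply good_embed Sum.inr Sum.inr_injective
  · intro x y
    rfl
  · intro w y h
    rcases w with x | x
    · simp [unionAdj] at h
    · exact ⟨x, rfl⟩

/-! ### Colours -/

variable {n m k : ℕ}

theorem good_of_scolor (hk : 4 ≤ k) {A : Fin n → Fin n → Bool} {B : Fin m → Fin m → Bool}
    {v : Fin k → Fin n} {w : Fin k → Fin m} (h : scolor A k 1 v = scolor B k 1 w)
    (hg : Good A v) : Good B w := by
  classical
  have h0 : atomicType A v = atomicType B w := congrArg Prod.fst h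
  have h1 : (fun i => (univ : Finset (Fin n)).val.map fun z => atomicType A (Function.update v i z)) =
      (fun i => (univ : Finset (Fin m)).val.map fun z => atomicType B (Function.update w i z)) :=
    congrArg Prod.snd h
  refine ⟨fun i j hij => ?_, fun T hT => ?_⟩
  · have := congrFun (congrFun (congrArg Prod.snd h0) i) j
    simp only [atomicType] at this
    rw [← this]
    exact hg.1 i j hij
  · rw [← hg.2 T hT]
    obtain ⟨i, hi⟩ : ∃ i, i ∉ T := by
      by_contra hne
      push Not at hne
      have : (univ : Finset (Fin k)).card ≤ T.card := Finset.card_le_card (fun x _ => hne x)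
      rw [Finset.card_univ, Fintype.card_fin] at this
      omega
    have h2 := congrFun h1 i
    have key : ∀ {p : ℕ} (A' : Fin p → Fin p → Bool) (v' : Fin k → Fin p),
        cn A' T v' = (((univ : Finset (Fin p)).val.map
          fun z => atomicType A' (Function.update v' i z)).countP
            (fun c => ∀ j ∈ T, c.2 i j = true)) := by
      intro p A' v'
      rw [Multiset.countP_map]
      unfold cn
      rw [Finset.card_def, Finset.filter_val]
      congr 1
      refine filter_congr_inst _ _ _ (fun z _ => ?_)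
      apply forall_congr'
      intro j
      apply imp_congr_right
      intro hj
      have hji : j ≠ i := by rintro rfl; exact hi hj
      simp [atomicType, Function.update_of_ne hji]
    rw [key A v, key B w, h2]

theorem cn_of_jcolor (hk : 2 ≤ k) {A : Fin n → Fin n → Bool} {B : Fin m → Fin m → Bool}
    {v : Fin k → Fin n} {w : Fin k → Fin m} (h : jcolor A k 1 v = jcolor B k 1 w)
    (T : Finset (Fin k)) : cn A T v = cn B T w := by
  classical
  have h1 : ((univ : Finset (Fin n)).val.map fun z => fun i => atomicType A (Function.update v i z)) =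
      ((univ : Finset (Fin m)).val.map fun z => fun i => atomicType B (Function.update w i z)) :=
    congrArg Prod.snd h
  have hf : ∀ j : Fin k, ∃ i : Fin k, i ≠ j := by
    intro j
    have : Nontrivial (Fin k) := Fin.nontrivial_iff_two_le.2 hk
    exact exists_ne j
  choose f hf using hf
  have key : ∀ {p : ℕ} (A' : Fin p → Fin p → Bool) (v' : Fin k → Fin p),
      cn A' T v' = (((univ : Finset (Fin p)).val.map
        fun z => fun i => atomicType A' (Function.update v' i z)).countP
          (fun c => ∀ j ∈ T, (c (f j)).2 (f j) j = true)) := by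
    intro p A' v'
    rw [Multiset.countP_map]
    unfold cn
    rw [Finset.card_def, Finset.filter_val]
    congr 1
    refine filter_congr_inst _ _ _ (fun z _ => ?_)
    apply forall_congr'
    intro j
    apply imp_congr_right
    intro hj
    simp [atomicType, Function.update_of_ne (hf j).symm]
  rw [key A v, key B w, h1]

theorem atomic_of_jcolor {A : Fin n → Fin n → Bool} {B : Fin m → Fin m → Bool}
    {v : Fin k → Fin n} {w : Fin k → Fin m} (h : jcolor A k 1 v = jcolor B k 1 w)
    (i j : Fin k) : A (v i) (v j) = B (w i) (w j) := by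
  have h0 : atomicType A v = atomicType B w := congrArg Prod.fst h
  exact congrFun (congrFun (congrArg Prod.snd h0) i) j

/-- the reindexing turning `Fin.snoc v z` into `update v i z` -/
def snocIdx (i : Fin k) (j : Fin k) : Fin (k + 1) := if j = i then Fin.last k else j.castSucc

theorem snoc_comp_snocIdx {α : Type*} (v : Fin k → α) (z : α) (i : Fin k) :
    (Fin.snoc v z : Fin (k + 1) → α) ∘ snocIdx i = Function.update v i z := by
  funext j
  simp only [Function.comp_apply, snocIdx]
  by_cases h : j = i
  · subst h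
    simp
  · simp [h]

theorem exists_snocIdx {i : Fin k} {a : Fin (k + 1)} (h : a ≠ i.castSucc) :
    ∃ j, snocIdx i j = a := by
  rcases Fin.eq_castSucc_or_eq_last a with ⟨j, rfl⟩ | rfl
  · refine ⟨j, ?_⟩
    have : j ≠ i := by rintro rfl; exact h rfl
    simp [snocIdx, this]
  · exact ⟨i, by simp [snocIdx]⟩

theorem exists_castSucc_notMem (T : Finset (Fin (k + 1))) (hT : T.card < k) :
    ∃ i : Fin k, i.castSucc ∉ T := by
  by_contra hne
  push Not at hne
  have : (univ : Finset (Fin k)).card ≤ T.card :=
    Finset.card_le_card_of_injOn Fin.castSucc (fun x _ => hne x)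
      (fun x _ y _ h => Fin.castSucc_injective _ h)
  rw [Finset.card_univ, Fintype.card_fin] at this
  omega

theorem good_of_jcolor (hk : 4 ≤ k) {A : Fin n → Fin n → Bool} {B : Fin m → Fin m → Bool}
    {v : Fin k → Fin n} {w : Fin k → Fin m} (h : jcolor A k 2 v = jcolor B k 2 w)
    {z : Fin n} (hg : Good A (Fin.snoc v z : Fin (k + 1) → Fin n)) :
    ∃ z', Good B (Fin.snoc w z' : Fin (k + 1) → Fin m) := by
  classical
  have h1 : ((univ : Finset (Fin n)).val.map fun z => fun i => jcolor A k 1 (Function.update v i z)) =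
      ((univ : Finset (Fin m)).val.map fun z => fun i => jcolor B k 1 (Function.update w i z)) :=
    congrArg Prod.snd h
  have h2 : (fun i => jcolor A k 1 (Function.update v i z)) ∈
      ((univ : Finset (Fin m)).val.map fun z => fun i => jcolor B k 1 (Function.update w i z)) := by
    rw [← h1]
    exact Multiset.mem_map_of_mem _ (Finset.mem_univ_val z)
  obtain ⟨z', _, hz'⟩ := Multiset.mem_map.1 h2
  have h3 : ∀ i, jcolor A k 1 (Function.update v i z) = jcolor B k 1 (Function.update w i z') :=
    fun i => (congrFun hz' i).symm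
  refine ⟨z', fun a c hac => ?_, fun T hT => ?_⟩
  · obtain ⟨i, hi⟩ := exists_castSucc_notMem (k := k) {a, c}
      (lt_of_le_of_lt Finset.card_le_two (by omega))
    simp only [mem_insert, mem_singleton, not_or] at hi
    obtain ⟨ja, hja⟩ := exists_snocIdx (Ne.symm hi.1)
    obtain ⟨jc, hjc⟩ := exists_snocIdx (Ne.symm hi.2)
    have e1 := atomic_of_jcolor (h3 i) ja jc
    rw [← snoc_comp_snocIdx, ← snoc_comp_snocIdx] at e1
    simp only [Function.comp_apply, hja, hjc] at e1
    rw [← e1]
    exact hg.1 a c hac
  · obtain ⟨i, hi⟩ := exists_castSucc_notMem (k := k) T (by omega)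
    have hTi : ∃ T1 : Finset (Fin k), T1.image (snocIdx i) = T := by
      refine ⟨univ.filter fun j => snocIdx i j ∈ T, ?_⟩
      ext a
      simp only [mem_image, mem_filter, mem_univ, true_and]
      constructor
      · rintro ⟨j, hj, rfl⟩
        exact hj
      · intro ha
        obtain ⟨j, rfl⟩ := exists_snocIdx (i := i) (a := a) (by rintro rfl; exact hi ha)
        exact ⟨j, ha, rfl⟩
    obtain ⟨T1, rfl⟩ := hTi
    have e1 := cn_of_jcolor (by omega) (h3 i) T1
    rw [← snoc_comp_snocIdx, ← snoc_comp_snocIdx] at e1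
    rw [cn_comp, ← e1, ← cn_comp]
    exact hg.2 _ hT

/-! ### The success side -/

section
variable {t : ℕ} {C : ChoiceSystem t}

theorem exists_good_matrix (ht : 4 ≤ t) (hC : C.Successful) :
    ∃ v : Fin t → Fin _, Good (asMatrix (liftAdj C (lift0Parity t))) v := by
  obtain ⟨v, hv⟩ := exists_good ht hC
  exact ⟨_, (good_asMatrix _ v).2 hv⟩

theorem not_good_matrix (ht : 4 ≤ t) (v : Fin t → Fin _) :
    ¬ Good (asMatrix (liftAdj C (liftStarParity t))) v := by
  intro h
  have e : v = Fintype.equivFin _ ∘ ((Fintype.equivFin _).symm ∘ v) := by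
    funext i
    simp
  rw [e, good_asMatrix] at h
  exact not_good_star ht _ h

end

theorem scolor_ne (hk : 4 ≤ k) (C : ChoiceSystem k) (hC : C.Successful) :
    (Finset.univ.val.map (scolor (asMatrix (liftAdj C (lift0Parity k))) k 1)) ≠
      Finset.univ.val.map (scolor (asMatrix (liftAdj C (liftStarParity k))) k 1) := by
  intro h
  obtain ⟨v, hv⟩ := exists_good_matrix hk hC
  have h1 : scolor (asMatrix (liftAdj C (lift0Parity k))) k 1 v ∈
      Finset.univ.val.map (scolor (asMatrix (liftAdj C (liftStarParity k))) k 1) := by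
    rw [← h]
    exact Multiset.mem_map_of_mem _ (Finset.mem_univ_val v)
  obtain ⟨w, _, hw⟩ := Multiset.mem_map.1 h1
  exact not_good_matrix hk w (good_of_scolor hk hw.symm hv)

theorem jcolor_ne (hk : 4 ≤ k) (C : ChoiceSystem (k + 1)) (hC : C.Successful) :
    (Finset.univ.val.map (jcolor (asMatrix (liftAdj C (lift0Parity (k + 1)))) k 2)) ≠
      Finset.univ.val.map (jcolor (asMatrix (liftAdj C (liftStarParity (k + 1)))) k 2) := by
  intro h
  obtain ⟨v, hv⟩ := exists_good_matrix (by omega) hC
  have h1 : jcolor (asMatrix (liftAdj C (lift0Parity (k + 1)))) k 2 (Fin.init v) ∈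
      Finset.univ.val.map (jcolor (asMatrix (liftAdj C (liftStarParity (k + 1)))) k 2) := by
    rw [← h]
    exact Multiset.mem_map_of_mem _ (Finset.mem_univ_val _)
  obtain ⟨w, _, hw⟩ := Multiset.mem_map.1 h1
  rw [← Fin.snoc_init_self v] at hv
  obtain ⟨z', hz'⟩ := good_of_jcolor hk hw.symm hv
  exact not_good_matrix (by omega) _ hz'

theorem pureS_ne (hk : 4 ≤ k) (C : ChoiceSystem k) (hC : C.Successful) :
    ¬ PureSHistEq k 1 (asMatrix (liftAdj C (lift0Parity k)))
      (asMatrix (liftAdj C (liftStarParity k))) := by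
  intro h
  obtain ⟨v, hv⟩ := exists_good_matrix hk hC
  unfold PureSHistEq at h
  have h1 := Multiset.mem_map_of_mem (fun v => scolor (asMatrix (unionAdj
    (asMatrix (liftAdj C (lift0Parity k))) (asMatrix (liftAdj C (liftStarParity k))))) k 1
      (Fintype.equivFin _ ∘ Sum.inl ∘ v)) (Finset.mem_univ_val v)
  rw [h] at h1
  obtain ⟨w, _, hw⟩ := Multiset.mem_map.1 h1
  have h2 := good_of_scolor hk hw.symm ((good_asMatrix _ _).2 ((good_inl _ _ v).2 hv))
  exact not_good_matrix hk w ((good_inr _ _ w).1 ((good_asMatrix _ _).1 h2))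

theorem pureJ_ne (hk : 4 ≤ k) (C : ChoiceSystem (k + 1)) (hC : C.Successful) :
    ¬ PureJHistEq k 2 (asMatrix (liftAdj C (lift0Parity (k + 1))))
      (asMatrix (liftAdj C (liftStarParity (k + 1)))) := by
  intro h
  obtain ⟨v, hv⟩ := exists_good_matrix (by omega) hC
  unfold PureJHistEq at h
  have h1 := Multiset.mem_map_of_mem (fun v => jcolor (asMatrix (unionAdj
    (asMatrix (liftAdj C (lift0Parity (k + 1)))) (asMatrix (liftAdj C (liftStarParity (k + 1)))))) k 2
      (Fintype.equivFin _ ∘ Sum.inl ∘ v)) (Finset.mem_univ_val (Fin.init v))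
  rw [h] at h1
  obtain ⟨w, _, hw⟩ := Multiset.mem_map.1 h1
  have hv' : Good (asMatrix (unionAdj
    (asMatrix (liftAdj C (lift0Parity (k + 1)))) (asMatrix (liftAdj C (liftStarParity (k + 1))))))
      (Fin.snoc (Fintype.equivFin _ ∘ Sum.inl ∘ (Fin.init v : Fin k → Fin _))
        (Fintype.equivFin _ (Sum.inl (v (Fin.last k)))) : Fin (k + 1) → Fin _) := by
    have e : (Fin.snoc (Fintype.equivFin _ ∘ Sum.inl ∘ (Fin.init v : Fin k → Fin _))
        (Fintype.equivFin _ (Sum.inl (v (Fin.last k)))) : Fin (k + 1) → Fin _) =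
        (Fintype.equivFin (Fin (Fintype.card (LiftV C (lift0Parity (k + 1)))) ⊕
          Fin (Fintype.card (LiftV C (liftStarParity (k + 1)))))) ∘ Sum.inl ∘ v := by
      funext i
      refine Fin.lastCases ?_ (fun j => ?_) i
      · simp
      · simp [Fin.init]
    rw [e]
    exact (good_asMatrix _ _).2 ((good_inl _ _ v).2 hv)
  obtain ⟨z', hz'⟩ := good_of_jcolor hk hw.symm hv'
  obtain ⟨c, hc⟩ : ∃ c, z' = Fintype.equivFin _ (Sum.inr c) := by
    have h3 := hz'.1 (Fin.last k) (Fin.castSucc ⟨0, by omega⟩) (by
      intro h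
      have := congrArg Fin.val h
      simp at this
      omega)
    rw [Fin.snoc_last, Fin.snoc_castSucc] at h3
    simp only [asMatrix, Function.comp_apply, Equiv.symm_apply_apply] at h3
    rcases hzz : (Fintype.equivFin (Fin (Fintype.card (LiftV C (lift0Parity (k + 1)))) ⊕
          Fin (Fintype.card (LiftV C (liftStarParity (k + 1)))))).symm z' with x | x
    · rw [hzz] at h3
      simp [unionAdj] at h3
    · exact ⟨x, by rw [← hzz]; simp⟩
  subst hc
  have e : (Fin.snoc (Fintype.equivFin _ ∘ Sum.inr ∘ w)
        (Fintype.equivFin _ (Sum.inr c)) : Fin (k + 1) → Fin _) =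
        (Fintype.equivFin (Fin (Fintype.card (LiftV C (lift0Parity (k + 1)))) ⊕
          Fin (Fintype.card (LiftV C (liftStarParity (k + 1)))))) ∘ Sum.inr ∘
          (Fin.snoc w c : Fin (k + 1) → Fin _) := by
    funext i
    refine Fin.lastCases ?_ (fun j => ?_) i
    · simp
    · simp
  rw [e] at hz'
  exact not_good_matrix (by omega) _ ((good_inr _ _ _).1 ((good_asMatrix _ _).1 hz'))

end Crest.Agent.R290.Z
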