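import Mathlib
import Crest.Agent.R290.PreEqns

/-!
Basics on the parity lift (row 290, S0438): a lift vertex `x` is described by its base vertex `bs x`,
its template type `ty x` and the total tag function `val x : TV t → Bool` (value `false` off the
template neighbours).
-/

set_option autoImplicit false

namespace Crest.Agent.R290.Z

open Crest.WLRefine Crest.WLRefine.ParityLift Finset

variable {t : ℕ} {C : ChoiceSystem t} {b : TV t → Bool}

theorem tAdj_symm (a c : TV t) : tAdj a c = tAdj c a := by
  rcases a with i | h <;> rcases c with j | h' <;> simp [tAdj, eq_comm]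

theorem tAdj_irrefl (a : TV t) : tAdj a a = false := by
  rcases a with i | h <;> simp [tAdj]

theorem mainAgree_lt {p q : Σ i : Fin t, Fin (C.dom i)} (h : mainAgree C p q = true) : p.1 < q.1 := by
  simp only [mainAgree, decide_eq_true_eq] at h
  exact h.1

theorem bAdj_symm (u v : BV C) : bAdj C u v = bAdj C v u := by
  rcases u with p | p <;> rcases v with q | q <;> simp [bAdj, Bool.or_comm]

theorem tAdj_of_bAdj {u v : BV C} (h : bAdj C u v = true) :
    tAdj (typeOf C u) (typeOf C v) = true := by
  rcases u with p | p <;> rcases v with q | q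
  · simp only [bAdj, Bool.or_eq_true] at h
    simp only [typeOf, tAdj, decide_eq_true_eq]
    rcases h with h | h
    · exact (mainAgree_lt h).ne
    · exact (mainAgree_lt h).ne'
  · simp only [bAdj, helperAgree, decide_eq_true_eq] at h
    simp only [typeOf, tAdj, decide_eq_true_eq]
    rcases h with ⟨e, _⟩ | ⟨e, _⟩ | e
    · exact Or.inl e
    · exact Or.inr (Or.inl e)
    · exact Or.inr (Or.inr e)
  · simp only [bAdj, helperAgree, decide_eq_true_eq] at h
    simp only [typeOf, tAdj, decide_eq_true_eq]
    rcases h with ⟨e, _⟩ | ⟨e, _⟩ | e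
    · exact Or.inl e
    · exact Or.inr (Or.inl e)
    · exact Or.inr (Or.inr e)
  · simp [bAdj] at h

theorem bAdj_irrefl (u : BV C) : bAdj C u u = false := by
  by_contra h
  have h' := tAdj_of_bAdj (Bool.eq_true_of_not_eq_false h)
  rw [tAdj_irrefl] at h'
  exact Bool.false_ne_true h'

/-- base vertex -/
def bs (x : LiftV C b) : BV C := x.1.1

/-- template type -/
def ty (x : LiftV C b) : TV t := typeOf C x.1.1

/-- total tag function -/
def val (x : LiftV C b) (c : TV t) : Bool :=
  if h : tAdj (typeOf C x.1.1) c = true then x.1.2 ⟨c, h⟩ else false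

theorem ty_eq (x : LiftV C b) : ty x = typeOf C (bs x) := rfl

theorem val_of_adj (x : LiftV C b) {c : TV t} (h : tAdj (typeOf C x.1.1) c = true) :
    val x c = x.1.2 ⟨c, h⟩ := by
  simp [val, h]

theorem val_of_not (x : LiftV C b) {c : TV t} (h : tAdj (ty x) c = false) :
    val x c = false := by
  have h' : ¬ tAdj (typeOf C x.1.1) c = true := by
    intro h2
    rw [ty] at h
    rw [h] at h2
    exact Bool.false_ne_true h2
  simp [val, h']

theorem liftAdj_iff (x y : LiftV C b) :
    liftAdj C b x y = true ↔ bAdj C (bs x) (bs y) = true ∧ val x (ty y) = val y (ty x) := by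
  constructor
  · intro h
    simp only [liftAdj, decide_eq_true_eq] at h
    obtain ⟨h1, h2, h3, h4⟩ := h
    refine ⟨h3, ?_⟩
    rw [ty, ty, val_of_adj x h1, val_of_adj y h2, h4]
  · rintro ⟨h1, h2⟩
    simp only [liftAdj, decide_eq_true_eq]
    have h3 : tAdj (typeOf C x.1.1) (typeOf C y.1.1) = true := tAdj_of_bAdj h1
    have h4 : tAdj (typeOf C y.1.1) (typeOf C x.1.1) = true := by
      rw [tAdj_symm]; exact h3
    refine ⟨h3, h4, h1, ?_⟩
    have e1 : val x (ty y) = _ := val_of_adj x h3
    have e2 : val y (ty x) = _ := val_of_adj y h4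
    exact e1.symm.trans (h2.trans e2)

theorem liftAdj_symm (x y : LiftV C b) : liftAdj C b x y = liftAdj C b y x := by
  rw [Bool.eq_iff_iff, liftAdj_iff, liftAdj_iff, bAdj_symm, eq_comm (a := val x (ty y))]

theorem liftAdj_irrefl (x : LiftV C b) : liftAdj C b x x = false := by
  by_contra h
  have h' := (liftAdj_iff x x).1 (Bool.eq_true_of_not_eq_false h)
  rw [bAdj_irrefl] at h'
  exact Bool.false_ne_true h'.1

theorem isSimple_asMatrix : IsSimple (asMatrix (liftAdj C b)) :=
  ⟨fun v w => by simp only [asMatrix]; exact liftAdj_symm _ _,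
   fun v => by simp only [asMatrix]; exact liftAdj_irrefl _⟩

theorem ext_bs_val {x y : LiftV C b} (h1 : bs x = bs y) (h2 : ∀ c, val x c = val y c) : x = y := by
  obtain ⟨⟨u, f⟩, hx⟩ := x
  obtain ⟨⟨v, g⟩, hy⟩ := y
  simp only [bs] at h1
  subst h1
  have : f = g := by
    funext c
    have := h2 c.1
    simp only [val] at this
    simpa [c.2] using this
  subst this
  rfl

theorem card_filter_nbr (a : TV t) (f : Nbr a → Bool) :
    (univ.filter fun a' => f a' = true).card =
      (univ.filter fun c : TV t => (if h : tAdj a c = true then f ⟨c, h⟩ else false) = true).card := by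
  apply Finset.card_bij (fun a' _ => a'.1)
  · intro a' h
    simp only [mem_filter, mem_univ, true_and] at h ⊢
    simp [a'.2, h]
  · intro a1 _ a2 _ h
    exact Subtype.ext h
  · intro c h
    simp only [mem_filter, mem_univ, true_and] at h
    by_cases h1 : tAdj a c = true
    · refine ⟨⟨c, h1⟩, ?_, rfl⟩
      simpa [h1] using h
    · simp [h1] at h

theorem val_parity (x : LiftV C b) :
    (univ.filter fun c : TV t => val x c = true).card % 2 = (b (ty x)).toNat := by
  have := x.2
  rw [card_filter_nbr] at this
  exact this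

/-- Construct a lift vertex from a base vertex and a total tag function. -/
theorem exists_mk (u : BV C) (f : TV t → Bool) (hf : ∀ c, tAdj (typeOf C u) c = false → f c = false)
    (hp : (univ.filter fun c : TV t => f c = true).card % 2 = (b (typeOf C u)).toNat) :
    ∃ x : LiftV C b, bs x = u ∧ ∀ c, val x c = f c := by
  have key : ∀ c, (if h : tAdj (typeOf C u) c = true then f c else false) = f c := by
    intro c
    by_cases h : tAdj (typeOf C u) c = true
    · simp [h]
    · have := hf c (by simpa using h)
      simp [this]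
  have hx : (univ.filter fun a' : Nbr (typeOf C u) => f a'.1 = true).card % 2
      = (b (typeOf C u)).toNat := by
    rw [card_filter_nbr (typeOf C u) (fun a' => f a'.1)]
    simp only [key]
    exact hp
  refine ⟨⟨⟨u, fun a' => f a'.1⟩, hx⟩, rfl, ?_⟩
  intro c
  simp only [val]
  exact key c

/-- tag values in `ZMod 2` -/
def v2 (x : LiftV C b) (c : TV t) : ZMod 2 := if val x c = true then 1 else 0

theorem v2_of_not (x : LiftV C b) {c : TV t} (h : tAdj (ty x) c = false) : v2 x c = 0 := by
  simp [v2, val_of_not x h]

theorem sum_v2 (x : LiftV C b) : ∑ c : TV t, v2 x c = if b (ty x) = true then 1 else 0 := by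
  have h := val_parity x
  have h1 : ∑ c : TV t, v2 x c = (((univ.filter fun c : TV t => val x c = true).card : ℕ) : ZMod 2) := by
    simp only [v2]
    rw [Finset.sum_ite]
    simp
  rw [h1]
  have h2 : (((univ.filter fun c : TV t => val x c = true).card : ℕ) : ZMod 2)
      = (((univ.filter fun c : TV t => val x c = true).card % 2 : ℕ) : ZMod 2) := by
    rw [ZMod.natCast_eq_natCast_iff]
    exact (Nat.mod_modEq _ _).symm
  rw [h2, h]
  cases b (ty x) <;> simp

theorem v2_eq_iff {b' : TV t → Bool} (x : LiftV C b) (y : LiftV C b') (c d : TV t) :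
    v2 x c = v2 y d ↔ val x c = val y d := by
  unfold v2
  cases val x c <;> cases val y d <;> simp

theorem v2_add_self (x : LiftV C b) (c : TV t) : v2 x c + v2 x c = 0 := CharTwo.add_self_eq_zero _

end Crest.Agent.R290.Z
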